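import Vale.Agent.P291.MathlibUsed
import Vale.Agent.P291.T.QD

set_option linter.all false

namespace AFast205980x5a
@[reducible] def a0 {x1 : Vale.Agent.P291.T.QData} : BooleanAlgebra (Finset (Vale.Agent.P291.T.B x1)) := inferInstance
@[reducible] def a1 {x1 : Vale.Agent.P291.T.QData} : Compl (Finset (Vale.Agent.P291.T.B x1)) := inferInstance
@[reducible] def a2 : Monoid ℂ := inferInstance
theorem a3 {x1 : Type} {x2 : Type} [x3 : CommRing x1] [x4 : CommRing x2] : MulHomClass (x1 →+* x2) x1 x2 := inferInstance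
@[reducible] noncomputable def a4 {x1 : Type} {x2 : Type} [x3 : CommRing x2] : CommMonoid (Polynomial (MvPolynomial x1 x2)) := inferInstance
theorem a5 : IsCancelAdd ℂ := inferInstance
theorem a6 {x1 : Type} {x2 : Type} [x3 : Field x1] [x4 : CommRing x2] : MonoidHomClass (x1 →+* x2) x1 x2 := inferInstance
theorem a7 {x1 : Type} {x2 : Type} {x3 : x2 → ℕ} {x4 : x2} {x5 : Type} [x6 : CommMonoid x1] [x7 : CommRing x5] : MulHomClass (x1 →* Matrix (Fin (x3 x4)) (Fin (x3 x4)) x5) x1 (Matrix (Fin (x3 x4)) (Fin (x3 x4)) x5) := inferInstance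
@[reducible] def a8 {x1 : Vale.Agent.P291.T.QData} : Union (Finset (Vale.Agent.P291.T.B x1)) := inferInstance
theorem a9 : TwoUniqueSums ℕ := inferInstance
@[reducible] def a10 {x1 : Vale.Agent.P291.T.QData} : SDiff (Finset (Vale.Agent.P291.T.B x1)) := inferInstance
theorem a11 {x1 : Type} {x2 : Type} [x3 : CommRing x1] [x4 : CommRing x2] : NonUnitalRingHomClass (x1 →+* x2) x1 x2 := inferInstance
theorem a12 {x1 : Type} {x2 : Type} [x3 : Field x1] [x4 : CommRing x2] : MonoidWithZeroHomClass (x1 →+* x2) x1 x2 := inferInstance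
@[reducible] def a13 {x1 : Vale.Agent.P291.T.QData} : MulOne (Vale.Agent.P291.T.W x1) := inferInstance
@[reducible] def a14 {x1 : Vale.Agent.P291.T.QData} : MulOneClass (Vale.Agent.P291.T.W x1) := inferInstance
@[reducible] noncomputable def a15 {x1 : Type} {x2 : Type} [x3 : CommRing x2] : CommMonoid (MvPolynomial x1 x2) := inferInstance
@[reducible] def a16 {x1 : Vale.Agent.P291.T.QData} : Monoid (Vale.Agent.P291.T.W x1) := inferInstance
@[reducible] def a17 {x1 : Vale.Agent.P291.T.QData} {x2 : x1.I} : MulOneClass (Equiv.Perm (Fin (x1.v x2))) := inferInstance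
@[reducible] def a18 {x1 : Vale.Agent.P291.T.QData} {x2 : x1.I} : MulOne (Equiv.Perm (Fin (x1.v x2))) := inferInstance
theorem a19 {x1 : Vale.Agent.P291.T.QData} {x2 : Type} : IsLeftCancelMulZero (AddMonoidAlgebra ℂ (Vale.Agent.P291.T.B x1 ⊕ x2 →₀ ℕ)) := inferInstance
theorem a20 : UniqueSums ℕ := inferInstance
@[reducible] def a21 {x1 : Vale.Agent.P291.T.QData} {x2 : x1.I} : Monoid (Equiv.Perm (Fin (x1.v x2))) := inferInstance
@[reducible] def a22 {x1 : Type} [x2 : CommRing x1] : Mul (Submodule x1 x1) := inferInstance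
end AFast205980x5a
attribute [local instance] AFast205980x5a.a0 AFast205980x5a.a1 AFast205980x5a.a2 AFast205980x5a.a3
  AFast205980x5a.a4 AFast205980x5a.a5 AFast205980x5a.a6 AFast205980x5a.a7 AFast205980x5a.a8
  AFast205980x5a.a9 AFast205980x5a.a10 AFast205980x5a.a11 AFast205980x5a.a12 AFast205980x5a.a13
  AFast205980x5a.a14 AFast205980x5a.a15 AFast205980x5a.a16 AFast205980x5a.a17 AFast205980x5a.a18
  AFast205980x5a.a19 AFast205980x5a.a20 AFast205980x5a.a21 AFast205980x5a.a22
namespace AFast205980x5b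
theorem a0 {x1 : Type} {x2 : Type} [x3 : CommRing x1] [x4 : CommRing x2] : AddMonoidHomClass (x1 →+* x2) x1 x2 := inferInstance
theorem a1 {x1 : Type} {x2 : Type} [x3 : CommRing x1] [x4 : CommRing x2] : AddHomClass (x1 →+* x2) x1 x2 := inferInstance
theorem a2 {x1 : Type} [x2 : Field x1] {x3 : Type} {x4 : Vale.Agent.P291.T.QData} [x5 : CommRing x3] [x6 : Algebra x1 x3] : MulActionSemiHomClass (x3 ≃ₗ[x1] (Vale.Agent.P291.T.B x4 → ℤ) →₀ x1) (⇑(RingHom.id x1)) x3 ((Vale.Agent.P291.T.B x4 → ℤ) →₀ x1) := inferInstance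
theorem a3 {x1 : Type} [x2 : Field x1] {x3 : Type} {x4 : Vale.Agent.P291.T.QData} [x5 : CommRing x3] [x6 : Algebra x1 x3] : SemilinearMapClass (x3 ≃ₗ[x1] (Vale.Agent.P291.T.B x4 → ℤ) →₀ x1) (RingHom.id x1) x3 ((Vale.Agent.P291.T.B x4 → ℤ) →₀ x1) := inferInstance
theorem a4.{u1} {x1 : Type u1} [x2 : CommRing x1] : AddMonoidHomClass (x1 →+* Polynomial x1) x1 (Polynomial x1) := inferInstance
theorem a5 {x1 : Type} {x2 : Type} [x3 : CommRing x1] : AddHomClass (MvPolynomial x2 x1 →ₐ[x1] Polynomial (MvPolynomial x2 x1)) (MvPolynomial x2 x1) (Polynomial (MvPolynomial x2 x1)) := inferInstance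
theorem a6 {x1 : Type} {x2 : Type} [x3 : CommRing x1] : LinearMapClass (MvPolynomial x2 x1 →ₐ[x1] Polynomial (MvPolynomial x2 x1)) x1 (MvPolynomial x2 x1) (Polynomial (MvPolynomial x2 x1)) := inferInstance
end AFast205980x5b
attribute [local instance] AFast205980x5b.a0 AFast205980x5b.a1 AFast205980x5b.a2 AFast205980x5b.a3
  AFast205980x5b.a4 AFast205980x5b.a5 AFast205980x5b.a6
section

section

set_option autoImplicit false

namespace Vale.Agent.P291.G

open MvPolynomial

export Vale.Agent.P291.T (QData B W)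

/-- it permutes the basis vectors -/
def perm (D : QData) (σ : W D) : Equiv.Perm (B D) := Equiv.sigmaCongrRight σ

/-- polynomials in the variables `x b` (basis vectors) and `y j` (coordinates on `Lie F`) -/
abbrev P (D : QData) : Type := MvPolynomial (B D ⊕ Fin D.rk) ℂ

section

variable (D : QData) {K L : Type} [Field K] [Algebra ℂ K] [CommRing L] [Algebra K L]
  (x : B D → K) (y : Fin D.rk → K) (u : (B D → ℤ) → L)

/-- the linear form on the Lie algebra of `F` given by a character -/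
def lin {C : Type} [CommRing C] {rk : ℕ} (y : Fin rk → C) (m : Fin rk → ℤ) : C := ∑ j, m j * y j

/-- Value at `x, y` of `∏ χ ^ max(0, -⟨χ, l⟩)` over the weights `χ` of
`N = ⊕ Hom(V (src a), V (tgt a)) ⊕ ⊕ Hom(V i, W i)`. -/
def eul {C : Type} [CommRing C] (x : B D → C) (y : Fin D.rk → C) (l : B D → ℤ) : C :=
  (∏ a, ∏ r, ∏ s, (x ⟨D.tgt a, s⟩ - x ⟨D.src a, r⟩ + lin y (D.ta a)) ^
      (l ⟨D.src a, r⟩ - l ⟨D.tgt a, s⟩).toNat) *
    ∏ i, ∏ r, ∏ k, (lin y (D.tw i k) - x ⟨i, r⟩) ^ (l ⟨i, r⟩).toNat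

/-- Value of `∏ α ^ max(0, ⟨α, l⟩)` over the roots of `G`. -/
def rts {C : Type} [CommRing C] (x : B D → C) (l : B D → ℤ) : C :=
  ∏ i, ∏ r, ∏ s, (x ⟨i, r⟩ - x ⟨i, s⟩) ^ (l ⟨i, r⟩ - l ⟨i, s⟩).toNat

/-- value of a polynomial -/
noncomputable def pol (f : P D) : K := aeval (Sum.elim x y) f

/-- coefficient of a dressed monopole operator -/
noncomputable def co (l : B D → ℤ) (f : P D) : K := pol D x y f * eul D x y l / rts D x l

/-- dressed monopole operator `∑_{σ ∈ W} σ (f · eul l / rts l · u^l)` -/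
noncomputable def mono (l : B D → ℤ) (f : P D) : L :=
  ∑ σ : W D, co D (x ∘ perm D σ) y l f • u (l ∘ (perm D σ).symm)

/-- its value at `u = 1` -/
noncomputable def cls (l : B D → ℤ) (f : P D) : K := ∑ σ : W D, co D (x ∘ perm D σ) y l f

/-- `R = H_{G × F}(pt)`: polynomials in `x, y` which are symmetric in each group of variables -/
def R : Set K := {z | ∃ f, ∀ σ, pol D (x ∘ perm D σ) y f = z}

/-- `0/1`-valued cocharacters -/
def Min (l : B D → ℤ) : Prop := ∀ b, l b = 0 ∨ l b = 1

/-- the flavor-deformed Coulomb branch algebra in its abelianized description -/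
noncomputable def coulomb : Subring L :=
  Subring.closure {a | (∃ r ∈ R D x y, a = algebraMap K L r) ∨
    ∃ l f, Min D l ∧ (a = mono D x y u l f ∨ a = mono D x y u (-l) f)}

/-- `ν`-weight of a cocharacter -/
def wt (ν : D.I → ℤ) (l : B D → ℤ) : ℤ := ∑ b : B D, ν b.1 * l b

/-- the ideal of `A_F` generated by the elements of nonzero weight -/
noncomputable def fixI (ν : D.I → ℤ) : AddSubgroup L :=
  AddSubgroup.closure {c | ∃ a ∈ coulomb D x y u, ∃ b ∈ coulomb D x y u, ∃ m, m ≠ 0 ∧
    b ∈ Submodule.span K (u '' {l | wt D ν l = m}) ∧ c = a * b}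

/-- the ideal of `R` generated by the products of classes of opposite charges -/
noncomputable def Kdec : AddSubgroup K :=
  AddSubgroup.closure {z | ∃ l f g, Min D l ∧ l ≠ 0 ∧ z = cls D x y l f * cls D x y (-l) g}

end

end Vale.Agent.P291.G
end
end
namespace AFast205980x83a
@[reducible] noncomputable def a0 {x1 : Type} [x2 : CommRing x1] {x3 : Vale.Agent.P291.T.QData} {x4 : Type} [x5 : Field x4] [x6 : Algebra ℂ x4] [x7 : Algebra x4 x1] {x8 : Vale.Agent.P291.T.B x3 → x4} {x9 : Fin x3.rk → x4} {x10 : (Vale.Agent.P291.T.B x3 → ℤ) → x1} : Semiring ↥(Vale.Agent.P291.G.coulomb x3 x8 x9 x10) := inferInstance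
@[reducible] noncomputable def a1 {x1 : Vale.Agent.P291.T.QData} : CommMonoid (Polynomial (Vale.Agent.P291.G.P x1)) := inferInstance
@[reducible] noncomputable def a2 {x1 : Vale.Agent.P291.T.QData} : CommMonoid (Vale.Agent.P291.G.P x1) := inferInstance
@[reducible] noncomputable def a3 {x1 : Type} [x2 : CommRing x1] {x3 : Vale.Agent.P291.T.QData} {x4 : Type} [x5 : Field x4] [x6 : Algebra ℂ x4] [x7 : Algebra x4 x1] {x8 : Vale.Agent.P291.T.B x3 → x4} {x9 : Fin x3.rk → x4} {x10 : (Vale.Agent.P291.T.B x3 → ℤ) → x1} : AddCommMonoid ↥(Vale.Agent.P291.G.coulomb x3 x8 x9 x10) := inferInstance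
theorem a4 {x1 : Vale.Agent.P291.T.QData} {x2 : Type} [x3 : Field x2] [x4 : Algebra ℂ x2] : MonoidWithZeroHomClass (Vale.Agent.P291.G.P x1 →ₐ[ℂ] x2) (Vale.Agent.P291.G.P x1) x2 := inferInstance
theorem a5 {x1 : Vale.Agent.P291.T.QData} {x2 : Type} [x3 : Field x2] [x4 : Algebra ℂ x2] : NonUnitalAlgHomClass (Vale.Agent.P291.G.P x1 →ₐ[ℂ] x2) ℂ (Vale.Agent.P291.G.P x1) x2 := inferInstance
@[reducible] noncomputable def a6 {x1 : Type} [x2 : CommRing x1] {x3 : Vale.Agent.P291.T.QData} {x4 : Type} [x5 : Field x4] [x6 : Algebra ℂ x4] [x7 : Algebra x4 x1] {x8 : Vale.Agent.P291.T.B x3 → x4} {x9 : Fin x3.rk → x4} {x10 : (Vale.Agent.P291.T.B x3 → ℤ) → x1} : CommSemiring ↥(Vale.Agent.P291.G.coulomb x3 x8 x9 x10) := inferInstance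
theorem a7 {x1 : Vale.Agent.P291.T.QData} : NonUnitalAlgHomClass (Vale.Agent.P291.G.P x1 →ₐ[ℂ] Vale.Agent.P291.G.P x1) ℂ (Vale.Agent.P291.G.P x1) (Vale.Agent.P291.G.P x1) := inferInstance
end AFast205980x83a
attribute [local instance] AFast205980x83a.a0 AFast205980x83a.a1 AFast205980x83a.a2
  AFast205980x83a.a3 AFast205980x83a.a4 AFast205980x83a.a5 AFast205980x83a.a6 AFast205980x83a.a7
namespace AFast205980x83b
theorem a0 {x1 : Vale.Agent.P291.T.QData} : DecompositionMonoid (Vale.Agent.P291.G.P x1) := inferInstance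
theorem a1 {x1 : Vale.Agent.P291.T.QData} {x2 : Type} [x3 : Field x2] [x4 : Algebra ℂ x2] : AddHomClass (Vale.Agent.P291.G.P x1 →ₐ[ℂ] x2) (Vale.Agent.P291.G.P x1) x2 := inferInstance
theorem a2 {x1 : Vale.Agent.P291.T.QData} {x2 : Type} [x3 : Field x2] [x4 : Algebra ℂ x2] : LinearMapClass (Vale.Agent.P291.G.P x1 →ₐ[ℂ] x2) ℂ (Vale.Agent.P291.G.P x1) x2 := inferInstance
theorem a3 {x1 : Vale.Agent.P291.T.QData} : AddHomClass (Vale.Agent.P291.G.P x1 →ₐ[ℂ] Vale.Agent.P291.G.P x1) (Vale.Agent.P291.G.P x1) (Vale.Agent.P291.G.P x1) := inferInstance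
theorem a4 {x1 : Vale.Agent.P291.T.QData} : LinearMapClass (Vale.Agent.P291.G.P x1 →ₐ[ℂ] Vale.Agent.P291.G.P x1) ℂ (Vale.Agent.P291.G.P x1) (Vale.Agent.P291.G.P x1) := inferInstance
end AFast205980x83b
attribute [local instance] AFast205980x83b.a0 AFast205980x83b.a1 AFast205980x83b.a2
  AFast205980x83b.a3 AFast205980x83b.a4

section

section

set_option autoImplicit false
set_option linter.unusedSectionVars false

/-! Linear forms `X b - X b'` in polynomial rings: relative primality and alternating polynomials. -/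

namespace Vale.Agent.P291.GUfd

open MvPolynomial

variable {τ : Type} [DecidableEq τ]

lemma not_dvd {b b' c c' : τ} (hc : c ≠ c')
    (hne : ¬ ((c = b ∧ c' = b') ∨ (c = b' ∧ c' = b))) :
    ¬ (X b - X b' : MvPolynomial τ ℂ) ∣ X c - X c' := by
  rintro ⟨q, hq⟩
  let pt : τ → ℂ := fun t => if t = b ∨ t = b' then 0 else if t = c then 1 else 2
  have h1 := congrArg (eval pt) hq
  rw [map_sub, map_mul, map_sub, eval_X, eval_X, eval_X, eval_X] at h1
  have h2 : pt b = 0 := by simp [pt]
  have h3 : pt b' = 0 := by simp [pt]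
  rw [h2, h3, sub_zero, zero_mul] at h1
  by_cases hcb : c = b ∨ c = b'
  · have hc'b : ¬ (c' = b ∨ c' = b') := by
      rintro (h | h)
      · rcases hcb with h' | h'
        · exact hc (h'.trans h.symm)
        · exact hne (Or.inr ⟨h', h⟩)
      · rcases hcb with h' | h'
        · exact hne (Or.inl ⟨h', h⟩)
        · exact hc (h'.trans h.symm)
    have h4 : pt c = 0 := by simp [pt, hcb]
    have h5 : pt c' = 2 := by simp [pt, hc'b, hc.symm]
    rw [h4, h5] at h1
    norm_num at h1
  · have h4 : pt c = 1 := by simp [pt, hcb]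
    by_cases hc'b : c' = b ∨ c' = b'
    · have h5 : pt c' = 0 := by simp [pt, hc'b]
      rw [h4, h5] at h1
      norm_num at h1
    · have h5 : pt c' = 2 := by simp [pt, hc'b, hc.symm]
      rw [h4, h5] at h1
      norm_num at h1

lemma irreducible_sub {b b' : τ} (h : b ≠ b') : Irreducible (X b - X b' : MvPolynomial τ ℂ) := by
  have hc : coeff (Finsupp.single b 1) (X b - X b' : MvPolynomial τ ℂ) = 1 := by
    rw [coeff_sub, coeff_X, coeff_X, if_pos rfl, if_neg, sub_zero]
    rw [Finsupp.single_left_inj Nat.one_ne_zero]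
    exact h.symm
  apply irreducible_of_totalDegree_eq_one
  · apply le_antisymm
    · exact (totalDegree_sub _ _).trans (by simp only [totalDegree_X, max_self, Std.le_refl])
    · rw [← not_lt, Nat.lt_one_iff, totalDegree_eq_zero_iff]
      intro h0
      have := h0 (Finsupp.single b 1) (by rw [mem_support_iff, hc]; exact one_ne_zero) b
      simp only [Finsupp.single_eq_same, one_ne_zero] at this
  · intro x hx
    have := hx (Finsupp.single b 1)
    rw [hc] at this
    exact isUnit_of_dvd_one this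

lemma isRelPrime_sub {b b' c c' : τ} (h : b ≠ b') (hc : c ≠ c')
    (hne : ¬ ((c = b ∧ c' = b') ∨ (c = b' ∧ c' = b))) :
    IsRelPrime (X b - X b' : MvPolynomial τ ℂ) (X c - X c') :=
  (irreducible_sub h).isRelPrime_iff_not_dvd.2 (not_dvd hc hne)

lemma dvd_of_alt {b b' : τ} (p : MvPolynomial τ ℂ)
    (h : rename (Equiv.swap b b') p = -p) : (X b - X b' : MvPolynomial τ ℂ) ∣ p := by
  rw [← Ideal.mem_span_singleton]
  set I : Ideal (MvPolynomial τ ℂ) := Ideal.span {X b - X b'} with hI
  have hb : (Ideal.Quotient.mkₐ ℂ I) (X b) = (Ideal.Quotient.mkₐ ℂ I) (X b') := by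
    rw [Ideal.Quotient.mkₐ_eq_mk, Ideal.Quotient.eq]
    exact Ideal.mem_span_singleton_self _
  have h1 : (Ideal.Quotient.mkₐ ℂ I).comp (rename (Equiv.swap b b')) = Ideal.Quotient.mkₐ ℂ I := by
    apply MvPolynomial.algHom_ext
    intro t
    rw [AlgHom.comp_apply, rename_X]
    by_cases h2 : t = b
    · subst h2; rw [Equiv.swap_apply_left, hb]
    by_cases h3 : t = b'
    · subst h3; rw [Equiv.swap_apply_right, hb]
    · rw [Equiv.swap_apply_of_ne_of_ne h2 h3]
  have h4 : (Ideal.Quotient.mkₐ ℂ I) (rename (Equiv.swap b b') p) = (Ideal.Quotient.mkₐ ℂ I) p :=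
    DFunLike.congr_fun h1 p
  rw [h, Ideal.Quotient.mkₐ_eq_mk, Ideal.Quotient.eq] at h4
  have h5 : p = C (-1 / 2 : ℂ) * (-p - p) := by
    have : (-p - p : MvPolynomial τ ℂ) = C (-2 : ℂ) * p := by
      rw [map_neg]
      have : (C (2 : ℂ) : MvPolynomial τ ℂ) = 2 := map_ofNat C 2
      rw [this]; ring
    rw [this, ← mul_assoc, ← C_mul]
    norm_num
  rw [h5]
  exact Ideal.mul_mem_left _ _ h4

end Vale.Agent.P291.GUfd
end
end

section

section

set_option autoImplicit false
set_option linter.unusedSectionVars false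

/-! Symmetrization: polynomial level facts. -/

namespace Vale.Agent.P291.G

open MvPolynomial Matrix

variable (D : QData)

/-- the variables -/
noncomputable def XX (b : B D) : P D := X (Sum.inl b)
/-- the flavor variables -/
noncomputable def YY (j : Fin D.rk) : P D := X (Sum.inr j)

/-- action of the Weyl group on polynomials -/
noncomputable def actP (σ : W D) : P D →ₐ[ℂ] P D := rename (Sum.map (perm D σ) id)

lemma perm_apply (σ : W D) (i : D.I) (r : Fin (D.v i)) : perm D σ ⟨i, r⟩ = ⟨i, σ i r⟩ := rfl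

lemma perm_fst (σ : W D) (b : B D) : (perm D σ b).1 = b.1 := rfl

lemma perm_mul (σ τ : W D) (b : B D) : perm D (σ * τ) b = perm D σ (perm D τ b) := rfl

lemma perm_inv (σ : W D) : perm D σ⁻¹ = (perm D σ).symm := rfl

lemma actP_XX (σ : W D) (b : B D) : actP D σ (XX D b) = XX D (perm D σ b) := by
  rw [actP, XX, rename_X]; rfl

lemma actP_YY (σ : W D) (j : Fin D.rk) : actP D σ (YY D j) = YY D j := by
  rw [actP, YY, rename_X]; rfl

lemma actP_mul (σ τ : W D) (f : P D) : actP D (σ * τ) f = actP D σ (actP D τ f) := by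
  rw [actP, actP, actP, rename_rename]
  congr 2
  funext b
  cases b <;> rfl

/-- sign character of the Weyl group -/
noncomputable def sgn (σ : W D) : ℤ := ∏ i, (Equiv.Perm.sign (σ i) : ℤ)

lemma sgn_mul (σ τ : W D) : sgn D (σ * τ) = sgn D σ * sgn D τ := by
  rw [sgn, sgn, sgn, ← Finset.prod_mul_distrib]
  refine Finset.prod_congr rfl fun i _ => ?_
  rw [Pi.mul_apply, Equiv.Perm.sign_mul, Units.val_mul]

lemma sgn_sq (σ : W D) : sgn D σ * sgn D σ = 1 := by
  rw [sgn, ← Finset.prod_mul_distrib]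
  refine Finset.prod_eq_one fun i _ => ?_
  rw [← Units.val_mul, Int.units_mul_self, Units.val_one]

/-- product of the Vandermonde determinants -/
noncomputable def Del : P D := ∏ i, (vandermonde fun r : Fin (D.v i) => XX D ⟨i, r⟩).det

lemma act_Del (σ : W D) : actP D σ (Del D) = (sgn D σ : P D) * Del D := by
  rw [Del, map_prod, sgn, Int.cast_prod, ← Finset.prod_mul_distrib]
  refine Finset.prod_congr rfl fun i _ => ?_
  rw [AlgHom.map_det]
  have : (actP D σ).mapMatrix (vandermonde fun r : Fin (D.v i) => XX D ⟨i, r⟩) =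
      (vandermonde fun r : Fin (D.v i) => XX D ⟨i, r⟩).submatrix (σ i) id := by
    ext r c
    rw [AlgHom.mapMatrix_apply, Matrix.map_apply, vandermonde_apply, map_pow, actP_XX,
      submatrix_apply, vandermonde_apply]
    rfl
  rw [this, det_permute]

/-- index set of the pairs -/
noncomputable def pairs : Finset (Σ i : D.I, Fin (D.v i) × Fin (D.v i)) :=
  Finset.univ.filter fun p => p.2.1 < p.2.2

lemma Del_eq : Del D = ∏ p ∈ pairs D, (XX D ⟨p.1, p.2.2⟩ - XX D ⟨p.1, p.2.1⟩) := by
  rw [Del, pairs, Finset.prod_filter, ← Finset.univ_sigma_univ, Finset.prod_sigma]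
  refine Finset.prod_congr rfl fun i _ => ?_
  rw [det_vandermonde, ← Finset.univ_product_univ, Finset.prod_product]
  refine Finset.prod_congr rfl fun r _ => ?_
  rw [← Finset.prod_filter]
  refine Finset.prod_congr ?_ fun _ _ => rfl
  ext s
  simp only [Finset.mem_Ioi, Finset.mem_filter, Finset.mem_univ, true_and]

lemma Del_ne_zero : Del D ≠ 0 := by
  rw [Del_eq, Finset.prod_ne_zero_iff]
  intro p hp
  rw [pairs, Finset.mem_filter] at hp
  rw [sub_ne_zero]
  intro h
  have h2 := X_injective (R := ℂ) h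
  simp only [Sum.inl.injEq, Sigma.mk.injEq, heq_eq_eq, true_and] at h2
  rw [h2] at hp
  exact lt_irrefl _ hp.2

lemma isRelPrime_XX {b b' c c' : B D} (h : b ≠ b') (hc : c ≠ c')
    (hne : ¬ ((c = b ∧ c' = b') ∨ (c = b' ∧ c' = b))) :
    IsRelPrime (XX D b - XX D b') (XX D c - XX D c') := by
  refine GUfd.isRelPrime_sub (fun e => h (Sum.inl_injective e)) (fun e => hc (Sum.inl_injective e)) ?_
  rintro (⟨h1, h2⟩ | ⟨h1, h2⟩)
  · exact hne (Or.inl ⟨Sum.inl_injective h1, Sum.inl_injective h2⟩)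
  · exact hne (Or.inr ⟨Sum.inl_injective h1, Sum.inl_injective h2⟩)

/-- if each linear factor divides `f` then so does `Del` -/
lemma Del_dvd (f : P D) (h : ∀ (i : D.I) (r s : Fin (D.v i)), r < s →
    (XX D ⟨i, s⟩ - XX D ⟨i, r⟩) ∣ f) : Del D ∣ f := by
  rw [Del_eq]
  refine Finset.prod_dvd_of_isRelPrime ?_ fun p hp => ?_
  · intro p hp q hq hpq
    have hp' : p.2.1 < p.2.2 := (Finset.mem_filter.1 hp).2
    have hq' : q.2.1 < q.2.2 := (Finset.mem_filter.1 hq).2
    obtain ⟨i, r, s⟩ := p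
    obtain ⟨j, r', s'⟩ := q
    simp only at hp' hq'
    refine isRelPrime_XX D ?_ ?_ ?_
    · intro h; rw [Sigma.mk.injEq] at h
      exact absurd (eq_of_heq h.2) (ne_of_gt hp')
    · intro h; rw [Sigma.mk.injEq] at h
      exact absurd (eq_of_heq h.2) (ne_of_gt hq')
    · by_cases hij : i = j
      · subst hij
        simp only [Sigma.mk.injEq, heq_eq_eq, true_and, ne_eq, Prod.mk.injEq, not_and] at hpq ⊢
        rintro (⟨h1, h2⟩ | ⟨h1, h2⟩)
        · exact hpq h2.symm h1.symm
        · rw [h1, h2] at hq'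
          exact lt_asymm hp' hq'
      · rintro (⟨h1, -⟩ | ⟨h1, -⟩)
        · rw [Sigma.mk.injEq] at h1; exact hij h1.1.symm
        · rw [Sigma.mk.injEq] at h1; exact hij h1.1.symm
  · exact h _ _ _ (Finset.mem_filter.1 hp).2

lemma lin_dvd_Del' (i : D.I) (r s : Fin (D.v i)) (h2 : r < s) :
    (XX D ⟨i, s⟩ - XX D ⟨i, r⟩) ∣ Del D := by
  rw [Del_eq]
  have h3 : (⟨i, r, s⟩ : Σ i : D.I, Fin (D.v i) × Fin (D.v i)) ∈ pairs D :=
    Finset.mem_filter.2 ⟨Finset.mem_univ _, h2⟩
  classical
  rw [← Finset.mul_prod_erase _ _ h3]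
  exact Dvd.intro _ rfl

lemma lin_dvd_Del (i : D.I) (r s : Fin (D.v i)) (h : r ≠ s) :
    (XX D ⟨i, r⟩ - XX D ⟨i, s⟩) ∣ Del D := by
  rcases lt_or_gt_of_ne h with h2 | h2
  · have h5 := (neg_dvd (α := P D)).2 (lin_dvd_Del' D i r s h2)
    rwa [neg_sub] at h5
  · exact lin_dvd_Del' D i s r h2

/-- the product over the roots divides `Del` -/
lemma rts_dvd (l : B D → ℤ) (hl : ∀ b b', l b - l b' ≤ 1) : rts D (XX D) l ∣ Del D := by
  have e : rts D (XX D) l = ∏ p : (Σ i : D.I, Fin (D.v i) × Fin (D.v i)),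
      (XX D ⟨p.1, p.2.1⟩ - XX D ⟨p.1, p.2.2⟩) ^ (l ⟨p.1, p.2.1⟩ - l ⟨p.1, p.2.2⟩).toNat := by
    rw [rts, ← Finset.univ_sigma_univ, Finset.prod_sigma]
    refine Finset.prod_congr rfl fun i _ => ?_
    rw [← Finset.univ_product_univ, Finset.prod_product]
  rw [e]
  have hexp : ∀ b b', (l b - l b').toNat = 0 ∨ (l b - l b').toNat = 1 := by
    intro b b'
    have := hl b b'
    omega
  refine Finset.prod_dvd_of_isRelPrime ?_ fun p _ => ?_
  · intro p _ q _ hpq
    simp only [Function.onFun]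
    rcases hexp ⟨p.1, p.2.1⟩ ⟨p.1, p.2.2⟩ with h1 | h1
    · rw [h1, pow_zero]; exact isRelPrime_one_left
    rcases hexp ⟨q.1, q.2.1⟩ ⟨q.1, q.2.2⟩ with h2 | h2
    · rw [h2, pow_zero]; exact isRelPrime_one_right
    rw [h1, h2, pow_one, pow_one]
    obtain ⟨i, r, s⟩ := p
    obtain ⟨j, r', s'⟩ := q
    simp only at h1 h2
    refine isRelPrime_XX D ?_ ?_ ?_
    · intro h; rw [h] at h1; simp at h1
    · intro h; rw [h] at h2; simp only [sub_self, Int.toNat_zero, zero_ne_one] at h2
    · by_cases hij : i = j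
      · subst hij
        simp only [Sigma.mk.injEq, heq_eq_eq, true_and, ne_eq, Prod.mk.injEq, not_and] at hpq ⊢
        rintro (⟨h3, h4⟩ | ⟨h3, h4⟩)
        · exact hpq h3.symm h4.symm
        · rw [h3, h4] at h2
          omega
      · rintro (⟨h3, -⟩ | ⟨h3, -⟩)
        · rw [Sigma.mk.injEq] at h3; exact hij h3.1.symm
        · rw [Sigma.mk.injEq] at h3; exact hij h3.1.symm
  · obtain ⟨i, r, s⟩ := p
    simp only
    rcases hexp ⟨i, r⟩ ⟨i, s⟩ with h1 | h1
    · rw [h1, pow_zero]; exact one_dvd _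
    rw [h1, pow_one]
    exact lin_dvd_Del D i r s (by rintro rfl; simp only [sub_self, Int.toNat_zero, zero_ne_one] at h1)

/-- the transposition of two basis vectors -/
noncomputable def tr (i : D.I) (r s : Fin (D.v i)) : W D := Pi.mulSingle i (Equiv.swap r s)

lemma perm_tr (i : D.I) (r s : Fin (D.v i)) :
    perm D (tr D i r s) = Equiv.swap ⟨i, r⟩ ⟨i, s⟩ := by
  ext1 ⟨j, t⟩
  rw [perm_apply]
  by_cases h : j = i
  · subst h
    rw [tr, Pi.mulSingle_eq_same]
    rw [Equiv.swap_apply_def, Equiv.swap_apply_def]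
    by_cases h1 : t = r
    · subst h1; simp
    · by_cases h2 : t = s
      · subst h2; simp [h1]
      · simp [h1, h2]
  · rw [tr, Pi.mulSingle_eq_of_ne h]
    rw [Equiv.swap_apply_of_ne_of_ne]
    · rfl
    · intro h'; rw [Sigma.mk.injEq] at h'; exact h h'.1
    · intro h'; rw [Sigma.mk.injEq] at h'; exact h h'.1

lemma sgn_tr (i : D.I) {r s : Fin (D.v i)} (h : r ≠ s) : sgn D (tr D i r s) = -1 := by
  rw [sgn, ← Finset.mul_prod_erase _ _ (Finset.mem_univ i)]
  rw [Finset.prod_eq_one, tr, Pi.mulSingle_eq_same, Equiv.Perm.sign_swap h]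
  · simp only [Units.val_neg, Units.val_one, Int.reduceNeg, mul_one]
  · intro j hj
    rw [tr, Pi.mulSingle_eq_of_ne (Finset.ne_of_mem_erase hj)]
    simp only [Equiv.Perm.sign_one, Units.val_one]

/-- the stabilizer of `l` in the Weyl group -/
noncomputable def stab (l : B D → ℤ) : Finset (W D) :=
  by classical exact Finset.univ.filter fun τ => ∀ b, l (perm D τ b) = l b

lemma mem_stab (l : B D → ℤ) (τ : W D) : τ ∈ stab D l ↔ ∀ b, l (perm D τ b) = l b := by
  classical
  simp only [stab, Finset.mem_filter, Finset.mem_univ, true_and]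

/-- antisymmetrization over the stabilizer -/
noncomputable def Alt (l : B D → ℤ) (h : P D) : P D := ∑ τ ∈ stab D l, (sgn D τ : P D) * actP D τ h

lemma Alt_swap (l : B D → ℤ) (h : P D) (i : D.I) (r s : Fin (D.v i)) (hrs : r ≠ s)
    (hl : l ⟨i, r⟩ = l ⟨i, s⟩) : (XX D ⟨i, s⟩ - XX D ⟨i, r⟩) ∣ Alt D l h := by
  refine GUfd.dvd_of_alt _ ?_
  have h1 : ∀ f : P D, rename (Equiv.swap (Sum.inl ⟨i, s⟩ : B D ⊕ Fin D.rk) (Sum.inl ⟨i, r⟩)) f =
      actP D (tr D i r s) f := by
    intro f
    rw [actP]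
    congr 2
    ext b
    cases b with
    | inl b =>
      rw [Sum.map_inl, perm_tr, Equiv.swap_comm]
      rw [Equiv.swap_apply_def, Equiv.swap_apply_def]
      by_cases h1 : b = ⟨i, r⟩
      · simp [h1]
      · by_cases h2 : b = ⟨i, s⟩
        · simp [h2, hrs.symm]
        · simp [h1, h2]
    | inr j =>
      rw [Equiv.swap_apply_of_ne_of_ne (by simp) (by simp)]
      rfl
  have hmem : ∀ τ, tr D i r s * τ ∈ stab D l ↔ τ ∈ stab D l := by
    intro τ
    rw [mem_stab, mem_stab]
    have h2 : ∀ b, l (perm D (tr D i r s * τ) b) = l (perm D τ b) := by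
      intro b
      rw [perm_mul, perm_tr, Equiv.swap_apply_def]
      split_ifs with h3 h4
      · rw [h3, hl]
      · rw [h4, hl]
      · rfl
    simp only [h2]
  rw [h1, Alt, map_sum, ← Finset.sum_neg_distrib]
  refine Finset.sum_bij' (fun τ _ => tr D i r s * τ) (fun τ _ => (tr D i r s)⁻¹ * τ)
    (fun τ hτ => (hmem τ).2 hτ) (fun τ hτ => ?_) (fun τ _ => by rw [inv_mul_cancel_left])
    (fun τ _ => by rw [mul_inv_cancel_left]) (fun τ _ => ?_)
  · rw [← hmem, mul_inv_cancel_left]; exact hτ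
  · rw [map_mul, map_intCast, ← actP_mul, sgn_mul, sgn_tr D i hrs]
    push_cast
    ring

end Vale.Agent.P291.G
end
end

section

section

set_option autoImplicit false
set_option linter.unusedSectionVars false
set_option linter.unusedSimpArgs false

/-! Determinantal ideals `I_k(M)`, the ideal-theoretic Frobenius inequality and the block identity. -/

namespace Vale.Agent.P291.GDet

open Finset Matrix

section
variable {n : Type} [Fintype n] [DecidableEq n] {R : Type*} [CommRing R]

/-- The matrix with columns in `T` taken from `A` and the others from `B`. -/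
def mixCols (T : Finset n) (A B : Matrix n n R) : Matrix n n R :=
  Matrix.of fun r c => if c ∈ T then A r c else B r c

lemma mixCols_apply (T : Finset n) (A B : Matrix n n R) (r c : n) :
    mixCols T A B r c = if c ∈ T then A r c else B r c := rfl

/-- The ideal generated by the determinants with `k` columns in the image of `M`. -/
def detIdeal (M : Matrix n n R) (k : ℕ) : Ideal R :=
  Ideal.span {x | ∃ (T : Finset n) (X : Matrix n n R), T.card = k ∧ x = (mixCols T (M * X) X).det}

lemma mem_detIdeal (M : Matrix n n R) (T : Finset n) (X Y : Matrix n n R) {k : ℕ}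
    (hk : T.card = k) : (mixCols T (M * X) Y).det ∈ detIdeal M k := by
  refine Ideal.subset_span ⟨T, mixCols T X Y, hk, ?_⟩
  congr 1
  ext r c
  simp only [mixCols_apply, Matrix.mul_apply]
  split_ifs with h
  · rfl
  · rfl

lemma detIdeal_le {M : Matrix n n R} {k : ℕ} {I : Ideal R}
    (h : ∀ (T : Finset n) (X : Matrix n n R), T.card = k → (mixCols T (M * X) X).det ∈ I) :
    detIdeal M k ≤ I := by
  refine Ideal.span_le.2 ?_
  rintro _ ⟨T, X, hT, rfl⟩
  exact h T X hT

lemma detIdeal_zero (M : Matrix n n R) : detIdeal M 0 = ⊤ := by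
  rw [Ideal.eq_top_iff_one]
  have h := mem_detIdeal M ∅ 1 1 (k := 0) rfl
  have e : mixCols ∅ (M * 1) (1 : Matrix n n R) = 1 := by
    ext r c; simp [mixCols_apply]
  rwa [e, det_one] at h

lemma detIdeal_one {k : ℕ} (hk : k ≤ Fintype.card n) : detIdeal (1 : Matrix n n R) k = ⊤ := by
  rw [Ideal.eq_top_iff_one]
  obtain ⟨T, -, hT⟩ := Finset.exists_subset_card_eq (s := (univ : Finset n)) (n := k)
    (by simpa only [card_univ] using hk)
  have h := mem_detIdeal (1 : Matrix n n R) T 1 1 hT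
  have e : mixCols T ((1 : Matrix n n R) * 1) (1 : Matrix n n R) = 1 := by
    ext r c; simp [mixCols_apply]
  rwa [e, det_one] at h

lemma detIdeal_eq_bot (M : Matrix n n R) {k : ℕ} (hk : Fintype.card n < k) :
    detIdeal M k = ⊥ := by
  rw [eq_bot_iff]
  refine detIdeal_le fun T X hT => ?_
  exact absurd (card_le_univ T) (by omega)

lemma detIdeal_succ_le (M : Matrix n n R) (k : ℕ) : detIdeal M (k + 1) ≤ detIdeal M k := by
  refine detIdeal_le fun T X hT => ?_
  obtain ⟨c0, hc0⟩ : T.Nonempty := by rw [← card_pos]; omega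
  have h := mem_detIdeal M (T.erase c0) X (mixCols T (M * X) X) (k := k)
    (by rw [card_erase_of_mem hc0]; omega)
  have e : mixCols (T.erase c0) (M * X) (mixCols T (M * X) X) = mixCols T (M * X) X := by
    ext r c
    simp only [mixCols_apply, mem_erase]
    by_cases h1 : c ∈ T <;> simp [h1]
  rwa [e] at h

lemma detIdeal_anti (M : Matrix n n R) {k l : ℕ} (h : k ≤ l) : detIdeal M l ≤ detIdeal M k := by
  induction h with
  | refl => exact le_rfl
  | step _ ih => exact (detIdeal_succ_le M _).trans ih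

lemma detIdeal_mul_le (M N : Matrix n n R) (k : ℕ) : detIdeal (M * N) k ≤ detIdeal M k := by
  refine detIdeal_le fun T X hT => ?_
  rw [Matrix.mul_assoc]
  exact mem_detIdeal M T (N * X) X hT

lemma detIdeal_conj (U M N : Matrix n n R) (hU : IsUnit U.det) (k : ℕ) :
    detIdeal (U * M * N) k ≤ detIdeal M k := by
  refine detIdeal_le fun T X hT => ?_
  have e : mixCols T (U * M * N * X) X = U * mixCols T (M * (N * X)) (U⁻¹ * X) := by
    ext r c
    by_cases h : c ∈ T
    · have : (U * mixCols T (M * (N * X)) (U⁻¹ * X)) r c = (U * (M * (N * X))) r c := by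
        simp only [Matrix.mul_apply, mixCols_apply, if_pos h]
      rw [this, mixCols_apply, if_pos h]
      simp only [Matrix.mul_assoc]
    · have : (U * mixCols T (M * (N * X)) (U⁻¹ * X)) r c = (U * (U⁻¹ * X)) r c := by
        rw [Matrix.mul_apply, Matrix.mul_apply]
        refine Finset.sum_congr rfl fun j _ => ?_
        rw [mixCols_apply, if_neg h]
      rw [this, mixCols_apply, if_neg h, ← Matrix.mul_assoc, Matrix.mul_nonsing_inv U hU,
        Matrix.one_mul]
  rw [e, det_mul]
  exact Ideal.mul_mem_left _ _ (mem_detIdeal M T _ _ hT)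

/-- top/bottom selection of columns -/
lemma det_topBottom (s : Finset (n ⊕ n)) (P : Matrix (n ⊕ n) (n ⊕ n) R) (hs : ∀ c ∈ s, ∀ r : n, P (Sum.inr r) c = 0)
    (hs' : ∀ c ∉ s, ∀ r : n, P (Sum.inl r) c = 0) :
    P.det = 0 ∨ ∃ σ : Equiv.Perm (n ⊕ n), (∀ c, σ (Sum.inl c) ∈ s) ∧ (∀ c, σ (Sum.inr c) ∉ s) := by
  by_cases h : ∃ σ : Equiv.Perm (n ⊕ n), (∀ c, σ (Sum.inl c) ∈ s) ∧ (∀ c, σ (Sum.inr c) ∉ s)
  · exact Or.inr h
  · left
    rw [det_apply']
    refine Finset.sum_eq_zero fun σ _ => ?_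
    suffices h2 : ∃ c, P (σ c) c = 0 by
      obtain ⟨c, hc⟩ := h2
      exact mul_eq_zero_of_right _ (Finset.prod_eq_zero (mem_univ c) hc)
    by_contra h3
    push Not at h3
    apply h
    refine ⟨σ.symm, fun c => ?_, fun c => ?_⟩
    · by_contra h4
      apply h3 (σ.symm (Sum.inl c))
      rw [Equiv.apply_symm_apply]
      exact hs' _ h4 c
    · intro h4
      apply h3 (σ.symm (Sum.inr c))
      rw [Equiv.apply_symm_apply]
      exact hs _ h4 c

lemma detIdeal_blockDiag (A B : Matrix n n R) (k : ℕ) :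
    detIdeal (fromBlocks A 0 0 B) k ≤
      ∑ p ∈ antidiagonal k, detIdeal A p.1 * detIdeal B p.2 := by
  refine detIdeal_le fun T X hT => ?_
  set M := mixCols T (fromBlocks A 0 0 B * X) X with hM
  -- split rows
  let P : Matrix (n ⊕ n) (n ⊕ n) R := Matrix.of fun r c => Sum.elim (fun _ => M r c) (fun _ => 0) r
  let Q : Matrix (n ⊕ n) (n ⊕ n) R := Matrix.of fun r c => Sum.elim (fun _ => 0) (fun _ => M r c) r
  have hPQ : M.det = ∑ s : Finset (n ⊕ n), (mixCols s P Q).det := by
    have h1 : M = Mᵀᵀ := rfl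
    rw [h1, det_transpose]
    have h2 : Mᵀ = fun c => Pᵀ c + Qᵀ c := by
      ext c r
      cases r <;> simp [P, Q, Matrix.transpose_apply]
    rw [h2]
    have := (detRowAlternating (n := n ⊕ n) (R := R)).toMultilinearMap.map_add_univ Pᵀ Qᵀ
    simp only [AlternatingMap.coe_multilinearMap] at this
    refine Eq.trans this ?_
    refine Finset.sum_congr rfl fun s _ => ?_
    rw [← det_transpose (mixCols s P Q)]
    change Matrix.det _ = _
    congr 1
    ext c r
    simp only [Finset.piecewise, Matrix.transpose_apply, mixCols_apply]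
    split_ifs <;> rfl
  rw [hPQ]
  refine Ideal.sum_mem _ fun s _ => ?_
  rcases det_topBottom s (mixCols s P Q) (fun c hc r => by simp only [mixCols_apply, hc, ↓reduceIte, of_apply, Sum.elim_inr, P])
    (fun c hc r => by simp [mixCols_apply, hc, Q]) with h0 | ⟨σ, hσ1, hσ2⟩
  · rw [h0]; exact Ideal.zero_mem _
  · -- permute columns
    have h3 : ((mixCols s P Q).submatrix id σ).det = Equiv.Perm.sign σ * (mixCols s P Q).det :=
      det_permute' σ _
    have h4 : (mixCols s P Q).det = Equiv.Perm.sign σ * ((mixCols s P Q).submatrix id σ).det := by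
      rw [h3, ← mul_assoc, ← Int.cast_mul, ← Units.val_mul]
      have : (Equiv.Perm.sign σ * Equiv.Perm.sign σ) = 1 := Int.units_mul_self _
      rw [this]; simp only [Units.val_one, Int.cast_one, one_mul]
    rw [h4]
    refine Ideal.mul_mem_left _ _ ?_
    -- identify blocks
    let T1 : Finset n := univ.filter fun c => σ (Sum.inl c) ∈ T
    let T2 : Finset n := univ.filter fun c => σ (Sum.inr c) ∈ T
    let X1 : Matrix n n R := Matrix.of fun r c => X (Sum.inl r) (σ (Sum.inl c))
    let X2 : Matrix n n R := Matrix.of fun r c => X (Sum.inr r) (σ (Sum.inr c))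
    have h5 : (mixCols s P Q).submatrix id σ =
        fromBlocks (mixCols T1 (A * X1) X1) 0 0 (mixCols T2 (B * X2) X2) := by
      ext r c
      cases c with
      | inl c =>
        cases r with
        | inl r =>
          simp only [submatrix_apply, id, mixCols_apply, hσ1 c, if_true, P, Matrix.of_apply,
            Sum.elim_inl, fromBlocks_apply₁₁, hM, T1, Finset.mem_filter, Finset.mem_univ, true_and,
            X1]
          split_ifs
          · simp only [Matrix.mul_apply, Fintype.sum_sum_type, fromBlocks_apply₁₁, fromBlocks_apply₁₂, Matrix.zero_apply, zero_mul, sum_const_zero, add_zero, of_apply]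
          · rfl
        | inr r =>
          simp [mixCols_apply, hσ1 c, P]
      | inr c =>
        cases r with
        | inl r =>
          simp [mixCols_apply, hσ2 c, Q]
        | inr r =>
          simp only [submatrix_apply, id, mixCols_apply, hσ2 c, if_false, Q, Matrix.of_apply,
            Sum.elim_inr, fromBlocks_apply₂₂, hM, T2, Finset.mem_filter, Finset.mem_univ, true_and,
            X2]
          split_ifs
          · simp only [Matrix.mul_apply, Fintype.sum_sum_type, fromBlocks_apply₂₁, Matrix.zero_apply, zero_mul, sum_const_zero, fromBlocks_apply₂₂, zero_add, of_apply]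
          · rfl
    rw [h5, det_fromBlocks_zero₂₁]
    have hcard : (T1.card, T2.card) ∈ antidiagonal k := by
      rw [HasAntidiagonal.mem_antidiagonal]
      simp only
      rw [← hT]
      have e1 : T.card = (T.map σ.symm.toEmbedding).card := (card_map _).symm
      rw [e1, ← card_disjSum]
      congr 1
      ext x
      cases x with
      | inl x => simp only [inl_mem_disjSum, mem_filter, mem_univ, true_and, mem_map_equiv, Equiv.symm_symm, T1]
      | inr x => simp only [inr_mem_disjSum, mem_filter, mem_univ, true_and, mem_map_equiv, Equiv.symm_symm, T2]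
    have h6 : detIdeal A T1.card * detIdeal B T2.card ≤
        ∑ p ∈ antidiagonal k, detIdeal A p.1 * detIdeal B p.2 := by
      have := Finset.single_le_sum (f := fun p : ℕ × ℕ => detIdeal A p.1 * detIdeal B p.2)
        (fun p _ => bot_le) hcard
      exact this
    exact h6 (Ideal.mul_mem_mul (mem_detIdeal A T1 X1 X1 rfl) (mem_detIdeal B T2 X2 X2 rfl))

lemma det_fromBlocks_zero₁₁' (B C D : Matrix n n R) :
    ∃ ε : R, (ε = 1 ∨ ε = -1) ∧ (fromBlocks 0 B C D).det = ε * (B.det * C.det) := by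
  have h : (fromBlocks 0 B C D).submatrix id (Equiv.sumComm n n) = fromBlocks B 0 D C := by
    ext r c
    cases r <;> cases c <;> rfl
  have h1 := det_permute' (Equiv.sumComm n n : Equiv.Perm (n ⊕ n)) (fromBlocks 0 B C D)
  rw [h, det_fromBlocks_zero₁₂] at h1
  rcases Int.units_eq_one_or (Equiv.Perm.sign (Equiv.sumComm n n : Equiv.Perm (n ⊕ n))) with h2 | h2
  · rw [h2] at h1
    exact ⟨1, Or.inl rfl, by rw [h1]; simp only [Units.val_one, Int.cast_one, one_mul]⟩
  · rw [h2] at h1
    exact ⟨-1, Or.inr rfl, by rw [h1]; simp only [Units.val_neg, Units.val_one, Int.reduceNeg, Int.cast_neg, Int.cast_one, neg_mul, one_mul, mul_neg, neg_neg]⟩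

/-- ideal-theoretic Frobenius inequality -/
lemma frobenius (X Y Z : Matrix n n R) (a b : ℕ) :
    detIdeal (Y * X) a * detIdeal (X * Z) b ≤
      ∑ p ∈ antidiagonal (a + b), detIdeal X p.1 * detIdeal (Y * X * Z) p.2 := by
  -- the block matrix
  let W : Matrix (n ⊕ n) (n ⊕ n) R := fromBlocks X 0 0 (Y * X * Z)
  let W' : Matrix (n ⊕ n) (n ⊕ n) R := fromBlocks X (-(X * Z)) (Y * X) 0
  have hW : W' = fromBlocks 1 0 Y 1 * W * fromBlocks 1 (-Z) 0 1 := by
    simp only [fromBlocks_multiply, W', W]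
    simp [Matrix.mul_assoc]
  have hle : detIdeal W' (a + b) ≤ ∑ p ∈ antidiagonal (a + b), detIdeal X p.1 * detIdeal (Y * X * Z) p.2 := by
    rw [hW]
    refine (detIdeal_conj _ _ _ ?_ _).trans (detIdeal_blockDiag _ _ _)
    rw [det_fromBlocks_zero₁₂, det_one, mul_one]
    exact isUnit_one
  refine le_trans ?_ hle
  rw [Ideal.mul_le]
  intro x hx y hy
  -- reduce to generators
  have key : ∀ (S T : Finset n) (U V : Matrix n n R), S.card = a → T.card = b →
      (mixCols S (Y * X * U) U).det * (mixCols T (X * Z * V) V).det ∈ detIdeal W' (a + b) := by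
    intro S T U V hS hT
    let TT : Finset (n ⊕ n) := S.disjSum T
    have hTT : TT.card = a + b := by rw [card_disjSum, hS, hT]
    have h1 := mem_detIdeal W' TT (fromBlocks U 0 0 (-V)) (fromBlocks 0 V U 0) hTT
    have h2 : mixCols TT (W' * fromBlocks U 0 0 (-V)) (fromBlocks 0 V U 0) =
        fromBlocks (mixCols S (X * U) 0) (mixCols T (X * Z * V) V) (mixCols S (Y * X * U) U) 0 := by
      simp only [W', fromBlocks_multiply]
      ext r c
      cases c with
      | inl c =>
        cases r with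
        | inl r =>
          by_cases h : c ∈ S <;> simp [mixCols_apply, TT, h]
        | inr r =>
          by_cases h : c ∈ S <;> simp [mixCols_apply, TT, h]
      | inr c =>
        cases r with
        | inl r =>
          by_cases h : c ∈ T <;> simp only [mul_zero, add_zero, mul_neg, neg_mul, neg_neg, zero_add, zero_mul, neg_zero, mixCols_apply, inr_mem_disjSum, h, ↓reduceIte, fromBlocks_apply₁₂, TT]
        | inr r =>
          by_cases h : c ∈ T <;> simp [mixCols_apply, TT, h]
    rw [h2] at h1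
    have h3 : (fromBlocks (mixCols S (X * U) 0) (mixCols T (X * Z * V) V) (mixCols S (Y * X * U) U)
        0).submatrix (Equiv.sumComm n n) (Equiv.sumComm n n) =
        fromBlocks 0 (mixCols S (Y * X * U) U) (mixCols T (X * Z * V) V) (mixCols S (X * U) 0) := by
      ext r c
      cases r <;> cases c <;> rfl
    rw [← det_submatrix_equiv_self (Equiv.sumComm n n), h3] at h1
    obtain ⟨ε, hε, h4⟩ := det_fromBlocks_zero₁₁' (mixCols S (Y * X * U) U) (mixCols T (X * Z * V) V)
      (mixCols S (X * U) 0)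
    rw [h4] at h1
    rcases hε with rfl | rfl
    · simpa only [one_mul] using h1
    · simpa only [neg_mul, one_mul, neg_mem_iff] using h1
  refine Submodule.span_induction (p := fun x _ => x * y ∈ detIdeal W' (a + b)) ?_ ?_ ?_ ?_ hx
  · rintro _ ⟨S, U, hS, rfl⟩
    refine Submodule.span_induction
      (p := fun y _ => (mixCols S (Y * X * U) U).det * y ∈ detIdeal W' (a + b)) ?_ ?_ ?_ ?_ hy
    · rintro _ ⟨T, V, hT, rfl⟩
      exact key S T U V hS hT
    · simp only [mul_zero, zero_mem]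
    · intro u v _ _ hu hv
      rw [mul_add]; exact Ideal.add_mem _ hu hv
    · intro u v _ hv
      rw [smul_eq_mul, mul_left_comm]; exact Ideal.mul_mem_left _ _ hv
  · simp
  · intro u v _ _ hu hv
    rw [add_mul]; exact Ideal.add_mem _ hu hv
  · intro u v _ hv
    rw [smul_eq_mul, mul_assoc]; exact Ideal.mul_mem_left _ _ hv

/-- ideal-theoretic Sylvester inequality -/
lemma sylvester (Y Z : Matrix n n R) (a b : ℕ) (h : Fintype.card n < a + b) :
    detIdeal Y a * detIdeal Z b ≤ detIdeal (Y * Z) 1 := by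
  have h1 := frobenius (1 : Matrix n n R) Y Z a b
  rw [Matrix.mul_one, Matrix.one_mul] at h1
  refine h1.trans ?_
  rw [Ideal.sum_eq_sup]
  refine Finset.sup_le fun p hp => ?_
  rw [HasAntidiagonal.mem_antidiagonal] at hp
  by_cases h2 : Fintype.card n < p.1
  · rw [detIdeal_eq_bot _ h2, Ideal.bot_mul]; exact bot_le
  · have h3 : detIdeal (Y * Z) p.2 ≤ detIdeal (Y * Z) 1 := detIdeal_anti (Y * Z) (by omega)
    exact le_trans Ideal.mul_le_right h3

end

section
variable {n : Type} [Fintype n] [DecidableEq n] {A L : Type*} [CommRing A] [CommRing L]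

lemma map_mixCols (ι : A →+* L) (T : Finset n) (U V : Matrix n n A) :
    (mixCols T U V).map ι = mixCols T (U.map ι) (V.map ι) := by
  ext r c
  simp only [Matrix.map_apply, mixCols_apply]
  split_ifs <;> rfl

lemma det_mixCols_neg (T : Finset n) (U V : Matrix n n A) :
    (mixCols T (-U) V).det = (-1) ^ T.card * (mixCols T U V).det := by
  have h : mixCols T (-U) V = mixCols T U V * diagonal (fun c => if c ∈ T then (-1 : A) else 1) := by
    ext r c
    rw [mul_diagonal, mixCols_apply, mixCols_apply]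
    split_ifs <;> simp
  rw [h, det_mul, det_diagonal, mul_comm]
  congr 1
  rw [Finset.prod_ite]
  simp

/-- block identity: with `Mb'` a matrix over the big ring such that `Mb' Mc = Mq`, `Mb' Mp = Mb`,
and `Mb, Mc` with entries in an ideal `J` of the small ring, the product of the two mixed
determinants lies in the small ring and is computed, up to sign, modulo `J`. -/
lemma block_identity (ι : A →+* L) (J : Ideal A) (S : Finset n)
    (Mb Mc Mp Mq V V' : Matrix n n A) (Mb' : Matrix n n L)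
    (hb : ∀ r c, Mb r c ∈ J) (hc : ∀ r c, Mc r c ∈ J)
    (h1 : Mb' * Mc.map ι = Mq.map ι) (h2 : Mb' * Mp.map ι = Mb.map ι) :
    ∃ z ε : A, ε * ε = 1 ∧ ι z = (mixCols S (Mb' * V'.map ι) (V'.map ι)).det *
        (mixCols S ((Mc * V).map ι) ((Mp * V).map ι)).det ∧
      z - ε * ((mixCols S (Mq * V) V').det * (mixCols S V' (Mp * V)).det) ∈ J := by
  let MM : Matrix (n ⊕ n) (n ⊕ n) A := fromBlocks (mixCols S (Mc * V) (Mp * V)) (mixCols S V' 0)
    (mixCols S (Mq * V) (Mb * V)) (mixCols S 0 V')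
  let M0 : Matrix (n ⊕ n) (n ⊕ n) A := fromBlocks (mixCols S 0 (Mp * V)) (mixCols S V' 0)
    (mixCols S (Mq * V) 0) (mixCols S 0 V')
  have hmod : MM.det - M0.det ∈ J := by
    rw [← Ideal.Quotient.eq, RingHom.map_det, RingHom.map_det]
    congr 1
    have hbV : ∀ (M : Matrix n n A), (∀ r c, M r c ∈ J) → ∀ r c, (M * V) r c ∈ J := by
      intro M hM r c
      rw [Matrix.mul_apply]
      exact Ideal.sum_mem _ fun k _ => Ideal.mul_mem_right _ _ (hM r k)
    ext r c
    simp only [RingHom.mapMatrix_apply, Matrix.map_apply]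
    cases r with
    | inl r =>
      cases c with
      | inl c =>
        simp only [fromBlocks_apply₁₁, mixCols_apply, MM, M0]
        split_ifs
        · rw [Ideal.Quotient.eq]; simpa using hbV Mc hc r c
        · rfl
      | inr c => rfl
    | inr r =>
      cases c with
      | inl c =>
        simp only [MM, M0, fromBlocks_apply₂₁, mixCols_apply]
        split_ifs
        · rfl
        · rw [Ideal.Quotient.eq]; simpa only [Matrix.zero_apply, sub_zero] using hbV Mb hb r c
      | inr c => rfl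
  -- the permutation swapping the columns in `S`
  have hM0 : ∃ ε : A, ε * ε = 1 ∧
      M0.det = ε * ((mixCols S (Mq * V) V').det * (mixCols S V' (Mp * V)).det) := by
    let τ : Equiv.Perm (n ⊕ n) := Function.Involutive.toPerm
      (fun x : n ⊕ n => Sum.elim (fun c => if c ∈ S then Sum.inr c else Sum.inl c)
        (fun c => if c ∈ S then Sum.inl c else Sum.inr c) x) (by
        intro x
        cases x with
        | inl c => by_cases h : c ∈ S <;> simp [h]
        | inr c => by_cases h : c ∈ S <;> simp [h])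
    have hτ1 : ∀ c, τ (Sum.inl c) = if c ∈ S then Sum.inr c else Sum.inl c := fun c => rfl
    have hτ2 : ∀ c, τ (Sum.inr c) = if c ∈ S then Sum.inl c else Sum.inr c := fun c => rfl
    have e1 : M0.submatrix id τ = fromBlocks (mixCols S V' (Mp * V)) 0 0 (mixCols S (Mq * V) V') := by
      ext r c
      rw [submatrix_apply]
      cases c with
      | inl c =>
        rw [hτ1]
        cases r with
        | inl r => by_cases h : c ∈ S <;> simp [mixCols_apply, h, M0]
        | inr r => by_cases h : c ∈ S <;> simp [mixCols_apply, h, M0]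
      | inr c =>
        rw [hτ2]
        cases r with
        | inl r => by_cases h : c ∈ S <;> simp [mixCols_apply, h, M0]
        | inr r => by_cases h : c ∈ S <;> simp [mixCols_apply, h, M0]
    have e2 := det_permute' τ M0
    rw [e1, det_fromBlocks_zero₂₁] at e2
    rcases Int.units_eq_one_or (Equiv.Perm.sign τ) with h | h
    · refine ⟨1, by ring, ?_⟩
      rw [h] at e2
      simp only [Units.val_one, Int.cast_one, one_mul] at e2
      rw [← e2]; ring
    · refine ⟨-1, by ring, ?_⟩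
      rw [h] at e2
      simp only [Units.val_neg, Units.val_one, Int.cast_neg, Int.cast_one] at e2
      linear_combination e2
  have hMM : ι MM.det = (-1) ^ S.card * ((mixCols S (Mb' * V'.map ι) (V'.map ι)).det *
        (mixCols S ((Mc * V).map ι) ((Mp * V).map ι)).det) := by
    have e1 : MM.map ι = fromBlocks 1 0 Mb' 1 *
        fromBlocks (mixCols S ((Mc * V).map ι) ((Mp * V).map ι)) (mixCols S (V'.map ι) 0) 0
          (mixCols S (-(Mb' * V'.map ι)) (V'.map ι)) := by
      rw [fromBlocks_multiply]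
      simp only [MM, fromBlocks_map, map_mixCols, Matrix.one_mul, Matrix.zero_mul, add_zero,
        Matrix.mul_zero]
      congr 1
      · ext r c
        by_cases h : c ∈ S <;> simp [mixCols_apply, h]
      · ext r c
        by_cases h : c ∈ S
        · have e3 : (Mb' * mixCols S ((Mc * V).map ι) ((Mp * V).map ι)) r c =
              (Mb' * (Mc * V).map ι) r c := by
            simp only [Matrix.mul_apply, mixCols_apply, if_pos h]
          rw [e3, mixCols_apply, if_pos h, Matrix.map_mul, Matrix.map_mul, ← Matrix.mul_assoc, h1]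
        · have e3 : (Mb' * mixCols S ((Mc * V).map ι) ((Mp * V).map ι)) r c =
              (Mb' * (Mp * V).map ι) r c := by
            rw [Matrix.mul_apply, Matrix.mul_apply]
            refine Finset.sum_congr rfl fun j _ => ?_
            rw [mixCols_apply, if_neg h]
          rw [e3, mixCols_apply, if_neg h, Matrix.map_mul, Matrix.map_mul, ← Matrix.mul_assoc, h2]
      · ext r c
        rw [Matrix.add_apply]
        by_cases h : c ∈ S
        · have e3 : (Mb' * mixCols S (V'.map ι) 0) r c = (Mb' * V'.map ι) r c := by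
            simp only [Matrix.mul_apply, mixCols_apply, if_pos h]
          rw [e3]
          simp only [map_zero, Matrix.map_zero, mixCols_apply, h, ↓reduceIte, Matrix.zero_apply, Matrix.neg_apply, add_neg_cancel]
        · have e3 : (Mb' * mixCols S (V'.map ι) 0) r c = 0 := by
            rw [Matrix.mul_apply]
            refine Finset.sum_eq_zero fun j _ => ?_
            rw [mixCols_apply, if_neg h]; simp
          rw [e3]
          simp only [map_zero, Matrix.map_zero, mixCols_apply, h, ↓reduceIte, map_apply, zero_add]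
    have e2 : ι MM.det = (MM.map ι).det := by
      rw [RingHom.map_det, RingHom.mapMatrix_apply]
    rw [e2, e1, det_mul, det_fromBlocks_zero₁₂, det_fromBlocks_zero₂₁, det_one,
      det_mixCols_neg]
    ring
  obtain ⟨ε, hε, hM0⟩ := hM0
  refine ⟨(-1) ^ S.card * MM.det, (-1) ^ S.card * ε, ?_, ?_, ?_⟩
  · calc (-1) ^ S.card * ε * ((-1) ^ S.card * ε) = ((-1) * (-1)) ^ S.card * (ε * ε) := by
          rw [mul_pow]; ring
      _ = 1 := by rw [hε]; simp only [mul_neg, mul_one, neg_neg, one_pow]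
  · have h3 : ((-1 : L)) ^ S.card * (-1) ^ S.card = 1 := by rw [← mul_pow]; simp only [mul_neg, mul_one, neg_neg, one_pow]
    rw [map_mul, hMM, map_pow, map_neg, map_one, ← mul_assoc, h3, one_mul]
  · have h4 : (-1) ^ S.card * MM.det - (-1) ^ S.card * ε *
        ((mixCols S (Mq * V) V').det * (mixCols S V' (Mp * V)).det) =
        (-1) ^ S.card * (MM.det - M0.det) := by
      rw [hM0]; ring
    rw [h4]
    exact Ideal.mul_mem_left _ _ hmod

end

end Vale.Agent.P291.GDet
end
end

section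

section

set_option autoImplicit false
set_option linter.unusedSectionVars false

/-! Dictionary between functions at the roots of a monic polynomial and matrices. -/

namespace Vale.Agent.P291.GVdm

open Polynomial Matrix Vale.Agent.P291.GDet

section
variable {A B : Type*} [CommRing A] [CommRing B]

/-- columns = remainders of the polynomials `φ c` modulo `f` -/
noncomputable def colM (f : A[X]) (d : ℕ) (φ : Fin d → A[X]) : Matrix (Fin d) (Fin d) A :=
  Matrix.of fun l k => (φ k %ₘ f).coeff l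

/-- multiplication by `g` modulo `f` -/
noncomputable def MM (f : A[X]) (d : ℕ) (g : A[X]) : Matrix (Fin d) (Fin d) A :=
  colM f d fun k => g * X ^ (k : ℕ)

variable {f : A[X]} {d : ℕ} (ι : A →+* B)

lemma sum_rem (hf : f.Monic) (hd : f.natDegree = d) (y : B) (hy : eval₂ ι y f = 0) (p : A[X]) :
    ∑ l : Fin d, y ^ (l : ℕ) * ι ((p %ₘ f).coeff l) = eval₂ ι y p := by
  have h1 : eval₂ ι y p = eval₂ ι y (p %ₘ f) := by
    conv_lhs => rw [← modByMonic_add_div p f]
    rw [eval₂_add, eval₂_mul, hy, zero_mul, add_zero]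
  by_cases hf1 : f = 1
  · rw [hf1, eval₂_one] at hy
    haveI : Subsingleton B := subsingleton_of_zero_eq_one hy.symm
    exact Subsingleton.elim _ _
  · have h2 : (p %ₘ f).natDegree < d := hd ▸ natDegree_modByMonic_lt p hf hf1
    rw [h1, eval₂_eq_sum_range' ι h2, Finset.sum_range]
    exact Finset.sum_congr rfl fun l _ => mul_comm _ _

lemma vand_colM (hf : f.Monic) (hd : f.natDegree = d) (y : Fin d → B)
    (hy : ∀ r, eval₂ ι (y r) f = 0) (φ : Fin d → A[X]) :
    vandermonde y * (colM f d φ).map ι = Matrix.of fun r c => eval₂ ι (y r) (φ c) := by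
  ext r c
  rw [Matrix.mul_apply, Matrix.of_apply, ← sum_rem ι hf hd (y r) (hy r)]
  rfl

lemma vand_MM (hf : f.Monic) (hd : f.natDegree = d) (y : Fin d → B)
    (hy : ∀ r, eval₂ ι (y r) f = 0) (g : A[X]) :
    vandermonde y * (MM f d g).map ι = diagonal (fun r => eval₂ ι (y r) g) * vandermonde y := by
  rw [MM, vand_colM ι hf hd y hy]
  ext r c
  rw [Matrix.of_apply, diagonal_mul, vandermonde_apply, eval₂_mul, eval₂_pow, eval₂_X]

/-- the matrix, in the basis of powers, of multiplication by a function at the points `y` -/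
noncomputable def Md {d : ℕ} (y b : Fin d → B) : Matrix (Fin d) (Fin d) B :=
  (vandermonde y)⁻¹ * diagonal b * vandermonde y

lemma vand_Md {y : Fin d → B} (hV : IsUnit (vandermonde y).det) (b : Fin d → B) :
    vandermonde y * Md y b = diagonal b * vandermonde y := by
  rw [Md, ← Matrix.mul_assoc, ← Matrix.mul_assoc, Matrix.mul_nonsing_inv _ hV, Matrix.one_mul]

lemma vand_cancel {y : Fin d → B} (hV : IsUnit (vandermonde y).det) {M N : Matrix (Fin d) (Fin d) B}
    (h : vandermonde y * M = vandermonde y * N) : M = N := by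
  have := congrArg (fun X => (vandermonde y)⁻¹ * X) h
  simpa only [← Matrix.mul_assoc, Matrix.nonsing_inv_mul _ hV, Matrix.one_mul] using this

lemma Md_mul {y : Fin d → B} (hV : IsUnit (vandermonde y).det) (b b' : Fin d → B) :
    Md y b * Md y b' = Md y (fun r => b r * b' r) := by
  apply vand_cancel hV
  rw [← Matrix.mul_assoc, vand_Md hV, Matrix.mul_assoc, vand_Md hV, vand_Md hV, ← Matrix.mul_assoc,
    diagonal_mul_diagonal]

lemma Md_one {y : Fin d → B} (hV : IsUnit (vandermonde y).det) :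
    Md y (fun _ => (1 : B)) = 1 := by
  apply vand_cancel hV
  rw [vand_Md hV, diagonal_one, Matrix.one_mul, Matrix.mul_one]

lemma Md_eval (hf : f.Monic) (hd : f.natDegree = d) {y : Fin d → B}
    (hV : IsUnit (vandermonde y).det) (hy : ∀ r, eval₂ ι (y r) f = 0) (g : A[X]) :
    Md y (fun r => eval₂ ι (y r) g) = (MM f d g).map ι := by
  apply vand_cancel hV
  rw [vand_Md hV, vand_MM ι hf hd y hy]

lemma map_injective (hι : Function.Injective ι) :
    Function.Injective (fun M : Matrix (Fin d) (Fin d) A => M.map ι) :=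
  fun _ _ h => Matrix.map_injective hι h

/-- multiplicativity of `MM` -/
lemma MM_mul (hι : Function.Injective ι) (hf : f.Monic) (hd : f.natDegree = d) {y : Fin d → B}
    (hV : IsUnit (vandermonde y).det) (hy : ∀ r, eval₂ ι (y r) f = 0) (g h : A[X]) :
    MM f d (g * h) = MM f d g * MM f d h := by
  apply map_injective ι hι
  change (MM f d (g * h)).map ι = (MM f d g * MM f d h).map ι
  rw [Matrix.map_mul, ← Md_eval ι hf hd hV hy, ← Md_eval ι hf hd hV hy, ← Md_eval ι hf hd hV hy,
    Md_mul hV]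
  congr 1
  funext r
  rw [eval₂_mul]

lemma MM_one (hι : Function.Injective ι) (hf : f.Monic) (hd : f.natDegree = d) {y : Fin d → B}
    (hV : IsUnit (vandermonde y).det) (hy : ∀ r, eval₂ ι (y r) f = 0) :
    MM f d (1 : A[X]) = 1 := by
  apply map_injective ι hι
  change (MM f d 1).map ι = (1 : Matrix (Fin d) (Fin d) A).map ι
  rw [← Md_eval ι hf hd hV hy, Matrix.map_one ι (map_zero ι) (map_one ι), ← Md_one hV]
  congr 1
  funext r
  rw [eval₂_one]

/-- `MM` as a monoid homomorphism -/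
noncomputable def MMhom (hι : Function.Injective ι) (hf : f.Monic) (hd : f.natDegree = d)
    {y : Fin d → B} (hV : IsUnit (vandermonde y).det) (hy : ∀ r, eval₂ ι (y r) f = 0) :
    A[X] →* Matrix (Fin d) (Fin d) A where
  toFun := MM f d
  map_one' := MM_one ι hι hf hd hV hy
  map_mul' := MM_mul ι hι hf hd hV hy

/-- the determinant of mixed columns in terms of functions -/
lemma det_mixed {y : Fin d → B} (hV : IsUnit (vandermonde y).det) (S : Finset (Fin d))
    (b1 b0 : Fin d → B) (X : Matrix (Fin d) (Fin d) B) :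
    (vandermonde y).det * (mixCols S (Md y b1 * X) (Md y b0 * X)).det =
      (Matrix.of fun r c => (if c ∈ S then b1 r else b0 r) * (vandermonde y * X) r c).det := by
  rw [← det_mul]
  congr 1
  have e1 : ∀ b : Fin d → B, vandermonde y * (Md y b * X) = diagonal b * (vandermonde y * X) := by
    intro b
    rw [← Matrix.mul_assoc, vand_Md hV, Matrix.mul_assoc]
  ext r c
  rw [Matrix.of_apply]
  by_cases h : c ∈ S
  · have : (vandermonde y * mixCols S (Md y b1 * X) (Md y b0 * X)) r c =
        (vandermonde y * (Md y b1 * X)) r c := by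
      rw [Matrix.mul_apply, Matrix.mul_apply]
      refine Finset.sum_congr rfl fun k _ => ?_
      rw [mixCols_apply, if_pos h]
    rw [this, e1, diagonal_mul, if_pos h]
  · have : (vandermonde y * mixCols S (Md y b1 * X) (Md y b0 * X)) r c =
        (vandermonde y * (Md y b0 * X)) r c := by
      rw [Matrix.mul_apply, Matrix.mul_apply]
      refine Finset.sum_congr rfl fun k _ => ?_
      rw [mixCols_apply, if_neg h]
    rw [this, e1, diagonal_mul, if_neg h]

end

end Vale.Agent.P291.GVdm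
end
end

section

section

set_option autoImplicit false
set_option linter.unusedSectionVars false

/-! Symmetrization: dressed monopole operators as determinants. -/

namespace Vale.Agent.P291.G

open MvPolynomial Matrix Vale.Agent.P291.GDet Vale.Agent.P291.GVdm

variable (D : QData)

section ring
variable {C C' : Type} [CommRing C] [CommRing C']

lemma map_lin (g : C →+* C') {rk : ℕ} (y : Fin rk → C) (m : Fin rk → ℤ) :
    g (lin y m) = lin (fun j => g (y j)) m := by
  simp only [lin, map_sum, map_mul, map_intCast]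

lemma map_eul (g : C →+* C') (x : B D → C) (y : Fin D.rk → C) (l : B D → ℤ) :
    g (eul D x y l) = eul D (fun b => g (x b)) (fun j => g (y j)) l := by
  simp only [eul, map_mul, map_prod, map_pow, map_add, map_sub, map_lin]

lemma map_rts (g : C →+* C') (x : B D → C) (l : B D → ℤ) :
    g (rts D x l) = rts D (fun b => g (x b)) l := by
  simp only [rts, map_prod, map_pow, map_sub]

lemma eul_reindex (x : B D → C) (y : Fin D.rk → C) (l : B D → ℤ) (τ : W D) :
    eul D (fun b => x (perm D τ b)) y (fun b => l (perm D τ b)) = eul D x y l := by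
  simp only [eul, perm_apply]
  congr 1
  · refine Finset.prod_congr rfl fun a _ => ?_
    exact Fintype.prod_equiv (τ (D.src a)) _ _ fun r =>
      Fintype.prod_equiv (τ (D.tgt a)) _ _ fun s => rfl
  · refine Finset.prod_congr rfl fun i _ => ?_
    exact Fintype.prod_equiv (τ i) _ _ fun r => rfl

lemma rts_reindex (x : B D → C) (l : B D → ℤ) (τ : W D) :
    rts D (fun b => x (perm D τ b)) (fun b => l (perm D τ b)) = rts D x l := by
  simp only [rts, perm_apply]
  refine Finset.prod_congr rfl fun i _ => ?_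
  exact Fintype.prod_equiv (τ i) _ _ fun r => Fintype.prod_equiv (τ i) _ _ fun s => rfl

lemma rts_factor (l : B D → ℤ) (i : D.I) (r s : Fin (D.v i))
    (h : (l ⟨i, r⟩ - l ⟨i, s⟩).toNat = 1) : (XX D ⟨i, r⟩ - XX D ⟨i, s⟩) ∣ rts D (XX D) l := by
  rw [rts, ← Finset.mul_prod_erase _ _ (Finset.mem_univ i),
    ← Finset.mul_prod_erase _ _ (Finset.mem_univ r),
    ← Finset.mul_prod_erase _ _ (Finset.mem_univ s), h, pow_one, mul_assoc, mul_assoc]
  exact Dvd.intro _ rfl

end ring

section
variable {K L : Type} [Field K] [Algebra ℂ K] [CommRing L] [Algebra K L]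
  (x : B D → K) (y : Fin D.rk → K) (u : (B D → ℤ) → L)

/-- evaluation as a homomorphism -/
noncomputable def EV : P D →ₐ[ℂ] K := aeval (Sum.elim x y)

lemma EV_XX (b : B D) : EV D x y (XX D b) = x b := by rw [EV, XX, aeval_X]; rfl
lemma EV_YY (j : Fin D.rk) : EV D x y (YY D j) = y j := by rw [EV, YY, aeval_X]; rfl

lemma pol_eq (f : P D) : pol D x y f = EV D x y f := rfl

lemma pol_act (σ : W D) (f : P D) : pol D (x ∘ perm D σ) y f = EV D x y (actP D σ f) := by
  rw [pol, EV, actP, aeval_rename]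
  congr 2
  funext b
  cases b <;> rfl

lemma eul_act (σ : W D) (l : B D → ℤ) :
    eul D (x ∘ perm D σ) y l = EV D x y (actP D σ (eul D (XX D) (YY D) l)) := by
  have h := map_eul D ((EV D x y).toRingHom.comp (actP D σ).toRingHom) (XX D) (YY D) l
  have h2 : ((EV D x y).toRingHom.comp (actP D σ).toRingHom) (eul D (XX D) (YY D) l) =
    EV D x y (actP D σ (eul D (XX D) (YY D) l)) := rfl
  rw [← h2, h]
  congr 1
  · funext b
    change x (perm D σ b) = EV D x y (actP D σ (XX D b))
    rw [actP_XX, EV_XX]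
  · funext b
    change y b = EV D x y (actP D σ (YY D b))
    rw [actP_YY, EV_YY]

lemma rts_act (σ : W D) (l : B D → ℤ) :
    rts D (x ∘ perm D σ) l = EV D x y (actP D σ (rts D (XX D) l)) := by
  have h := map_rts D ((EV D x y).toRingHom.comp (actP D σ).toRingHom) (XX D) l
  have h2 : ((EV D x y).toRingHom.comp (actP D σ).toRingHom) (rts D (XX D) l) =
    EV D x y (actP D σ (rts D (XX D) l)) := rfl
  rw [← h2, h]
  congr 1
  funext b
  change x (perm D σ b) = EV D x y (actP D σ (XX D b))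
  rw [actP_XX, EV_XX]

variable (hxy : AlgebraicIndependent ℂ (Sum.elim x y))
include hxy

lemma EV_inj : Function.Injective (EV D x y) := hxy

lemma EV_act_Del_ne (σ : W D) : EV D x y (actP D σ (Del D)) ≠ 0 := by
  intro h
  rw [map_eq_zero_iff _ (EV_inj D x y hxy), act_Del] at h
  rcases mul_eq_zero.1 h with h1 | h1
  · have h2 : ((sgn D σ * sgn D σ : ℤ) : P D) = 0 := by push_cast; rw [h1, zero_mul]
    rw [sgn_sq] at h2
    simp only [Int.cast_one, one_ne_zero] at h2
  · exact Del_ne_zero D h1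

lemma EV_Del_ne : EV D x y (Del D) ≠ 0 := by
  intro h
  rw [map_eq_zero_iff _ (EV_inj D x y hxy)] at h
  exact Del_ne_zero D h

/-- the alternating sum -/
noncomputable def TT (l : B D → ℤ) (h : P D) : L :=
  ∑ σ : W D, ((sgn D σ : K) * EV D x y (actP D σ (h * eul D (XX D) (YY D) l))) •
    u (l ∘ (perm D σ).symm)

omit hxy in
lemma EV_act_Del (σ : W D) :
    EV D x y (actP D σ (Del D)) = (sgn D σ : K) * EV D x y (Del D) := by
  rw [act_Del, map_mul, map_intCast]

omit hxy in
lemma sgn_sqK (σ : W D) : (sgn D σ : K) * (sgn D σ : K) = 1 := by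
  rw [← Int.cast_mul, sgn_sq, Int.cast_one]

lemma co_eq (l : B D → ℤ) (hl : ∀ b b', l b - l b' ≤ 1) (f h : P D)
    (hh : Del D * f = h * rts D (XX D) l) (σ : W D) :
    co D (x ∘ perm D σ) y l f = (EV D x y (Del D))⁻¹ *
      ((sgn D σ : K) * EV D x y (actP D σ (h * eul D (XX D) (YY D) l))) := by
  obtain ⟨c, hc⟩ := rts_dvd D l hl
  have h1 : EV D x y (actP D σ (rts D (XX D) l)) ≠ 0 := by
    intro h0
    apply EV_act_Del_ne D x y hxy σ
    rw [hc, map_mul, map_mul, h0, zero_mul]
  have h2 := EV_Del_ne D x y hxy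
  rw [co, pol_act, eul_act, rts_act]
  rw [div_eq_iff h1]
  have h3 := congrArg (fun p => EV D x y (actP D σ p)) hh
  simp only [map_mul] at h3
  rw [EV_act_Del] at h3
  rw [map_mul, map_mul]
  have h4 := sgn_sqK (K := K) D σ
  field_simp
  linear_combination ((sgn D σ : K) * EV D x y (actP D σ (eul D (XX D) (YY D) l))) * h3 -
    (EV D x y (Del D) * EV D x y (actP D σ f) * EV D x y (actP D σ (eul D (XX D) (YY D) l))) * h4

lemma mono_eq_TT (l : B D → ℤ) (hl : ∀ b b', l b - l b' ≤ 1) (f h : P D)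
    (hh : Del D * f = h * rts D (XX D) l) :
    mono D x y u l f = (EV D x y (Del D))⁻¹ • TT D x y u l h := by
  rw [mono, TT, Finset.smul_sum]
  refine Finset.sum_congr rfl fun σ _ => ?_
  rw [co_eq D x y hxy l hl f h hh σ, mul_smul]

/-- (i) every monopole operator is an alternating sum -/
lemma mono_TT (l : B D → ℤ) (hl : ∀ b b', l b - l b' ≤ 1) (f : P D) :
    ∃ h : P D, mono D x y u l f = (EV D x y (Del D))⁻¹ • TT D x y u l h := by
  obtain ⟨c, hc⟩ := rts_dvd D l hl
  exact ⟨c * f, mono_eq_TT D x y u hxy l hl f (c * f) (by rw [hc]; ring)⟩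

omit hxy in
lemma comp_stab {l : B D → ℤ} {τ : W D} (hτ : τ ∈ stab D l) (σ : W D) :
    l ∘ (perm D (σ * τ)).symm = l ∘ (perm D σ).symm := by
  rw [mem_stab] at hτ
  funext b
  simp only [Function.comp]
  have h1 : perm D τ ((perm D (σ * τ)).symm b) = (perm D σ).symm b := by
    rw [Equiv.eq_symm_apply, ← perm_mul, Equiv.apply_symm_apply]
  rw [← hτ, h1]

omit hxy in
lemma act_eul_stab {l : B D → ℤ} {τ : W D} (hτ : τ ∈ stab D l) :
    actP D τ (eul D (XX D) (YY D) l) = eul D (XX D) (YY D) l := by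
  have h := map_eul D (actP D τ).toRingHom (XX D) (YY D) l
  have h2 : (actP D τ).toRingHom (eul D (XX D) (YY D) l) = actP D τ (eul D (XX D) (YY D) l) := rfl
  rw [← h2, h]
  have h3 : (fun b => (actP D τ).toRingHom (XX D b)) = fun b => XX D (perm D τ b) := by
    funext b; exact actP_XX D τ b
  have h4 : (fun b => (actP D τ).toRingHom (YY D b)) = YY D := by
    funext b; exact actP_YY D τ b
  rw [h3, h4]
  have h5 : l = fun b => l (perm D τ b) := by
    funext b; exact ((mem_stab D l τ).1 hτ b).symm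
  conv_lhs => rw [h5]
  rw [eul_reindex]

/-- (ii) every alternating sum is a monopole operator -/
lemma TT_mono (l : B D → ℤ) (hl : ∀ b b', l b - l b' ≤ 1) (h : P D) :
    ∃ f : P D, (EV D x y (Del D))⁻¹ • TT D x y u l h = mono D x y u l f := by
  -- divisibility
  have hdvd : Del D ∣ Alt D l h * rts D (XX D) l := by
    refine Del_dvd D _ fun i r s hrs => ?_
    by_cases hrl : l ⟨i, r⟩ = l ⟨i, s⟩
    · exact Dvd.dvd.mul_right (Alt_swap D l h i r s (ne_of_lt hrs) hrl) _
    · refine Dvd.dvd.mul_left ?_ _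
      rcases lt_or_gt_of_ne hrl with h1 | h1
      · exact rts_factor D l i s r (by have := hl ⟨i, s⟩ ⟨i, r⟩; omega)
      · have h3 := (neg_dvd (α := P D)).2
          (rts_factor D l i r s (by have := hl ⟨i, r⟩ ⟨i, s⟩; omega))
        rwa [neg_sub] at h3
  obtain ⟨c, hc⟩ := hdvd
  set N : ℂ := ((stab D l).card : ℂ) with hN
  have hN0 : N ≠ 0 := by
    rw [hN, Nat.cast_ne_zero]
    refine Finset.card_ne_zero.2 ⟨1, ?_⟩
    rw [mem_stab]; intro b; rfl
  refine ⟨MvPolynomial.C N⁻¹ * c, ?_⟩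
  rw [mono_eq_TT D x y u hxy l hl _ (MvPolynomial.C N⁻¹ * Alt D l h) (by
    rw [mul_left_comm, ← hc]; ring)]
  congr 1
  -- compute the alternating sum of the antisymmetrization
  have h1 : TT D x y u l (MvPolynomial.C N⁻¹ * Alt D l h) =
      ∑ τ ∈ stab D l, (algebraMap ℂ K N⁻¹) • TT D x y u l h := by
    have h2 : ∀ τ ∈ stab D l, TT D x y u l h = ∑ σ : W D, ((sgn D (σ * τ) : K) *
        EV D x y (actP D (σ * τ) (h * eul D (XX D) (YY D) l))) • u (l ∘ (perm D (σ * τ)).symm) := by
      intro τ _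
      rw [TT]
      exact (Equiv.sum_comp (Equiv.mulRight τ) (fun σ : W D => ((sgn D σ : K) *
        EV D x y (actP D σ (h * eul D (XX D) (YY D) l))) • u (l ∘ (perm D σ).symm))).symm
    rw [Finset.sum_congr rfl fun τ hτ => by rw [h2 τ hτ]]
    simp only [Finset.smul_sum]
    rw [Finset.sum_comm, TT]
    refine Finset.sum_congr rfl fun σ _ => ?_
    rw [Alt, Finset.mul_sum, Finset.sum_mul, map_sum, map_sum, Finset.mul_sum, Finset.sum_smul]
    refine Finset.sum_congr rfl fun τ hτ => ?_
    rw [comp_stab D hτ, smul_smul]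
    congr 1
    rw [actP_mul, map_mul (actP D τ), act_eul_stab D hτ, sgn_mul]
    simp only [map_mul, map_intCast, Int.cast_mul]
    have h3 : EV D x y (actP D σ (MvPolynomial.C N⁻¹)) = algebraMap ℂ K N⁻¹ := by
      rw [actP, rename_C, EV, aeval_C]
    rw [h3]
    ring
  rw [h1, Finset.sum_const, ← Nat.cast_smul_eq_nsmul K, smul_smul]
  have h4 : (((stab D l).card : ℕ) : K) * algebraMap ℂ K N⁻¹ = 1 := by
    have h5 : (((stab D l).card : ℕ) : K) = algebraMap ℂ K N := by rw [hN]; simp only [map_natCast]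
    rw [h5, ← map_mul, mul_inv_cancel₀ hN0, map_one]
  rw [h4, one_smul]

end

end Vale.Agent.P291.G
end
end

section

section

set_option autoImplicit false
set_option linter.unusedSectionVars false

/-! Definitions for the all-quiver theorem `C[Y^ν] → H_F(X)`.
Step A (quadratic presentation). -/

namespace Vale.Agent.P291.H

open MvPolynomial Vale.Agent.P291.G

section basic
variable (D : QData) (Z : Type)

/-- polynomials in the gauge variables `x b` and in flavor variables indexed by `Z` -/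
abbrev S : Type := MvPolynomial (B D ⊕ Z) ℂ

/-- gauge variable -/
noncomputable def xx (b : B D) : S D Z := X (Sum.inl b)

/-- action of the Weyl group -/
noncomputable def act (σ : W D) : S D Z →ₐ[ℂ] S D Z := rename (Sum.map (perm D σ) id)

/-- action on subsets of the set of basis vectors -/
def mp (σ : W D) (A : Finset (B D)) : Finset (B D) := A.map (perm D σ).toEmbedding

/-- type (dimension vector) of a subset -/
def typ (A : Finset (B D)) (i : D.I) : ℕ := (A.filter fun b => b.1 = i).card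

/-- indicator function of a subset -/
def ind (A : Finset (B D)) (b : B D) : ℤ := if b ∈ A then 1 else 0

/-- alternating families of type `n` -/
noncomputable def AF (n : D.I → ℕ) : Submodule ℂ (Finset (B D) → S D Z) where
  carrier := {φ | (∀ σ A, act D Z σ (φ A) = (sgn D σ : S D Z) * φ (mp D σ A)) ∧
    ∀ A, typ D A ≠ n → φ A = 0}
  add_mem' := by
    rintro φ ψ ⟨h1, h2⟩ ⟨h3, h4⟩
    refine ⟨fun σ A => ?_, fun A hA => ?_⟩
    · rw [Pi.add_apply, Pi.add_apply, map_add, h1, h3, mul_add]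
    · rw [Pi.add_apply, h2 A hA, h4 A hA, add_zero]
  zero_mem' := ⟨fun σ A => by rw [Pi.zero_apply, Pi.zero_apply, map_zero, mul_zero],
    fun A _ => rfl⟩
  smul_mem' := by
    rintro c φ ⟨h1, h2⟩
    refine ⟨fun σ A => ?_, fun A hA => ?_⟩
    · rw [Pi.smul_apply, Pi.smul_apply, map_smul, h1, mul_smul_comm]
    · rw [Pi.smul_apply, h2 A hA, smul_zero]

/-- product of the Vandermonde determinants -/
noncomputable def del : S D Z :=
  ∏ i, (Matrix.vandermonde fun r : Fin (D.v i) => xx D Z ⟨i, r⟩).det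

/-- product of the differences `x a - x b`, `a ∈ A`, `b ∈ C` at the same vertex -/
noncomputable def cr (A C : Finset (B D)) : S D Z :=
  ∏ a ∈ A, ∏ b ∈ C, if a.1 = b.1 then xx D Z a - xx D Z b else 1

/-- orbit sum: the alternating family generated by the polynomial `p` at the subset `A₀` -/
noncomputable def orb (A₀ : Finset (B D)) (p : S D Z) (A : Finset (B D)) : S D Z :=
  ∑ τ : W D, if mp D τ A₀ = A then (sgn D τ : S D Z) * act D Z τ p else 0

/-- equivariant pair weights and single weights -/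
structure Wts where
  h : B D → B D → S D Z
  z : B D → S D Z
  h_act : ∀ σ b c, act D Z σ (h b c) = h (perm D σ b) (perm D σ c)
  z_act : ∀ σ b, act D Z σ (z b) = z (perm D σ b)
  h_ne : ∀ b c, b ≠ c → h b c ≠ 0
  z_ne : ∀ b, z b ≠ 0

end basic

section slots
variable {D : QData} {Z : Type} (w : Wts D Z)

/-- product of the pair weights between `A` and its complement -/
noncomputable def e (A : Finset (B D)) : S D Z := ∏ b ∈ A, ∏ c ∈ Aᶜ, w.h b c

/-- product of the single weights over `A` -/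
noncomputable def zs (A : Finset (B D)) : S D Z := ∏ b ∈ A, w.z b

/-- slots: `∑_A φ(A) e(A) z(A)^ε u^A` -/
noncomputable def slot (ε : ℕ) :
    (Finset (B D) → S D Z) →ₗ[ℂ] AddMonoidAlgebra (S D Z) (B D → ℤ) where
  toFun φ := ∑ A, AddMonoidAlgebra.single (ind D A) (φ A * (e w A * zs w A ^ ε))
  map_add' φ ψ := by
    rw [← Finset.sum_add_distrib]
    refine Finset.sum_congr rfl fun A _ => ?_
    rw [Pi.add_apply, add_mul, AddMonoidAlgebra.single_add]
  map_smul' c φ := by
    rw [RingHom.id_apply, Finset.smul_sum]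
    refine Finset.sum_congr rfl fun A _ => ?_
    rw [Pi.smul_apply, smul_mul_assoc, AddMonoidAlgebra.smul_single]

/-- the space of slots of type `n` -/
noncomputable def U (ε : ℕ) (n : D.I → ℕ) : Submodule ℂ (AddMonoidAlgebra (S D Z) (B D → ℤ)) :=
  (AF D Z n).map (slot w ε)

/-- the weight attached to a decomposition `X ⊔ Y` of `P \ q` -/
noncomputable def wgt (δ : ℕ) (X Y : Finset (B D)) : S D Z :=
  (∏ b ∈ X, ∏ c ∈ Y, w.h b c * w.h c b) * zs w Y ^ δ

/-- reduced coefficient of `u^(P + q)` in the product of two slots -/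
noncomputable def GG (δ : ℕ) (φ ψ : Finset (B D) → S D Z) (P q : Finset (B D)) : S D Z :=
  ∑ X ∈ (P \ q).powerset, φ (q ∪ X) * ψ (P \ X) * wgt w δ X ((P \ q) \ X)

/-- graph of the evaluation of a slot at the subset `C` -/
noncomputable def Gr (ε : ℕ) (n : D.I → ℕ) (C : Finset (B D)) :
    Submodule ℂ (AddMonoidAlgebra (S D Z) (B D → ℤ) × S D Z) :=
  (AF D Z n).map ((slot w ε).prod (LinearMap.proj C))

/-- replace `n i, n (i+1)` by `n i + δ, n (i+1) - δ` -/
def move (n : ℕ → D.I → ℕ) (i : ℕ) (δ : D.I → ℕ) : ℕ → D.I → ℕ :=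
  Function.update (Function.update n i (n i + δ)) (i + 1) (n (i + 1) - δ)

/-- product of slot spaces -/
noncomputable def UU (ε : ℕ → ℕ) (m : ℕ) (n : ℕ → D.I → ℕ) :
    Submodule ℂ (AddMonoidAlgebra (S D Z) (B D → ℤ)) :=
  ∏ j ∈ Finset.range m, U w (ε j) (n j)

/-- measure of a sequence of types -/
def meas (m : ℕ) (n : ℕ → D.I → ℕ) : ℕ := ∑ j ∈ Finset.range m, j * ∑ i, n j i

/-- the first `l` slots are plain, the others are not -/
def ep (l j : ℕ) : ℕ := if j < l then 0 else 1

/-- the trivial sequence -/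
def seqT (D : QData) (l : ℕ) (j : ℕ) : D.I → ℕ := if j < l then D.v else 0

/-- the pair sequences: all slots are trivial except the slots `l - 1` and `l` -/
def seqP (l : ℕ) (s : D.I → ℕ) (j : ℕ) : D.I → ℕ :=
  if j + 1 < l then D.v else if j + 1 = l then D.v - s else if j = l then s else 0

/-- admissible sequences of `m` types: total `l • v`, not trivial -/
def seqOK (m l : ℕ) (n : ℕ → D.I → ℕ) : Prop :=
  (∀ j, m ≤ j → n j = 0) ∧ (∑ j ∈ Finset.range m, n j = l • D.v) ∧ n ≠ seqT D l

/-- the space spanned by the pair sequences -/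
noncomputable def LL (m l : ℕ) : Submodule ℂ (AddMonoidAlgebra (S D Z) (B D → ℤ)) :=
  ⨆ s : D.I → ℕ, ⨆ _ : s ≠ 0 ∧ s ≤ D.v, UU w (ep l) m (seqP l s)

/-- nested admissible sequences which are not pair sequences, of measure at most `M` -/
def seqN (m l M : ℕ) (n : ℕ → D.I → ℕ) : Prop :=
  seqOK m l n ∧ (∀ j, n (j + 1) ≤ n j) ∧ (∀ s : D.I → ℕ, s ≠ 0 → s ≤ D.v → n ≠ seqP l s) ∧
    meas m n ≤ M

/-- quadratic relation: `r` is, up to the square of the Vandermonde determinant, a sum of products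
of a positive and a negative minuscule operator, of nonzero types -/
def LinRel (r : S D Z) : Prop :=
  ∃ (m : ℕ) (n : Fin m → D.I → ℕ) (φ ψ : Fin m → Finset (B D) → S D Z),
    (∀ j, n j ≠ 0 ∧ φ j ∈ AF D Z (n j) ∧ ψ j ∈ AF D Z (n j)) ∧
    ∀ D1 D2 : Finset (B D), Disjoint D1 D2 →
      ∑ j, ∑ K ∈ (D1 ∪ D2)ᶜ.powerset, φ j (D1 ∪ K) * ψ j (D2 ∪ K) *
        (e w (D1 ∪ K) * zs w (D1 ∪ K)) * e w (D2 ∪ K)ᶜ =
      if D1 = ∅ ∧ D2 = ∅ then r * del D Z ^ 2 else 0

end slots

end Vale.Agent.P291.H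
end
end
namespace AFast205980x1506a
@[reducible] noncomputable def a0 {x1 : Vale.Agent.P291.T.QData} {x2 : Type} : CommMonoid (Vale.Agent.P291.H.S x1 x2) := inferInstance
@[reducible] noncomputable def a1 {x1 : Vale.Agent.P291.T.QData} {x2 : Type} : Monoid (Vale.Agent.P291.H.S x1 x2) := inferInstance
@[reducible] noncomputable def a2 {x1 : Vale.Agent.P291.T.QData} {x2 : Type} : Pow (Vale.Agent.P291.H.S x1 x2) ℕ := inferInstance
@[reducible] noncomputable def a3 {x1 : Vale.Agent.P291.T.QData} {x2 : Type} : NPow (Vale.Agent.P291.H.S x1 x2) := inferInstance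
theorem a4 {x1 : Vale.Agent.P291.T.QData} {x2 : Type} : NonUnitalAlgHomClass (Vale.Agent.P291.H.S x1 x2 →ₐ[ℂ] Vale.Agent.P291.H.S x1 x2) ℂ (Vale.Agent.P291.H.S x1 x2) (Vale.Agent.P291.H.S x1 x2) := inferInstance
theorem a5 {x1 : Vale.Agent.P291.T.QData} {x2 : Type} : MonoidHomClass (Vale.Agent.P291.H.S x1 x2 →ₐ[ℂ] Vale.Agent.P291.H.S x1 x2) (Vale.Agent.P291.H.S x1 x2) (Vale.Agent.P291.H.S x1 x2) := inferInstance
theorem a6 {x1 : Vale.Agent.P291.T.QData} {x2 : Type} : MulHomClass (Vale.Agent.P291.H.S x1 x2 →ₐ[ℂ] Vale.Agent.P291.H.S x1 x2) (Vale.Agent.P291.H.S x1 x2) (Vale.Agent.P291.H.S x1 x2) := inferInstance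
theorem a7 {x1 : Vale.Agent.P291.T.QData} {x2 : Type} : AddMonoidHomClass (Vale.Agent.P291.H.S x1 x2 →ₐ[ℂ] Vale.Agent.P291.H.S x1 x2) (Vale.Agent.P291.H.S x1 x2) (Vale.Agent.P291.H.S x1 x2) := inferInstance
theorem a8 {x1 : Vale.Agent.P291.T.QData} {x2 : Type} : MonoidWithZeroHomClass (Vale.Agent.P291.H.S x1 x2 →ₐ[ℂ] Vale.Agent.P291.H.S x1 x2) (Vale.Agent.P291.H.S x1 x2) (Vale.Agent.P291.H.S x1 x2) := inferInstance
theorem a9 {x1 : Vale.Agent.P291.T.QData} {x2 : Type} : DistribMulActionSemiHomClass (Vale.Agent.P291.H.S x1 x2 →ₐ[ℂ] Vale.Agent.P291.H.S x1 x2) (⇑(MonoidHom.id ℂ)) (Vale.Agent.P291.H.S x1 x2) (Vale.Agent.P291.H.S x1 x2) := inferInstance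
@[reducible] noncomputable def a10 {x1 : Vale.Agent.P291.T.QData} {x2 : Type} : Mul (Submodule ℂ (AddMonoidAlgebra (Vale.Agent.P291.H.S x1 x2) (Vale.Agent.P291.T.B x1 → ℤ))) := inferInstance
@[reducible] noncomputable def a11 {x1 : Vale.Agent.P291.T.QData} : CommMonoid (Submodule ℂ (AddMonoidAlgebra (Vale.Agent.P291.H.S x1 (Fin x1.rk)) (Vale.Agent.P291.T.B x1 → ℤ))) := inferInstance
@[reducible] noncomputable def a12 {x1 : Vale.Agent.P291.T.QData} {x2 : Type} : CommMonoid (Submodule ℂ (AddMonoidAlgebra (Vale.Agent.P291.H.S x1 x2) (Vale.Agent.P291.T.B x1 → ℤ) × Vale.Agent.P291.H.S x1 x2)) := inferInstance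
theorem a13 {x1 : Vale.Agent.P291.T.QData} {x2 : Type} : RingHomClass (Vale.Agent.P291.H.S x1 x2 →ₐ[ℂ] Vale.Agent.P291.H.S x1 x2) (Vale.Agent.P291.H.S x1 x2) (Vale.Agent.P291.H.S x1 x2) := inferInstance
theorem a14 {x1 : Vale.Agent.P291.T.QData} : MonoidWithZeroHomClass (Vale.Agent.P291.H.S x1 (Fin x1.rk) →ₐ[ℂ] Vale.Agent.P291.H.S x1 (Fin x1.rk)) (Vale.Agent.P291.H.S x1 (Fin x1.rk)) (Vale.Agent.P291.H.S x1 (Fin x1.rk)) := inferInstance
theorem a15 {x1 : Vale.Agent.P291.T.QData} {x2 : Type} : OneHomClass (Vale.Agent.P291.H.S x1 x2 →ₐ[ℂ] Vale.Agent.P291.H.S x1 x2) (Vale.Agent.P291.H.S x1 x2) (Vale.Agent.P291.H.S x1 x2) := inferInstance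
@[reducible] noncomputable def a16 {x1 : Vale.Agent.P291.T.QData} {x2 : Type} : CommSemiring (Submodule ℂ (AddMonoidAlgebra (Vale.Agent.P291.H.S x1 x2) (Vale.Agent.P291.T.B x1 → ℤ) × Vale.Agent.P291.H.S x1 x2)) := inferInstance
theorem a17 {x1 : Vale.Agent.P291.T.QData} : MonoidHomClass (Vale.Agent.P291.H.S x1 (Fin x1.rk) →ₐ[ℂ] Vale.Agent.P291.H.S x1 (Fin x1.rk)) (Vale.Agent.P291.H.S x1 (Fin x1.rk)) (Vale.Agent.P291.H.S x1 (Fin x1.rk)) := inferInstance
end AFast205980x1506a
attribute [local instance] AFast205980x1506a.a0 AFast205980x1506a.a1 AFast205980x1506a.a2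
  AFast205980x1506a.a3 AFast205980x1506a.a4 AFast205980x1506a.a5 AFast205980x1506a.a6
  AFast205980x1506a.a7 AFast205980x1506a.a8 AFast205980x1506a.a9 AFast205980x1506a.a10
  AFast205980x1506a.a11 AFast205980x1506a.a12 AFast205980x1506a.a13 AFast205980x1506a.a14
  AFast205980x1506a.a15 AFast205980x1506a.a16 AFast205980x1506a.a17
namespace AFast205980x1506b
theorem a0 {x1 : Vale.Agent.P291.T.QData} {x2 : Type} : DecompositionMonoid (Vale.Agent.P291.H.S x1 x2) := inferInstance
@[reducible] noncomputable def a1 {x1 : Vale.Agent.P291.T.QData} {x2 : Type} : SMulZeroClass (Vale.Agent.P291.H.S x1 x2) (Vale.Agent.P291.H.S x1 x2) := inferInstance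
@[reducible] noncomputable def a2 {x1 : Vale.Agent.P291.T.QData} {x2 : Type} : DistribSMul (Vale.Agent.P291.H.S x1 x2) (Vale.Agent.P291.H.S x1 x2) := inferInstance
theorem a3 {x1 : Vale.Agent.P291.T.QData} {x2 : Type} : AddHomClass (Vale.Agent.P291.H.S x1 x2 →ₐ[ℂ] Vale.Agent.P291.H.S x1 x2) (Vale.Agent.P291.H.S x1 x2) (Vale.Agent.P291.H.S x1 x2) := inferInstance
theorem a4 {x1 : Vale.Agent.P291.T.QData} {x2 : Type} : LinearMapClass (Vale.Agent.P291.H.S x1 x2 →ₐ[ℂ] Vale.Agent.P291.H.S x1 x2) ℂ (Vale.Agent.P291.H.S x1 x2) (Vale.Agent.P291.H.S x1 x2) := inferInstance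
@[reducible] noncomputable def a5 {x1 : Vale.Agent.P291.T.QData} {x2 : Type} : DistribMulAction (Vale.Agent.P291.H.S x1 x2) (Vale.Agent.P291.H.S x1 x2) := inferInstance
theorem a6 {x1 : Vale.Agent.P291.T.QData} {x2 : Type} {x3 : Type} [x4 : CommRing x3] : AddMonoidHomClass (Vale.Agent.P291.H.S x1 x2 →+* x3) (Vale.Agent.P291.H.S x1 x2) x3 := inferInstance
theorem a7 {x1 : Vale.Agent.P291.T.QData} {x2 : Type} : AddHomClass (Vale.Agent.P291.H.S x1 x2 →+* Polynomial (Vale.Agent.P291.H.S x1 x2)) (Vale.Agent.P291.H.S x1 x2) (Polynomial (Vale.Agent.P291.H.S x1 x2)) := inferInstance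
theorem a8 {x1 : Vale.Agent.P291.T.QData} {x2 : Type} : AddMonoidHomClass (Vale.Agent.P291.H.S x1 x2 →+* Polynomial (Vale.Agent.P291.H.S x1 x2)) (Vale.Agent.P291.H.S x1 x2) (Polynomial (Vale.Agent.P291.H.S x1 x2)) := inferInstance
theorem a9 {x1 : Vale.Agent.P291.T.QData} {x2 : Type} : AddHomClass (Vale.Agent.P291.H.S x1 x2 →ₐ[ℂ] Polynomial (Vale.Agent.P291.H.S x1 x2)) (Vale.Agent.P291.H.S x1 x2) (Polynomial (Vale.Agent.P291.H.S x1 x2)) := inferInstance
theorem a10 {x1 : Vale.Agent.P291.T.QData} {x2 : Type} : LinearMapClass (Vale.Agent.P291.H.S x1 x2 →ₐ[ℂ] Polynomial (Vale.Agent.P291.H.S x1 x2)) ℂ (Vale.Agent.P291.H.S x1 x2) (Polynomial (Vale.Agent.P291.H.S x1 x2)) := inferInstance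
end AFast205980x1506b
attribute [local instance] AFast205980x1506b.a0 AFast205980x1506b.a1 AFast205980x1506b.a2
  AFast205980x1506b.a3 AFast205980x1506b.a4 AFast205980x1506b.a5 AFast205980x1506b.a6
  AFast205980x1506b.a7 AFast205980x1506b.a8 AFast205980x1506b.a9 AFast205980x1506b.a10

section

section

set_option autoImplicit false
set_option linter.unusedSectionVars false

/-! The action on polynomials and subsets. -/

namespace Vale.Agent.P291.H

open MvPolynomial Vale.Agent.P291.G

variable (D : QData) (Z : Type)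

/-! ### action -/

lemma act_xx (σ : W D) (b : B D) : act D Z σ (xx D Z b) = xx D Z (perm D σ b) := by
  rw [act, xx, rename_X]; rfl

lemma act_mul (σ τ : W D) (f : S D Z) : act D Z (σ * τ) f = act D Z σ (act D Z τ f) := by
  rw [act, act, act, rename_rename]
  congr 2
  funext b
  cases b <;> rfl

lemma act_one (f : S D Z) : act D Z 1 f = f := by
  have h3 : act D Z 1 = AlgHom.id ℂ (S D Z) := by
    apply MvPolynomial.algHom_ext
    intro b
    rw [act, rename_X, AlgHom.id_apply]
    cases b <;> rfl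
  rw [h3]; rfl

lemma act_inj (σ : W D) : Function.Injective (act D Z σ) := by
  intro f g h
  have := congrArg (act D Z σ⁻¹) h
  rwa [← act_mul, ← act_mul, inv_mul_cancel, act_one, act_one] at this

/-! ### subsets -/

lemma mem_mp (σ : W D) (A : Finset (B D)) (b : B D) : perm D σ b ∈ mp D σ A ↔ b ∈ A := by
  rw [mp]
  exact Finset.mem_map' (perm D σ).toEmbedding

lemma mem_mp' (σ : W D) (A : Finset (B D)) (b : B D) : b ∈ mp D σ A ↔ (perm D σ).symm b ∈ A := by
  have := mem_mp D σ A ((perm D σ).symm b)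
  rwa [Equiv.apply_symm_apply] at this

lemma mp_mul (σ τ : W D) (A : Finset (B D)) : mp D (σ * τ) A = mp D σ (mp D τ A) := by
  ext b
  rw [mem_mp', mem_mp', mem_mp']
  rfl

lemma mp_one (A : Finset (B D)) : mp D 1 A = A := by
  ext b
  rw [mem_mp']
  rfl

lemma mp_union (σ : W D) (A C : Finset (B D)) : mp D σ (A ∪ C) = mp D σ A ∪ mp D σ C := by
  ext b; simp only [mem_mp', Finset.mem_union]

lemma mp_inter (σ : W D) (A C : Finset (B D)) : mp D σ (A ∩ C) = mp D σ A ∩ mp D σ C := by
  ext b; simp only [mem_mp', Finset.mem_inter]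

lemma mp_sdiff (σ : W D) (A C : Finset (B D)) : mp D σ (A \ C) = mp D σ A \ mp D σ C := by
  ext b; simp only [mem_mp', Finset.mem_sdiff]

lemma mp_compl (σ : W D) (A : Finset (B D)) : mp D σ Aᶜ = (mp D σ A)ᶜ := by
  ext b; simp only [mem_mp', Finset.mem_compl]

lemma mp_inj (σ : W D) : Function.Injective (mp D σ) := by
  intro A C h
  ext b
  rw [← mem_mp D σ A, ← mem_mp D σ C, h]

lemma mp_subset (σ : W D) (A C : Finset (B D)) : mp D σ A ⊆ mp D σ C ↔ A ⊆ C := by
  rw [mp, mp, Finset.map_subset_map]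

lemma typ_mp (σ : W D) (A : Finset (B D)) : typ D (mp D σ A) = typ D A := by
  funext i
  rw [typ, typ]
  refine (Finset.card_bij (fun b _ => perm D σ b) ?_ ?_ ?_).symm
  · intro b hb
    rw [Finset.mem_filter] at hb ⊢
    exact ⟨(mem_mp D σ A b).2 hb.1, hb.2⟩
  · intro b _ c _ h
    exact (perm D σ).injective h
  · intro b hb
    rw [Finset.mem_filter] at hb
    refine ⟨(perm D σ).symm b, ?_, Equiv.apply_symm_apply _ _⟩
    rw [Finset.mem_filter]
    refine ⟨(mem_mp' D σ A b).1 hb.1, ?_⟩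
    have := perm_fst D σ ((perm D σ).symm b)
    rw [Equiv.apply_symm_apply] at this
    rw [← this]
    exact hb.2

end Vale.Agent.P291.H
end
end

section

section

set_option autoImplicit false
set_option linter.unusedSectionVars false

/-! Types of subsets and conjugacy. -/

namespace Vale.Agent.P291.H

open MvPolynomial Vale.Agent.P291.G

variable (D : QData) (Z : Type)

/-- the fibre of a subset over a vertex -/
def fib (A : Finset (B D)) (i : D.I) : Finset (Fin (D.v i)) :=
  Finset.univ.filter fun r => (⟨i, r⟩ : B D) ∈ A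

lemma mem_fib (A : Finset (B D)) (i : D.I) (r : Fin (D.v i)) :
    r ∈ fib D A i ↔ (⟨i, r⟩ : B D) ∈ A := by
  rw [fib, Finset.mem_filter]
  exact ⟨fun h => h.2, fun h => ⟨Finset.mem_univ _, h⟩⟩

lemma card_fib (A : Finset (B D)) (i : D.I) : (fib D A i).card = typ D A i := by
  rw [typ]
  refine Finset.card_bij (fun r _ => (⟨i, r⟩ : B D)) ?_ ?_ ?_
  · intro r hr
    rw [Finset.mem_filter]
    exact ⟨(mem_fib D A i r).1 hr, rfl⟩
  · intro r _ r' _ h
    simpa using h
  · rintro ⟨j, r⟩ hb
    rw [Finset.mem_filter] at hb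
    obtain ⟨h1, h2⟩ := hb
    obtain rfl : j = i := h2
    exact ⟨r, (mem_fib D A j r).2 h1, rfl⟩

lemma typ_le (A : Finset (B D)) : typ D A ≤ D.v := by
  intro i
  rw [← card_fib]
  exact (Finset.card_le_univ _).trans (by rw [Fintype.card_fin])

lemma typ_compl (A : Finset (B D)) : typ D Aᶜ = D.v - typ D A := by
  classical
  funext i
  rw [Pi.sub_apply, ← card_fib, ← card_fib]
  have h1 : fib D Aᶜ i = (fib D A i)ᶜ := by
    ext r
    rw [Finset.mem_compl, mem_fib, mem_fib, Finset.mem_compl]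
  rw [h1, Finset.card_compl, Fintype.card_fin]

lemma typ_mono {A C : Finset (B D)} (h : A ⊆ C) : typ D A ≤ typ D C := by
  intro i
  rw [typ, typ]
  exact Finset.card_le_card (Finset.filter_subset_filter _ h)

/-- `∑ i, typ A i = card A` -/
lemma sum_typ (A : Finset (B D)) : ∑ i, typ D A i = A.card :=
  (Finset.card_eq_sum_card_fiberwise (f := fun b : B D => b.1) (t := Finset.univ)
    (fun _ _ => Finset.mem_coe.2 (Finset.mem_univ _))).symm

/-- a subset of the same type is equal -/
lemma eq_of_subset {A C : Finset (B D)} (h : A ⊆ C) (ht : typ D A = typ D C) : A = C := by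
  refine Finset.eq_of_subset_of_card_le h ?_
  rw [← sum_typ, ← sum_typ, ht]

lemma typ_union_inter (A C : Finset (B D)) :
    typ D (A ∪ C) + typ D (A ∩ C) = typ D A + typ D C := by
  classical
  funext i
  rw [Pi.add_apply, Pi.add_apply, typ, typ, typ, typ, Finset.filter_union,
    Finset.filter_inter_distrib]
  exact Finset.card_union_add_card_inter _ _

lemma typ_eq_zero {A : Finset (B D)} (h : typ D A = 0) : A = ∅ := by
  rw [← Finset.card_eq_zero, ← sum_typ, h]
  simp only [Pi.zero_apply, Finset.sum_const_zero]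

lemma typ_empty : typ D ∅ = 0 := by
  funext i
  rw [typ, Finset.filter_empty, Finset.card_empty]
  rfl

lemma typ_univ : typ D Finset.univ = D.v := by
  rw [← Finset.compl_empty, typ_compl, typ_empty]
  funext i
  rw [Pi.sub_apply, Pi.zero_apply, Nat.sub_zero]

/-- nested pairs of subsets of a finite type with the same cardinalities are conjugate -/
lemma exists_perm_nested {n : ℕ} {P q P' q' : Finset (Fin n)} (h1 : q ⊆ P) (h2 : q' ⊆ P')
    (hP : P.card = P'.card) (hq : q.card = q'.card) :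
    ∃ e : Equiv.Perm (Fin n), (∀ r, e r ∈ P' ↔ r ∈ P) ∧ (∀ r, e r ∈ q' ↔ r ∈ q) := by
  classical
  let f : Fin n → Bool × Bool := fun r => (decide (r ∈ q), decide (r ∈ P))
  let g : Fin n → Bool × Bool := fun r => (decide (r ∈ q'), decide (r ∈ P'))
  have key : ∀ (X Y : Finset (Fin n)), Y ⊆ X → ∀ c : Bool × Bool,
      Fintype.card {r : Fin n // (decide (r ∈ Y), decide (r ∈ X)) = c} =
        match c with
        | (true, true) => Y.card
        | (true, false) => 0
        | (false, true) => X.card - Y.card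
        | (false, false) => n - X.card := by
    intro X Y hYX c
    rw [Fintype.card_subtype]
    obtain ⟨c1, c2⟩ := c
    cases c1 <;> cases c2
    · have h3 : (Finset.univ.filter fun r : Fin n =>
          (decide (r ∈ Y), decide (r ∈ X)) = (false, false)) = Xᶜ := by
        ext r
        simp only [Finset.mem_filter, Finset.mem_univ, true_and, Prod.mk.injEq,
          decide_eq_false_iff_not, Finset.mem_compl]
        exact ⟨fun h => h.2, fun h => ⟨fun h' => h (hYX h'), h⟩⟩
      rw [h3, Finset.card_compl, Fintype.card_fin]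
    · have h3 : (Finset.univ.filter fun r : Fin n =>
          (decide (r ∈ Y), decide (r ∈ X)) = (false, true)) = X \ Y := by
        ext r
        simp only [Finset.mem_filter, Finset.mem_univ, true_and, Prod.mk.injEq,
          decide_eq_false_iff_not, decide_eq_true_eq, Finset.mem_sdiff]
        exact And.comm
      rw [h3, Finset.card_sdiff_of_subset hYX]
    · have h3 : (Finset.univ.filter fun r : Fin n =>
          (decide (r ∈ Y), decide (r ∈ X)) = (true, false)) = ∅ := by
        ext r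
        simp only [Prod.mk.injEq, decide_eq_true_eq, decide_eq_false_iff_not, Finset.mem_filter, Finset.mem_univ, true_and, Finset.notMem_empty, iff_false]
        exact fun h => h.2 (hYX h.1)
      rw [h3, Finset.card_empty]
    · have h3 : (Finset.univ.filter fun r : Fin n =>
          (decide (r ∈ Y), decide (r ∈ X)) = (true, true)) = Y := by
        ext r
        simp only [Finset.mem_filter, Finset.mem_univ, true_and, Prod.mk.injEq,
          decide_eq_true_eq]
        exact ⟨fun h => h.1, fun h => ⟨h, hYX h⟩⟩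
      rw [h3]
  have hc : ∀ c, Fintype.card {r // f r = c} = Fintype.card {r // g r = c} := by
    intro c
    rw [key P q h1 c, key P' q' h2 c, hP, hq]
  let e : Equiv.Perm (Fin n) := Equiv.ofFiberEquiv (f := f) (g := g)
    fun c => Fintype.equivOfCardEq (hc c)
  have he : ∀ r, g (e r) = f r := fun r => Equiv.ofFiberEquiv_map _ r
  refine ⟨e, fun r => ?_, fun r => ?_⟩
  · have h3 := congrArg Prod.snd (he r)
    simpa [f, g] using h3
  · have h3 := congrArg Prod.fst (he r)
    simpa [f, g] using h3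

/-- nested pairs of the same types are conjugate -/
lemma exists_mp {P q P' q' : Finset (B D)} (h1 : q ⊆ P) (h2 : q' ⊆ P') (hP : typ D P = typ D P')
    (hq : typ D q = typ D q') : ∃ σ : W D, mp D σ P = P' ∧ mp D σ q = q' := by
  have h3 : ∀ i, ∃ e : Equiv.Perm (Fin (D.v i)), (∀ r, e r ∈ fib D P' i ↔ r ∈ fib D P i) ∧
      (∀ r, e r ∈ fib D q' i ↔ r ∈ fib D q i) := by
    intro i
    refine exists_perm_nested ?_ ?_ ?_ ?_
    · intro r hr
      rw [mem_fib] at hr ⊢
      exact h1 hr
    · intro r hr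
      rw [mem_fib] at hr ⊢
      exact h2 hr
    · rw [card_fib, card_fib, hP]
    · rw [card_fib, card_fib, hq]
  choose e he1 he2 using h3
  have key : ∀ X X' : Finset (B D), (∀ i r, e i r ∈ fib D X' i ↔ r ∈ fib D X i) →
      mp D e X = X' := by
    intro X X' h
    ext b
    obtain ⟨c, rfl⟩ : ∃ c, perm D e c = b := ⟨(perm D e).symm b, Equiv.apply_symm_apply _ _⟩
    rw [mem_mp]
    obtain ⟨i, r⟩ := c
    have h4 := h i r
    rw [mem_fib, mem_fib] at h4
    exact h4.symm
  exact ⟨e, key P P' he1, key q q' he2⟩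

/-- disjoint pairs of the same types are conjugate -/
lemma exists_mp_disj {P q P' q' : Finset (B D)} (h1 : Disjoint P q) (h2 : Disjoint P' q')
    (hP : typ D P = typ D P') (hq : typ D q = typ D q') :
    ∃ σ : W D, mp D σ P = P' ∧ mp D σ q = q' := by
  classical
  have h3 := typ_union_inter D P q
  have h4 := typ_union_inter D P' q'
  rw [Finset.disjoint_iff_inter_eq_empty.1 h1, typ_empty, add_zero] at h3
  rw [Finset.disjoint_iff_inter_eq_empty.1 h2, typ_empty, add_zero] at h4
  obtain ⟨σ, hσ1, hσ2⟩ := exists_mp D (P := P ∪ q) (q := q) (P' := P' ∪ q') (q' := q')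
    Finset.subset_union_right Finset.subset_union_right (by rw [h3, h4, hP, hq]) hq
  refine ⟨σ, ?_, hσ2⟩
  have h5 : ∀ X Y : Finset (B D), Disjoint X Y → X = (X ∪ Y) \ Y := by
    intro X Y h
    rw [Finset.union_sdiff_right, Finset.sdiff_eq_self_of_disjoint h]
  rw [h5 P q h1, mp_sdiff, hσ1, hσ2, ← h5 P' q' h2]

/-- decomposition of an element of the stabilizer of `C` -/
lemma exists_factor {τ : W D} {C : Finset (B D)} (h : mp D τ C = C) :
    ∃ τ1 τ2 : W D, τ = τ2 * τ1 ∧ (∀ b ∉ C, perm D τ1 b = b) ∧ (∀ b ∈ C, perm D τ2 b = b) := by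
  classical
  have hC : ∀ i (r : Fin (D.v i)), (⟨i, τ i r⟩ : B D) ∈ C ↔ (⟨i, r⟩ : B D) ∈ C := by
    intro i r
    have h1 := mem_mp D τ C ⟨i, r⟩
    rw [h] at h1
    exact h1
  let τ1 : W D := fun i => Equiv.Perm.ofSubtype
    ((τ i).subtypePerm (p := fun r => (⟨i, r⟩ : B D) ∈ C) (fun r => hC i r))
  let τ2 : W D := fun i => Equiv.Perm.ofSubtype
    ((τ i).subtypePerm (p := fun r => (⟨i, r⟩ : B D) ∉ C) (fun r => not_congr (hC i r)))
  have a1 : ∀ i (r : Fin (D.v i)), (⟨i, r⟩ : B D) ∉ C → τ1 i r = r := fun i r hr =>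
    Equiv.Perm.ofSubtype_apply_of_not_mem _ hr
  have a2 : ∀ i (r : Fin (D.v i)), (⟨i, r⟩ : B D) ∈ C → τ1 i r = τ i r := fun i r hr => by
    have := Equiv.Perm.ofSubtype_apply_of_mem
      ((τ i).subtypePerm (p := fun r => (⟨i, r⟩ : B D) ∈ C) (fun r => hC i r)) hr
    simpa using this
  have b1 : ∀ i (r : Fin (D.v i)), (⟨i, r⟩ : B D) ∈ C → τ2 i r = r := fun i r hr =>
    Equiv.Perm.ofSubtype_apply_of_not_mem _ (not_not.2 hr)
  have b2 : ∀ i (r : Fin (D.v i)), (⟨i, r⟩ : B D) ∉ C → τ2 i r = τ i r := fun i r hr => by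
    have := Equiv.Perm.ofSubtype_apply_of_mem
      ((τ i).subtypePerm (p := fun r => (⟨i, r⟩ : B D) ∉ C) (fun r => not_congr (hC i r))) hr
    simpa only [Equiv.Perm.subtypePerm_apply] using this
  refine ⟨τ1, τ2, ?_, ?_, ?_⟩
  · funext i
    ext r : 1
    change τ i r = τ2 i (τ1 i r)
    by_cases hr : (⟨i, r⟩ : B D) ∈ C
    · rw [a2 i r hr, b1 i (τ i r) ((hC i r).2 hr)]
    · rw [a1 i r hr, b2 i r hr]
  · rintro ⟨i, r⟩ hb
    change (⟨i, τ1 i r⟩ : B D) = ⟨i, r⟩
    rw [a1 i r hb]
  · rintro ⟨i, r⟩ hb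
    change (⟨i, τ2 i r⟩ : B D) = ⟨i, r⟩
    rw [b1 i r hb]

end Vale.Agent.P291.H
end
end

section

section

set_option autoImplicit false
set_option linter.unusedSectionVars false

/-! Transpositions, the Vandermonde product, alternating families. -/

namespace Vale.Agent.P291.H

open MvPolynomial Vale.Agent.P291.G

variable (D : QData) (Z : Type)

/-! ### the transposition -/

lemma mp_tr {i : D.I} {r s : Fin (D.v i)} {A : Finset (B D)}
    (h : (⟨i, r⟩ : B D) ∈ A ↔ (⟨i, s⟩ : B D) ∈ A) : mp D (tr D i r s) A = A := by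
  ext b
  rw [mem_mp', perm_tr, Equiv.symm_swap, Equiv.swap_apply_def]
  split_ifs with h1 h2
  · rw [h1, h]
  · rw [h2, h]
  · rfl

open Classical in
/-- the action of a transposition -/
lemma act_tr (i : D.I) (r s : Fin (D.v i)) (f : S D Z) : act D Z (tr D i r s) f =
    rename (Equiv.swap (Sum.inl ⟨i, r⟩ : B D ⊕ Z) (Sum.inl ⟨i, s⟩)) f := by
  rw [act]
  congr 2
  funext b
  cases b with
  | inl b =>
    rw [Sum.map_inl, perm_tr, Equiv.swap_apply_def, Equiv.swap_apply_def]
    by_cases h1 : b = ⟨i, r⟩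
    · simp [h1]
    · by_cases h2 : b = ⟨i, s⟩
      · subst h2
        rw [if_neg h1, if_pos rfl, if_neg (fun h => h1 (Sum.inl_injective h)), if_pos rfl]
      · rw [if_neg h1, if_neg h2, if_neg (fun h => h1 (Sum.inl_injective h)),
          if_neg (fun h => h2 (Sum.inl_injective h))]
  | inr j =>
    rw [Equiv.swap_apply_of_ne_of_ne (by simp) (by simp)]
    rfl

/-- a polynomial alternating under a transposition is divisible by the difference -/
lemma dvd_of_tr (i : D.I) {r s : Fin (D.v i)} (hrs : r ≠ s) {f : S D Z}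
    (h : act D Z (tr D i r s) f = -f) : (xx D Z ⟨i, r⟩ - xx D Z ⟨i, s⟩) ∣ f := by
  classical
  refine Vale.Agent.P291.GUfd.dvd_of_alt f ?_
  rw [← h, act_tr]

/-- the difference of a polynomial and its transpose is divisible by the difference -/
lemma dvd_sub_tr (i : D.I) {r s : Fin (D.v i)} (hrs : r ≠ s) (f : S D Z) :
    (xx D Z ⟨i, r⟩ - xx D Z ⟨i, s⟩) ∣ act D Z (tr D i r s) f - f := by
  refine dvd_of_tr D Z i hrs ?_
  have h1 : tr D i r s * tr D i r s = 1 := by
    rw [tr, ← Pi.mulSingle_mul, Equiv.swap_mul_self, Pi.mulSingle_one]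
  rw [map_sub, ← act_mul, h1, act_one, neg_sub]

/-- `x a - x b` is prime -/
lemma prime_sub {a b : B D} (h : a ≠ b) : Prime (xx D Z a - xx D Z b) := by
  classical
  have h1 : Irreducible (xx D Z a - xx D Z b) :=
    Vale.Agent.P291.GUfd.irreducible_sub (fun e => h (Sum.inl_injective e))
  exact h1.prime

lemma vdm_relPrime {b b' c c' : B D} (h : b ≠ b') (hc : c ≠ c')
    (hne : ¬ ((c = b ∧ c' = b') ∨ (c = b' ∧ c' = b))) :
    IsRelPrime (xx D Z b - xx D Z b') (xx D Z c - xx D Z c') := by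
  classical
  refine Vale.Agent.P291.GUfd.isRelPrime_sub (fun e => h (Sum.inl_injective e))
    (fun e => hc (Sum.inl_injective e)) ?_
  rintro (⟨h1, h2⟩ | ⟨h1, h2⟩)
  · exact hne (Or.inl ⟨Sum.inl_injective h1, Sum.inl_injective h2⟩)
  · exact hne (Or.inr ⟨Sum.inl_injective h1, Sum.inl_injective h2⟩)

lemma vdm_sub_ne {a b : B D} (h : a ≠ b) : xx D Z a - xx D Z b ≠ 0 := (prime_sub D Z h).ne_zero

/-! ### the Vandermonde product -/

lemma act_del (σ : W D) : act D Z σ (del D Z) = (sgn D σ : S D Z) * del D Z := by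
  rw [del, map_prod, sgn, Int.cast_prod, ← Finset.prod_mul_distrib]
  refine Finset.prod_congr rfl fun i _ => ?_
  rw [AlgHom.map_det]
  have : (act D Z σ).mapMatrix (Matrix.vandermonde fun r : Fin (D.v i) => xx D Z ⟨i, r⟩) =
      (Matrix.vandermonde fun r : Fin (D.v i) => xx D Z ⟨i, r⟩).submatrix (σ i) id := by
    ext1 r c
    rw [AlgHom.mapMatrix_apply, Matrix.map_apply, Matrix.vandermonde_apply, map_pow, act_xx,
      Matrix.submatrix_apply, Matrix.vandermonde_apply]
    rfl
  rw [this, Matrix.det_permute]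

lemma vdm_del_eq : del D Z = ∏ p ∈ pairs D, (xx D Z ⟨p.1, p.2.2⟩ - xx D Z ⟨p.1, p.2.1⟩) := by
  rw [del, pairs, Finset.prod_filter, ← Finset.univ_sigma_univ, Finset.prod_sigma]
  refine Finset.prod_congr rfl fun i _ => ?_
  rw [Matrix.det_vandermonde, ← Finset.univ_product_univ, Finset.prod_product]
  refine Finset.prod_congr rfl fun r _ => ?_
  rw [← Finset.prod_filter]
  refine Finset.prod_congr ?_ fun _ _ => rfl
  ext s
  simp only [Finset.mem_Ioi, Finset.mem_filter, Finset.mem_univ, true_and]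

lemma del_ne_zero : del D Z ≠ 0 := by
  rw [vdm_del_eq, Finset.prod_ne_zero_iff]
  intro p hp
  rw [pairs, Finset.mem_filter] at hp
  refine vdm_sub_ne D Z fun h => ?_
  rw [Sigma.mk.injEq] at h
  exact absurd (eq_of_heq h.2) (ne_of_gt hp.2)

/-- if all linear factors divide `f` then so does `del` -/
lemma del_dvd (f : S D Z) (h : ∀ (i : D.I) (r s : Fin (D.v i)), r ≠ s →
    (xx D Z ⟨i, r⟩ - xx D Z ⟨i, s⟩) ∣ f) : del D Z ∣ f := by
  rw [vdm_del_eq]
  refine Finset.prod_dvd_of_isRelPrime ?_ fun p hp => ?_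
  · intro p hp q hq hpq
    have hp' : p.2.1 < p.2.2 := (Finset.mem_filter.1 hp).2
    have hq' : q.2.1 < q.2.2 := (Finset.mem_filter.1 hq).2
    obtain ⟨i, r, s⟩ := p
    obtain ⟨j, r', s'⟩ := q
    simp only at hp' hq'
    refine vdm_relPrime D Z ?_ ?_ ?_
    · intro h; rw [Sigma.mk.injEq] at h
      exact absurd (eq_of_heq h.2) (ne_of_gt hp')
    · intro h; rw [Sigma.mk.injEq] at h
      exact absurd (eq_of_heq h.2) (ne_of_gt hq')
    · by_cases hij : i = j
      · subst hij
        simp only [Sigma.mk.injEq, heq_eq_eq, true_and, ne_eq, Prod.mk.injEq, not_and] at hpq ⊢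
        rintro (⟨h1, h2⟩ | ⟨h1, h2⟩)
        · exact hpq h2.symm h1.symm
        · rw [h1, h2] at hq'
          exact lt_asymm hp' hq'
      · rintro (⟨h1, -⟩ | ⟨h1, -⟩)
        · rw [Sigma.mk.injEq] at h1; exact hij h1.1.symm
        · rw [Sigma.mk.injEq] at h1; exact hij h1.1.symm
  · exact h _ _ _ (ne_of_gt (Finset.mem_filter.1 hp).2)

lemma vdm_dvd_del' (i : D.I) (r s : Fin (D.v i)) (h2 : r < s) :
    (xx D Z ⟨i, s⟩ - xx D Z ⟨i, r⟩) ∣ del D Z := by
  rw [vdm_del_eq]
  have h3 : (⟨i, r, s⟩ : Σ i : D.I, Fin (D.v i) × Fin (D.v i)) ∈ pairs D :=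
    Finset.mem_filter.2 ⟨Finset.mem_univ _, h2⟩
  classical
  rw [← Finset.mul_prod_erase _ _ h3]
  exact Dvd.intro _ rfl

lemma dvd_del (i : D.I) (r s : Fin (D.v i)) (h : r ≠ s) :
    (xx D Z ⟨i, r⟩ - xx D Z ⟨i, s⟩) ∣ del D Z := by
  rcases lt_or_gt_of_ne h with h2 | h2
  · have h5 := (neg_dvd (α := S D Z)).2 (vdm_dvd_del' D Z i r s h2)
    rwa [neg_sub] at h5
  · exact vdm_dvd_del' D Z i s r h2

lemma cr_ne_zero {A C : Finset (B D)} (h : Disjoint A C) : cr D Z A C ≠ 0 := by
  rw [cr, Finset.prod_ne_zero_iff]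
  intro a ha
  rw [Finset.prod_ne_zero_iff]
  intro b hb
  split_ifs with h1
  · refine vdm_sub_ne D Z ?_
    rintro rfl
    exact (Finset.disjoint_left.1 h ha) hb
  · exact one_ne_zero

lemma act_cr (σ : W D) (A C : Finset (B D)) :
    act D Z σ (cr D Z A C) = cr D Z (mp D σ A) (mp D σ C) := by
  rw [cr, cr, mp, mp, Finset.prod_map, map_prod]
  refine Finset.prod_congr rfl fun a _ => ?_
  rw [Finset.prod_map, map_prod]
  refine Finset.prod_congr rfl fun b _ => ?_
  by_cases h1 : a.1 = b.1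
  · have h2 : ((perm D σ).toEmbedding a).1 = ((perm D σ).toEmbedding b).1 := h1
    rw [if_pos h1, if_pos h2, map_sub, act_xx, act_xx]
    rfl
  · have h2 : ¬ ((perm D σ).toEmbedding a).1 = ((perm D σ).toEmbedding b).1 := h1
    rw [if_neg h1, if_neg h2, map_one]

/-- `cr A C` is a product of distinct factors of `del` -/
lemma cr_dvd_del {A C : Finset (B D)} (h : Disjoint A C) : cr D Z A C ∣ del D Z := by
  have e : cr D Z A C = ∏ p ∈ A ×ˢ C, if p.1.1 = p.2.1 then xx D Z p.1 - xx D Z p.2 else 1 := by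
    rw [cr, Finset.prod_product]
  rw [e]
  have hne : ∀ p ∈ A ×ˢ C, p.1 ≠ p.2 := by
    intro p hp hpe
    rw [Finset.mem_product] at hp
    exact Finset.disjoint_left.1 h hp.1 (hpe ▸ hp.2)
  refine Finset.prod_dvd_of_isRelPrime ?_ fun p hp => ?_
  · intro p hp q hq hpq
    simp only [Function.onFun]
    split_ifs with h1 h2 h2
    · refine vdm_relPrime D Z (hne p hp) (hne q hq) ?_
      rintro (⟨h3, h4⟩ | ⟨h3, h4⟩)
      · exact hpq (Prod.ext h3.symm h4.symm)
      · have hp' := Finset.mem_product.1 hp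
        have hq' := Finset.mem_product.1 hq
        exact Finset.disjoint_left.1 h hq'.1 (h3 ▸ hp'.2)
    · exact isRelPrime_one_right
    · exact isRelPrime_one_left
    · exact isRelPrime_one_left
  · have hn := hne p hp
    obtain ⟨⟨i, r⟩, ⟨j, s⟩⟩ := p
    simp only at hn ⊢
    split_ifs with h1
    · subst h1
      exact dvd_del D Z i r s (fun h2 => hn (by rw [h2]))
    · exact one_dvd _

/-- the factor of `del` complementary to `cr A Aᶜ` -/
noncomputable def Dl (A : Finset (B D)) : S D Z := (cr_dvd_del D Z (disjoint_compl_right (a := A))).choose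

lemma Dl_spec (A : Finset (B D)) : del D Z = cr D Z A Aᶜ * Dl D Z A :=
  (cr_dvd_del D Z (disjoint_compl_right (a := A))).choose_spec

lemma Dl_ne_zero (A : Finset (B D)) : Dl D Z A ≠ 0 := by
  intro h
  have h1 := Dl_spec D Z A
  rw [h, mul_zero] at h1
  exact del_ne_zero D Z h1

lemma act_Dl (σ : W D) (A : Finset (B D)) :
    act D Z σ (Dl D Z A) = (sgn D σ : S D Z) * Dl D Z (mp D σ A) := by
  have h1 := congrArg (act D Z σ) (Dl_spec D Z A)
  rw [act_del, map_mul, act_cr, mp_compl] at h1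
  have h2 := Dl_spec D Z (mp D σ A)
  have h3 : cr D Z (mp D σ A) (mp D σ A)ᶜ ≠ 0 := cr_ne_zero D Z disjoint_compl_right
  refine mul_left_cancel₀ h3 ?_
  rw [← h1, h2]
  ring

/-- alternating families are divisible by `Dl` -/
lemma Dl_dvd {n : D.I → ℕ} {φ : Finset (B D) → S D Z} (h : φ ∈ AF D Z n) (A : Finset (B D)) :
    Dl D Z A ∣ φ A := by
  have h3 : cr D Z A Aᶜ ≠ 0 := cr_ne_zero D Z disjoint_compl_right
  have key : del D Z ∣ cr D Z A Aᶜ * φ A := by
    refine del_dvd D Z _ fun i r s hrs => ?_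
    -- membership in a factor
    have hfac : ∀ r s : Fin (D.v i), (⟨i, r⟩ : B D) ∈ A → (⟨i, s⟩ : B D) ∉ A →
        (xx D Z ⟨i, r⟩ - xx D Z ⟨i, s⟩) ∣ cr D Z A Aᶜ := by
      intro r s hr hs
      rw [cr]
      refine dvd_trans ?_ (Finset.dvd_prod_of_mem _ hr)
      refine dvd_trans ?_ (Finset.dvd_prod_of_mem _ (Finset.mem_compl.2 hs))
      rw [if_pos rfl]
    by_cases hr : (⟨i, r⟩ : B D) ∈ A
    · by_cases hs : (⟨i, s⟩ : B D) ∈ A
      · refine Dvd.dvd.mul_left (dvd_of_tr D Z i hrs ?_) _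
        rw [h.1, mp_tr D (by simp [hr, hs]), sgn_tr D i hrs]
        simp only [Int.reduceNeg, Int.cast_neg, Int.cast_one, neg_mul, one_mul]
      · exact Dvd.dvd.mul_right (hfac r s hr hs) _
    · by_cases hs : (⟨i, s⟩ : B D) ∈ A
      · have h5 := (neg_dvd (α := S D Z)).2 (hfac s r hs hr)
        rw [neg_sub] at h5
        exact Dvd.dvd.mul_right h5 _
      · refine Dvd.dvd.mul_left (dvd_of_tr D Z i hrs ?_) _
        rw [h.1, mp_tr D (by simp [hr, hs]), sgn_tr D i hrs]
        simp only [Int.reduceNeg, Int.cast_neg, Int.cast_one, neg_mul, one_mul]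
  rw [Dl_spec D Z A] at key
  exact (mul_dvd_mul_iff_left h3).1 key

/-- orbit sums are alternating families -/
lemma orb_mem (A₀ : Finset (B D)) (p : S D Z) : orb D Z A₀ p ∈ AF D Z (typ D A₀) := by
  refine ⟨fun σ A => ?_, fun A hA => ?_⟩
  · rw [orb, orb, map_sum, Finset.mul_sum]
    refine Finset.sum_bij' (fun τ _ => σ * τ) (fun τ _ => σ⁻¹ * τ)
      (fun τ _ => Finset.mem_univ _) (fun τ _ => Finset.mem_univ _)
      (fun τ _ => by rw [inv_mul_cancel_left]) (fun τ _ => by rw [mul_inv_cancel_left])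
      (fun τ _ => ?_)
    rw [mp_mul]
    by_cases h1 : mp D τ A₀ = A
    · rw [if_pos h1, if_pos (by rw [h1]), map_mul, map_intCast, act_mul, sgn_mul, ← mul_assoc,
        ← Int.cast_mul, ← mul_assoc, sgn_sq, one_mul]
    · rw [if_neg h1, if_neg (fun h2 => h1 (mp_inj D σ h2)), map_zero, mul_zero]
  · rw [orb]
    refine Finset.sum_eq_zero fun τ _ => ?_
    rw [if_neg]
    rintro rfl
    exact hA (typ_mp D τ A₀)

/-- an alternating family vanishing at one subset of its type is zero -/
lemma AF_eq_zero {n : D.I → ℕ} {φ : Finset (B D) → S D Z} (h : φ ∈ AF D Z n) {C : Finset (B D)}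
    (hC : typ D C = n) (h0 : φ C = 0) : φ = 0 := by
  funext A
  rw [Pi.zero_apply]
  by_cases hA : typ D A = n
  · obtain ⟨σ, hσ, -⟩ := exists_mp D (P := C) (q := ∅) (P' := A) (q' := ∅)
      (Finset.empty_subset _) (Finset.empty_subset _) (hC.trans hA.symm) rfl
    have h1 := h.1 σ C
    rw [h0, map_zero, hσ] at h1
    have h2 : ((sgn D σ : S D Z) * sgn D σ) * φ A = 0 := by
      rw [mul_assoc, ← h1, mul_zero]
    rwa [← Int.cast_mul, sgn_sq, Int.cast_one, one_mul] at h2
  · exact h.2 A hA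

end Vale.Agent.P291.H
end
end

section

section

end
end

section

section

set_option autoImplicit false
set_option linter.unusedSectionVars false

/-! Coefficients of products of two slots. -/

namespace Vale.Agent.P291.H

open MvPolynomial Vale.Agent.P291.G

variable {D : QData} {Z : Type} (w : Wts D Z)

lemma e_ne_zero (A : Finset (B D)) : e w A ≠ 0 := by
  rw [e, Finset.prod_ne_zero_iff]
  intro b hb
  rw [Finset.prod_ne_zero_iff]
  intro c hc
  apply w.h_ne
  rintro rfl
  exact (Finset.mem_compl.1 hc) hb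

lemma zs_ne_zero (A : Finset (B D)) : zs w A ≠ 0 := by
  rw [zs]
  exact Finset.prod_ne_zero_iff.2 fun b _ => w.z_ne b

lemma act_e (σ : W D) (A : Finset (B D)) : act D Z σ (e w A) = e w (mp D σ A) := by
  rw [e, e, map_prod]
  conv_rhs => rw [mp, Finset.prod_map]
  refine Finset.prod_congr rfl fun b _ => ?_
  rw [map_prod, ← mp, ← mp_compl, mp, Finset.prod_map]
  exact Finset.prod_congr rfl fun c _ => w.h_act σ b c

lemma act_zs (σ : W D) (A : Finset (B D)) : act D Z σ (zs w A) = zs w (mp D σ A) := by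
  rw [zs, zs, map_prod, mp, Finset.prod_map]
  exact Finset.prod_congr rfl fun c _ => w.z_act σ c

lemma slot_mul_slot (ε1 ε2 : ℕ) (φ ψ : Finset (B D) → S D Z) :
    slot w ε1 φ * slot w ε2 ψ = ∑ A, ∑ C, AddMonoidAlgebra.single (ind D A + ind D C)
      ((φ A * (e w A * zs w A ^ ε1)) * (ψ C * (e w C * zs w C ^ ε2))) := by
  simp only [slot, LinearMap.coe_mk, AddHom.coe_mk]
  rw [Finset.sum_mul]
  refine Finset.sum_congr rfl fun A _ => ?_
  rw [Finset.mul_sum]
  refine Finset.sum_congr rfl fun C _ => ?_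
  rw [AddMonoidAlgebra.single_mul_single]

/-- `ind A + ind C = ind P + ind q` (`q ⊆ P`) iff `P = A ∪ C`, `q = A ∩ C` -/
lemma ind_add_eq {A C P q : Finset (B D)} (hq : q ⊆ P) :
    ind D A + ind D C = ind D P + ind D q ↔ A ∪ C = P ∧ A ∩ C = q := by
  constructor
  · intro h
    have key : ∀ b, (if b ∈ A then (1 : ℤ) else 0) + (if b ∈ C then 1 else 0) =
        (if b ∈ P then 1 else 0) + (if b ∈ q then 1 else 0) := fun b => congrFun h b
    constructor
    · ext b
      have := key b
      have h2 := @hq b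
      rw [Finset.mem_union]
      by_cases hA : b ∈ A <;> by_cases hC : b ∈ C <;> by_cases hP : b ∈ P <;>
        by_cases hqq : b ∈ q <;> simp_all
    · ext b
      have := key b
      have h2 := @hq b
      rw [Finset.mem_inter]
      by_cases hA : b ∈ A <;> by_cases hC : b ∈ C <;> by_cases hP : b ∈ P <;>
        by_cases hqq : b ∈ q <;> simp_all
  · rintro ⟨rfl, rfl⟩
    funext b
    show (if b ∈ A then (1 : ℤ) else 0) + (if b ∈ C then 1 else 0) =
        (if b ∈ A ∪ C then 1 else 0) + (if b ∈ A ∩ C then 1 else 0)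
    by_cases hA : b ∈ A <;> by_cases hC : b ∈ C <;> simp [hA, hC]

lemma ind_union_inter (A C : Finset (B D)) :
    ind D A + ind D C = ind D (A ∪ C) + ind D (A ∩ C) := by
  exact (ind_add_eq (Finset.inter_subset_union)).2 ⟨rfl, rfl⟩

/-- the coefficient of `u^(P+q)`, before factorization -/
lemma coeff_slot_mul' (ε1 ε2 : ℕ) (φ ψ : Finset (B D) → S D Z) {P q : Finset (B D)} (hq : q ⊆ P) :
    (slot w ε1 φ * slot w ε2 ψ).coeff (ind D P + ind D q) = ∑ X ∈ (P \ q).powerset,
      (φ (q ∪ X) * (e w (q ∪ X) * zs w (q ∪ X) ^ ε1)) *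
        (ψ (P \ X) * (e w (P \ X) * zs w (P \ X) ^ ε2)) := by
  rw [slot_mul_slot, AddMonoidAlgebra.coeff_sum, Finsupp.finsetSum_apply]
  have h1 : ∀ A C : Finset (B D), ((AddMonoidAlgebra.single (ind D A + ind D C)
      ((φ A * (e w A * zs w A ^ ε1)) * (ψ C * (e w C * zs w C ^ ε2))) :
        AddMonoidAlgebra (S D Z) (B D → ℤ)).coeff) (ind D P + ind D q) =
      if A ∪ C = P ∧ A ∩ C = q then
        ((φ A * (e w A * zs w A ^ ε1)) * (ψ C * (e w C * zs w C ^ ε2))) else 0 := by
    intro A C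
    rw [AddMonoidAlgebra.coeff_single, Finsupp.single_apply]
    exact if_congr (ind_add_eq hq) rfl rfl
  have h2 : ∀ A : Finset (B D), (∑ C, AddMonoidAlgebra.single (ind D A + ind D C)
      ((φ A * (e w A * zs w A ^ ε1)) * (ψ C * (e w C * zs w C ^ ε2))) :
        AddMonoidAlgebra (S D Z) (B D → ℤ)).coeff (ind D P + ind D q) =
      if q ⊆ A ∧ A ⊆ P then ((φ A * (e w A * zs w A ^ ε1)) *
        (ψ (P \ (A \ q)) * (e w (P \ (A \ q)) * zs w (P \ (A \ q)) ^ ε2))) else 0 := by
    intro A
    rw [AddMonoidAlgebra.coeff_sum, Finsupp.finsetSum_apply]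
    simp only [h1]
    rw [Finset.sum_eq_single (P \ (A \ q))]
    · refine if_congr ?_ rfl rfl
      constructor
      · rintro ⟨h3, h4⟩
        constructor
        · rw [← h4]; exact Finset.inter_subset_left
        · rw [← h3]; exact Finset.subset_union_left
      · rintro ⟨h3, h4⟩
        constructor
        · ext b
          have e1 := @h3 b; have e2 := @h4 b; have e3 := @hq b
          simp only [Finset.mem_union, Finset.mem_sdiff]
          (clear * - e1 e2 e3; tauto)
        · ext b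
          have e1 := @h3 b; have e2 := @h4 b; have e3 := @hq b
          simp only [Finset.mem_inter, Finset.mem_sdiff]
          (clear * - e1 e2 e3; tauto)
    · intro C _ hC
      rw [if_neg]
      rintro ⟨rfl, rfl⟩
      apply hC
      ext b
      simp only [Finset.mem_union, Finset.mem_sdiff, Finset.mem_inter]
      (clear * -; tauto)
    · intro h; exact absurd (Finset.mem_univ _) h
  simp only [h2]
  rw [← Finset.sum_filter]
  symm
  refine Finset.sum_bij (fun X _ => q ∪ X) ?_ ?_ ?_ ?_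
  · intro X hX
    rw [Finset.mem_powerset] at hX
    rw [Finset.mem_filter]
    refine ⟨Finset.mem_univ _, Finset.subset_union_left, Finset.union_subset hq ?_⟩
    exact hX.trans Finset.sdiff_subset
  · intro X hX Y hY h
    rw [Finset.mem_powerset] at hX hY
    ext b
    have e1 := @hX b; have e2 := @hY b
    have e3 := Finset.ext_iff.1 h b
    simp only [Finset.mem_union, Finset.mem_sdiff] at e1 e2 e3
    (clear * - e1 e2 e3; tauto)
  · intro A hA
    rw [Finset.mem_filter] at hA
    refine ⟨A \ q, ?_, ?_⟩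
    · rw [Finset.mem_powerset]
      exact Finset.sdiff_subset_sdiff hA.2.2 subset_rfl
    · exact Finset.union_sdiff_of_subset hA.2.1
  · intro X hX
    rw [Finset.mem_powerset] at hX
    have : (q ∪ X) \ q = X := by
      ext b
      have e1 := @hX b
      simp only [Finset.mem_union, Finset.mem_sdiff] at e1 ⊢
      (clear * - e1; tauto)
    simp only [this]

/-- product of the pair weights over a product of two subsets -/
noncomputable def HH (U V : Finset (B D)) : S D Z := ∏ b ∈ U, ∏ c ∈ V, w.h b c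

lemma HH_union_left {U U' : Finset (B D)} (h : Disjoint U U') (V : Finset (B D)) :
    HH w (U ∪ U') V = HH w U V * HH w U' V := by
  rw [HH, Finset.prod_union h, HH, HH]

lemma HH_union_right (U : Finset (B D)) {V V' : Finset (B D)} (h : Disjoint V V') :
    HH w U (V ∪ V') = HH w U V * HH w U V' := by
  rw [HH, HH, HH, ← Finset.prod_mul_distrib]
  exact Finset.prod_congr rfl fun b _ => Finset.prod_union h

lemma e_eq_HH (A : Finset (B D)) : e w A = HH w A Aᶜ := rfl

lemma wgt_eq_HH (δ : ℕ) (X Y : Finset (B D)) :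
    wgt w δ X Y = HH w X Y * HH w Y X * zs w Y ^ δ := by
  have h : HH w Y X = ∏ b ∈ X, ∏ c ∈ Y, w.h c b := by rw [HH, Finset.prod_comm]
  rw [wgt, h, HH, ← Finset.prod_mul_distrib]
  congr 1
  exact Finset.prod_congr rfl fun b _ => Finset.prod_mul_distrib

lemma zs_union {U U' : Finset (B D)} (h : Disjoint U U') :
    zs w (U ∪ U') = zs w U * zs w U' := by
  rw [zs, Finset.prod_union h, zs, zs]

/-- factorization of the weights, for `X ⊆ P \ q`: with `Y = (P \ q) \ X`, `A = q ∪ X`, `C = P \ X`,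
`e A * e C = e P * e q * h(X,Y) h(Y,X)` and `z_A^ε1 z_C^ε2 = z_P^ε1 z_q^ε2 z_Y^(ε2-ε1)` -/
lemma weight_factor {ε1 ε2 : ℕ} (h : ε1 ≤ ε2) {P q X : Finset (B D)} (hq : q ⊆ P)
    (hX : X ⊆ P \ q) :
    (e w (q ∪ X) * zs w (q ∪ X) ^ ε1) * (e w (P \ X) * zs w (P \ X) ^ ε2) =
      (e w P * zs w P ^ ε1) * (e w q * zs w q ^ ε2) * wgt w (ε2 - ε1) X ((P \ q) \ X) := by
  set Y : Finset (B D) := (P \ q) \ X with hY
  have dqX : Disjoint q X := by
    rw [Finset.disjoint_left]
    intro b hb hx
    exact (Finset.mem_sdiff.1 (hX hx)).2 hb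
  have dqY : Disjoint q Y := by
    rw [Finset.disjoint_left]
    intro b hb hx
    exact (Finset.mem_sdiff.1 (Finset.mem_sdiff.1 hx).1).2 hb
  have dXY : Disjoint X Y := by
    rw [Finset.disjoint_left]
    intro b hb hx
    exact (Finset.mem_sdiff.1 hx).2 hb
  have hP : P = (q ∪ X) ∪ Y := by
    ext b
    have e1 := @hX b; have e2 := @hq b
    simp only [hY, Finset.mem_union, Finset.mem_sdiff] at e1 ⊢
    (clear * - e2 e1; tauto)
  have hC : P \ X = q ∪ Y := by
    ext b
    have e1 := @hX b; have e2 := @hq b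
    simp only [hY, Finset.mem_union, Finset.mem_sdiff] at e1 ⊢
    (clear * - e2 e1; tauto)
  have hAc : (q ∪ X)ᶜ = Pᶜ ∪ Y := by
    ext b
    have e1 := @hX b; have e2 := @hq b
    simp only [Finset.mem_sdiff, Finset.mem_compl, Finset.mem_union, hY] at e1 ⊢
    (clear * - e2 e1; tauto)
  have hCc : (q ∪ Y)ᶜ = Pᶜ ∪ X := by
    ext b
    have e1 := @hX b; have e2 := @hq b
    simp only [hY, Finset.mem_union, Finset.mem_sdiff, Finset.mem_compl] at e1 ⊢
    (clear * - e2 e1; tauto)
  have hqc : qᶜ = (Pᶜ ∪ X) ∪ Y := by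
    ext b
    have e1 := @hX b; have e2 := @hq b
    simp only [hY, Finset.mem_union, Finset.mem_sdiff, Finset.mem_compl] at e1 ⊢
    (clear * - e2 e1; tauto)
  have dPY : Disjoint Pᶜ Y := by
    rw [Finset.disjoint_left]
    intro b hb hx
    exact (Finset.mem_compl.1 hb) (Finset.mem_sdiff.1 (Finset.mem_sdiff.1 hx).1).1
  have dPX : Disjoint Pᶜ X := by
    rw [Finset.disjoint_left]
    intro b hb hx
    exact (Finset.mem_compl.1 hb) (Finset.mem_sdiff.1 (hX hx)).1
  have dPXY : Disjoint (Pᶜ ∪ X) Y := by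
    rw [Finset.disjoint_union_left]; exact ⟨dPY, dXY⟩
  have dqXY : Disjoint (q ∪ X) Y := by
    rw [Finset.disjoint_union_left]; exact ⟨dqY, dXY⟩
  have E1 : e w (q ∪ X) = (HH w q Pᶜ * HH w q Y) * (HH w X Pᶜ * HH w X Y) := by
    rw [e_eq_HH, hAc, HH_union_left w dqX, HH_union_right w _ dPY, HH_union_right w _ dPY]
  have E2 : e w (q ∪ Y) = (HH w q Pᶜ * HH w q X) * (HH w Y Pᶜ * HH w Y X) := by
    rw [e_eq_HH, hCc, HH_union_left w dqY, HH_union_right w _ dPX, HH_union_right w _ dPX]
  have E3 : e w P = HH w q Pᶜ * HH w X Pᶜ * HH w Y Pᶜ := by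
    rw [e_eq_HH]
    conv_lhs => rw [show HH w P Pᶜ = HH w ((q ∪ X) ∪ Y) Pᶜ by rw [← hP]]
    rw [HH_union_left w dqXY, HH_union_left w dqX]
  have E4 : e w q = HH w q Pᶜ * HH w q X * HH w q Y := by
    rw [e_eq_HH, hqc, HH_union_right w _ dPXY, HH_union_right w _ dPX]
  have Z1 : zs w (q ∪ X) = zs w q * zs w X := zs_union w dqX
  have Z2 : zs w (q ∪ Y) = zs w q * zs w Y := zs_union w dqY
  have Z3 : zs w P = zs w q * zs w X * zs w Y := by
    conv_lhs => rw [hP]
    rw [zs_union w dqXY, Z1]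
  obtain ⟨k, rfl⟩ := Nat.exists_eq_add_of_le h
  rw [hC, E1, E2, E3, E4, Z1, Z2, Z3, wgt_eq_HH, Nat.add_sub_cancel_left, pow_add, pow_add,
    mul_pow, mul_pow, mul_pow, mul_pow]
  ring

/-- the coefficient of `u^(P+q)` -/
lemma coeff_slot_mul {ε1 ε2 : ℕ} (h : ε1 ≤ ε2) (φ ψ : Finset (B D) → S D Z)
    {P q : Finset (B D)} (hq : q ⊆ P) :
    (slot w ε1 φ * slot w ε2 ψ).coeff (ind D P + ind D q) =
      (e w P * zs w P ^ ε1) * (e w q * zs w q ^ ε2) * GG w (ε2 - ε1) φ ψ P q := by
  rw [coeff_slot_mul' w ε1 ε2 φ ψ hq, GG, Finset.mul_sum]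
  refine Finset.sum_congr rfl fun X hX => ?_
  rw [Finset.mem_powerset] at hX
  have := weight_factor w h hq hX
  calc (φ (q ∪ X) * (e w (q ∪ X) * zs w (q ∪ X) ^ ε1)) *
        (ψ (P \ X) * (e w (P \ X) * zs w (P \ X) ^ ε2))
      = φ (q ∪ X) * ψ (P \ X) * ((e w (q ∪ X) * zs w (q ∪ X) ^ ε1) *
        (e w (P \ X) * zs w (P \ X) ^ ε2)) := by ring
    _ = _ := by rw [this]; ring

/-- a product of two slots is supported on the `ind P + ind q`, `q ⊆ P` -/
lemma coeff_slot_mul_ne {ε1 ε2 : ℕ} {φ ψ : Finset (B D) → S D Z} {l : B D → ℤ}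
    (h : (slot w ε1 φ * slot w ε2 ψ).coeff l ≠ 0) :
    ∃ P q : Finset (B D), q ⊆ P ∧ l = ind D P + ind D q := by
  rw [slot_mul_slot, AddMonoidAlgebra.coeff_sum, Finsupp.finsetSum_apply] at h
  obtain ⟨A, _, hA⟩ := Finset.exists_ne_zero_of_sum_ne_zero h
  rw [AddMonoidAlgebra.coeff_sum, Finsupp.finsetSum_apply] at hA
  obtain ⟨C, _, hC⟩ := Finset.exists_ne_zero_of_sum_ne_zero hA
  rw [AddMonoidAlgebra.coeff_single, Finsupp.single_apply] at hC
  refine ⟨A ∪ C, A ∩ C, Finset.inter_subset_union, ?_⟩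
  rw [← ind_union_inter]
  by_contra hne
  exact hC (if_neg fun h => hne h.symm)

/-- equivariance of the reduced coefficients -/
lemma act_GG {n1 n2 : D.I → ℕ} (δ : ℕ) {φ ψ : Finset (B D) → S D Z} (hφ : φ ∈ AF D Z n1)
    (hψ : ψ ∈ AF D Z n2) (σ : W D) (P q : Finset (B D)) :
    act D Z σ (GG w δ φ ψ P q) = GG w δ φ ψ (mp D σ P) (mp D σ q) := by
  have hsgn : ∀ a b : S D Z, (sgn D σ : S D Z) * a * ((sgn D σ : S D Z) * b) = a * b := by
    intro a b
    have h1 : (sgn D σ : S D Z) * (sgn D σ : S D Z) = 1 := by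
      have h2 := sgn_sq D σ
      rw [← Int.cast_mul, h2, Int.cast_one]
    calc (sgn D σ : S D Z) * a * ((sgn D σ : S D Z) * b)
        = ((sgn D σ : S D Z) * (sgn D σ : S D Z)) * (a * b) := by ring
      _ = a * b := by rw [h1, one_mul]
  have hwgt : ∀ X Y, act D Z σ (wgt w δ X Y) = wgt w δ (mp D σ X) (mp D σ Y) := by
    intro X Y
    rw [wgt, wgt, map_mul, map_pow, act_zs, map_prod]
    congr 1
    conv_rhs => rw [mp, Finset.prod_map]
    refine Finset.prod_congr rfl fun b _ => ?_
    rw [map_prod, mp, Finset.prod_map]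
    refine Finset.prod_congr rfl fun c _ => ?_
    rw [map_mul, w.h_act, w.h_act]
    rfl
  rw [GG, GG, map_sum]
  refine Finset.sum_bij (fun X _ => mp D σ X) ?_ ?_ ?_ ?_
  · intro X hX
    rw [Finset.mem_powerset] at hX ⊢
    rw [← mp_sdiff, mp_subset]
    exact hX
  · intro X _ Y _ h
    exact mp_inj D σ h
  · intro Y hY
    rw [Finset.mem_powerset] at hY
    refine ⟨mp D σ⁻¹ Y, ?_, ?_⟩
    · rw [Finset.mem_powerset, ← mp_subset D σ, ← mp_mul, mul_inv_cancel, mp_one, mp_sdiff]
      exact hY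
    · rw [← mp_mul, mul_inv_cancel, mp_one]
  · intro X _
    rw [map_mul, map_mul, hφ.1, hψ.1, hsgn, hwgt, mp_union, mp_sdiff, mp_sdiff, mp_sdiff]

/-- types in the reduced coefficients -/
lemma GG_ne {n1 n2 : D.I → ℕ} {δ : ℕ} {φ ψ : Finset (B D) → S D Z} (hφ : φ ∈ AF D Z n1)
    (hψ : ψ ∈ AF D Z n2) {P q : Finset (B D)} (hq : q ⊆ P) (h : GG w δ φ ψ P q ≠ 0) :
    typ D P + typ D q = n1 + n2 ∧ typ D q ≤ n1 ∧ typ D q ≤ n2 := by
  rw [GG] at h
  obtain ⟨X, hX, h1⟩ := Finset.exists_ne_zero_of_sum_ne_zero h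
  rw [Finset.mem_powerset] at hX
  have h2 : φ (q ∪ X) ≠ 0 := fun h0 => h1 (by rw [h0, zero_mul, zero_mul])
  have h3 : ψ (P \ X) ≠ 0 := fun h0 => h1 (by rw [h0, mul_zero, zero_mul])
  have h4 : typ D (q ∪ X) = n1 := by
    by_contra hne; exact h2 (hφ.2 _ hne)
  have h5 : typ D (P \ X) = n2 := by
    by_contra hne; exact h3 (hψ.2 _ hne)
  have h6 : (q ∪ X) ∪ (P \ X) = P := by
    ext b
    have e1 := @hX b; have e2 := @hq b
    simp only [Finset.mem_union, Finset.mem_sdiff] at e1 ⊢
    (clear * - e2 e1; tauto)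
  have h7 : (q ∪ X) ∩ (P \ X) = q := by
    ext b
    have e1 := @hX b; have e2 := @hq b
    simp only [Finset.mem_union, Finset.mem_sdiff, Finset.mem_inter] at e1 ⊢
    (clear * - e2 e1; tauto)
  refine ⟨?_, ?_, ?_⟩
  · have h8 := typ_union_inter D (q ∪ X) (P \ X)
    rw [h6, h7, h4, h5] at h8
    exact h8
  · rw [← h4]
    exact typ_mono D Finset.subset_union_left
  · rw [← h5]
    refine typ_mono D fun b hb => ?_
    rw [Finset.mem_sdiff]
    exact ⟨hq hb, fun hx => (Finset.mem_sdiff.1 (hX hx)).2 hb⟩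

/-- if moreover `q` has the type of `ψ`, only one term remains -/
lemma GG_top {n1 n2 : D.I → ℕ} {δ : ℕ} {φ ψ : Finset (B D) → S D Z} (hφ : φ ∈ AF D Z n1)
    (hψ : ψ ∈ AF D Z n2) {P q : Finset (B D)} (hq : q ⊆ P) (h : typ D q = n2) :
    GG w δ φ ψ P q = φ P * ψ q := by
  rw [GG, Finset.sum_eq_single (P \ q)]
  · rw [Finset.union_sdiff_of_subset hq, Finset.sdiff_sdiff_eq_self hq, sdiff_self, wgt, zs]
    simp only [Finset.bot_eq_empty, Finset.prod_empty, Finset.prod_const_one, one_pow, mul_one]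
  · intro X hX hne
    rw [Finset.mem_powerset] at hX
    by_cases h3 : typ D (P \ X) = n2
    · exfalso
      have h5 : q ⊆ P \ X := by
        intro b hb
        rw [Finset.mem_sdiff]
        exact ⟨hq hb, fun hx => (Finset.mem_sdiff.1 (hX hx)).2 hb⟩
      have h6 : q = P \ X := eq_of_subset D h5 (h.trans h3.symm)
      apply hne
      ext b
      have e1 := @hX b; have e2 := @hq b
      have e3 := Finset.ext_iff.1 h6 b
      simp only [Finset.mem_sdiff] at e1 e3 ⊢
      (clear * - e2 e1 e3; tauto)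
    · rw [hψ.2 _ h3, mul_zero, zero_mul]
  · intro hn
    exact absurd (Finset.mem_powerset.2 subset_rfl) hn

end Vale.Agent.P291.H
end
end

section

section

set_option autoImplicit false
set_option linter.unusedSectionVars false

/-! Regularity of the reduced coefficients. -/

namespace Vale.Agent.P291.H

open MvPolynomial Vale.Agent.P291.G

variable {D : QData} {Z : Type} (w : Wts D Z)

lemma rg_mem_swap {a b : B D} {τ : W D} (hτ : perm D τ = Equiv.swap a b) (A : Finset (B D))
    (x : B D) : x ∈ mp D τ A ↔ Equiv.swap a b x ∈ A := by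
  rw [mem_mp', hτ, Equiv.symm_swap]

lemma rg_mp_swap {a b : B D} (hab : a ≠ b) {τ : W D} (hτ : perm D τ = Equiv.swap a b)
    {P X : Finset (B D)} (ha : a ∈ P) (hb : b ∈ P) (haX : a ∉ X) (hbX : b ∉ X) :
    mp D τ (P \ insert a X) = P.erase b \ X := by
  ext x
  rw [rg_mem_swap hτ]
  by_cases h1 : x = a
  · subst h1
    rw [Equiv.swap_apply_left]
    simp only [Finset.mem_sdiff, hb, Finset.mem_insert, hab.symm, hbX, or_self, not_false_eq_true, and_self, Finset.mem_erase, ne_eq, hab, ha, haX]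
  · by_cases h2 : x = b
    · subst h2
      rw [Equiv.swap_apply_right]
      simp
    · rw [Equiv.swap_apply_of_ne_of_ne h1 h2]
      simp [h1, h2]

lemma rg_h {A : Type} [CommRing A] (π : S D Z →+* A) {a b : B D} {τ : W D}
    (hτ : perm D τ = Equiv.swap a b) (hπ : ∀ f, π (act D Z τ f) = π f) {x : B D} (h1 : x ≠ a)
    (h2 : x ≠ b) : π (w.h x b) = π (w.h x a) ∧ π (w.h b x) = π (w.h a x) := by
  constructor
  · rw [← hπ (w.h x a), w.h_act, hτ, Equiv.swap_apply_left, Equiv.swap_apply_of_ne_of_ne h1 h2]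
  · rw [← hπ (w.h a x), w.h_act, hτ, Equiv.swap_apply_left, Equiv.swap_apply_of_ne_of_ne h1 h2]

lemma rg_key {A : Type} [CommRing A] (π : S D Z →+* A) {a b : B D} (hab : a ≠ b) {τ : W D}
    (hτ : perm D τ = Equiv.swap a b) (hs : sgn D τ = -1) (hπ : ∀ f, π (act D Z τ f) = π f)
    (φ : Finset (B D) → S D Z) {ψ : Finset (B D) → S D Z} {n2 : D.I → ℕ} (hψ : ψ ∈ AF D Z n2)
    (δ : ℕ) {P q X : Finset (B D)} (ha : a ∈ P \ q) (hb : b ∈ P \ q)
    (hX : X ⊆ ((P \ q).erase a).erase b) :
    π (φ (q ∪ insert a X) * ψ (P \ insert a X) * wgt w δ (insert a X) ((P \ q) \ insert a X)) =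
      -π (w.h a b * w.h b a * w.z b ^ δ * ∏ d ∈ ((P \ q).erase a).erase b, w.h a d * w.h d a) *
        π (φ (insert a q ∪ X) * ψ (P.erase b \ X) *
          wgt w δ X ((P.erase b \ insert a q) \ X)) := by
  rw [Finset.mem_sdiff] at ha hb
  have haX : a ∉ X := fun h => by
    have := hX h
    simp only [Finset.mem_erase, ne_eq, not_true_eq_false, Finset.mem_sdiff, false_and, and_false] at this
  have hbX : b ∉ X := fun h => by
    have := hX h
    simp only [Finset.mem_erase, ne_eq, not_true_eq_false, Finset.mem_sdiff, false_and] at this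
  have e1 : q ∪ insert a X = insert a q ∪ X := by
    ext x; simp only [Finset.mem_union, Finset.mem_insert]; (clear * - ha hb; tauto)
  have e2 : π (ψ (P \ insert a X)) = -π (ψ (P.erase b \ X)) := by
    rw [← hπ, hψ.1, hs, rg_mp_swap hab hτ ha.1 hb.1 haX hbX, map_mul]
    simp
  have e3 : (P \ q) \ insert a X = insert b ((((P \ q).erase a).erase b) \ X) := by
    ext x
    simp only [Finset.mem_sdiff, Finset.mem_insert, Finset.mem_erase]
    by_cases h : x = b
    · subst h; simp [hb.1, hb.2, hbX, hab.symm]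
    · simp only [h, false_or, ne_eq, not_false_eq_true, true_and]; (clear * - ha hb; tauto)
  have e4 : (P.erase b \ insert a q) \ X = (((P \ q).erase a).erase b) \ X := by
    ext x
    simp only [Finset.mem_sdiff, Finset.mem_insert, Finset.mem_erase]
    (clear * - ha hb; tauto)
  have hbY : b ∉ (((P \ q).erase a).erase b) \ X := by simp only [Finset.mem_sdiff, Finset.mem_erase, ne_eq, not_true_eq_false, false_and, not_false_eq_true]
  have hne : ∀ d ∈ ((P \ q).erase a).erase b, d ≠ a ∧ d ≠ b := by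
    intro d hd
    simp only [Finset.mem_erase] at hd
    exact ⟨hd.2.1, hd.1⟩
  rw [e1, e3, e4, ← Finset.prod_sdiff hX]
  set Y := (((P \ q).erase a).erase b) \ X with hY
  have e5 : π (∏ x ∈ X, (w.h x b * w.h b x)) = π (∏ x ∈ X, (w.h a x * w.h x a)) := by
    rw [map_prod, map_prod]
    refine Finset.prod_congr rfl fun x hx => ?_
    obtain ⟨h1, h2⟩ := rg_h w π hτ hπ (hne x (hX hx)).1 (hne x (hX hx)).2
    rw [map_mul, map_mul, h1, h2, mul_comm]
  have e6 : wgt w δ (insert a X) (insert b Y) = (w.h a b * w.h b a) *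
      (∏ c ∈ Y, (w.h a c * w.h c a)) * (∏ x ∈ X, (w.h x b * w.h b x)) * w.z b ^ δ *
      wgt w δ X Y := by
    rw [wgt, wgt, zs, Finset.prod_insert haX, Finset.prod_insert hbY, Finset.prod_insert hbY]
    have : ∀ x ∈ X, ∏ c ∈ insert b Y, w.h x c * w.h c x =
        (w.h x b * w.h b x) * ∏ c ∈ Y, w.h x c * w.h c x := fun x _ => Finset.prod_insert hbY
    have h7 : ∏ x ∈ X, ((w.h x b * w.h b x) * ∏ c ∈ Y, w.h x c * w.h c x) =
        (∏ x ∈ X, (w.h x b * w.h b x)) * ∏ x ∈ X, ∏ c ∈ Y, w.h x c * w.h c x :=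
      Finset.prod_mul_distrib
    rw [Finset.prod_congr rfl this, h7, mul_pow, zs]
    ring
  rw [e6]
  simp only [map_mul] at e5 ⊢
  rw [e2, e5]
  ring

lemma rg_sum {A : Type} [CommRing A] (π : S D Z →+* A) {a b : B D} (hab : a ≠ b) {τ : W D}
    (hτ : perm D τ = Equiv.swap a b) (hs : sgn D τ = -1) (hπ : ∀ f, π (act D Z τ f) = π f)
    {J : Type} (s : Finset J) (n2 : J → D.I → ℕ) (φ ψ : J → Finset (B D) → S D Z)
    (hψ : ∀ j, ψ j ∈ AF D Z (n2 j)) (δ : ℕ)
    {P q : Finset (B D)} (ha : a ∈ P \ q) (hb : b ∈ P \ q)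
    (H : ∑ j ∈ s, GG w δ (φ j) (ψ j) (P.erase b) (insert a q) = 0) :
    ∑ j ∈ s, ∑ X ∈ (((P \ q).erase a).erase b).powerset,
      π (φ j (q ∪ insert a X) * ψ j (P \ insert a X) *
        wgt w δ (insert a X) ((P \ q) \ insert a X)) = 0 := by
  have e : (P.erase b) \ (insert a q) = ((P \ q).erase a).erase b := by
    ext x
    simp only [Finset.mem_sdiff, Finset.mem_insert, Finset.mem_erase]
    (clear * -; tauto)
  have h1 := congrArg π H
  rw [map_zero] at h1
  rw [← mul_zero (-π (w.h a b * w.h b a * w.z b ^ δ *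
    ∏ d ∈ ((P \ q).erase a).erase b, w.h a d * w.h d a)), ← h1, map_sum, Finset.mul_sum]
  refine Finset.sum_congr rfl fun j _ => ?_
  rw [GG, map_sum, Finset.mul_sum, e]
  refine Finset.sum_congr rfl fun X hX => ?_
  rw [rg_key w π hab hτ hs hπ (φ j) (hψ j) δ ha hb (Finset.mem_powerset.1 hX), e]

lemma rg_prop {aq aP aX bq bP bX : Prop} (h1 : aq → aP) (h2 : bq → bP) (h3 : aX → aP ∧ ¬aq)
    (h4 : bX → bP ∧ ¬bq) (hc1 : ¬(aq ∧ ¬bP)) (hc2 : ¬(bq ∧ ¬aP))
    (hc3 : ¬((aP ∧ ¬aq) ∧ (bP ∧ ¬bq))) :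
    ((aq ∨ aX) ↔ (bq ∨ bX)) ∨ ((aP ∧ ¬aX) ↔ (bP ∧ ¬bX)) := by
  by_cases haP : aP
  · by_cases hbP : bP
    · by_cases haq : aq
      · by_cases hbq : bq
        · exact Or.inl ⟨fun _ => Or.inl hbq, fun _ => Or.inl haq⟩
        · by_cases hbX : bX
          · exact Or.inl ⟨fun _ => Or.inr hbX, fun _ => Or.inl haq⟩
          · exact Or.inr ⟨fun _ => ⟨hbP, hbX⟩, fun _ => ⟨haP, fun h => (h3 h).2 haq⟩⟩
      · by_cases hbq : bq
        · by_cases haX : aX
          · exact Or.inl ⟨fun _ => Or.inl hbq, fun _ => Or.inr haX⟩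
          · exact Or.inr ⟨fun _ => ⟨hbP, fun h => (h4 h).2 hbq⟩, fun _ => ⟨haP, haX⟩⟩
        · exact absurd ⟨⟨haP, haq⟩, hbP, hbq⟩ hc3
    · by_cases haX : aX
      · exact Or.inr ⟨fun h => absurd haX h.2, fun h => absurd h.1 hbP⟩
      · refine Or.inl ⟨fun h => ?_, fun h => ?_⟩
        · rcases h with h | h
          · exact absurd ⟨h, hbP⟩ hc1
          · exact absurd h haX
        · rcases h with h | h
          · exact absurd (h2 h) hbP
          · exact absurd (h4 h).1 hbP
  · by_cases hbX : bX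
    · exact Or.inr ⟨fun h => absurd h.1 haP, fun h => absurd hbX h.2⟩
    · refine Or.inl ⟨fun h => ?_, fun h => ?_⟩
      · rcases h with h | h
        · exact absurd (h1 h) haP
        · exact absurd (h3 h).1 haP
      · rcases h with h | h
        · exact absurd ⟨h, haP⟩ hc2
        · exact absurd h hbX

lemma rg_split {M : Type} [AddCommMonoid M] (F : Finset (B D) → M) {a b : B D}
    {T R : Finset (B D)} (hT : T = insert a (insert b R)) (ha : a ∉ insert b R) (hb : b ∉ R)
    (h0 : ∀ X ⊆ R, F X = 0) (h3 : ∀ X ⊆ R, F (insert a (insert b X)) = 0) :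
    ∑ X ∈ T.powerset, F X =
      ∑ X ∈ R.powerset, F (insert a X) + ∑ X ∈ R.powerset, F (insert b X) := by
  rw [hT, Finset.sum_powerset_insert ha, Finset.sum_powerset_insert hb,
    Finset.sum_powerset_insert hb,
    Finset.sum_eq_zero (fun X hX => h0 X (Finset.mem_powerset.1 hX)),
    Finset.sum_eq_zero (s := R.powerset) (f := fun X => F (insert a (insert b X)))
      (fun X hX => h3 X (Finset.mem_powerset.1 hX)), zero_add, add_zero, add_comm]

lemma rg_dvd_cr {a b : B D} {A C : Finset (B D)} (ha : a ∈ A) (hb : b ∈ C) (h : a.1 = b.1) :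
    (xx D Z a - xx D Z b) ∣ cr D Z A C := by
  have h1 : (xx D Z a - xx D Z b) ∣
      ∏ b ∈ C, if a.1 = b.1 then xx D Z a - xx D Z b else 1 := by
    have := Finset.dvd_prod_of_mem (fun b => if a.1 = b.1 then xx D Z a - xx D Z b else 1) hb
    rwa [if_pos h] at this
  exact h1.trans (Finset.dvd_prod_of_mem
    (fun a => ∏ b ∈ C, if a.1 = b.1 then xx D Z a - xx D Z b else 1) ha)

lemma rg_special {A : Type} [CommRing A] (π : S D Z →+* A) {a b : B D} (hab : a ≠ b) {τ : W D}
    (hτ : perm D τ = Equiv.swap a b) (hsg : sgn D τ = -1) (hπ : ∀ f, π (act D Z τ f) = π f)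
    (hz : ∀ {n : D.I → ℕ} {χ : Finset (B D) → S D Z} (_ : χ ∈ AF D Z n) (C : Finset (B D))
        (_ : a ∈ C ↔ b ∈ C), π (χ C) = 0)
    {J : Type} (s : Finset J) (n1 n2 : J → D.I → ℕ) (φ ψ : J → Finset (B D) → S D Z)
    (hφ : ∀ j, φ j ∈ AF D Z (n1 j)) (hψ : ∀ j, ψ j ∈ AF D Z (n2 j)) (δ : ℕ)
    {P q : Finset (B D)} (ha1 : a ∈ P \ q) (hb1 : b ∈ P \ q)
    (H1 : ∑ j ∈ s, GG w δ (φ j) (ψ j) (P.erase b) (insert a q) = 0)
    (H2 : ∑ j ∈ s, GG w δ (φ j) (ψ j) (P.erase a) (insert b q) = 0) :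
    π (∑ j ∈ s, GG w δ (φ j) (ψ j) P q) = 0 := by
  have h1 := rg_sum w π hab hτ hsg hπ s n2 φ ψ hψ δ ha1 hb1 H1
  have h2 := rg_sum w π hab.symm (hτ.trans (Equiv.swap_comm a b)) hsg hπ s n2 φ ψ hψ δ hb1 ha1 H2
  rw [Finset.erase_right_comm] at h2
  set R := ((P \ q).erase a).erase b with hR
  have haR : a ∉ insert b R := by simp only [hR, Finset.mem_insert, hab, Finset.mem_erase, ne_eq, not_false_eq_true, not_true_eq_false, Finset.mem_sdiff, false_and, and_false, or_self]
  have hbR : b ∉ R := by simp only [hR, Finset.mem_erase, ne_eq, not_true_eq_false, Finset.mem_sdiff, false_and, not_false_eq_true]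
  have hPq : P \ q = insert a (insert b R) := by
    rw [hR, Finset.insert_erase (Finset.mem_erase.2 ⟨hab.symm, hb1⟩), Finset.insert_erase ha1]
  have h3 : ∀ j ∈ s, π (GG w δ (φ j) (ψ j) P q) =
      ∑ X ∈ R.powerset, π (φ j (q ∪ insert a X) * ψ j (P \ insert a X) *
        wgt w δ (insert a X) ((P \ q) \ insert a X)) +
      ∑ X ∈ R.powerset, π (φ j (q ∪ insert b X) * ψ j (P \ insert b X) *
        wgt w δ (insert b X) ((P \ q) \ insert b X)) := by
    intro j _
    rw [GG, map_sum]
    refine rg_split (fun X => π (φ j (q ∪ X) * ψ j (P \ X) * wgt w δ X ((P \ q) \ X)))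
      hPq haR hbR (fun X hX => ?_) (fun X hX => ?_)
    · have ha2 : a ∉ q ∪ X := by
        rw [Finset.mem_union, not_or]
        refine ⟨(Finset.mem_sdiff.1 ha1).2, fun h => haR (Finset.mem_insert_of_mem (hX h))⟩
      have hb2 : b ∉ q ∪ X := by
        rw [Finset.mem_union, not_or]
        exact ⟨(Finset.mem_sdiff.1 hb1).2, fun h => hbR (hX h)⟩
      show π (φ j (q ∪ X) * ψ j (P \ X) * wgt w δ X ((P \ q) \ X)) = 0
      rw [map_mul, map_mul, hz (hφ j) _ ⟨fun h => absurd h ha2, fun h => absurd h hb2⟩, zero_mul,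
        zero_mul]
    · have ha2 : a ∈ q ∪ insert a (insert b X) := by simp only [Finset.union_insert, Finset.mem_insert, Finset.mem_union, true_or]
      have hb2 : b ∈ q ∪ insert a (insert b X) := by simp only [Finset.union_insert, Finset.mem_insert, Finset.mem_union, true_or, or_true]
      show π (φ j (q ∪ insert a (insert b X)) * ψ j (P \ insert a (insert b X)) *
        wgt w δ (insert a (insert b X)) ((P \ q) \ insert a (insert b X))) = 0
      rw [map_mul, map_mul, hz (hφ j) _ ⟨fun _ => hb2, fun _ => ha2⟩, zero_mul, zero_mul]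
  rw [map_sum, Finset.sum_congr rfl h3, Finset.sum_add_distrib, h1, h2, add_zero]

/-- REGULARITY. Put `G P q = ∑ j ∈ s, GG w δ (φ j) (ψ j) P q`. If `G (P \ c) (q ∪ b) = 0` for all
`b ≠ c` in `P \ q` at the same vertex, then `del` divides `G P q * cr q Pᶜ`. -/
theorem reg {J : Type} (s : Finset J) (n1 n2 : J → D.I → ℕ) (φ ψ : J → Finset (B D) → S D Z)
    (hφ : ∀ j, φ j ∈ AF D Z (n1 j)) (hψ : ∀ j, ψ j ∈ AF D Z (n2 j)) (δ : ℕ)
    {P q : Finset (B D)} (hq : q ⊆ P)
    (H : ∀ b ∈ P \ q, ∀ c ∈ P \ q, b ≠ c → b.1 = c.1 →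
      ∑ j ∈ s, GG w δ (φ j) (ψ j) (P.erase c) (insert b q) = 0) :
    del D Z ∣ (∑ j ∈ s, GG w δ (φ j) (ψ j) P q) * cr D Z q Pᶜ := by
  refine del_dvd D Z _ fun i r t hrt => ?_
  set a : B D := ⟨i, r⟩ with ha
  set b : B D := ⟨i, t⟩ with hb
  have hab : a ≠ b := by
    intro h
    rw [ha, hb, Sigma.mk.injEq] at h
    exact hrt (eq_of_heq h.2)
  have hτ : perm D (tr D i r t) = Equiv.swap a b := perm_tr D i r t
  have hsg : sgn D (tr D i r t) = -1 := sgn_tr D i hrt
  -- a term is divisible if the two vectors are both in or both out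
  have hdiv : ∀ {n : D.I → ℕ} {χ : Finset (B D) → S D Z} (_ : χ ∈ AF D Z n) (C : Finset (B D))
      (_ : a ∈ C ↔ b ∈ C), (xx D Z a - xx D Z b) ∣ χ C := by
    intro n χ hχ C hC
    refine dvd_of_tr D Z i hrt ?_
    rw [hχ.1, hsg, mp_tr D hC]
    simp only [Int.reduceNeg, Int.cast_neg, Int.cast_one, neg_mul, one_mul]
  by_cases hc1 : a ∈ q ∧ b ∉ P
  · refine Dvd.dvd.mul_left ?_ _
    exact rg_dvd_cr hc1.1 (Finset.mem_compl.2 hc1.2) rfl
  by_cases hc2 : b ∈ q ∧ a ∉ P
  · refine Dvd.dvd.mul_left ?_ _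
    rw [← neg_sub, neg_dvd]
    exact rg_dvd_cr hc2.1 (Finset.mem_compl.2 hc2.2) rfl
  refine Dvd.dvd.mul_right ?_ _
  by_cases hc3 : a ∈ P \ q ∧ b ∈ P \ q
  · -- the special case
    set I : Ideal (S D Z) := Ideal.span {xx D Z a - xx D Z b} with hI
    rw [← Ideal.mem_span_singleton, ← hI, ← Ideal.Quotient.eq_zero_iff_mem]
    set π := Ideal.Quotient.mk I with hπd
    have hπ : ∀ f, π (act D Z (tr D i r t) f) = π f := by
      intro f
      rw [hπd, Ideal.Quotient.eq, hI, Ideal.mem_span_singleton]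
      exact dvd_sub_tr D Z i hrt f
    have hz : ∀ {n : D.I → ℕ} {χ : Finset (B D) → S D Z} (_ : χ ∈ AF D Z n) (C : Finset (B D))
        (_ : a ∈ C ↔ b ∈ C), π (χ C) = 0 := by
      intro n χ hχ C hC
      rw [hπd, Ideal.Quotient.eq_zero_iff_mem, hI, Ideal.mem_span_singleton]
      exact hdiv hχ C hC
    exact rg_special w π hab hτ hsg hπ (fun hχ C hC => hz hχ C hC) s n1 n2 φ ψ hφ hψ δ hc3.1 hc3.2
      (H a hc3.1 b hc3.2 hab rfl) (H b hc3.2 a hc3.1 hab.symm rfl)
  · refine Finset.dvd_sum fun j _ => Finset.dvd_sum fun X hX => ?_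
    rw [Finset.mem_powerset] at hX
    have hXa : a ∈ X → a ∈ P ∧ a ∉ q := fun h => Finset.mem_sdiff.1 (hX h)
    have hXb : b ∈ X → b ∈ P ∧ b ∉ q := fun h => Finset.mem_sdiff.1 (hX h)
    have hqa : a ∈ q → a ∈ P := fun h => hq h
    have hqb : b ∈ q → b ∈ P := fun h => hq h
    rw [Finset.mem_sdiff, Finset.mem_sdiff] at hc3
    have key : (a ∈ q ∪ X ↔ b ∈ q ∪ X) ∨ (a ∈ P \ X ↔ b ∈ P \ X) := by
      rw [Finset.mem_union, Finset.mem_union, Finset.mem_sdiff, Finset.mem_sdiff]
      exact rg_prop hqa hqb hXa hXb hc1 hc2 hc3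
    rcases key with h | h
    · exact Dvd.dvd.mul_right (Dvd.dvd.mul_right (hdiv (hφ j) _ h) _) _
    · exact Dvd.dvd.mul_right (Dvd.dvd.mul_left (hdiv (hψ j) _ h) _) _

end Vale.Agent.P291.H
end
end

section

section

set_option autoImplicit false
set_option linter.unusedSectionVars false

/-! Lifting a function on the nested pairs `q ⊆ P` to products of alternating families. -/

namespace Vale.Agent.P291.H

open MvPolynomial Vale.Agent.P291.G

variable (D : QData) (Z : Type)

/-- pairs of basis vectors at the same vertex, one in `P \ q` and one outside `P` -/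
def prs (P q : Finset (B D)) : Finset (B D × B D) :=
  ((P \ q) ×ˢ Pᶜ).filter fun p => p.1.1 = p.2.1

lemma cr_eq_prs (P q : Finset (B D)) :
    cr D Z (P \ q) Pᶜ = ∏ p ∈ prs D P q, (xx D Z p.1 - xx D Z p.2) := by
  rw [cr, prs, Finset.prod_filter, Finset.prod_product]

lemma mem_prs {P q : Finset (B D)} {p : B D × B D} :
    p ∈ prs D P q ↔ (p.1 ∈ P \ q ∧ p.2 ∉ P) ∧ p.1.1 = p.2.1 := by
  rw [prs, Finset.mem_filter, Finset.mem_product, Finset.mem_compl]

/-- reindexing of the product in the second variable -/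
lemma prod_prs_snd {P : Finset (B D)} (q : Finset (B D)) {τ : W D} (hτ : mp D τ P = P)
    (f g : B D → S D Z) :
    ∏ p ∈ prs D P q, (f p.1 - g (perm D τ p.2)) = ∏ p ∈ prs D P q, (f p.1 - g p.2) := by
  refine Finset.prod_equiv (Equiv.prodCongr (Equiv.refl _) (perm D τ)) ?_ ?_
  · intro p
    rw [mem_prs, mem_prs]
    have h1 : perm D τ p.2 ∉ P ↔ p.2 ∉ P := by
      rw [← mem_mp D τ P p.2, hτ]
    simp only [Equiv.prodCongr_apply, Prod.map_fst, Prod.map_snd, Equiv.refl_apply, h1, perm_fst]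
  · intro p _
    rfl

/-- reindexing of the product in the first variable -/
lemma prod_prs_fst {P q : Finset (B D)} {σ : W D} (hσ : mp D σ P = P) (hσ' : mp D σ q = q)
    (f g : B D → S D Z) :
    ∏ p ∈ prs D P q, (f (perm D σ p.1) - g p.2) = ∏ p ∈ prs D P q, (f p.1 - g p.2) := by
  refine Finset.prod_equiv (Equiv.prodCongr (perm D σ) (Equiv.refl _)) ?_ ?_
  · intro p
    rw [mem_prs, mem_prs]
    have h1 : perm D σ p.1 ∈ P \ q ↔ p.1 ∈ P \ q := by
      rw [← mem_mp D σ (P \ q) p.1, mp_sdiff, hσ, hσ']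
    simp only [Equiv.prodCongr_apply, Prod.map_fst, Prod.map_snd, Equiv.refl_apply, h1, perm_fst]
  · intro p _
    rfl

/-- the product vanishes unless `P` is fixed -/
lemma prod_prs_zero {P q : Finset (B D)} (hq : q ⊆ P) {σ : W D} (hσ' : mp D σ q = q)
    (hσ : mp D σ P ≠ P) : ∏ p ∈ prs D P q, (xx D Z (perm D σ p.1) - xx D Z p.2) = 0 := by
  obtain ⟨a, haP, ha⟩ : ∃ a ∈ P, perm D σ a ∉ P := by
    by_contra hcon
    push Not at hcon
    apply hσ
    refine Finset.eq_of_subset_of_card_le ?_ ?_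
    · intro b hb
      rw [mem_mp'] at hb
      have := hcon _ hb
      rwa [Equiv.apply_symm_apply] at this
    · rw [mp, Finset.card_map]
  have haq : a ∉ q := by
    intro h
    apply ha
    apply hq
    rw [← hσ', mem_mp]
    exact h
  refine Finset.prod_eq_zero (i := (a, perm D σ a)) ?_ (sub_self _)
  rw [mem_prs]
  exact ⟨⟨Finset.mem_sdiff.2 ⟨haP, haq⟩, ha⟩, (perm_fst D σ a).symm⟩

/-- first factors -/
noncomputable def liftP (P q : Finset (B D)) (t : Finset (B D × B D)) : Finset (B D) → S D Z :=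
  orb D Z P (Dl D Z P * ∏ p ∈ prs D P q \ t, (-xx D Z p.2))

/-- second factors -/
noncomputable def liftQ (q : Finset (B D)) (t : Finset (B D × B D)) (K : S D Z) :
    Finset (B D) → S D Z :=
  orb D Z q ((∏ p ∈ t, xx D Z p.1) * K)

/-- the constant -/
noncomputable def liftc (P q : Finset (B D)) : ℕ :=
  (Finset.univ.filter fun σ : W D => mp D σ P = P).card *
    (Finset.univ.filter fun σ : W D => mp D σ P = P ∧ mp D σ q = q).card

lemma liftc_ne_zero (P q : Finset (B D)) : liftc D P q ≠ 0 := by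
  rw [liftc]
  refine mul_ne_zero (Finset.card_ne_zero_of_mem (a := 1) ?_)
    (Finset.card_ne_zero_of_mem (a := 1) ?_)
  · rw [Finset.mem_filter]
    exact ⟨Finset.mem_univ _, mp_one D P⟩
  · rw [Finset.mem_filter]
    exact ⟨Finset.mem_univ _, mp_one D P, mp_one D q⟩

lemma liftP_mem (P q : Finset (B D)) (t : Finset (B D × B D)) :
    liftP D Z P q t ∈ AF D Z (typ D P) := orb_mem D Z _ _

lemma liftQ_mem (q : Finset (B D)) (t : Finset (B D × B D)) (K : S D Z) :
    liftQ D Z q t K ∈ AF D Z (typ D q) := orb_mem D Z _ _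

/-- value of the orbit sum at the base subset -/
lemma orb_self (A₀ : Finset (B D)) (p : S D Z) : orb D Z A₀ p A₀ =
    ∑ τ ∈ Finset.univ.filter fun τ : W D => mp D τ A₀ = A₀, (sgn D τ : S D Z) * act D Z τ p := by
  rw [orb, Finset.sum_filter]

/-- LIFT. If `K` is alternating under the common stabilizer of `q ⊆ P` then
`∑_t liftP_t(P) liftQ_t(q) = c * Dl P * cr (P \ q) Pᶜ * K`.

Proof. By `orb_self` and `∏_{p ∈ prs} (y p.1 - z p.2) = ∑_{t ⊆ prs} ∏_{p ∈ t} y p.1 *
∏_{p ∈ prs \ t} (- z p.2)` (`Finset.prod_add`/`Finset.prod_sub`) the left side is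
`∑_{τ, mp τ P = P} ∑_{σ, mp σ q = q} sgn τ sgn σ τ(Dl P) σ(K) ∏_{p ∈ prs} (x (σ p.1) - x (τ p.2))`.
`τ (Dl P) = sgn τ Dl P` (`act_Dl`). Reindexing the product by `τ` (which permutes the complement
of `P` at each vertex) gives `∏_{p ∈ prs} (x (σ p.1) - x p.2)`, independent of `τ`. This product
vanishes unless `σ` maps `P \ q` into `P` (if `σ a = b ∉ P`, `a ∈ P \ q`, then `(a, b) ∈ prs`),
and as `σ` fixes `q` this means `mp σ P = P`. For such `σ` the product is the one for `σ = 1` and
`σ K = sgn σ K`. -/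
theorem lift {P q : Finset (B D)} (hq : q ⊆ P) {K : S D Z}
    (hK : ∀ σ, mp D σ P = P → mp D σ q = q → act D Z σ K = (sgn D σ : S D Z) * K) :
    ∑ t ∈ (prs D P q).powerset, liftP D Z P q t P * liftQ D Z q t K q =
      (liftc D P q : S D Z) * (Dl D Z P * cr D Z (P \ q) Pᶜ * K) := by
  classical
  have sq1 : ∀ σ : W D, (sgn D σ : S D Z) * (sgn D σ : S D Z) = 1 := fun σ => by
    rw [← Int.cast_mul, sgn_sq, Int.cast_one]
  -- the term for `τ, σ`
  have key : ∀ τ σ : W D, mp D τ P = P →
      ∑ t ∈ (prs D P q).powerset, ((sgn D τ : S D Z) * act D Z τ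
        (Dl D Z P * ∏ p ∈ prs D P q \ t, (-xx D Z p.2))) * ((sgn D σ : S D Z) * act D Z σ
          ((∏ p ∈ t, xx D Z p.1) * K)) =
      Dl D Z P * ((sgn D σ : S D Z) * act D Z σ K *
        ∏ p ∈ prs D P q, (xx D Z (perm D σ p.1) - xx D Z p.2)) := by
    intro τ σ hτ
    have e1 : ∏ p ∈ prs D P q, (xx D Z (perm D σ p.1) - xx D Z p.2) =
        ∑ t ∈ (prs D P q).powerset, (∏ p ∈ t, xx D Z (perm D σ p.1)) *
          ∏ p ∈ prs D P q \ t, (-xx D Z (perm D τ p.2)) := by
      rw [← prod_prs_snd D Z q hτ (fun b => xx D Z (perm D σ b)) (xx D Z), ← Finset.prod_add]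
      exact Finset.prod_congr rfl fun p _ => sub_eq_add_neg _ _
    rw [e1, Finset.mul_sum, Finset.mul_sum]
    refine Finset.sum_congr rfl fun t _ => ?_
    have e2 : act D Z τ (∏ p ∈ prs D P q \ t, (-xx D Z p.2)) =
        ∏ p ∈ prs D P q \ t, (-xx D Z (perm D τ p.2)) := by
      rw [map_prod]
      exact Finset.prod_congr rfl fun p _ => by rw [map_neg, act_xx]
    have e3 : act D Z σ (∏ p ∈ t, xx D Z p.1) = ∏ p ∈ t, xx D Z (perm D σ p.1) := by
      rw [map_prod]
      exact Finset.prod_congr rfl fun p _ => by rw [act_xx]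
    rw [map_mul, map_mul, e2, e3, act_Dl, hτ]
    linear_combination ((Dl D Z P) * (sgn D σ : S D Z) * act D Z σ K *
      (∏ p ∈ t, xx D Z (perm D σ p.1)) *
      (∏ p ∈ prs D P q \ t, (-xx D Z (perm D τ p.2)))) * sq1 τ
  calc ∑ t ∈ (prs D P q).powerset, liftP D Z P q t P * liftQ D Z q t K q
      = ∑ τ ∈ Finset.univ.filter fun τ : W D => mp D τ P = P,
          ∑ σ ∈ Finset.univ.filter fun σ : W D => mp D σ q = q,
          Dl D Z P * ((sgn D σ : S D Z) * act D Z σ K *
            ∏ p ∈ prs D P q, (xx D Z (perm D σ p.1) - xx D Z p.2)) := by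
        simp only [liftP, orb_self, liftQ, Finset.sum_mul_sum]
        rw [Finset.sum_comm]
        refine Finset.sum_congr rfl fun τ hτ => ?_
        rw [Finset.sum_comm]
        refine Finset.sum_congr rfl fun σ _ => ?_
        exact key τ σ (Finset.mem_filter.1 hτ).2
    _ = ((Finset.univ.filter fun σ : W D => mp D σ P = P).card : S D Z) *
          ∑ σ ∈ Finset.univ.filter fun σ : W D => mp D σ q = q,
          Dl D Z P * ((sgn D σ : S D Z) * act D Z σ K *
            ∏ p ∈ prs D P q, (xx D Z (perm D σ p.1) - xx D Z p.2)) := by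
        rw [Finset.sum_const, nsmul_eq_mul]
    _ = ((Finset.univ.filter fun σ : W D => mp D σ P = P).card : S D Z) *
          ∑ σ ∈ Finset.univ.filter fun σ : W D => mp D σ P = P ∧ mp D σ q = q,
            (Dl D Z P * cr D Z (P \ q) Pᶜ * K) := by
        congr 1
        rw [Finset.sum_filter, Finset.sum_filter]
        refine Finset.sum_congr rfl fun σ _ => ?_
        by_cases h1 : mp D σ q = q
        · by_cases h2 : mp D σ P = P
          · rw [if_pos h1, if_pos ⟨h2, h1⟩, hK σ h2 h1, cr_eq_prs,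
              prod_prs_fst D Z h2 h1 (xx D Z) (xx D Z)]
            linear_combination (Dl D Z P * K *
              ∏ p ∈ prs D P q, (xx D Z p.1 - xx D Z p.2)) * sq1 σ
          · rw [if_pos h1, if_neg (fun h => h2 h.1), prod_prs_zero D Z hq h1 h2, mul_zero,
              mul_zero]
        · rw [if_neg h1, if_neg (fun h => h1 h.2)]
    _ = (liftc D P q : S D Z) * (Dl D Z P * cr D Z (P \ q) Pᶜ * K) := by
        rw [Finset.sum_const, nsmul_eq_mul, liftc, Nat.cast_mul, ← mul_assoc]

end Vale.Agent.P291.H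
end
end

section

section

set_option autoImplicit false
set_option linter.unusedSectionVars false

/-! The pair lemma. -/

namespace Vale.Agent.P291.H

open MvPolynomial Vale.Agent.P291.G

variable {D : QData} {Z : Type} (w : Wts D Z)

/-! ### auxiliary lemmas -/

/-- `cr` splits in the first argument -/
lemma cr_split {P q : Finset (B D)} (hq : q ⊆ P) (C : Finset (B D)) :
    cr D Z P C = cr D Z q C * cr D Z (P \ q) C := by
  rw [cr, cr, cr, ← Finset.prod_sdiff hq, mul_comm]

lemma sum_typ_insert {q : Finset (B D)} {b : B D} (hb : b ∉ q) :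
    ∑ i, typ D (insert b q) i = (∑ i, typ D q i) + 1 := by
  rw [sum_typ, sum_typ, Finset.card_insert_of_notMem hb]

lemma sgn_mul_self' (σ : W D) : (sgn D σ : S D Z) * (sgn D σ : S D Z) = 1 := by
  have h : sgn D σ * sgn D σ = 1 := by
    rw [sgn, ← Finset.prod_mul_distrib]
    refine Finset.prod_eq_one fun i _ => ?_
    rw [← Units.val_mul, Int.units_mul_self, Units.val_one]
  rw [← Int.cast_mul, h, Int.cast_one]

/-- the weights in the coefficients -/
lemma wt_ne_zero (ε1 ε2 : ℕ) (P q : Finset (B D)) :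
    (e w P * zs w P ^ ε1) * (e w q * zs w q ^ ε2) ≠ 0 :=
  mul_ne_zero (mul_ne_zero (e_ne_zero w P) (pow_ne_zero _ (zs_ne_zero w P)))
    (mul_ne_zero (e_ne_zero w q) (pow_ne_zero _ (zs_ne_zero w q)))

/-- the coefficients of a sum of products of slots -/
lemma coeff_sum_slot {ε1 ε2 : ℕ} (h : ε1 ≤ ε2) {J : Type} (s : Finset J)
    (φ ψ : J → Finset (B D) → S D Z) {P q : Finset (B D)} (hq : q ⊆ P) :
    (∑ j ∈ s, slot w ε1 (φ j) * slot w ε2 (ψ j)).coeff (ind D P + ind D q) =
      (e w P * zs w P ^ ε1) * (e w q * zs w q ^ ε2) *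
        ∑ j ∈ s, GG w (ε2 - ε1) (φ j) (ψ j) P q := by
  rw [AddMonoidAlgebra.coeff_sum, Finsupp.finsetSum_apply, Finset.mul_sum]
  exact Finset.sum_congr rfl fun j _ => coeff_slot_mul w h _ _ hq

/-- equivariance of the sums of reduced coefficients -/
lemma act_sum_GG {J : Type} (s : Finset J) {n1 n2 : J → D.I → ℕ}
    {φ ψ : J → Finset (B D) → S D Z}
    (hφ : ∀ j, φ j ∈ AF D Z (n1 j)) (hψ : ∀ j, ψ j ∈ AF D Z (n2 j)) (δ : ℕ) (σ : W D)
    (P q : Finset (B D)) :
    act D Z σ (∑ j ∈ s, GG w δ (φ j) (ψ j) P q) =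
      ∑ j ∈ s, GG w δ (φ j) (ψ j) (mp D σ P) (mp D σ q) := by
  rw [map_sum]
  exact Finset.sum_congr rfl fun j _ => act_GG w δ (hφ j) (hψ j) σ P q

/-- the sum of reduced coefficients vanishes unless the total type is right -/
lemma sum_GG_ne {J : Type} (s : Finset J) {n1 n2 : J → D.I → ℕ}
    {φ ψ : J → Finset (B D) → S D Z}
    (hφ : ∀ j, φ j ∈ AF D Z (n1 j)) (hψ : ∀ j, ψ j ∈ AF D Z (n2 j)) (δ : ℕ)
    {P q : Finset (B D)} (hq : q ⊆ P) (h : ∑ j ∈ s, GG w δ (φ j) (ψ j) P q ≠ 0) :
    ∃ j ∈ s, typ D P + typ D q = n1 j + n2 j ∧ typ D q ≤ n1 j ∧ typ D q ≤ n2 j := by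
  obtain ⟨j, hj, hne⟩ := Finset.exists_ne_zero_of_sum_ne_zero h
  exact ⟨j, hj, GG_ne w (hφ j) (hψ j) hq hne⟩

/-! ### the lifting step -/

/-- One lifting step: `G` at the nested pairs of the type of `(P, q)` is the reduced coefficient
of an explicit sum of products of slots. -/
lemma lift_step {J : Type} (s : Finset J) (n1 n2 : J → D.I → ℕ)
    (φ ψ : J → Finset (B D) → S D Z)
    (hφ : ∀ j, φ j ∈ AF D Z (n1 j)) (hψ : ∀ j, ψ j ∈ AF D Z (n2 j)) (δ : ℕ)
    {P q : Finset (B D)} (hq : q ⊆ P) (hN : ∀ j, n1 j + n2 j = typ D P + typ D q)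
    (H : ∀ b ∈ P \ q, ∀ c ∈ P \ q, b ≠ c → b.1 = c.1 →
      ∑ j ∈ s, GG w δ (φ j) (ψ j) (P.erase c) (insert b q) = 0) :
    ∃ K : S D Z, ∑ j ∈ s, GG w δ (φ j) (ψ j) P q = Dl D Z P * cr D Z (P \ q) Pᶜ * K ∧
      (∀ σ, mp D σ P = P → mp D σ q = q → act D Z σ K = (sgn D σ : S D Z) * K) ∧
      ∀ P' q' : Finset (B D), q' ⊆ P' → typ D q' = typ D q →
        ∑ j ∈ s, GG w δ (φ j) (ψ j) P' q' =
          ∑ t ∈ (prs D P q).powerset, GG w δ (liftP D Z P q t)
            (liftQ D Z q t (C ((liftc D P q : ℂ)⁻¹) * K)) P' q' := by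
  have hdis : Disjoint q Pᶜ := Finset.disjoint_of_subset_left hq disjoint_compl_right
  have hdis2 : Disjoint (P \ q) Pᶜ :=
    Finset.disjoint_of_subset_left Finset.sdiff_subset disjoint_compl_right
  have hne1 : cr D Z q Pᶜ ≠ 0 := cr_ne_zero D Z hdis
  have hne2 : Dl D Z P * cr D Z (P \ q) Pᶜ ≠ 0 :=
    mul_ne_zero (Dl_ne_zero D Z P) (cr_ne_zero D Z hdis2)
  obtain ⟨K, hK⟩ : Dl D Z P * cr D Z (P \ q) Pᶜ ∣ ∑ j ∈ s, GG w δ (φ j) (ψ j) P q := by
    have h1 := reg w s n1 n2 φ ψ hφ hψ δ hq H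
    have h2 : del D Z = (Dl D Z P * cr D Z (P \ q) Pᶜ) * cr D Z q Pᶜ := by
      rw [Dl_spec D Z P, cr_split hq]; ring
    rw [h2] at h1
    exact (mul_dvd_mul_iff_right hne1).1 h1
  have halt : ∀ σ, mp D σ P = P → mp D σ q = q → act D Z σ K = (sgn D σ : S D Z) * K := by
    intro σ hσP hσq
    have h1 := act_sum_GG w s hφ hψ δ σ P q
    rw [hσP, hσq, hK, map_mul, map_mul, act_Dl, act_cr, mp_sdiff, mp_compl, hσP, hσq] at h1
    have h2 : Dl D Z P * cr D Z (P \ q) Pᶜ * ((sgn D σ : S D Z) * act D Z σ K) =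
        Dl D Z P * cr D Z (P \ q) Pᶜ * K := by
      rw [← h1]; ring
    have h3 := mul_left_cancel₀ hne2 h2
    calc act D Z σ K = ((sgn D σ : S D Z) * (sgn D σ : S D Z)) * act D Z σ K := by
          rw [sgn_mul_self', one_mul]
      _ = (sgn D σ : S D Z) * ((sgn D σ : S D Z) * act D Z σ K) := by rw [mul_assoc]
      _ = (sgn D σ : S D Z) * K := by rw [h3]
  refine ⟨K, hK, halt, ?_⟩
  set c : ℂ := ((liftc D P q : ℂ)⁻¹) with hc
  have halt' : ∀ σ, mp D σ P = P → mp D σ q = q →
      act D Z σ (C c * K) = (sgn D σ : S D Z) * (C c * K) := by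
    intro σ h1 h2
    rw [map_mul, halt σ h1 h2, act, rename_C]
    ring
  have hbase : ∑ t ∈ (prs D P q).powerset, GG w δ (liftP D Z P q t)
      (liftQ D Z q t (C c * K)) P q = ∑ j ∈ s, GG w δ (φ j) (ψ j) P q := by
    have h1 : ∑ t ∈ (prs D P q).powerset, GG w δ (liftP D Z P q t)
        (liftQ D Z q t (C c * K)) P q =
        ∑ t ∈ (prs D P q).powerset, liftP D Z P q t P * liftQ D Z q t (C c * K) q :=
      Finset.sum_congr rfl fun t _ =>
        GG_top w (liftP_mem D Z P q t) (liftQ_mem D Z q t _) hq rfl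
    rw [h1, lift D Z hq halt', hK]
    have h2 : (liftc D P q : S D Z) * C c = 1 := by
      have h3 : (liftc D P q : S D Z) = C (liftc D P q : ℂ) := (map_natCast C _).symm
      rw [h3, ← C_mul, hc, mul_inv_cancel₀ (Nat.cast_ne_zero.2 (liftc_ne_zero D P q)), C_1]
    calc (liftc D P q : S D Z) * (Dl D Z P * cr D Z (P \ q) Pᶜ * (C c * K)) =
          ((liftc D P q : S D Z) * C c) * (Dl D Z P * cr D Z (P \ q) Pᶜ * K) := by ring
      _ = Dl D Z P * cr D Z (P \ q) Pᶜ * K := by rw [h2, one_mul]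
  intro P' q' hq' hty
  by_cases hP : typ D P' = typ D P
  · obtain ⟨σ, h1, h2⟩ := exists_mp D hq hq' hP.symm hty.symm
    have h3 := act_sum_GG w s hφ hψ δ σ P q
    have h4 := act_sum_GG w (prs D P q).powerset (n1 := fun _ => typ D P)
      (n2 := fun _ => typ D q) (fun t => liftP_mem D Z P q t)
      (fun t => liftQ_mem D Z q t (C c * K)) δ σ P q
    rw [h1, h2] at h3 h4
    rw [← h3, ← h4, hbase]
  · have h1 : ∑ j ∈ s, GG w δ (φ j) (ψ j) P' q' = 0 := by
      by_contra hne
      obtain ⟨j, -, h2, -⟩ := sum_GG_ne w s hφ hψ δ hq' hne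
      rw [hN j, hty] at h2
      exact hP (add_right_cancel h2)
    have h3 : ∑ t ∈ (prs D P q).powerset, GG w δ (liftP D Z P q t)
        (liftQ D Z q t (C c * K)) P' q' = 0 := by
      by_contra hne
      obtain ⟨j, -, h2, -⟩ := sum_GG_ne w (prs D P q).powerset (n1 := fun _ => typ D P)
        (n2 := fun _ => typ D q) (fun t => liftP_mem D Z P q t)
        (fun t => liftQ_mem D Z q t (C c * K)) δ hq' hne
      rw [hty] at h2
      exact hP (add_right_cancel h2)
    rw [h1, h3]

/-! ### sums of products of two slots -/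

/-- finite sums of products of two slots of total type `N` -/
def Rep (ε1 ε2 : ℕ) (N : D.I → ℕ) (X : AddMonoidAlgebra (S D Z) (B D → ℤ)) : Prop :=
  ∃ (J : Type) (s : Finset J) (n1 n2 : J → D.I → ℕ) (φ ψ : J → Finset (B D) → S D Z),
    (∀ j, φ j ∈ AF D Z (n1 j)) ∧ (∀ j, ψ j ∈ AF D Z (n2 j)) ∧ (∀ j, n1 j + n2 j = N) ∧
    X = ∑ j ∈ s, slot w ε1 (φ j) * slot w ε2 (ψ j)

lemma Rep.zero (ε1 ε2 : ℕ) (N : D.I → ℕ) : Rep w ε1 ε2 N 0 :=
  ⟨Empty, ∅, fun _ => 0, fun _ => 0, fun _ => 0, fun _ => 0, fun j => j.elim, fun j => j.elim,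
    fun j => j.elim, (Finset.sum_empty).symm⟩

lemma Rep.add {ε1 ε2 : ℕ} {N : D.I → ℕ} {X Y : AddMonoidAlgebra (S D Z) (B D → ℤ)}
    (hX : Rep w ε1 ε2 N X) (hY : Rep w ε1 ε2 N Y) : Rep w ε1 ε2 N (X + Y) := by
  obtain ⟨J, s, n1, n2, φ, ψ, h1, h2, h3, rfl⟩ := hX
  obtain ⟨J', s', n1', n2', φ', ψ', h1', h2', h3', rfl⟩ := hY
  refine ⟨J ⊕ J', s.disjSum s', Sum.elim n1 n1', Sum.elim n2 n2', Sum.elim φ φ', Sum.elim ψ ψ',
    ?_, ?_, ?_, ?_⟩
  · rintro (j | j)
    · exact h1 j
    · exact h1' j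
  · rintro (j | j)
    · exact h2 j
    · exact h2' j
  · rintro (j | j)
    · exact h3 j
    · exact h3' j
  · rw [Finset.sum_disjSum]
    rfl

lemma Rep.smul {ε1 ε2 : ℕ} {N : D.I → ℕ} {X : AddMonoidAlgebra (S D Z) (B D → ℤ)} (c : ℂ)
    (hX : Rep w ε1 ε2 N X) : Rep w ε1 ε2 N (c • X) := by
  obtain ⟨J, s, n1, n2, φ, ψ, h1, h2, h3, rfl⟩ := hX
  refine ⟨J, s, n1, n2, fun j => c • φ j, ψ, fun j => (AF D Z (n1 j)).smul_mem c (h1 j), h2, h3, ?_⟩
  rw [Finset.smul_sum]
  refine Finset.sum_congr rfl fun j _ => ?_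
  rw [map_smul, smul_mul_assoc]

/-- the submodule of these sums -/
def RepS (ε1 ε2 : ℕ) (N : D.I → ℕ) : Submodule ℂ (AddMonoidAlgebra (S D Z) (B D → ℤ)) where
  carrier := {X | Rep w ε1 ε2 N X}
  add_mem' := fun hX hY => Rep.add w hX hY
  zero_mem' := Rep.zero w ε1 ε2 N
  smul_mem' := fun c _ hX => Rep.smul w c hX

lemma rep_of_mem {ε1 ε2 : ℕ} {N : D.I → ℕ} {X : AddMonoidAlgebra (S D Z) (B D → ℤ)}
    (hX : X ∈ ⨆ n1 : D.I → ℕ, ⨆ n2 : D.I → ℕ, ⨆ _ : n1 + n2 = N, U w ε1 n1 * U w ε2 n2) :
    Rep w ε1 ε2 N X := by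
  have hle : (⨆ n1 : D.I → ℕ, ⨆ n2 : D.I → ℕ, ⨆ _ : n1 + n2 = N, U w ε1 n1 * U w ε2 n2) ≤
      RepS w ε1 ε2 N := by
    refine iSup_le fun n1 => iSup_le fun n2 => iSup_le fun h => Submodule.mul_le.2 ?_
    rintro _ ⟨φ, hφ, rfl⟩ _ ⟨ψ, hψ, rfl⟩
    refine ⟨Unit, Finset.univ, fun _ => n1, fun _ => n2, fun _ => φ, fun _ => ψ, fun _ => hφ,
      fun _ => hψ, fun _ => h, ?_⟩
    rw [Finset.univ_unique, Finset.sum_singleton]
  exact hle hX

lemma mem_iSup_mul {ε1 ε2 : ℕ} {N n1 n2 : D.I → ℕ} (h : n1 + n2 = N)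
    {x : AddMonoidAlgebra (S D Z) (B D → ℤ)} (hx : x ∈ U w ε1 n1 * U w ε2 n2) :
    x ∈ ⨆ n1 : D.I → ℕ, ⨆ n2 : D.I → ℕ, ⨆ _ : n1 + n2 = N, U w ε1 n1 * U w ε2 n2 :=
  Submodule.mem_iSup_of_mem n1 (Submodule.mem_iSup_of_mem n2 (Submodule.mem_iSup_of_mem h hx))

lemma slot_mem {ε : ℕ} {n : D.I → ℕ} {φ : Finset (B D) → S D Z} (h : φ ∈ AF D Z n) :
    slot w ε φ ∈ U w ε n := ⟨φ, h, rfl⟩

/-- PAIR LEMMA. Let `X` be a sum of products of two slots of total type `N`, whose coefficients at
`ind P + ind q`, `q ⊆ P`, vanish unless `typ q` is in the finite lower set `𝒮`. Then `X` is a sum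
of products of slots of types `(n1, s)`, `s ∈ 𝒮`, `s ≤ n1`, `n1 + s = N`.

Proof: induction on the cardinality of `𝒮`. If `𝒮` is empty all coefficients vanish
(`coeff_slot_mul_ne`), so `X = 0`. Otherwise let `s ∈ 𝒮` be of maximal `∑ i, s i`; put
`𝒮' = 𝒮.erase s`, a lower set. Write `X = ∑ j, slot (φ j) * slot (ψ j)`, `φ j ∈ AF (n1 j)`,
`ψ j ∈ AF (n2 j)`, `n1 j + n2 j = N`, and `G P q = ∑ j, GG w (ε2 - ε1) (φ j) (ψ j) P q`, so that
the coefficient of `X` at `ind P + ind q` is a nonzero multiple of `G P q` (`coeff_slot_mul`).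
If there is no nested pair `q ⊆ P` of types `typ q = s`, `typ P + s = N` then the coefficients with
`typ q = s` vanish (`GG_ne`) and the induction hypothesis for `𝒮'` applies to `X`. Otherwise fix
such a pair `(P, q)`. For `b ≠ c` in `P \ q` at the same vertex, `typ (insert b q)` has a larger sum
so it is not in `𝒮`, and `G (P.erase c) (insert b q) = 0`. By `reg`, `del ∣ G P q * cr q Pᶜ`. Since
`del = cr P Pᶜ * Dl P` and `cr P Pᶜ = cr q Pᶜ * cr (P \ q) Pᶜ` we get
`G P q = Dl P * cr (P \ q) Pᶜ * K`; `K` is alternating under the common stabilizer because `G` is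
invariant (`act_GG`) and `act_Dl`, `act_cr`. By `lift`,
`X' = ∑_t slot (liftP P q t) * slot (liftQ q t (C (1/c) * K))` has
`G' P q = liftP P(..) * liftQ q(..)` summed `= G P q` (`GG_top`), hence `G' = G` at all nested pairs
of these types (`exists_mp`, `act_GG`). Also `G' P' q' ≠ 0` implies `typ q' ≤ s` (`GG_ne`). So
`X - X'` satisfies the hypotheses for `𝒮'`. -/
theorem pair {ε1 ε2 : ℕ} (h12 : ε1 ≤ ε2) (N : D.I → ℕ) (𝒮 : Finset (D.I → ℕ))
    (hS : ∀ s ∈ 𝒮, ∀ s' : D.I → ℕ, s' ≤ s → s' ∈ 𝒮)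
    (T : Submodule ℂ (AddMonoidAlgebra (S D Z) (B D → ℤ)))
    (hT : ∀ n1 s : D.I → ℕ, s ∈ 𝒮 → s ≤ n1 → n1 + s = N → U w ε1 n1 * U w ε2 s ≤ T)
    (X : AddMonoidAlgebra (S D Z) (B D → ℤ))
    (hX : X ∈ ⨆ n1 : D.I → ℕ, ⨆ n2 : D.I → ℕ, ⨆ _ : n1 + n2 = N, U w ε1 n1 * U w ε2 n2)
    (h0 : ∀ P q : Finset (B D), q ⊆ P → typ D q ∉ 𝒮 → X.coeff (ind D P + ind D q) = 0) :
    X ∈ T := by
  induction hk : 𝒮.card using Nat.strong_induction_on generalizing 𝒮 X with
  | _ k ih =>
  obtain ⟨J, S0, n1, n2, φ, ψ, hφ, hψ, hN, hXe⟩ := rep_of_mem w hX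
  have hcoef : ∀ P q : Finset (B D), q ⊆ P → X.coeff (ind D P + ind D q) =
      (e w P * zs w P ^ ε1) * (e w q * zs w q ^ ε2) *
        ∑ j ∈ S0, GG w (ε2 - ε1) (φ j) (ψ j) P q := by
    intro P q hq
    rw [hXe]
    exact coeff_sum_slot w h12 S0 φ ψ hq
  have hG0 : ∀ P q : Finset (B D), q ⊆ P → typ D q ∉ 𝒮 →
      ∑ j ∈ S0, GG w (ε2 - ε1) (φ j) (ψ j) P q = 0 := by
    intro P q hq ht
    have h1 := h0 P q hq ht
    rw [hcoef P q hq] at h1
    exact (mul_eq_zero.1 h1).resolve_left (wt_ne_zero w ε1 ε2 P q)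
  rcases 𝒮.eq_empty_or_nonempty with hemp | hne
  · -- all coefficients vanish
    have hX0 : X = 0 := by
      apply AddMonoidAlgebra.coeff_injective
      rw [AddMonoidAlgebra.coeff_zero]
      ext1 l
      rw [Finsupp.zero_apply]
      by_contra hl
      have h1 : ∑ j ∈ S0, (slot w ε1 (φ j) * slot w ε2 (ψ j)).coeff l ≠ 0 := by
        rw [hXe, AddMonoidAlgebra.coeff_sum, Finsupp.finsetSum_apply] at hl
        exact hl
      obtain ⟨j, -, hj⟩ := Finset.exists_ne_zero_of_sum_ne_zero h1
      obtain ⟨P, q, hq, rfl⟩ := coeff_slot_mul_ne w hj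
      exact hl (h0 P q hq (by rw [hemp]; exact Finset.notMem_empty _))
    rw [hX0]
    exact T.zero_mem
  · obtain ⟨s, hs, hmax⟩ := Finset.exists_max_image 𝒮 (fun s => ∑ i, s i) hne
    have hcard : (𝒮.erase s).card < k := by
      rw [← hk]; exact Finset.card_erase_lt_of_mem hs
    have hlow : ∀ s1 ∈ 𝒮.erase s, ∀ s' : D.I → ℕ, s' ≤ s1 → s' ∈ 𝒮.erase s := by
      intro s1 hs1 s' hle
      rw [Finset.mem_erase] at hs1 ⊢
      refine ⟨?_, hS s1 hs1.2 s' hle⟩
      rintro rfl
      apply hs1.1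
      have h1 : ∑ i, s1 i ≤ ∑ i, s' i := hmax s1 hs1.2
      have h2 : ∀ i ∈ Finset.univ, s' i ≤ s1 i := fun i _ => hle i
      have h3 : ∑ i, s' i = ∑ i, s1 i := le_antisymm (Finset.sum_le_sum h2) h1
      have h4 := (Finset.sum_eq_sum_iff_of_le h2).1 h3
      funext i
      exact (h4 i (Finset.mem_univ i)).symm
    have hT' : ∀ n1 s1 : D.I → ℕ, s1 ∈ 𝒮.erase s → s1 ≤ n1 → n1 + s1 = N →
        U w ε1 n1 * U w ε2 s1 ≤ T := fun n1 s1 hs1 h1 h2 =>
      hT n1 s1 (Finset.mem_of_mem_erase hs1) h1 h2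
    by_cases hex : ∃ P q : Finset (B D), q ⊆ P ∧ typ D q = s ∧ typ D P + s = N
    · obtain ⟨P, q, hq, hts, htN⟩ := hex
      have hN' : ∀ j, n1 j + n2 j = typ D P + typ D q := fun j => by rw [hN j, hts, htN]
      have H : ∀ b ∈ P \ q, ∀ c ∈ P \ q, b ≠ c → b.1 = c.1 →
          ∑ j ∈ S0, GG w (ε2 - ε1) (φ j) (ψ j) (P.erase c) (insert b q) = 0 := by
        intro b hb c hc hbc _
        rw [Finset.mem_sdiff] at hb hc
        refine hG0 _ _ ?_ ?_
        · intro a ha
          rcases Finset.mem_insert.1 ha with rfl | ha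
          · exact Finset.mem_erase.2 ⟨hbc, hb.1⟩
          · exact Finset.mem_erase.2 ⟨fun h => hc.2 (h ▸ ha), hq ha⟩
        · intro hmem
          have h1 : ∑ i, typ D (insert b q) i ≤ ∑ i, s i := hmax _ hmem
          rw [sum_typ_insert hb.2, hts] at h1
          exact absurd h1 (by omega)
      obtain ⟨K, -, -, hKG⟩ := lift_step w S0 n1 n2 φ ψ hφ hψ (ε2 - ε1) hq hN' H
      set K' : S D Z := C ((liftc D P q : ℂ)⁻¹) * K with hK'
      set X' : AddMonoidAlgebra (S D Z) (B D → ℤ) := ∑ t ∈ (prs D P q).powerset,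
        slot w ε1 (liftP D Z P q t) * slot w ε2 (liftQ D Z q t K') with hX'
      have hterm : ∀ t, slot w ε1 (liftP D Z P q t) * slot w ε2 (liftQ D Z q t K') ∈
          U w ε1 (typ D P) * U w ε2 (typ D q) := fun t =>
        Submodule.mul_mem_mul (slot_mem w (liftP_mem D Z P q t))
          (slot_mem w (liftQ_mem D Z q t K'))
      have hX'U : X' ∈ U w ε1 (typ D P) * U w ε2 (typ D q) :=
        Submodule.sum_mem _ fun t _ => hterm t
      have hX'T : X' ∈ T := by
        have h1 : s ≤ typ D P := by rw [← hts]; exact typ_mono D hq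
        have h2 := hT (typ D P) s hs h1 htN
        rw [← hts] at h2
        exact h2 hX'U
      have hXX : X - X' ∈ T := by
        refine ih _ hcard (𝒮.erase s) hlow hT' (X - X') (Submodule.sub_mem _ hX
          (mem_iSup_mul w (by rw [hts]; exact htN) hX'U)) ?_ rfl
        intro P' q' hq' ht'
        have hc' : X'.coeff (ind D P' + ind D q') =
            (e w P' * zs w P' ^ ε1) * (e w q' * zs w q' ^ ε2) *
              ∑ t ∈ (prs D P q).powerset, GG w (ε2 - ε1) (liftP D Z P q t)
                (liftQ D Z q t K') P' q' := coeff_sum_slot w h12 _ _ _ hq'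
        rw [AddMonoidAlgebra.coeff_sub, Finsupp.sub_apply, hcoef P' q' hq', hc', ← mul_sub]
        by_cases hq's : typ D q' = s
        · rw [hKG P' q' hq' (by rw [hq's, hts]), sub_self, mul_zero]
        · have h1 : typ D q' ∉ 𝒮 := fun h => ht' (Finset.mem_erase.2 ⟨hq's, h⟩)
          have h2 : ∑ t ∈ (prs D P q).powerset, GG w (ε2 - ε1) (liftP D Z P q t)
              (liftQ D Z q t K') P' q' = 0 := by
            by_contra hne
            obtain ⟨j, -, -, -, h3⟩ := sum_GG_ne w (prs D P q).powerset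
              (n1 := fun _ => typ D P) (n2 := fun _ => typ D q)
              (fun t => liftP_mem D Z P q t) (fun t => liftQ_mem D Z q t K') (ε2 - ε1) hq' hne
            rw [hts] at h3
            exact h1 (hS s hs _ h3)
          rw [hG0 P' q' hq' h1, h2, sub_self, mul_zero]
      have h1 := T.add_mem hXX hX'T
      rwa [sub_add_cancel] at h1
    · refine ih _ hcard (𝒮.erase s) hlow hT' X hX ?_ rfl
      intro P' q' hq' ht'
      rw [hcoef P' q' hq']
      by_cases hq's : typ D q' = s
      · have h1 : ∑ j ∈ S0, GG w (ε2 - ε1) (φ j) (ψ j) P' q' = 0 := by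
          by_contra hne
          obtain ⟨j, -, h3, -⟩ := sum_GG_ne w S0 hφ hψ (ε2 - ε1) hq' hne
          rw [hN j, hq's] at h3
          exact hex ⟨P', q', hq', hq's, h3⟩
        rw [h1, mul_zero]
      · rw [hG0 P' q' hq' fun h => ht' (Finset.mem_erase.2 ⟨hq's, h⟩), mul_zero]


/-- first consequence: arbitrary pairs (`𝒮 = {s | s ≤ n1, s ≤ n2}`, finite as
`Finset.Iic`-like set, e.g. the image/filter of `Fintype.piFinset fun i => Finset.range (n2 i + 1)`;
use `GG_ne`) -/
theorem pair_mul {ε1 ε2 : ℕ} (h12 : ε1 ≤ ε2) (n1 n2 : D.I → ℕ)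
    (T : Submodule ℂ (AddMonoidAlgebra (S D Z) (B D → ℤ)))
    (hT : ∀ n1' s : D.I → ℕ, s ≤ n1 → s ≤ n2 → s ≤ n1' → n1' + s = n1 + n2 →
      U w ε1 n1' * U w ε2 s ≤ T) :
    U w ε1 n1 * U w ε2 n2 ≤ T := by
  classical
  refine Submodule.mul_le.2 ?_
  rintro _ ⟨φ, hφ, rfl⟩ _ ⟨ψ, hψ, rfl⟩
  have hmem : ∀ s : D.I → ℕ, s ∈ (Fintype.piFinset fun i => Finset.range (n2 i + 1)).filter
      (fun s => s ≤ n1) ↔ s ≤ n1 ∧ s ≤ n2 := by
    intro s
    rw [Finset.mem_filter, Fintype.mem_piFinset, and_comm]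
    refine and_congr_right fun _ => forall_congr' fun i => ?_
    rw [Finset.mem_range, Nat.lt_succ_iff]
  refine pair w h12 (n1 + n2) ((Fintype.piFinset fun i => Finset.range (n2 i + 1)).filter
      (fun s => s ≤ n1)) ?_ T ?_ _ (mem_iSup_mul w rfl
        (Submodule.mul_mem_mul (slot_mem w hφ) (slot_mem w hψ))) ?_
  · intro s hs s' hle
    rw [hmem] at hs ⊢
    exact ⟨hle.trans hs.1, hle.trans hs.2⟩
  · intro n1' s hs h1 h2
    rw [hmem] at hs
    exact hT n1' s hs.1 hs.2 h1 h2
  · intro P q hq ht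
    rw [coeff_slot_mul w h12 φ ψ hq]
    have h1 : GG w (ε2 - ε1) φ ψ P q = 0 := by
      by_contra hne
      obtain ⟨-, h3, h4⟩ := GG_ne w hφ hψ hq hne
      exact ht ((hmem _).2 ⟨h3, h4⟩)
    rw [h1, mul_zero]

/-- second consequence: normal form of a product of slots with nested types (`𝒮` is the set of all
`s ≤ typ q`, `s ≠ typ q`). Here `K` is given by `φ P * ψ q = Dl P * cr (P \ q) Pᶜ * K`. -/
theorem pair_lift {ε1 ε2 : ℕ} (h12 : ε1 ≤ ε2) {P q : Finset (B D)} (hq : q ⊆ P)
    {φ ψ : Finset (B D) → S D Z} (hφ : φ ∈ AF D Z (typ D P)) (hψ : ψ ∈ AF D Z (typ D q)) :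
    ∃ K : S D Z, φ P * ψ q = Dl D Z P * cr D Z (P \ q) Pᶜ * K ∧
      (∀ σ, mp D σ P = P → mp D σ q = q → act D Z σ K = (sgn D σ : S D Z) * K) ∧
      ∀ T : Submodule ℂ (AddMonoidAlgebra (S D Z) (B D → ℤ)),
        (∀ δ : D.I → ℕ, δ ≠ 0 → δ ≤ typ D q →
          U w ε1 (typ D P + δ) * U w ε2 (typ D q - δ) ≤ T) →
        slot w ε1 φ * slot w ε2 ψ - ∑ t ∈ (prs D P q).powerset,
          slot w ε1 (liftP D Z P q t) *
            slot w ε2 (liftQ D Z q t (C ((liftc D P q : ℂ)⁻¹) * K)) ∈ T := by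
  have H : ∀ b ∈ P \ q, ∀ c ∈ P \ q, b ≠ c → b.1 = c.1 →
      ∑ j ∈ (Finset.univ : Finset Unit), GG w (ε2 - ε1) ((fun _ => φ) j) ((fun _ => ψ) j)
        (P.erase c) (insert b q) = 0 := by
    intro b hb c hc hbc _
    rw [Finset.mem_sdiff] at hb hc
    have hsub : insert b q ⊆ P.erase c := by
      intro a ha
      rcases Finset.mem_insert.1 ha with rfl | ha
      · exact Finset.mem_erase.2 ⟨hbc, hb.1⟩
      · exact Finset.mem_erase.2 ⟨fun h => hc.2 (h ▸ ha), hq ha⟩
    rw [Finset.univ_unique, Finset.sum_singleton]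
    by_contra hne
    obtain ⟨-, -, h3⟩ := GG_ne w hφ hψ hsub hne
    have h4 : ∑ i, typ D (insert b q) i ≤ ∑ i, typ D q i := Finset.sum_le_sum fun i _ => h3 i
    rw [sum_typ_insert hb.2] at h4
    exact absurd h4 (by omega)
  obtain ⟨K, hK, halt, hKG⟩ := lift_step w (Finset.univ : Finset Unit) (fun _ => typ D P)
    (fun _ => typ D q) (fun _ => φ) (fun _ => ψ) (fun _ => hφ) (fun _ => hψ) (ε2 - ε1) hq
    (fun _ => rfl) H
  rw [Finset.univ_unique, Finset.sum_singleton, GG_top w hφ hψ hq rfl] at hK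
  refine ⟨K, hK, halt, ?_⟩
  intro T hT
  set K' : S D Z := C ((liftc D P q : ℂ)⁻¹) * K with hK'
  have hterm : ∀ t, slot w ε1 (liftP D Z P q t) * slot w ε2 (liftQ D Z q t K') ∈
      U w ε1 (typ D P) * U w ε2 (typ D q) := fun t =>
    Submodule.mul_mem_mul (slot_mem w (liftP_mem D Z P q t))
      (slot_mem w (liftQ_mem D Z q t K'))
  have hmem : ∀ s : D.I → ℕ, s ∈ (Fintype.piFinset fun i => Finset.range (typ D q i + 1)).filter
      (fun s => s ≠ typ D q) ↔ s ≤ typ D q ∧ s ≠ typ D q := by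
    intro s
    rw [Finset.mem_filter, Fintype.mem_piFinset]
    refine and_congr_left fun _ => forall_congr' fun i => ?_
    rw [Finset.mem_range, Nat.lt_succ_iff]
  refine pair w h12 (typ D P + typ D q)
    ((Fintype.piFinset fun i => Finset.range (typ D q i + 1)).filter
      (fun s => s ≠ typ D q)) ?_ T ?_ _ (mem_iSup_mul w rfl (Submodule.sub_mem _
        (Submodule.mul_mem_mul (slot_mem w hφ) (slot_mem w hψ))
        (Submodule.sum_mem _ fun t _ => hterm t))) ?_
  · intro s hs s' hle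
    rw [hmem] at hs ⊢
    refine ⟨hle.trans hs.1, ?_⟩
    rintro rfl
    exact hs.2 (le_antisymm hs.1 hle)
  · intro n1 s hs h1 h2
    rw [hmem] at hs
    have h3 : typ D P + (typ D q - s) = n1 := by
      funext i
      have h4 := congrFun h2 i
      have h5 : s i ≤ typ D q i := hs.1 i
      rw [Pi.add_apply] at h4 ⊢
      rw [Pi.sub_apply]
      rw [Pi.add_apply] at h4
      (clear * - h4 h5; omega)
    have h4 : typ D q - (typ D q - s) = s := by
      funext i
      have h5 : s i ≤ typ D q i := hs.1 i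
      rw [Pi.sub_apply, Pi.sub_apply]
      omega
    have h5 := hT (typ D q - s) ?_ tsub_le_self
    · rwa [h3, h4] at h5
    · intro h6
      apply hs.2
      exact le_antisymm hs.1 (tsub_eq_zero_iff_le.1 h6)
  · intro P' q' hq' ht'
    have hc' : (∑ t ∈ (prs D P q).powerset,
          slot w ε1 (liftP D Z P q t) * slot w ε2 (liftQ D Z q t K')).coeff
            (ind D P' + ind D q') =
        (e w P' * zs w P' ^ ε1) * (e w q' * zs w q' ^ ε2) *
          ∑ t ∈ (prs D P q).powerset, GG w (ε2 - ε1) (liftP D Z P q t)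
            (liftQ D Z q t K') P' q' := coeff_sum_slot w h12 _ _ _ hq'
    rw [AddMonoidAlgebra.coeff_sub, Finsupp.sub_apply, coeff_slot_mul w h12 φ ψ hq', hc',
      ← mul_sub]
    by_cases hty : typ D q' = typ D q
    · have h1 := hKG P' q' hq' hty
      rw [Finset.univ_unique, Finset.sum_singleton] at h1
      rw [h1, sub_self, mul_zero]
    · have h1 : ¬ typ D q' ≤ typ D q := fun h => ht' ((hmem _).2 ⟨h, hty⟩)
      have h2 : GG w (ε2 - ε1) φ ψ P' q' = 0 := by
        by_contra hne
        exact h1 (GG_ne w hφ hψ hq' hne).2.2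
      have h3 : ∑ t ∈ (prs D P q).powerset, GG w (ε2 - ε1) (liftP D Z P q t)
          (liftQ D Z q t K') P' q' = 0 := by
        by_contra hne
        obtain ⟨j, -, -, -, h3⟩ := sum_GG_ne w (prs D P q).powerset
          (n1 := fun _ => typ D P) (n2 := fun _ => typ D q)
          (fun t => liftP_mem D Z P q t) (fun t => liftQ_mem D Z q t K') (ε2 - ε1) hq' hne
        exact h1 h3
      rw [h2, h3, sub_self, mul_zero]

end Vale.Agent.P291.H
end
end

section

section

set_option autoImplicit false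
set_option linter.unusedSectionVars false

/-! Step B (lifting the quadratic relations to the quantum level): definitions. -/

namespace Vale.Agent.P291.H

open MvPolynomial Vale.Agent.P291.G

variable (D : QData)

/-- flavor variables: one for every arrow, one for every framing vector, `ħ`, coordinates of `F` -/
abbrev ZZ : Type := (D.A ⊕ (Σ i : D.I, Fin (D.w i))) ⊕ (Unit ⊕ Fin D.rk)

/-- variable of an arrow -/
noncomputable def tv (a : D.A) : S D (ZZ D) := X (Sum.inr (Sum.inl (Sum.inl a)))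
/-- variable of a framing vector -/
noncomputable def zv (i : D.I) (k : Fin (D.w i)) : S D (ZZ D) :=
  X (Sum.inr (Sum.inl (Sum.inr ⟨i, k⟩)))
/-- `ħ` -/
noncomputable def hb : S D (ZZ D) := X (Sum.inr (Sum.inr (Sum.inl ())))

/-- gauge variable in the big ring -/
noncomputable abbrev xq (b : B D) : S D (ZZ D) := xx D (ZZ D) b

/-- product of the arrow weights from `b` to `c`, shifted by `s` -/
noncomputable def hq (b c : B D) (s : S D (ZZ D)) : S D (ZZ D) :=
  ∏ a with D.src a = b.1 ∧ D.tgt a = c.1, (xq D c - xq D b + tv D a + s)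

/-- product of the framing weights at `b`, shifted by `s` -/
noncomputable def zq (b : B D) (s : S D (ZZ D)) : S D (ZZ D) :=
  ∏ k : Fin (D.w b.1), (zv D b.1 k - xq D b + s)

noncomputable def g0 (a b : B D) : S D (ZZ D) := if a.1 = b.1 then xq D a - xq D b else 1
noncomputable def g1 (a b : B D) : S D (ZZ D) := if a.1 = b.1 then xq D a - xq D b + hb D else 1

/-- weight of a pair of basis vectors, `i`, `j` tell whether they are in `K` -/
noncomputable def pw (p q : B D) (i j : Bool) : S D (ZZ D) :=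
  match i, j with
  | true, false => hq D p q 0 * g1 D p q
  | false, true => hq D p q (-hb D) * g0 D p q
  | _, _ => g0 D p q * g1 D p q

/-- unfolding of `pw` (this also makes Lean generate the equations of `pw` here) -/
lemma pw_eqs (p q : B D) (i : Bool) : pw D p q i i = g0 D p q * g1 D p q := by
  cases i <;> simp only [pw]

/-- weight of `K ⊆ N` -/
noncomputable def ww (N K : Finset (B D)) : S D (ZZ D) :=
  ∏ p ∈ N, ∏ q ∈ N.erase p, pw D p q (decide (p ∈ K)) (decide (q ∈ K))

/-- product of the roots of `N` -/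
noncomputable def Om (N : Finset (B D)) : S D (ZZ D) :=
  ∏ p ∈ N, ∏ q ∈ N.erase p, g0 D p q * g1 D p q

/-- the substitution `x b ↦ x b + s` for `b ∈ A` -/
noncomputable def sh (s : S D (ZZ D)) (A : Finset (B D)) : S D (ZZ D) →ₐ[ℂ] S D (ZZ D) :=
  aeval (Sum.elim (fun b => if b ∈ A then xq D b + s else xq D b) fun z => X (Sum.inr z))

/-- equivariant families of type `n` -/
def EF (n : D.I → ℕ) (f : Finset (B D) → S D (ZZ D)) : Prop :=
  (∀ σ A, act D (ZZ D) σ (f A) = f (mp D σ A)) ∧ ∀ A, typ D A ≠ n → f A = 0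

/-- a product of a positive and a negative operator -/
structure Dat where
  n : D.I → ℕ
  f : Finset (B D) → S D (ZZ D)
  g : Finset (B D) → S D (ZZ D)
  hf : EF D n f
  hg : EF D n g
  hn : n ≠ 0

/-- numerator of the contribution of `K` to the coefficient of `u^(D1 - D2)`; the order of the
product is `E F` if `ν·n < 0` and `F E` otherwise -/
noncomputable def Term (ν : D.I → ℤ) (d : Dat D) (D1 D2 K : Finset (B D)) : S D (ZZ D) :=
  if ∑ i, ν i * d.n i < 0 then
    d.f (D1 ∪ K) * sh D (-hb D) (D1 ∪ K) (d.g (D2 ∪ K)) * (∏ k ∈ K, zq D k 0) *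
      ww D (D1 ∪ D2)ᶜ K
  else
    d.g (D2 ∪ K) * sh D (hb D) (D2 ∪ K) (d.f (D1 ∪ K)) * (∏ k ∈ K, zq D k (-hb D)) *
      ww D (D1 ∪ D2)ᶜ ((D1 ∪ D2)ᶜ \ K)

/-- numerator of the coefficient of `u^(D1 - D2)` -/
noncomputable def Num (ν : D.I → ℤ) (L : List (Dat D)) (D1 D2 : Finset (B D)) : S D (ZZ D) :=
  (L.map fun d => ∑ K ∈ (D1 ∪ D2)ᶜ.powerset, Term D ν d D1 D2 K).sum

/-- specialization to `F` and `ħ = 0` -/
noncomputable def spec : S D (ZZ D) →ₐ[ℂ] S D (Fin D.rk) :=
  aeval (Sum.elim (fun b => xx D (Fin D.rk) b) (Sum.elim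
    (Sum.elim (fun a => lin (YY D) (D.ta a)) fun p => lin (YY D) (D.tw p.1 p.2))
    (Sum.elim (fun _ => 0) fun j => YY D j)))

/-- inclusion of the small ring -/
noncomputable def inc : S D (Fin D.rk) →ₐ[ℂ] S D (ZZ D) :=
  rename (Sum.map id fun j => Sum.inr (Sum.inr j))

/-- weight of the cocharacter `l` on the arrow part: `∏_{⟨χ,l⟩<0} χ ∏_{⟨χ,l⟩>0} (ħ - χ)` -/
noncomputable def elq (l : B D → ℤ) : S D (ZZ D) :=
  (∏ a, ∏ r, ∏ s, if l ⟨D.tgt a, s⟩ < l ⟨D.src a, r⟩ then
      xq D ⟨D.tgt a, s⟩ - xq D ⟨D.src a, r⟩ + tv D a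
    else if l ⟨D.src a, r⟩ < l ⟨D.tgt a, s⟩ then
      hb D - (xq D ⟨D.tgt a, s⟩ - xq D ⟨D.src a, r⟩ + tv D a) else 1) *
  ∏ i, ∏ r, ∏ k, if 0 < l ⟨i, r⟩ then zv D i k - xq D ⟨i, r⟩
    else if l ⟨i, r⟩ < 0 then hb D - (zv D i k - xq D ⟨i, r⟩) else 1

end Vale.Agent.P291.H
end
end
namespace AFast205980x3633a
theorem a0 {x1 : Vale.Agent.P291.T.QData} : NonUnitalAlgHomClass (Vale.Agent.P291.H.S x1 (Vale.Agent.P291.H.ZZ x1) →ₐ[ℂ] Vale.Agent.P291.H.S x1 (Vale.Agent.P291.H.ZZ x1)) ℂ (Vale.Agent.P291.H.S x1 (Vale.Agent.P291.H.ZZ x1)) (Vale.Agent.P291.H.S x1 (Vale.Agent.P291.H.ZZ x1)) := inferInstance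
theorem a1 {x1 : Vale.Agent.P291.T.QData} : AddMonoidHomClass (Vale.Agent.P291.H.S x1 (Vale.Agent.P291.H.ZZ x1) →ₐ[ℂ] Vale.Agent.P291.H.S x1 (Vale.Agent.P291.H.ZZ x1)) (Vale.Agent.P291.H.S x1 (Vale.Agent.P291.H.ZZ x1)) (Vale.Agent.P291.H.S x1 (Vale.Agent.P291.H.ZZ x1)) := inferInstance
theorem a2 {x1 : Vale.Agent.P291.T.QData} : DistribMulActionSemiHomClass (Vale.Agent.P291.H.S x1 (Vale.Agent.P291.H.ZZ x1) →ₐ[ℂ] Vale.Agent.P291.H.S x1 (Vale.Agent.P291.H.ZZ x1)) (⇑(MonoidHom.id ℂ)) (Vale.Agent.P291.H.S x1 (Vale.Agent.P291.H.ZZ x1)) (Vale.Agent.P291.H.S x1 (Vale.Agent.P291.H.ZZ x1)) := inferInstance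
@[reducible] noncomputable def a3 {x1 : Vale.Agent.P291.T.QData} : CommMonoid (Vale.Agent.P291.H.S x1 (Vale.Agent.P291.H.ZZ x1)) := inferInstance
theorem a4 {x1 : Vale.Agent.P291.T.QData} : MonoidHomClass (Vale.Agent.P291.H.S x1 (Vale.Agent.P291.H.ZZ x1) →ₐ[ℂ] Vale.Agent.P291.H.S x1 (Vale.Agent.P291.H.ZZ x1)) (Vale.Agent.P291.H.S x1 (Vale.Agent.P291.H.ZZ x1)) (Vale.Agent.P291.H.S x1 (Vale.Agent.P291.H.ZZ x1)) := inferInstance
theorem a5 {x1 : Vale.Agent.P291.T.QData} : MonoidWithZeroHomClass (Vale.Agent.P291.H.S x1 (Vale.Agent.P291.H.ZZ x1) →ₐ[ℂ] Vale.Agent.P291.H.S x1 (Vale.Agent.P291.H.ZZ x1)) (Vale.Agent.P291.H.S x1 (Vale.Agent.P291.H.ZZ x1)) (Vale.Agent.P291.H.S x1 (Vale.Agent.P291.H.ZZ x1)) := inferInstance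
theorem a6 {x1 : Vale.Agent.P291.T.QData} : MulHomClass (Vale.Agent.P291.H.S x1 (Vale.Agent.P291.H.ZZ x1) →ₐ[ℂ] Vale.Agent.P291.H.S x1 (Vale.Agent.P291.H.ZZ x1)) (Vale.Agent.P291.H.S x1 (Vale.Agent.P291.H.ZZ x1)) (Vale.Agent.P291.H.S x1 (Vale.Agent.P291.H.ZZ x1)) := inferInstance
theorem a7 {x1 : Vale.Agent.P291.T.QData} : ZeroHomClass (Vale.Agent.P291.H.S x1 (Vale.Agent.P291.H.ZZ x1) →ₐ[ℂ] Vale.Agent.P291.H.S x1 (Vale.Agent.P291.H.ZZ x1)) (Vale.Agent.P291.H.S x1 (Vale.Agent.P291.H.ZZ x1)) (Vale.Agent.P291.H.S x1 (Vale.Agent.P291.H.ZZ x1)) := inferInstance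
@[reducible] noncomputable def a8 {x1 : Vale.Agent.P291.T.QData} : Monoid (Vale.Agent.P291.H.S x1 (Vale.Agent.P291.H.ZZ x1)) := inferInstance
@[reducible] noncomputable def a9 {x1 : Vale.Agent.P291.T.QData} : Pow (Vale.Agent.P291.H.S x1 (Vale.Agent.P291.H.ZZ x1)) ℕ := inferInstance
@[reducible] noncomputable def a10 {x1 : Vale.Agent.P291.T.QData} : NPow (Vale.Agent.P291.H.S x1 (Vale.Agent.P291.H.ZZ x1)) := inferInstance
theorem a11 {x1 : Vale.Agent.P291.T.QData} : RingHomClass (Vale.Agent.P291.H.S x1 (Vale.Agent.P291.H.ZZ x1) →ₐ[ℂ] Vale.Agent.P291.H.S x1 (Vale.Agent.P291.H.ZZ x1)) (Vale.Agent.P291.H.S x1 (Vale.Agent.P291.H.ZZ x1)) (Vale.Agent.P291.H.S x1 (Vale.Agent.P291.H.ZZ x1)) := inferInstance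
theorem a12 {x1 : Vale.Agent.P291.T.QData} : IsLeftCancelMulZero (AddMonoidAlgebra ℂ (Vale.Agent.P291.T.B x1 ⊕ Vale.Agent.P291.H.ZZ x1 →₀ ℕ)) := inferInstance
end AFast205980x3633a
attribute [local instance] AFast205980x3633a.a0 AFast205980x3633a.a1 AFast205980x3633a.a2
  AFast205980x3633a.a3 AFast205980x3633a.a4 AFast205980x3633a.a5 AFast205980x3633a.a6
  AFast205980x3633a.a7 AFast205980x3633a.a8 AFast205980x3633a.a9 AFast205980x3633a.a10
  AFast205980x3633a.a11 AFast205980x3633a.a12
namespace AFast205980x3633b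
theorem a0 {x1 : Vale.Agent.P291.T.QData} : LinearMapClass (Vale.Agent.P291.H.S x1 (Vale.Agent.P291.H.ZZ x1) →ₐ[ℂ] Vale.Agent.P291.H.S x1 (Vale.Agent.P291.H.ZZ x1)) ℂ (Vale.Agent.P291.H.S x1 (Vale.Agent.P291.H.ZZ x1)) (Vale.Agent.P291.H.S x1 (Vale.Agent.P291.H.ZZ x1)) := inferInstance
theorem a1 {x1 : Vale.Agent.P291.T.QData} : AddHomClass (Vale.Agent.P291.H.S x1 (Vale.Agent.P291.H.ZZ x1) →ₐ[ℂ] Vale.Agent.P291.H.S x1 (Vale.Agent.P291.H.ZZ x1)) (Vale.Agent.P291.H.S x1 (Vale.Agent.P291.H.ZZ x1)) (Vale.Agent.P291.H.S x1 (Vale.Agent.P291.H.ZZ x1)) := inferInstance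
theorem a2 {x1 : Vale.Agent.P291.T.QData} : DecompositionMonoid (Vale.Agent.P291.H.S x1 (Vale.Agent.P291.H.ZZ x1)) := inferInstance
theorem a3 {x1 : Vale.Agent.P291.T.QData} : AddHomClass (Vale.Agent.P291.H.S x1 (Vale.Agent.P291.H.ZZ x1) →ₐ[ℂ] ℂ) (Vale.Agent.P291.H.S x1 (Vale.Agent.P291.H.ZZ x1)) ℂ := inferInstance
theorem a4 {x1 : Vale.Agent.P291.T.QData} : LinearMapClass (Vale.Agent.P291.H.S x1 (Vale.Agent.P291.H.ZZ x1) →ₐ[ℂ] ℂ) ℂ (Vale.Agent.P291.H.S x1 (Vale.Agent.P291.H.ZZ x1)) ℂ := inferInstance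
end AFast205980x3633b
attribute [local instance] AFast205980x3633b.a0 AFast205980x3633b.a1 AFast205980x3633b.a2
  AFast205980x3633b.a3 AFast205980x3633b.a4

section

section

set_option autoImplicit false
set_option linter.unusedSectionVars false

/-! Equivariance of the numerators; types. -/

namespace Vale.Agent.P291.H

open MvPolynomial Vale.Agent.P291.G

variable (D : QData)

lemma bsym_act_inr (σ : W D) (z : ZZ D) :
    act D (ZZ D) σ (X (Sum.inr z)) = X (Sum.inr z) := by
  unfold act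
  rw [rename_X]
  rfl

lemma bsym_act_tv (σ : W D) (a : D.A) : act D (ZZ D) σ (tv D a) = tv D a := bsym_act_inr D σ _

lemma bsym_act_zv (σ : W D) (i : D.I) (k : Fin (D.w i)) :
    act D (ZZ D) σ (zv D i k) = zv D i k := bsym_act_inr D σ _

lemma act_hq (σ : W D) (b c : B D) {s : S D (ZZ D)} (hs : act D (ZZ D) σ s = s) :
    act D (ZZ D) σ (hq D b c s) = hq D (perm D σ b) (perm D σ c) s := by
  unfold hq
  rw [map_prod]
  refine Finset.prod_congr rfl fun a _ => ?_
  rw [map_add, map_add, map_sub, act_xx, act_xx, bsym_act_tv, hs]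

lemma act_zq (σ : W D) (b : B D) {s : S D (ZZ D)} (hs : act D (ZZ D) σ s = s) :
    act D (ZZ D) σ (zq D b s) = zq D (perm D σ b) s := by
  unfold zq
  rw [map_prod]
  refine Finset.prod_congr rfl fun k _ => ?_
  rw [map_add, map_sub, act_xx, bsym_act_zv, hs]
  rfl

lemma act_hb (σ : W D) : act D (ZZ D) σ (hb D) = hb D := bsym_act_inr D σ _

lemma bsym_act_g0 (σ : W D) (a b : B D) :
    act D (ZZ D) σ (g0 D a b) = g0 D (perm D σ a) (perm D σ b) := by
  unfold g0
  rw [perm_fst, perm_fst]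
  split_ifs
  · rw [map_sub, act_xx, act_xx]
  · rw [map_one]

lemma bsym_act_g1 (σ : W D) (a b : B D) :
    act D (ZZ D) σ (g1 D a b) = g1 D (perm D σ a) (perm D σ b) := by
  unfold g1
  rw [perm_fst, perm_fst]
  split_ifs
  · rw [map_add, map_sub, act_xx, act_xx, act_hb]
  · rw [map_one]

lemma bsym_act_neg_hb (σ : W D) : act D (ZZ D) σ (-hb D) = -hb D := by
  rw [map_neg, act_hb]

lemma bsym_act_pw (σ : W D) (p q : B D) (i j : Bool) :
    act D (ZZ D) σ (pw D p q i j) = pw D (perm D σ p) (perm D σ q) i j := by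
  cases i <;> cases j <;> simp only [pw, map_mul, bsym_act_g0, bsym_act_g1] <;>
    rw [act_hq]
  · exact bsym_act_neg_hb D σ
  · exact map_zero _

lemma bsym_prod_mp (σ : W D) (N : Finset (B D)) (F : B D → B D → S D (ZZ D)) :
    ∏ p ∈ mp D σ N, ∏ q ∈ (mp D σ N).erase p, F p q
      = ∏ p ∈ N, ∏ q ∈ N.erase p, F (perm D σ p) (perm D σ q) := by
  unfold mp
  rw [Finset.prod_map]
  refine Finset.prod_congr rfl fun p _ => ?_
  rw [← Finset.map_erase, Finset.prod_map]
  rfl

lemma act_ww (σ : W D) (N K : Finset (B D)) :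
    act D (ZZ D) σ (ww D N K) = ww D (mp D σ N) (mp D σ K) := by
  unfold ww
  rw [bsym_prod_mp, map_prod]
  refine Finset.prod_congr rfl fun p _ => ?_
  rw [map_prod]
  refine Finset.prod_congr rfl fun q _ => ?_
  rw [bsym_act_pw]
  simp only [mem_mp]

lemma act_Om (σ : W D) (N : Finset (B D)) :
    act D (ZZ D) σ (Om D N) = Om D (mp D σ N) := by
  unfold Om
  rw [bsym_prod_mp, map_prod]
  refine Finset.prod_congr rfl fun p _ => ?_
  rw [map_prod]
  refine Finset.prod_congr rfl fun q _ => ?_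
  rw [map_mul, bsym_act_g0, bsym_act_g1]

lemma act_sh (σ : W D) {s : S D (ZZ D)} (hs : act D (ZZ D) σ s = s) (A : Finset (B D))
    (f : S D (ZZ D)) :
    act D (ZZ D) σ (sh D s A f) = sh D s (mp D σ A) (act D (ZZ D) σ f) := by
  have h : (act D (ZZ D) σ).comp (sh D s A) = (sh D s (mp D σ A)).comp (act D (ZZ D) σ) := by
    apply MvPolynomial.algHom_ext
    rintro (b | z)
    · rw [AlgHom.comp_apply, AlgHom.comp_apply]
      have h1 : sh D s A (X (Sum.inl b)) = if b ∈ A then xq D b + s else xq D b := by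
        unfold sh
        rw [aeval_X]
        rfl
      have h2 : act D (ZZ D) σ (X (Sum.inl b)) = X (Sum.inl (perm D σ b)) := act_xx _ _ _ _
      have h3 : sh D s (mp D σ A) (X (Sum.inl (perm D σ b)))
          = if perm D σ b ∈ mp D σ A then xq D (perm D σ b) + s else xq D (perm D σ b) := by
        unfold sh
        rw [aeval_X]
        rfl
      rw [h1, h2, h3, apply_ite (act D (ZZ D) σ), map_add, hs, act_xx]
      simp only [mem_mp]
    · rw [AlgHom.comp_apply, AlgHom.comp_apply, bsym_act_inr]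
      have h1 : ∀ A : Finset (B D), sh D s A (X (Sum.inr z)) = X (Sum.inr z) := by
        intro A
        unfold sh
        rw [aeval_X]
        rfl
      rw [h1, h1, bsym_act_inr]
  exact DFunLike.congr_fun h f

lemma bsym_act_prod_zq (σ : W D) (K : Finset (B D)) {s : S D (ZZ D)}
    (hs : act D (ZZ D) σ s = s) :
    act D (ZZ D) σ (∏ k ∈ K, zq D k s) = ∏ k ∈ mp D σ K, zq D k s := by
  unfold mp
  rw [map_prod, Finset.prod_map]
  exact Finset.prod_congr rfl fun k _ => act_zq D σ k hs

lemma bsym_act_Term (ν : D.I → ℤ) (d : Dat D) (σ : W D) (D1 D2 K : Finset (B D)) :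
    act D (ZZ D) σ (Term D ν d D1 D2 K) = Term D ν d (mp D σ D1) (mp D σ D2) (mp D σ K) := by
  unfold Term
  split_ifs
  · rw [map_mul, map_mul, map_mul, d.hf.1, act_sh D σ (bsym_act_neg_hb D σ), d.hg.1,
      bsym_act_prod_zq D σ K (map_zero _), act_ww, mp_compl]
    simp only [mp_union]
  · rw [map_mul, map_mul, map_mul, d.hg.1, act_sh D σ (act_hb D σ), d.hf.1,
      bsym_act_prod_zq D σ K (bsym_act_neg_hb D σ), act_ww, mp_sdiff, mp_compl]
    simp only [mp_union]

/-- equivariance of the numerators -/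
theorem act_Num (ν : D.I → ℤ) (L : List (Dat D)) (σ : W D) (D1 D2 : Finset (B D)) :
    act D (ZZ D) σ (Num D ν L D1 D2) = Num D ν L (mp D σ D1) (mp D σ D2) := by
  unfold Num
  rw [map_list_sum, List.map_map]
  congr 1
  refine List.map_congr_left fun d _ => ?_
  rw [Function.comp_apply, map_sum]
  refine Finset.sum_bij' (fun K _ => mp D σ K) (fun K _ => mp D σ⁻¹ K) ?_ ?_ ?_ ?_ ?_
  · intro K hK
    rw [Finset.mem_powerset] at hK ⊢
    rw [← mp_union, ← mp_compl, mp_subset]
    exact hK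
  · intro K hK
    rw [Finset.mem_powerset] at hK ⊢
    rw [← mp_subset D σ, ← mp_mul, mul_inv_cancel, mp_one, mp_compl, mp_union]
    exact hK
  · intro K _
    rw [← mp_mul, inv_mul_cancel, mp_one]
  · intro K _
    rw [← mp_mul, mul_inv_cancel, mp_one]
  · intro K _
    exact bsym_act_Term D ν d σ D1 D2 K

lemma Num_append (ν : D.I → ℤ) (L L' : List (Dat D)) (D1 D2 : Finset (B D)) :
    Num D ν (L ++ L') D1 D2 = Num D ν L D1 D2 + Num D ν L' D1 D2 := by
  unfold Num
  rw [List.map_append, List.sum_append]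

lemma bsym_typ_disj {A C : Finset (B D)} (h : Disjoint A C) :
    typ D (A ∪ C) = typ D A + typ D C := by
  have h1 := typ_union_inter D A C
  rwa [Finset.disjoint_iff_inter_eq_empty.mp h, typ_empty, add_zero] at h1

/-- a nonzero term forces the types -/
lemma bsym_Term_ne (ν : D.I → ℤ) (d : Dat D) {D1 D2 K : Finset (B D)}
    (h : Term D ν d D1 D2 K ≠ 0) : typ D (D1 ∪ K) = d.n ∧ typ D (D2 ∪ K) = d.n := by
  constructor
  · by_contra hc
    apply h
    unfold Term
    rw [d.hf.2 _ hc]
    simp only [zero_mul, Finset.compl_union, map_zero, mul_zero, ite_self]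
  · by_contra hc
    apply h
    unfold Term
    rw [d.hg.2 _ hc]
    simp only [map_zero, mul_zero, zero_mul, Finset.compl_union, ite_self]

lemma bsym_disj1 {D1 D2 K : Finset (B D)} (hK : K ∈ (D1 ∪ D2)ᶜ.powerset) : Disjoint D1 K := by
  rw [Finset.mem_powerset] at hK
  exact (disjoint_compl_right (a := D1 ∪ D2)).mono Finset.subset_union_left hK

lemma bsym_disj2 {D1 D2 K : Finset (B D)} (hK : K ∈ (D1 ∪ D2)ᶜ.powerset) : Disjoint D2 K := by
  rw [Finset.mem_powerset] at hK
  exact (disjoint_compl_right (a := D1 ∪ D2)).mono Finset.subset_union_right hK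

/-- the numerator vanishes if the types are different -/
lemma Num_typ (ν : D.I → ℤ) (L : List (Dat D)) {D1 D2 : Finset (B D)} (h : Disjoint D1 D2)
    (ht : typ D D1 ≠ typ D D2) : Num D ν L D1 D2 = 0 := by
  unfold Num
  apply List.sum_eq_zero
  intro x hx
  obtain ⟨d, -, rfl⟩ := List.mem_map.mp hx
  refine Finset.sum_eq_zero fun K hK => ?_
  by_contra hc
  obtain ⟨h1, h2⟩ := bsym_Term_ne D ν d hc
  rw [bsym_typ_disj D (bsym_disj1 D hK)] at h1
  rw [bsym_typ_disj D (bsym_disj2 D hK), ← h1] at h2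
  exact ht (add_right_cancel h2).symm

lemma bsym_Num_single (ν : D.I → ℤ) (d : Dat D) (D1 D2 : Finset (B D)) :
    Num D ν [d] D1 D2 = ∑ K ∈ (D1 ∪ D2)ᶜ.powerset, Term D ν d D1 D2 K := by
  unfold Num
  rw [List.map_singleton, List.sum_singleton]

/-- a datum of type `n` contributes only to `D1, D2` with `typ D1 ≤ n` -/
lemma Num_single_ne (ν : D.I → ℤ) (d : Dat D) {D1 D2 : Finset (B D)} (h : Disjoint D1 D2)
    (h0 : Num D ν [d] D1 D2 ≠ 0) : typ D D1 ≤ d.n := by
  rw [bsym_Num_single] at h0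
  obtain ⟨K, -, hK2⟩ := Finset.exists_ne_zero_of_sum_ne_zero h0
  rw [← (bsym_Term_ne D ν d hK2).1]
  exact typ_mono D Finset.subset_union_left

lemma bsym_ww_empty (N : Finset (B D)) : ww D N ∅ = Om D N := by
  unfold ww Om
  refine Finset.prod_congr rfl fun p _ => Finset.prod_congr rfl fun q _ => ?_
  simp [pw]

lemma bsym_ww_self (N : Finset (B D)) : ww D N N = Om D N := by
  unfold ww Om
  refine Finset.prod_congr rfl fun p hp => Finset.prod_congr rfl fun q hq => ?_
  have hq' := Finset.mem_of_mem_erase hq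
  simp [pw, hp, hq']

/-- and if `typ D1 = n` only `K = ∅` contributes -/
lemma Num_single_top (ν : D.I → ℤ) (d : Dat D) {D1 D2 : Finset (B D)} (h : Disjoint D1 D2)
    (h1 : typ D D1 = d.n) : Num D ν [d] D1 D2 = Om D (D1 ∪ D2)ᶜ *
      if ∑ i, ν i * d.n i < 0 then d.f D1 * sh D (-hb D) D1 (d.g D2)
      else d.g D2 * sh D (hb D) D2 (d.f D1) := by
  rw [bsym_Num_single, Finset.sum_eq_single ∅]
  · unfold Term
    rw [bsym_ww_empty, Finset.sdiff_empty, bsym_ww_self, Finset.union_empty, Finset.union_empty,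
      Finset.prod_empty, Finset.prod_empty]
    split_ifs <;> ring
  · intro K hK hne
    by_contra hc
    have h2 := (bsym_Term_ne D ν d hc).1
    rw [bsym_typ_disj D (bsym_disj1 D hK), h1] at h2
    exact hne (typ_eq_zero D (by simpa using h2))
  · intro hn
    exact absurd (Finset.empty_mem_powerset _) hn

end Vale.Agent.P291.H
end
end

section

section

set_option autoImplicit false
set_option linter.unusedSectionVars false

/-! Lifting functions on the pairs of disjoint subsets of type `n` to products. -/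

namespace Vale.Agent.P291.H

open MvPolynomial Vale.Agent.P291.G

variable (D : QData)

lemma bl_sh_inr (s : S D (ZZ D)) (A : Finset (B D)) (z : ZZ D) :
    sh D s A (X (Sum.inr z)) = X (Sum.inr z) := by
  rw [sh, aeval_X]
  rfl

lemma bl_sh_xq (s : S D (ZZ D)) (A : Finset (B D)) (b : B D) :
    sh D s A (xq D b) = if b ∈ A then xq D b + s else xq D b := by
  rw [sh, xq, xx, aeval_X]
  rfl

lemma bl_sh_hb (s : S D (ZZ D)) (A : Finset (B D)) : sh D s A (hb D) = hb D :=
  bl_sh_inr D s A _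

lemma bl_sh_fix {s : S D (ZZ D)} (hs : s = hb D ∨ s = -hb D) (s' : S D (ZZ D))
    (A : Finset (B D)) : sh D s' A s = s := by
  rcases hs with rfl | rfl
  · exact bl_sh_hb D s' A
  · rw [map_neg, bl_sh_hb]

lemma sh_inj {s : S D (ZZ D)} (hs : s = hb D ∨ s = -hb D) (A : Finset (B D)) :
    Function.Injective (sh D s A) := by
  have h : (sh D (-s) A).comp (sh D s A) = AlgHom.id ℂ (S D (ZZ D)) := by
    apply MvPolynomial.algHom_ext
    rintro (b | z)
    · rw [AlgHom.comp_apply, AlgHom.id_apply]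
      have h1 : sh D s A (X (Sum.inl b)) = if b ∈ A then xq D b + s else xq D b :=
        bl_sh_xq D s A b
      rw [h1]
      split_ifs with hb'
      · rw [map_add, bl_sh_fix D hs, bl_sh_xq, if_pos hb', neg_add_cancel_right]
        rfl
      · rw [bl_sh_xq, if_neg hb']
        rfl
    · rw [AlgHom.comp_apply, AlgHom.id_apply, bl_sh_inr, bl_sh_inr]
  have h2 : ∀ f, sh D (-s) A (sh D s A f) = f := fun f => by
    rw [← AlgHom.comp_apply, h]
    rfl
  intro f g hfg
  have h3 := congrArg (sh D (-s) A) hfg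
  rwa [h2, h2] at h3

lemma bl_act_inr (Z : Type) (σ : W D) (z : Z) : act D Z σ (X (Sum.inr z)) = X (Sum.inr z) := by
  rw [act, rename_X]
  rfl

lemma bl_act_lin (σ : W D) (m : Fin D.rk → ℤ) :
    act D (Fin D.rk) σ (lin (YY D) m) = lin (YY D) m := by
  have h := map_lin (act D (Fin D.rk) σ).toRingHom (YY D) m
  have h2 : (fun j => (act D (Fin D.rk) σ).toRingHom (YY D j)) = YY D := by
    funext j
    exact bl_act_inr D (Fin D.rk) σ j
  rw [h2] at h
  exact h

lemma bl_spec_xq (b : B D) : spec D (xq D b) = xx D (Fin D.rk) b := by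
  rw [spec, xq, xx, aeval_X]
  rfl

lemma spec_act (σ : W D) (f : S D (ZZ D)) :
    spec D (act D (ZZ D) σ f) = act D (Fin D.rk) σ (spec D f) := by
  have h : (spec D).comp (act D (ZZ D) σ) = (act D (Fin D.rk) σ).comp (spec D) := by
    apply MvPolynomial.algHom_ext
    rintro (b | z)
    · rw [AlgHom.comp_apply, AlgHom.comp_apply]
      have h1 : act D (ZZ D) σ (X (Sum.inl b)) = xq D (perm D σ b) := act_xx D (ZZ D) σ b
      have h2 : spec D (X (Sum.inl b)) = xx D (Fin D.rk) b := bl_spec_xq D b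
      rw [h1, h2, bl_spec_xq, act_xx]
    · rw [AlgHom.comp_apply, AlgHom.comp_apply, bl_act_inr]
      have h3 : spec D (X (Sum.inr z)) = (Sum.elim
        (Sum.elim (fun a => lin (YY D) (D.ta a)) fun p => lin (YY D) (D.tw p.1 p.2))
        (Sum.elim (fun _ => 0) fun j => YY D j)) z := by
        rw [spec, aeval_X]
        rfl
      rw [h3]
      rcases z with ((a | p) | (u | j))
      · exact (bl_act_lin D σ _).symm
      · exact (bl_act_lin D σ _).symm
      · exact (map_zero _).symm
      · exact (bl_act_inr D (Fin D.rk) σ j).symm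
  have h4 := congrArg (fun g : S D (ZZ D) →ₐ[ℂ] S D (Fin D.rk) => g f) h
  exact h4

lemma bl_spec_del : spec D (del D (ZZ D)) = del D (Fin D.rk) := by
  rw [del, del, map_prod]
  refine Finset.prod_congr rfl fun i _ => ?_
  rw [AlgHom.map_det]
  congr 1
  ext r c
  rw [AlgHom.mapMatrix_apply, Matrix.map_apply, Matrix.vandermonde_apply, map_pow,
    Matrix.vandermonde_apply, show spec D (xx D (ZZ D) ⟨i, r⟩) = _ from bl_spec_xq D _]

lemma spec_Dl_ne_zero (A : Finset (B D)) : spec D (Dl D (ZZ D) A) ≠ 0 := by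
  intro h
  have h1 := congrArg (spec D) (Dl_spec D (ZZ D) A)
  rw [map_mul, h, mul_zero, bl_spec_del] at h1
  exact del_ne_zero D (Fin D.rk) h1

/-- pairs at the same vertex -/
def bl_prs (N D2 : Finset (B D)) : Finset (B D × B D) := (N ×ˢ D2).filter fun p => p.1.1 = p.2.1

lemma bl_mem_prs (N D2 : Finset (B D)) (p : B D × B D) :
    p ∈ bl_prs D N D2 ↔ (p.1 ∈ N ∧ p.2 ∈ D2) ∧ p.1.1 = p.2.1 := by
  rw [bl_prs, Finset.mem_filter, Finset.mem_product]

lemma bl_cr (Z : Type) (N D2 : Finset (B D)) :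
    cr D Z N D2 = ∏ p ∈ bl_prs D N D2, (xx D Z p.1 - xx D Z p.2) := by
  rw [cr, bl_prs, Finset.prod_filter, Finset.prod_product]

/-- `cr N D2` divides `Dl D1` if `N`, `D2` are disjoint from each other and from `D1` -/
lemma cr_dvd_Dl (Z : Type) {D1 D2 N : Finset (B D)} (h : Disjoint D1 D2) (h1 : Disjoint N D1)
    (h2 : Disjoint N D2) : cr D Z N D2 ∣ Dl D Z D1 := by
  classical
  rw [bl_cr]
  have hne : ∀ p ∈ bl_prs D N D2, p.1 ≠ p.2 := by
    intro p hp he
    rw [bl_mem_prs] at hp
    exact Finset.disjoint_left.1 h2 hp.1.1 (he ▸ hp.1.2)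
  refine Finset.prod_dvd_of_isRelPrime ?_ fun p hp => ?_
  · intro p hp q hq hpq
    have hp' := (bl_mem_prs D N D2 p).1 hp
    have hq' := (bl_mem_prs D N D2 q).1 hq
    refine GUfd.isRelPrime_sub (fun e => hne p hp (Sum.inl_injective e))
      (fun e => hne q hq (Sum.inl_injective e)) ?_
    rintro (⟨e1, e2⟩ | ⟨e1, e2⟩)
    · exact hpq (Prod.ext (Sum.inl_injective e1).symm (Sum.inl_injective e2).symm)
    · have e3 : q.1 = p.2 := Sum.inl_injective e1
      exact Finset.disjoint_left.1 h2 hq'.1.1 (e3 ▸ hp'.1.2)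
  · have hp' := (bl_mem_prs D N D2 p).1 hp
    have hne' := hne p hp
    obtain ⟨⟨i, r⟩, ⟨j, t⟩⟩ := p
    simp only at hp' hne' ⊢
    obtain ⟨⟨ha, hb'⟩, hij⟩ := hp'
    subst hij
    have hrt : r ≠ t := by
      rintro rfl
      exact hne' rfl
    refine dvd_of_tr D Z i hrt ?_
    have hA : (⟨i, r⟩ : B D) ∉ D1 := Finset.disjoint_left.1 h1 ha
    have hB : (⟨i, t⟩ : B D) ∉ D1 := fun hc => Finset.disjoint_left.1 h hc hb'
    rw [act_Dl, mp_tr D (iff_of_false hA hB), sgn_tr D i hrt]
    push_cast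
    ring

lemma bl_mp_mem {σ : W D} {A : Finset (B D)} (h : mp D σ A = A) (b : B D) :
    perm D σ b ∈ A ↔ b ∈ A := by
  have h1 := mem_mp D σ A b
  rwa [h] at h1

/-- reindexing the product over the pairs by the second component -/
lemma bl_reindex_snd {N D2 : Finset (B D)} {σ : W D} (h : mp D σ D2 = D2)
    (f : B D → B D → S D (ZZ D)) :
    ∏ p ∈ bl_prs D N D2, f p.1 (perm D σ p.2) = ∏ p ∈ bl_prs D N D2, f p.1 p.2 := by
  refine Finset.prod_equiv (Equiv.prodCongr (Equiv.refl _) (perm D σ)) (fun p => ?_)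
    (fun p _ => rfl)
  rw [bl_mem_prs, bl_mem_prs]
  simp only [Equiv.prodCongr_apply, Prod.map_fst, Prod.map_snd, Equiv.refl_apply]
  rw [bl_mp_mem D h, perm_fst]

lemma bl_reindex_fst {N D2 : Finset (B D)} {σ : W D} (h : mp D σ N = N)
    (f : B D → B D → S D (ZZ D)) :
    ∏ p ∈ bl_prs D N D2, f (perm D σ p.1) p.2 = ∏ p ∈ bl_prs D N D2, f p.1 p.2 := by
  refine Finset.prod_equiv (Equiv.prodCongr (perm D σ) (Equiv.refl _)) (fun p => ?_)
    (fun p _ => rfl)
  rw [bl_mem_prs, bl_mem_prs]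
  simp only [Equiv.prodCongr_apply, Prod.map_fst, Prod.map_snd, Equiv.refl_apply]
  rw [bl_mp_mem D h, perm_fst]

/-- the product vanishes unless `τ` fixes `D2` -/
lemma bl_prod_tau {D1 D2 : Finset (B D)} {τ : W D} (hd : Disjoint D1 D2) (h1 : mp D τ D1 = D1) :
    ∏ p ∈ bl_prs D (D1 ∪ D2)ᶜ D2, (xq D (perm D τ p.1) - xq D p.2)
      = if mp D τ D2 = D2 then cr D (ZZ D) (D1 ∪ D2)ᶜ D2 else 0 := by
  set N := (D1 ∪ D2)ᶜ with hN
  by_cases hex : ∃ a ∈ N, perm D τ a ∈ D2
  · obtain ⟨a, haN, ha2⟩ := hex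
    have h2 : mp D τ D2 ≠ D2 := by
      intro h2
      rw [bl_mp_mem D h2] at ha2
      rw [hN, Finset.mem_compl, Finset.mem_union, not_or] at haN
      exact haN.2 ha2
    rw [if_neg h2]
    refine Finset.prod_eq_zero (i := (a, perm D τ a)) ?_ (sub_self _)
    rw [bl_mem_prs]
    exact ⟨⟨haN, ha2⟩, (perm_fst D τ a).symm⟩
  · push Not at hex
    have hsub : mp D τ N ⊆ N := by
      intro b hb'
      rw [mem_mp'] at hb'
      have h3 := hex _ hb'
      rw [Equiv.apply_symm_apply] at h3
      have h4 : (perm D τ).symm b ∉ D1 := by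
        rw [hN, Finset.mem_compl, Finset.mem_union, not_or] at hb'
        exact hb'.1
      have h5 : b ∉ D1 := by
        intro h6
        apply h4
        have h7 := bl_mp_mem D h1 ((perm D τ).symm b)
        rw [Equiv.apply_symm_apply] at h7
        exact h7.1 h6
      rw [hN, Finset.mem_compl, Finset.mem_union, not_or]
      exact ⟨h5, h3⟩
    have hNN : mp D τ N = N := Finset.eq_of_subset_of_card_le hsub (by
      rw [mp, Finset.card_map])
    have h22 : mp D τ D2 = D2 := by
      have e1 : D2 = (D1 ∪ N)ᶜ := by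
        ext b
        rw [hN, Finset.mem_compl, Finset.mem_union, Finset.mem_compl, Finset.mem_union]
        constructor
        · intro hb' hc
          rcases hc with hc | hc
          · exact Finset.disjoint_left.1 hd hc hb'
          · exact hc (Or.inr hb')
        · intro hc
          push Not at hc
          rcases hc.2 with hc2 | hc2
          · exact absurd hc2 hc.1
          · exact hc2
      have e2 : mp D τ ((D1 ∪ N)ᶜ) = (D1 ∪ N)ᶜ := by
        rw [mp_compl, mp_union, h1, hNN]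
      rw [e1]
      exact e2
    rw [if_pos h22, bl_reindex_fst D hNN (fun a b => xq D a - xq D b), bl_cr]

lemma bl_sgn_sq (σ : W D) : (sgn D σ : S D (ZZ D)) * (sgn D σ : S D (ZZ D)) = 1 := by
  rw [← Int.cast_mul, sgn_sq, Int.cast_one]

lemma bl_sgn_ne (σ : W D) : (sgn D σ : S D (ZZ D)) ≠ 0 := by
  intro h
  have h1 := bl_sgn_sq D σ
  rw [h, mul_zero] at h1
  exact zero_ne_one h1

/-- `K₀ * G` is alternating under the common stabilizer -/
lemma bl_K_alt {D1 D2 : Finset (B D)} {K₀ G : S D (ZZ D)}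
    (hK₀ : Dl D (ZZ D) D1 = cr D (ZZ D) (D1 ∪ D2)ᶜ D2 * K₀) {τ : W D}
    (h1 : mp D τ D1 = D1) (h2 : mp D τ D2 = D2) (hG : act D (ZZ D) τ G = G) :
    (sgn D τ : S D (ZZ D)) * act D (ZZ D) τ (K₀ * G) = K₀ * G := by
  have hN : mp D τ (D1 ∪ D2)ᶜ = (D1 ∪ D2)ᶜ := by rw [mp_compl, mp_union, h1, h2]
  have hne : cr D (ZZ D) (D1 ∪ D2)ᶜ D2 ≠ 0 := by
    refine cr_ne_zero D (ZZ D) (Finset.disjoint_left.2 fun b hb1 hb2 => ?_)
    rw [Finset.mem_compl, Finset.mem_union, not_or] at hb1
    exact hb1.2 hb2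
  have h3 := congrArg (act D (ZZ D) τ) hK₀
  rw [act_Dl, h1, map_mul, act_cr, hN, h2, hK₀] at h3
  have h4 : act D (ZZ D) τ K₀ = (sgn D τ : S D (ZZ D)) * K₀ := by
    refine mul_left_cancel₀ hne ?_
    rw [← h3]
    ring
  rw [map_mul, h4, hG]
  calc (sgn D τ : S D (ZZ D)) * ((sgn D τ : S D (ZZ D)) * K₀ * G)
      = ((sgn D τ : S D (ZZ D)) * (sgn D τ : S D (ZZ D))) * (K₀ * G) := by ring
    _ = K₀ * G := by rw [bl_sgn_sq, one_mul]

lemma bl_orb_self (A₀ : Finset (B D)) (p : S D (ZZ D)) : orb D (ZZ D) A₀ p A₀ =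
    ∑ τ ∈ Finset.univ.filter fun τ : W D => mp D τ A₀ = A₀,
      (sgn D τ : S D (ZZ D)) * act D (ZZ D) τ p := by
  rw [orb, Finset.sum_filter]

/-- the shifted second factor -/
lemma bl_second {s : S D (ZZ D)} {D1 D2 : Finset (B D)} (hd : Disjoint D1 D2)
    {t : Finset (B D × B D)} (ht : ∀ p ∈ t, p.2 ∈ D2) {σ : W D} (h2 : mp D σ D2 = D2) :
    sh D s D1 ((sgn D σ : S D (ZZ D)) *
      act D (ZZ D) σ (Dl D (ZZ D) D2 * ∏ p ∈ t, (-xq D p.2)))
      = sh D s D1 (Dl D (ZZ D) D2) * ∏ p ∈ t, (-xq D (perm D σ p.2)) := by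
  have h3 : (sgn D σ : S D (ZZ D)) *
      act D (ZZ D) σ (Dl D (ZZ D) D2 * ∏ p ∈ t, (-xq D p.2))
      = Dl D (ZZ D) D2 * ∏ p ∈ t, (-xq D (perm D σ p.2)) := by
    rw [map_mul, act_Dl, h2, map_prod]
    have h4 : ∀ p ∈ t, act D (ZZ D) σ (-xq D p.2) = -xq D (perm D σ p.2) := by
      intro p _
      rw [map_neg, xq, act_xx]
    rw [Finset.prod_congr rfl h4]
    calc (sgn D σ : S D (ZZ D)) * ((sgn D σ : S D (ZZ D)) * Dl D (ZZ D) D2 *
          ∏ p ∈ t, (-xq D (perm D σ p.2)))
        = ((sgn D σ : S D (ZZ D)) * (sgn D σ : S D (ZZ D))) * (Dl D (ZZ D) D2 *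
          ∏ p ∈ t, (-xq D (perm D σ p.2))) := by ring
      _ = _ := by rw [bl_sgn_sq, one_mul]
  rw [h3, map_mul, map_prod]
  congr 1
  refine Finset.prod_congr rfl fun p hp => ?_
  have h5 : perm D σ p.2 ∉ D1 := fun h6 =>
    Finset.disjoint_left.1 hd h6 ((bl_mp_mem D h2 p.2).2 (ht p hp))
  rw [map_neg, bl_sh_xq, if_neg h5]

/-- the constant -/
noncomputable def bl_c (D1 D2 : Finset (B D)) : ℕ :=
  (Finset.univ.filter fun σ : W D => mp D σ D2 = D2).card *
    (Finset.univ.filter fun τ : W D => mp D τ D1 = D1 ∧ mp D τ D2 = D2).card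

lemma bl_c_ne_zero (D1 D2 : Finset (B D)) : bl_c D D1 D2 ≠ 0 := by
  refine mul_ne_zero (Finset.card_ne_zero.2 ⟨1, ?_⟩) (Finset.card_ne_zero.2 ⟨1, ?_⟩)
  · rw [Finset.mem_filter]
    exact ⟨Finset.mem_univ _, mp_one D D2⟩
  · rw [Finset.mem_filter]
    exact ⟨Finset.mem_univ _, mp_one D D1, mp_one D D2⟩

lemma bl_main {s : S D (ZZ D)} {D1 D2 : Finset (B D)}
    (hd : Disjoint D1 D2) {K₀ G : S D (ZZ D)}
    (hK₀ : Dl D (ZZ D) D1 = cr D (ZZ D) (D1 ∪ D2)ᶜ D2 * K₀)
    (hG : ∀ σ, mp D σ D1 = D1 → mp D σ D2 = D2 → act D (ZZ D) σ G = G) :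
    ∑ t ∈ (bl_prs D (D1 ∪ D2)ᶜ D2).powerset,
      orb D (ZZ D) D1 ((∏ p ∈ t, xq D p.1) * (K₀ * G)) D1 *
        sh D s D1 (orb D (ZZ D) D2
          (Dl D (ZZ D) D2 * ∏ p ∈ bl_prs D (D1 ∪ D2)ᶜ D2 \ t, (-xq D p.2)) D2)
      = (bl_c D D1 D2 : S D (ZZ D)) *
        (Dl D (ZZ D) D1 * G * sh D s D1 (Dl D (ZZ D) D2)) := by
  set T := bl_prs D (D1 ∪ D2)ᶜ D2 with hT
  set St1 := Finset.univ.filter fun τ : W D => mp D τ D1 = D1 with hSt1
  set St2 := Finset.univ.filter fun σ : W D => mp D σ D2 = D2 with hSt2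
  have e1 : ∀ t ∈ T.powerset,
      orb D (ZZ D) D1 ((∏ p ∈ t, xq D p.1) * (K₀ * G)) D1 *
        sh D s D1 (orb D (ZZ D) D2
          (Dl D (ZZ D) D2 * ∏ p ∈ T \ t, (-xq D p.2)) D2)
      = ∑ τ ∈ St1, ∑ σ ∈ St2, ((sgn D τ : S D (ZZ D)) * act D (ZZ D) τ (K₀ * G) *
          sh D s D1 (Dl D (ZZ D) D2)) *
          ((∏ p ∈ t, xq D (perm D τ p.1)) * ∏ p ∈ T \ t, (-xq D (perm D σ p.2))) := by
    intro t _
    rw [bl_orb_self, bl_orb_self, map_sum, Finset.sum_mul_sum]
    refine Finset.sum_congr rfl fun τ _ => Finset.sum_congr rfl fun σ hσ => ?_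
    have hσ2 : mp D σ D2 = D2 := (Finset.mem_filter.1 hσ).2
    rw [bl_second D hd (fun p hp => ((bl_mem_prs D _ _ p).1 (Finset.mem_sdiff.1 hp).1).1.2) hσ2,
      map_mul, map_prod]
    have h4 : ∀ p ∈ t, act D (ZZ D) τ (xq D p.1) = xq D (perm D τ p.1) := fun p _ =>
      act_xx D (ZZ D) τ p.1
    rw [Finset.prod_congr rfl h4]
    ring
  rw [Finset.sum_congr rfl e1, Finset.sum_comm]
  have e2 : ∀ τ ∈ St1, ∑ t ∈ T.powerset, ∑ σ ∈ St2,
      ((sgn D τ : S D (ZZ D)) * act D (ZZ D) τ (K₀ * G) *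
          sh D s D1 (Dl D (ZZ D) D2)) *
          ((∏ p ∈ t, xq D (perm D τ p.1)) * ∏ p ∈ T \ t, (-xq D (perm D σ p.2)))
      = if mp D τ D2 = D2 then (St2.card : S D (ZZ D)) * (Dl D (ZZ D) D1 * G *
          sh D s D1 (Dl D (ZZ D) D2)) else 0 := by
    intro τ hτ
    have hτ1 : mp D τ D1 = D1 := (Finset.mem_filter.1 hτ).2
    rw [Finset.sum_comm]
    have e3 : ∀ σ ∈ St2, ∑ t ∈ T.powerset,
        ((sgn D τ : S D (ZZ D)) * act D (ZZ D) τ (K₀ * G) *
          sh D s D1 (Dl D (ZZ D) D2)) *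
          ((∏ p ∈ t, xq D (perm D τ p.1)) * ∏ p ∈ T \ t, (-xq D (perm D σ p.2)))
        = if mp D τ D2 = D2 then Dl D (ZZ D) D1 * G *
          sh D s D1 (Dl D (ZZ D) D2) else 0 := by
      intro σ hσ
      have hσ2 : mp D σ D2 = D2 := (Finset.mem_filter.1 hσ).2
      rw [← Finset.mul_sum, ← Finset.prod_add]
      have h5 : ∏ p ∈ T, (xq D (perm D τ p.1) + -xq D (perm D σ p.2))
          = if mp D τ D2 = D2 then cr D (ZZ D) (D1 ∪ D2)ᶜ D2 else 0 := by
        rw [← bl_prod_tau D hd hτ1]
        have h6 := bl_reindex_snd D (N := (D1 ∪ D2)ᶜ) hσ2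
          (fun a b => xq D (perm D τ a) - xq D b)
        rw [← h6]
        exact Finset.prod_congr rfl fun p _ => (sub_eq_add_neg _ _).symm
      rw [h5]
      split_ifs with h7
      · rw [bl_K_alt D hK₀ hτ1 h7 (hG τ hτ1 h7), hK₀]
        ring
      · rw [mul_zero]
    rw [Finset.sum_congr rfl e3, Finset.sum_const, nsmul_eq_mul]
    split_ifs
    · rfl
    · rw [mul_zero]
  rw [Finset.sum_congr rfl e2, ← Finset.sum_filter, Finset.sum_const, nsmul_eq_mul, bl_c,
    Finset.filter_filter]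
  push_cast
  ring

/-- alternating families are `Dl` times equivariant families -/
lemma bl_div {n : D.I → ℕ} {φ : Finset (B D) → S D (ZZ D)} (h : φ ∈ AF D (ZZ D) n) :
    ∃ a : Finset (B D) → S D (ZZ D), EF D n a ∧ ∀ A, φ A = Dl D (ZZ D) A * a A := by
  choose a ha using fun A => Dl_dvd D (ZZ D) h A
  refine ⟨a, ⟨fun σ A => ?_, fun A hA => ?_⟩, ha⟩
  · have h1 := h.1 σ A
    rw [ha A, ha (mp D σ A), map_mul, act_Dl, mul_assoc] at h1
    exact mul_left_cancel₀ (Dl_ne_zero D (ZZ D) _) (mul_left_cancel₀ (bl_sgn_ne D σ) h1)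
  · have h1 := h.2 A hA
    rw [ha A] at h1
    exact (mul_eq_zero.1 h1).resolve_left (Dl_ne_zero D (ZZ D) A)

lemma bl_spec_orb (A₀ : Finset (B D)) {p : S D (ZZ D)} (hp : spec D p = 0) (A : Finset (B D)) :
    spec D (orb D (ZZ D) A₀ p A) = 0 := by
  rw [orb, map_sum]
  refine Finset.sum_eq_zero fun τ _ => ?_
  split_ifs
  · rw [map_mul, spec_act, hp, map_zero, mul_zero]
  · exact map_zero _

/-- LIFT, quantum version. Let `N = (D1 ∪ D2)ᶜ`, `Dl D1 = cr N D2 * K₀`, `K = K₀ * G`,
`T` = the pairs `(a, b) ∈ N × D2` at the same vertex. For `t ⊆ T` put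
`φ_t = orb D1 ((∏_{p ∈ t} x p.1) * K)`, `ψ_t = orb D2 (Dl D2 * ∏_{p ∈ T \ t} (- x p.2))`. Then
`∑_t φ_t(D1) * sh s D1 (ψ_t(D2))
  = ∑_{τ D1 = D1} ∑_{σ D2 = D2} sgn τ sgn σ τ(K) sh(σ Dl D2) ∏_{p ∈ T} (x (τ p.1) - x (σ p.2))`
(`sh s D1` fixes `x b`, `b ∈ D2`), `σ (Dl D2) = sgn σ Dl D2`, the product can be reindexed by `σ`;
it vanishes unless `τ N ∩ D2 = ∅`, i.e. `τ D2 = D2`, and then `τ K = sgn τ K`. So the sum is
`c * K * cr N D2 * sh (Dl D2) = c * Dl D1 * G * sh (Dl D2)`, `c ≠ 0` a natural number.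
Divide `φ_t = Dl * a_t`, `ψ_t = Dl * b_t` (`Dl_dvd`, `act_Dl`; values outside type `n` are zero) and
rescale by `1/c`. -/
theorem liftB {s : S D (ZZ D)} (hs : s = hb D ∨ s = -hb D) {D1 D2 : Finset (B D)}
    (hd : Disjoint D1 D2) (ht : typ D D1 = typ D D2) {G : S D (ZZ D)}
    (hG : ∀ σ, mp D σ D1 = D1 → mp D σ D2 = D2 → act D (ZZ D) σ G = G) (hG0 : spec D G = 0) :
    ∃ (m : ℕ) (a b : Fin m → Finset (B D) → S D (ZZ D)),
      (∀ t, EF D (typ D D1) (a t) ∧ EF D (typ D D1) (b t) ∧ ∀ A, spec D (a t A) = 0) ∧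
      ∑ t, a t D1 * sh D s D1 (b t D2) = G := by
  have hN1 : Disjoint (D1 ∪ D2)ᶜ D1 := Finset.disjoint_left.2 fun b hb1 hb2 => by
    rw [Finset.mem_compl, Finset.mem_union, not_or] at hb1
    exact hb1.1 hb2
  have hN2 : Disjoint (D1 ∪ D2)ᶜ D2 := Finset.disjoint_left.2 fun b hb1 hb2 => by
    rw [Finset.mem_compl, Finset.mem_union, not_or] at hb1
    exact hb1.2 hb2
  obtain ⟨K₀, hK₀⟩ := cr_dvd_Dl D (ZZ D) hd hN1 hN2
  set T := bl_prs D (D1 ∪ D2)ᶜ D2 with hT
  set φ : Finset (B D × B D) → Finset (B D) → S D (ZZ D) := fun t =>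
    orb D (ZZ D) D1 ((∏ p ∈ t, xq D p.1) * (K₀ * G)) with hφ
  set ψ : Finset (B D × B D) → Finset (B D) → S D (ZZ D) := fun t =>
    orb D (ZZ D) D2 (Dl D (ZZ D) D2 * ∏ p ∈ T \ t, (-xq D p.2)) with hψ
  have mφ : ∀ t, φ t ∈ AF D (ZZ D) (typ D D1) := fun t => orb_mem D (ZZ D) D1 _
  have mψ : ∀ t, ψ t ∈ AF D (ZZ D) (typ D D1) := fun t => ht ▸ orb_mem D (ZZ D) D2 _
  choose a ha1 ha2 using fun t => bl_div D (mφ t)
  choose b hb1 hb2 using fun t => bl_div D (mψ t)
  have key := bl_main D (s := s) hd hK₀ hG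
  have hsp : ∀ t A, spec D (a t A) = 0 := by
    intro t A
    have h1 : spec D (φ t A) = 0 := by
      refine bl_spec_orb D D1 ?_ A
      rw [map_mul, map_mul, hG0, mul_zero, mul_zero]
    rw [ha2 t A, map_mul] at h1
    exact (mul_eq_zero.1 h1).resolve_left (spec_Dl_ne_zero D A)
  have hsum : ∑ t ∈ T.powerset, a t D1 * sh D s D1 (b t D2)
      = (bl_c D D1 D2 : S D (ZZ D)) * G := by
    have h1 : Dl D (ZZ D) D1 ≠ 0 := Dl_ne_zero D (ZZ D) D1
    have h2 : sh D s D1 (Dl D (ZZ D) D2) ≠ 0 := by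
      rw [Ne, ← map_zero (sh D s D1)]
      exact fun h => Dl_ne_zero D (ZZ D) D2 (sh_inj D hs D1 h)
    refine mul_left_cancel₀ (mul_ne_zero h1 h2) ?_
    rw [Finset.mul_sum]
    calc ∑ t ∈ T.powerset, Dl D (ZZ D) D1 * sh D s D1 (Dl D (ZZ D) D2) *
          (a t D1 * sh D s D1 (b t D2))
        = ∑ t ∈ T.powerset, φ t D1 * sh D s D1 (ψ t D2) := by
          refine Finset.sum_congr rfl fun t _ => ?_
          rw [ha2 t D1, hb2 t D2, map_mul]
          ring
      _ = _ := key
      _ = _ := by ring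
  set c : ℂ := (bl_c D D1 D2 : ℂ) with hc
  have hc0 : c ≠ 0 := Nat.cast_ne_zero.2 (bl_c_ne_zero D D1 D2)
  set e := T.powerset.equivFin with he
  refine ⟨T.powerset.card, fun i A => c⁻¹ • a (e.symm i).1 A, fun i => b (e.symm i).1,
    fun i => ⟨⟨fun σ A => ?_, fun A hA => ?_⟩, hb1 _, fun A => ?_⟩, ?_⟩
  · simp only
    rw [map_smul, (ha1 _).1]
  · simp only
    rw [(ha1 _).2 A hA, smul_zero]
  · simp only
    rw [map_smul, hsp, smul_zero]
  · have h3 : ∑ i, c⁻¹ • a (e.symm i).1 D1 * sh D s D1 (b (e.symm i).1 D2)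
        = ∑ t ∈ T.powerset, c⁻¹ • a t D1 * sh D s D1 (b t D2) := by
      rw [← Finset.sum_coe_sort T.powerset
        (fun t => c⁻¹ • a t D1 * sh D s D1 (b t D2))]
      exact Equiv.sum_comp e.symm
        (fun t : {t // t ∈ T.powerset} => c⁻¹ • a t.1 D1 * sh D s D1 (b t.1 D2))
    rw [h3]
    simp only [smul_mul_assoc]
    rw [← Finset.smul_sum, hsum]
    have h4 : (bl_c D D1 D2 : S D (ZZ D)) * G = c • G := by
      rw [hc, Nat.cast_smul_eq_nsmul, nsmul_eq_mul]
    rw [h4, smul_smul, inv_mul_cancel₀ hc0, one_smul]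

end Vale.Agent.P291.H
end
end

section

section

set_option autoImplicit false
set_option linter.unusedSectionVars false

/-! The diagonal terms are in the ideal of the unstable strata. -/

namespace Vale.Agent.P291.H

open MvPolynomial Vale.Agent.P291.G

variable (D : QData)

lemma BM_prod_fst (i : D.I) (F : B D → S D (ZZ D)) :
    (∏ p : B D, if i = p.1 then F p else 1) = ∏ r : Fin (D.v i), F ⟨i, r⟩ := by
  rw [Fintype.prod_sigma, Finset.prod_eq_single i]
  · exact Finset.prod_congr rfl fun r _ => if_pos rfl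
  · intro j _ hj
    exact Finset.prod_eq_one fun r _ => if_neg fun h => hj h.symm
  · intro h
    exact absurd (Finset.mem_univ i) h

/-- products over pairs and arrows -/
lemma BM_prod_arrows (G : D.A → B D → B D → S D (ZZ D)) :
    ∏ p : B D, ∏ q : B D, ∏ a with D.src a = p.1 ∧ D.tgt a = q.1, G a p q =
    ∏ a, ∏ r : Fin (D.v (D.src a)), ∏ s : Fin (D.v (D.tgt a)),
      G a ⟨D.src a, r⟩ ⟨D.tgt a, s⟩ := by
  have h1 : ∀ p q : B D, (∏ a with D.src a = p.1 ∧ D.tgt a = q.1, G a p q) =
      ∏ a, if D.src a = p.1 then (if D.tgt a = q.1 then G a p q else 1) else 1 := by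
    intro p q
    rw [Finset.prod_filter]
    refine Finset.prod_congr rfl fun a _ => ?_
    by_cases h : D.src a = p.1 <;> by_cases h' : D.tgt a = q.1 <;> simp [h, h']
  calc ∏ p : B D, ∏ q : B D, ∏ a with D.src a = p.1 ∧ D.tgt a = q.1, G a p q
      = ∏ p : B D, ∏ q : B D,
          ∏ a, (if D.src a = p.1 then (if D.tgt a = q.1 then G a p q else 1) else 1) :=
        Finset.prod_congr rfl fun p _ => Finset.prod_congr rfl fun q _ => h1 p q
    _ = ∏ p : B D, ∏ a, ∏ q : B D,
          (if D.src a = p.1 then (if D.tgt a = q.1 then G a p q else 1) else 1) :=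
        Finset.prod_congr rfl fun p _ => Finset.prod_comm
    _ = ∏ a, ∏ p : B D, ∏ q : B D,
          (if D.src a = p.1 then (if D.tgt a = q.1 then G a p q else 1) else 1) :=
        Finset.prod_comm
    _ = ∏ a, ∏ p : B D, if D.src a = p.1 then
          (∏ q : B D, if D.tgt a = q.1 then G a p q else 1) else 1 := by
        refine Finset.prod_congr rfl fun a _ => Finset.prod_congr rfl fun p _ => ?_
        by_cases h : D.src a = p.1
        · simp only [if_pos h]
        · simp only [if_neg h, Finset.prod_const_one]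
    _ = _ := by
        refine Finset.prod_congr rfl fun a _ => ?_
        rw [BM_prod_fst]
        exact Finset.prod_congr rfl fun r _ => BM_prod_fst D _ _

/-- the arrow part of `elq l` divides the weight -/
lemma BM_arrow_dvd (l : B D → ℤ) (K : Finset (B D))
    (hl : ∀ p q : B D, l q < l p ↔ p ∈ K ∧ q ∉ K) :
    (∏ a, ∏ r : Fin (D.v (D.src a)), ∏ s : Fin (D.v (D.tgt a)),
      if l ⟨D.tgt a, s⟩ < l ⟨D.src a, r⟩ then
        xq D ⟨D.tgt a, s⟩ - xq D ⟨D.src a, r⟩ + tv D a
      else if l ⟨D.src a, r⟩ < l ⟨D.tgt a, s⟩ then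
        hb D - (xq D ⟨D.tgt a, s⟩ - xq D ⟨D.src a, r⟩ + tv D a) else 1) ∣
    ww D Finset.univ K := by
  rw [← BM_prod_arrows D fun a p q => if l q < l p then xq D q - xq D p + tv D a
    else if l p < l q then hb D - (xq D q - xq D p + tv D a) else 1]
  rw [ww]
  refine Finset.prod_dvd_prod_of_dvd _ _ fun p _ => ?_
  rw [← Finset.mul_prod_erase Finset.univ _ (Finset.mem_univ p)]
  have h0 : (∏ a with D.src a = p.1 ∧ D.tgt a = p.1,
      if l p < l p then xq D p - xq D p + tv D a
      else if l p < l p then hb D - (xq D p - xq D p + tv D a) else 1) = 1 :=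
    Finset.prod_eq_one fun a _ => by rw [if_neg (lt_irrefl _), if_neg (lt_irrefl _)]
  rw [h0, one_mul]
  refine Finset.prod_dvd_prod_of_dvd _ _ fun q _ => ?_
  by_cases hp : p ∈ K <;> by_cases hq' : q ∈ K
  · have h1 : ¬ l q < l p := fun h => ((hl p q).1 h).2 hq'
    have h2 : ¬ l p < l q := fun h => ((hl q p).1 h).2 hp
    simp only [if_neg h1, if_neg h2, Finset.prod_const_one]
    exact one_dvd _
  · have h1 : l q < l p := (hl p q).2 ⟨hp, hq'⟩
    simp only [if_pos h1, decide_eq_true hp, decide_eq_false hq', pw, hq, add_zero]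
    exact dvd_mul_right _ _
  · have h1 : ¬ l q < l p := fun h => hp ((hl p q).1 h).1
    have h2 : l p < l q := (hl q p).2 ⟨hq', hp⟩
    simp only [if_neg h1, if_pos h2, decide_eq_false hp, decide_eq_true hq', pw, hq]
    refine Dvd.dvd.mul_right ?_ _
    refine Finset.prod_dvd_prod_of_dvd _ _ fun a _ => ?_
    exact ⟨-1, by ring⟩
  · have h1 : ¬ l q < l p := fun h => hp ((hl p q).1 h).1
    have h2 : ¬ l p < l q := fun h => hq' ((hl q p).1 h).1
    simp only [if_neg h1, if_neg h2, Finset.prod_const_one]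
    exact one_dvd _

/-- the framing part of `elq l` -/
lemma BM_framing (l : B D → ℤ) :
    (∏ i, ∏ r : Fin (D.v i), ∏ k : Fin (D.w i), if 0 < l ⟨i, r⟩ then zv D i k - xq D ⟨i, r⟩
      else if l ⟨i, r⟩ < 0 then hb D - (zv D i k - xq D ⟨i, r⟩) else 1) =
    ∏ b : B D, ∏ k : Fin (D.w b.1), if 0 < l b then zv D b.1 k - xq D b
      else if l b < 0 then hb D - (zv D b.1 k - xq D b) else 1 := by
  rw [Fintype.prod_sigma]

lemma BM_elq_dvd_ind (K : Finset (B D)) :
    elq D (ind D K) ∣ (∏ k ∈ K, zq D k 0) * ww D Finset.univ K := by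
  rw [elq, mul_comm (∏ k ∈ K, zq D k 0)]
  refine mul_dvd_mul (BM_arrow_dvd D _ K fun p q => ?_) ?_
  · unfold ind
    by_cases hp : p ∈ K <;> by_cases hq' : q ∈ K <;> simp [hp, hq']
  · rw [BM_framing, ← Finset.prod_subset (Finset.subset_univ K)]
    · refine Finset.prod_dvd_prod_of_dvd _ _ fun b hb' => ?_
      rw [zq]
      refine Finset.prod_dvd_prod_of_dvd _ _ fun k _ => ?_
      have : 0 < ind D K b := by rw [ind, if_pos hb']; exact one_pos
      rw [if_pos this, add_zero]
    · intro b _ hb'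
      refine Finset.prod_eq_one fun k _ => ?_
      have : ind D K b = 0 := if_neg hb'
      rw [this, if_neg (lt_irrefl _), if_neg (lt_irrefl _)]

lemma BM_elq_dvd_neg (K : Finset (B D)) :
    elq D (-ind D K) ∣ (∏ k ∈ K, zq D k (-hb D)) * ww D Finset.univ (Finset.univ \ K) := by
  rw [elq, mul_comm (∏ k ∈ K, zq D k (-hb D))]
  refine mul_dvd_mul (BM_arrow_dvd D _ _ fun p q => ?_) ?_
  · simp only [Pi.neg_apply, ind, Finset.mem_sdiff, Finset.mem_univ, true_and, not_not]
    by_cases hp : p ∈ K <;> by_cases hq' : q ∈ K <;> simp [hp, hq']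
  · rw [BM_framing, ← Finset.prod_subset (Finset.subset_univ K)]
    · refine Finset.prod_dvd_prod_of_dvd _ _ fun b hb' => ?_
      rw [zq]
      refine Finset.prod_dvd_prod_of_dvd _ _ fun k _ => ?_
      have h1 : (-ind D K) b = -1 := by rw [Pi.neg_apply, ind, if_pos hb']
      rw [h1, if_neg (by (clear * -; norm_num)), if_pos (by norm_num)]
      exact ⟨-1, by ring⟩
    · intro b _ hb'
      refine Finset.prod_eq_one fun k _ => ?_
      have h1 : (-ind D K) b = 0 := by rw [Pi.neg_apply, ind, if_neg hb', neg_zero]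
      rw [h1, if_neg (lt_irrefl _), if_neg (lt_irrefl _)]

lemma BM_wt_ind (ν : D.I → ℤ) (K : Finset (B D)) :
    wt D ν (ind D K) = ∑ i, ν i * (typ D K i : ℤ) := by
  rw [wt, Fintype.sum_sigma]
  refine Finset.sum_congr rfl fun i _ => ?_
  change ∑ r : Fin (D.v i), ν i * ind D K ⟨i, r⟩ = ν i * (typ D K i : ℤ)
  rw [← Finset.mul_sum]
  congr 1
  rw [typ]
  have h1 : (K.filter fun b => b.1 = i) =
      (Finset.univ.filter fun r : Fin (D.v i) => (⟨i, r⟩ : B D) ∈ K).map
        ⟨fun r => (⟨i, r⟩ : B D), fun r s h => by simpa using h⟩ := by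
    ext b
    simp only [Finset.mem_filter, Finset.mem_map, Finset.mem_univ, true_and]
    constructor
    · rintro ⟨hb', rfl⟩
      exact ⟨b.2, hb', rfl⟩
    · rintro ⟨r, hr, rfl⟩
      exact ⟨hr, rfl⟩
  rw [h1, Finset.card_map, Finset.card_filter]
  push_cast
  rfl

/-- the diagonal terms are in the ideal generated by the `elq l`, `ν·l < 0`: for `E F` order
(`ν·n < 0`) `(∏ k ∈ K, zq k 0) * ww univ K` is a multiple of `elq (ind K)`, for `F E` order of
`elq (- ind K)` -/
theorem Num_mem (ν : D.I → ℤ) (hν : ∀ n : D.I → ℕ, n ≠ 0 → n ≤ D.v → ∑ i, ν i * (n i : ℤ) ≠ 0)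
    (L : List (Dat D)) :
    Num D ν L ∅ ∅ ∈ Ideal.span {p | ∃ l : B D → ℤ, wt D ν l < 0 ∧ p = elq D l} := by
  rw [Num]
  refine list_sum_mem fun x hx => ?_
  rw [List.mem_map] at hx
  obtain ⟨d, -, rfl⟩ := hx
  refine Ideal.sum_mem _ fun K _ => ?_
  have hu : ((∅ : Finset (B D)) ∪ ∅)ᶜ = Finset.univ := by
    rw [Finset.union_empty, Finset.compl_empty]
  by_cases ht : typ D K = d.n
  · have hw : wt D ν (ind D K) = ∑ i, ν i * (d.n i : ℤ) := by rw [BM_wt_ind, ht]
    rw [Term, hu]
    by_cases hs : ∑ i, ν i * (d.n i : ℤ) < 0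
    · rw [if_pos hs, mul_assoc]
      refine Ideal.mul_mem_left _ _ ?_
      refine Ideal.mem_of_dvd _ (BM_elq_dvd_ind D K) ?_
      exact Ideal.subset_span ⟨ind D K, by rw [hw]; exact hs, rfl⟩
    · rw [if_neg hs, mul_assoc]
      refine Ideal.mul_mem_left _ _ ?_
      refine Ideal.mem_of_dvd _ (BM_elq_dvd_neg D K) ?_
      refine Ideal.subset_span ⟨-ind D K, ?_, rfl⟩
      have h1 : wt D ν (-ind D K) = - wt D ν (ind D K) := by
        rw [wt, wt, ← Finset.sum_neg_distrib]
        exact Finset.sum_congr rfl fun b _ => by rw [Pi.neg_apply, mul_neg]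
      have h2 := hν d.n d.hn (by rw [← ht]; exact typ_le D K)
      rw [h1, hw]
      omega
  · rw [Term, Finset.empty_union]
    rw [d.hf.2 K ht, d.hg.2 K ht, map_zero, zero_mul, zero_mul, zero_mul, zero_mul, zero_mul,
      zero_mul, ite_self]
    exact Ideal.zero_mem _

end Vale.Agent.P291.H
end
end

section

section

set_option autoImplicit false
set_option linter.unusedSectionVars false

/-! Elements of a group algebra whose coefficients lie in a multiplicative family of ideals. -/

namespace Vale.Agent.P291.GGrade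

open AddMonoidAlgebra

variable {A K G : Type} [CommRing A] [CommRing K] [AddCommGroup G] (ι : A →+* K)
  (I : G → Ideal A)

/-- the elements whose coefficient of charge `d` lies in `I d` -/
def GS (h1 : (1 : A) ∈ I 0) (hmul : ∀ d d', I d * I d' ≤ I (d + d')) :
    Subring (AddMonoidAlgebra K G) where
  carrier := {x | ∀ d, ∃ r ∈ I d, ι r = x.coeff d}
  zero_mem' := fun d => ⟨0, Ideal.zero_mem _, by simp⟩
  add_mem' := by
    intro x y hx hy d
    obtain ⟨r, hr, hr'⟩ := hx d
    obtain ⟨s, hs, hs'⟩ := hy d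
    exact ⟨r + s, Ideal.add_mem _ hr hs, by simp [hr', hs']⟩
  neg_mem' := by
    intro x hx d
    obtain ⟨r, hr, hr'⟩ := hx d
    exact ⟨-r, Ideal.neg_mem_iff _ |>.2 hr, by simp [hr']⟩
  one_mem' := by
    classical
    intro d
    by_cases h : d = 0
    · subst h
      exact ⟨1, h1, by simp⟩
    · exact ⟨0, Ideal.zero_mem _, by
        rw [map_zero, AddMonoidAlgebra.one_def, coeff_single, Finsupp.single_apply,
          if_neg (Ne.symm h)]⟩
  mul_mem' := by
    classical
    intro x y hx hy d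
    choose r hr hr' using hx
    choose s hs hs' using hy
    refine ⟨∑ a ∈ x.coeff.support, ∑ b ∈ y.coeff.support, if a + b = d then r a * s b else 0,
      ?_, ?_⟩
    · refine Ideal.sum_mem _ fun a _ => Ideal.sum_mem _ fun b _ => ?_
      split_ifs with h
      · rw [← h]
        exact hmul a b (Ideal.mul_mem_mul (hr a) (hs b))
      · exact Ideal.zero_mem _
    · rw [coeff_mul, map_sum, Finsupp.sum]
      refine Finset.sum_congr rfl fun a _ => ?_
      rw [map_sum, Finsupp.sum]
      refine Finset.sum_congr rfl fun b _ => ?_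
      split_ifs with h
      · rw [map_mul, hr', hs']
      · rw [map_zero]

lemma mem_GS {h1 : (1 : A) ∈ I 0} {hmul : ∀ d d', I d * I d' ≤ I (d + d')}
    {x : AddMonoidAlgebra K G} : x ∈ GS ι I h1 hmul ↔ ∀ d, ∃ r ∈ I d, ι r = x.coeff d := Iff.rfl

lemma single_mem_GS {h1 : (1 : A) ∈ I 0} {hmul : ∀ d d', I d * I d' ≤ I (d + d')}
    {d : G} {r : A} (hr : r ∈ I d) : single d (ι r) ∈ GS ι I h1 hmul := by
  classical
  intro d'
  by_cases h : d = d'
  · subst h
    exact ⟨r, hr, by simp⟩
  · exact ⟨0, Ideal.zero_mem _, by rw [map_zero, coeff_single, Finsupp.single_apply, if_neg h]⟩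

/-- the charge zero coefficient of a product `x * y` with `y` having no charge zero component -/
lemma mul_coeff_zero {h1 : (1 : A) ∈ I 0} {hmul : ∀ d d', I d * I d' ≤ I (d + d')}
    (𝒦 : Ideal A) (hK : ∀ d, d ≠ 0 → I (-d) * I d ≤ 𝒦)
    {x y : AddMonoidAlgebra K G} (hx : x ∈ GS ι I h1 hmul) (hy : y ∈ GS ι I h1 hmul)
    (hy0 : y.coeff 0 = 0) : ∃ r ∈ 𝒦, ι r = (x * y).coeff 0 := by
  classical
  choose r hr hr' using hx
  choose s hs hs' using hy
  refine ⟨∑ a ∈ x.coeff.support, ∑ b ∈ y.coeff.support, if a + b = 0 then r a * s b else 0, ?_, ?_⟩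
  · refine Ideal.sum_mem _ fun a _ => Ideal.sum_mem _ fun b hb => ?_
    split_ifs with h
    · have hb0 : b ≠ 0 := by
        rintro rfl
        exact (Finsupp.mem_support_iff.1 hb) hy0
      have ha : a = -b := eq_neg_of_add_eq_zero_left h
      subst ha
      exact hK b hb0 (Ideal.mul_mem_mul (hr _) (hs b))
    · exact Ideal.zero_mem _
  · rw [coeff_mul, map_sum, Finsupp.sum]
    refine Finset.sum_congr rfl fun a _ => ?_
    rw [map_sum, Finsupp.sum]
    refine Finset.sum_congr rfl fun b _ => ?_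
    split_ifs with h
    · rw [map_mul, hr', hs']
    · rw [map_zero]

end Vale.Agent.P291.GGrade
end
end

section

section

set_option autoImplicit false
set_option linter.unusedSectionVars false

/-! Definitions for the theorem: if `r` is invariant and `r · Δ` is in the cut ideal, then `r`
satisfies a quadratic relation. -/

namespace Vale.Agent.P291.H.M

open MvPolynomial Vale.Agent.P291.G

section basic
variable (D : QData) (Z : Type)

open Classical in
/-- product of the differences of the ordered pairs of distinct marks of the same colour with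
the property `p` -/
noncomputable def dd (p : B D → B D → Prop) : S D Z :=
  ∏ b, ∏ c, if b ≠ c ∧ b.1 = c.1 ∧ p b c then xx D Z b - xx D Z c else 1

/-- `Δ`: product of all differences of ordered pairs of distinct marks of the same colour -/
noncomputable def ddT : S D Z := dd D Z fun _ _ => True

/-- power sum of the marks of `A` of colour `i` -/
noncomputable def ps (A : Finset (B D)) (i : D.I) (j : ℕ) : S D Z :=
  ∑ b ∈ A, if b.1 = i then xx D Z b ^ j else 0

/-- fibre of a colouring -/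
def fb {m : ℕ} (g : B D → Fin m) (t : Fin m) : Finset (B D) :=
  Finset.univ.filter fun b => g b = t

/-- polynomials in the power sums of `m` slots, the power sums of all marks, the flavors -/
abbrev PP (m : ℕ) : Type := MvPolynomial ((Fin m × D.I × ℕ) ⊕ ((D.I × ℕ) ⊕ Z)) ℂ

/-- evaluation at a tuple of subsets -/
noncomputable def evA {m : ℕ} (A : Fin m → Finset (B D)) : PP D Z m →ₐ[ℂ] S D Z :=
  aeval (Sum.elim (fun p => ps D Z (A p.1) p.2.1 p.2.2)
    (Sum.elim (fun p => ps D Z Finset.univ p.1 p.2) fun z => X (Sum.inr z)))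

/-- product of the internal differences of the fibres of a colouring -/
noncomputable def RR {m : ℕ} (g : B D → Fin m) : S D Z := dd D Z fun b c => g b = g c

/-- substitution `x b ↦ x (ι b)` -/
noncomputable def kp (ι : B D → B D) : S D Z →ₐ[ℂ] S D Z := rename (Sum.map ι id)

/-- replace the power sums of all marks by the sums of the power sums of the slots -/
noncomputable def th (m : ℕ) : PP D Z m →ₐ[ℂ] PP D Z m :=
  aeval (Sum.elim (fun p => X (Sum.inl p))
    (Sum.elim (fun p => ∑ t : Fin m, X (Sum.inl (t, p.1, p.2))) fun z => X (Sum.inr (Sum.inr z))))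

end basic

section
variable {D : QData} {Z : Type} (w : Wts D Z)

/-- the weights do not vanish when marks of the same colour are identified -/
structure NV : Prop where
  h_ne : ∀ ι : B D → B D, (∀ b, (ι b).1 = b.1) → ∀ b c, b ≠ c → kp D Z ι (w.h b c) ≠ 0
  z_ne : ∀ ι : B D → B D, (∀ b, (ι b).1 = b.1) → ∀ b, kp D Z ι (w.z b) ≠ 0

open Classical in
/-- the sum of products of slots of types `n` given by `Q` -/
noncomputable def XQ (ε : ℕ → ℕ) {m : ℕ} (n : ℕ → D.I → ℕ) (Q : PP D Z m) :
    AddMonoidAlgebra (S D Z) (B D → ℤ) :=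
  ∑ A : Fin m → Finset (B D), if ∀ t : Fin m, typ D (A t) = n t then
    AddMonoidAlgebra.single (∑ t, ind D (A t)) (evA D Z A Q *
      ∏ t : Fin m, (Dl D Z (A t) * (e w (A t) * zs w (A t) ^ ε t))) else 0

/-- product of the weights of a colouring -/
noncomputable def WW (ε : ℕ → ℕ) {m : ℕ} (g : B D → Fin m) : S D Z :=
  ∏ t : Fin m, (e w (fb D g t) * zs w (fb D g t) ^ ε t)

open Classical in
/-- reduced diagonal coefficient -/
noncomputable def ee (ε : ℕ → ℕ) {m : ℕ} (n : ℕ → D.I → ℕ) (Q : PP D Z m) : S D Z :=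
  ∑ g : B D → Fin m, if ∀ t : Fin m, typ D (fb D g t) = n t then
    evA D Z (fb D g) Q * (WW w ε g * RR D Z g) else 0

/-- all sequences of types of total `v` -/
def tot (D : QData) (m : ℕ) (n : ℕ → D.I → ℕ) : Prop :=
  (∀ j, m ≤ j → n j = 0) ∧ ∑ j ∈ Finset.range m, n j = D.v

/-- nested sequences of types of total `v` and measure at most `M` -/
def seqM (D : QData) (m M : ℕ) (n : ℕ → D.I → ℕ) : Prop :=
  tot D m n ∧ (∀ j, n (j + 1) ≤ n j) ∧ meas m n ≤ M

/-- the nontrivial sequences, one plain slot -/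
noncomputable def UN (m : ℕ) : Submodule ℂ (AddMonoidAlgebra (S D Z) (B D → ℤ)) :=
  ⨆ n : ℕ → D.I → ℕ, ⨆ _ : seqOK m 1 n, UU w (ep 1) m n

/-- `(ι, g₀)` is a bijection from the marks to the pairs `(a, t)`, `a ∈ C t`, extending
`a ↦ (a, 0)` on `C 0` -/
structure Io {m : ℕ} (C : ℕ → Finset (B D)) (ι : B D → B D) (g₀ : B D → Fin m) : Prop where
  col : ∀ b, (ι b).1 = b.1
  fix : ∀ b ∈ C 0, ι b = b
  mem : ∀ b, ι b ∈ C (g₀ b)
  inj : ∀ b b', ι b = ι b' → g₀ b = g₀ b' → b = b'
  surj : ∀ (a : B D) (t : Fin m), a ∈ C t → ∃ b, ι b = a ∧ g₀ b = t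

/-- the cut ideal -/
noncomputable def cutI : Ideal (S D Z) :=
  Ideal.span {p | ∃ N : Finset (B D), N.Nonempty ∧ p = e w N * e w Nᶜ * zs w N}

end

end Vale.Agent.P291.H.M
end
end
namespace AFast205980x4790b
theorem a0 {x1 : Vale.Agent.P291.T.QData} {x2 : Type} {x3 : ℕ} : LinearMapClass (Vale.Agent.P291.H.M.PP x1 x2 x3 →ₐ[ℂ] Vale.Agent.P291.H.S x1 x2) ℂ (Vale.Agent.P291.H.M.PP x1 x2 x3) (Vale.Agent.P291.H.S x1 x2) := inferInstance
end AFast205980x4790b
attribute [local instance] AFast205980x4790b.a0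

section

section

set_option autoImplicit false
set_option linter.unusedSectionVars false

/-! Basic lemmas. -/

namespace Vale.Agent.P291.H.M

open MvPolynomial Vale.Agent.P291.G

section
variable (D : QData) (Z : Type)

lemma mem_fb {m : ℕ} (g : B D → Fin m) (t : Fin m) (b : B D) : b ∈ fb D g t ↔ g b = t := by
  simp only [fb, Finset.mem_filter, Finset.mem_univ, true_and]

/-- a colour preserving bijection is given by an element of the Weyl group -/
lemma exists_W (f : B D → B D) (hf : Function.Injective f) (hc : ∀ b, (f b).1 = b.1) :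
    ∃ σ : W D, ∀ b, perm D σ b = f b := by
  have h1 : ∀ (i : D.I) (r : Fin (D.v i)), ∃ s : Fin (D.v i), f ⟨i, r⟩ = ⟨i, s⟩ := by
    intro i r
    have h2 := hc ⟨i, r⟩
    rcases h : f ⟨i, r⟩ with ⟨j, s⟩
    rw [h] at h2
    obtain rfl : j = i := h2
    exact ⟨s, rfl⟩
  choose s hs using h1
  have h2 : ∀ i, Function.Injective (s i) := by
    intro i r r' h
    have h3 : f ⟨i, r⟩ = f ⟨i, r'⟩ := by rw [hs, hs, h]
    have h4 := hf h3
    simpa using h4
  refine ⟨fun i => Equiv.ofBijective (s i) ⟨h2 i, Finite.surjective_of_injective (h2 i)⟩, ?_⟩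
  rintro ⟨i, r⟩
  rw [hs]
  rfl

lemma act_inr (σ : W D) (z : Z) : act D Z σ (X (Sum.inr z)) = X (Sum.inr z) := by
  rw [act, rename_X]
  rfl

lemma act_ps (σ : W D) (A : Finset (B D)) (i : D.I) (j : ℕ) :
    act D Z σ (ps D Z A i j) = ps D Z (mp D σ A) i j := by
  rw [ps, ps, mp, Finset.sum_map, map_sum]
  refine Finset.sum_congr rfl fun b _ => ?_
  rw [apply_ite (act D Z σ), map_pow, act_xx, map_zero]
  rfl

lemma mp_univ' (σ : W D) : mp D σ Finset.univ = Finset.univ := by
  ext b
  rw [mem_mp']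
  exact ⟨fun _ => Finset.mem_univ _, fun _ => Finset.mem_univ _⟩

lemma act_evA {m : ℕ} (σ : W D) (A : Fin m → Finset (B D)) (Q : PP D Z m) :
    act D Z σ (evA D Z A Q) = evA D Z (fun t => mp D σ (A t)) Q := by
  have h : (act D Z σ).comp (evA D Z A) = evA D Z (fun t => mp D σ (A t)) := by
    apply MvPolynomial.algHom_ext
    intro p
    rw [AlgHom.comp_apply, evA, aeval_X, evA, aeval_X]
    rcases p with p | p | p
    · exact act_ps D Z σ _ _ _
    · refine (act_ps D Z σ _ _ _).trans ?_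
      rw [mp_univ']
      rfl
    · exact act_inr D Z σ _
  exact DFunLike.congr_fun h Q

lemma fb_perm {m : ℕ} (σ : W D) (g : B D → Fin m) (t : Fin m) :
    fb D (g ∘ (perm D σ).symm) t = mp D σ (fb D g t) := by
  ext b
  rw [mem_fb, mem_mp', mem_fb]
  rfl

lemma Basic_act_dd (σ : W D) (p : B D → B D → Prop) :
    act D Z σ (dd D Z p) = dd D Z fun b c => p ((perm D σ).symm b) ((perm D σ).symm c) := by
  classical
  rw [dd, dd, map_prod]
  refine Fintype.prod_equiv (perm D σ) _ _ fun b => ?_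
  rw [map_prod]
  refine Fintype.prod_equiv (perm D σ) _ _ fun c => ?_
  rw [apply_ite (act D Z σ), map_sub, act_xx, act_xx, map_one]
  refine if_congr ?_ rfl rfl
  rw [Equiv.symm_apply_apply, Equiv.symm_apply_apply]
  exact and_congr (perm D σ).injective.ne_iff.symm Iff.rfl

lemma act_RR {m : ℕ} (σ : W D) (g : B D → Fin m) :
    act D Z σ (RR D Z g) = RR D Z (g ∘ (perm D σ).symm) := by
  rw [RR, Basic_act_dd]
  rfl

lemma act_ddT (σ : W D) : act D Z σ (ddT D Z) = ddT D Z := by
  rw [ddT, Basic_act_dd]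

lemma dd_ne_zero (p : B D → B D → Prop) : dd D Z p ≠ 0 := by
  rw [dd]
  refine Finset.prod_ne_zero_iff.2 fun b _ => Finset.prod_ne_zero_iff.2 fun c _ => ?_
  split_ifs with h
  · exact vdm_sub_ne D Z h.1
  · exact one_ne_zero

lemma ddT_ne_zero : ddT D Z ≠ 0 := dd_ne_zero D Z _

lemma Basic_card {m : ℕ} (f : B D → Fin m) (i : D.I) (t : Fin m) :
    Fintype.card {r : Fin (D.v i) // f ⟨i, r⟩ = t} = typ D (fb D f t) i := by
  rw [← card_fib, Fintype.card_subtype]
  congr 1
  ext r
  rw [mem_fib, mem_fb, Finset.mem_filter]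
  exact ⟨fun h => h.2, fun h => ⟨Finset.mem_univ _, h⟩⟩

/-- colourings of the same type are conjugate -/
lemma exists_conj {m : ℕ} (g g₀ : B D → Fin m)
    (h : ∀ t, typ D (fb D g t) = typ D (fb D g₀ t)) : ∃ τ : W D, g = g₀ ∘ (perm D τ).symm := by
  have e : ∀ (i : D.I) (t : Fin m), Nonempty ({r : Fin (D.v i) // g₀ ⟨i, r⟩ = t} ≃
      {r : Fin (D.v i) // g ⟨i, r⟩ = t}) := fun i t =>
    Fintype.card_eq.1 (by rw [Basic_card, Basic_card, h])
  let τ : W D := fun i => Equiv.ofFiberEquiv (f := fun r => g₀ ⟨i, r⟩) (g := fun r => g ⟨i, r⟩)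
    fun t => (e i t).some
  have hτ : ∀ b, g (perm D τ b) = g₀ b := by
    rintro ⟨i, r⟩
    exact Equiv.ofFiberEquiv_map (f := fun r => g₀ ⟨i, r⟩) (g := fun r => g ⟨i, r⟩)
      (fun t => (e i t).some) r
  refine ⟨τ, ?_⟩
  funext b
  have h2 := hτ ((perm D τ).symm b)
  rwa [Equiv.apply_symm_apply] at h2

lemma kp_act (ι : B D → B D) (σ : W D) (h : ∀ b, ι (perm D σ b) = ι b) (f : S D Z) :
    kp D Z ι (act D Z σ f) = kp D Z ι f := by
  rw [kp, act, rename_rename]
  congr 2
  funext b
  rcases b with b | b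
  · exact congrArg Sum.inl (h b)
  · rfl

end

section
variable {D : QData} {Z : Type} (w : Wts D Z)

lemma act_WW (ε : ℕ → ℕ) {m : ℕ} (σ : W D) (g : B D → Fin m) :
    act D Z σ (WW w ε g) = WW w ε (g ∘ (perm D σ).symm) := by
  rw [WW, WW, map_prod]
  refine Finset.prod_congr rfl fun t _ => ?_
  rw [map_mul, map_pow, act_e, act_zs, fb_perm]

lemma XQ_add (ε : ℕ → ℕ) {m : ℕ} (n : ℕ → D.I → ℕ) (Q Q' : PP D Z m) :
    XQ w ε n (Q + Q') = XQ w ε n Q + XQ w ε n Q' := by
  rw [XQ, XQ, XQ, ← Finset.sum_add_distrib]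
  refine Finset.sum_congr rfl fun A _ => ?_
  split_ifs with h
  · rw [map_add, add_mul, AddMonoidAlgebra.single_add]
  · rw [add_zero]

lemma XQ_sub (ε : ℕ → ℕ) {m : ℕ} (n : ℕ → D.I → ℕ) (Q Q' : PP D Z m) :
    XQ w ε n (Q - Q') = XQ w ε n Q - XQ w ε n Q' :=
  eq_sub_of_add_eq (by rw [← XQ_add, sub_add_cancel])

/-- `XQ` only depends on the values of `Q` -/
lemma XQ_congr (ε : ℕ → ℕ) {m : ℕ} (n : ℕ → D.I → ℕ) (Q Q' : PP D Z m)
    (h : ∀ A : Fin m → Finset (B D), (∀ t, typ D (A t) = n t) → evA D Z A Q = evA D Z A Q') :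
    XQ w ε n Q = XQ w ε n Q' := by
  rw [XQ, XQ]
  refine Finset.sum_congr rfl fun A _ => ?_
  split_ifs with hA
  · rw [h A hA]
  · rfl

end

end Vale.Agent.P291.H.M
end
end

section

section

set_option autoImplicit false

/-! The cluster filtration (abstract form). -/

namespace Vale.Agent.P291.J

open Polynomial

/-- A polynomial whose leading coefficient is a unit is a nonzerodivisor modulo an extended
ideal. -/
lemma coeff_mem_of_mul {S : Type*} [CommRing S] (I : Ideal S) {p u : S[X]}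
    (hp : IsUnit p.leadingCoeff) (h : ∀ n, (p * u).coeff n ∈ I) (n : ℕ) : u.coeff n ∈ I := by
  have h1 : (p * u).map (Ideal.Quotient.mk I) = 0 := by
    ext n
    rw [coeff_map, coeff_zero]
    exact Ideal.Quotient.eq_zero_iff_mem.2 (h n)
  rw [Polynomial.map_mul] at h1
  have h2 : u.map (Ideal.Quotient.mk I) = 0 := by
    have hu := (hp.map (Ideal.Quotient.mk I))
    obtain ⟨c, hc⟩ := hp
    have h3 : (Polynomial.C (↑c⁻¹ : S) * p).Monic := by
      unfold Polynomial.Monic
      rw [Polynomial.leadingCoeff_C_mul_of_isUnit (Units.isUnit _), ← hc, Units.inv_mul]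
    have h4 : ((Polynomial.C (↑c⁻¹ : S) * p).map (Ideal.Quotient.mk I)).Monic := h3.map _
    have h5 : ((Polynomial.C (↑c⁻¹ : S) * p).map (Ideal.Quotient.mk I)) *
        u.map (Ideal.Quotient.mk I) = 0 := by
      rw [Polynomial.map_mul, mul_assoc, h1, mul_zero]
    rwa [h4.mul_right_eq_zero_iff] at h5
  have h6 := congrArg (fun q => q.coeff n) h2
  simp only [coeff_map, coeff_zero] at h6
  exact Ideal.Quotient.eq_zero_iff_mem.1 h6

section defs
variable {S : Type*} [CommRing S] {Y : Type*} [Fintype Y]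

open Classical in
/-- product of the weights of the pairs separated by `r` -/
noncomputable def mm (D : Y → Y → S) (r : Setoid Y) : S :=
  ∏ p : Y × Y, if r p.1 p.2 then 1 else D p.1 p.2

open Classical in
/-- product of the weights of the pairs not separated by `r` -/
noncomputable def th (θ : Y → Y → S) (r : Setoid Y) : S :=
  ∏ p : Y × Y, if r p.1 p.2 then θ p.1 p.2 else 1

open Classical in
/-- product of the weights of the pairs separated by `r'` but not by `r` -/
noncomputable def nn (D : Y → Y → S) (r r' : Setoid Y) : S :=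
  ∏ p : Y × Y, if r p.1 p.2 ∧ ¬ r' p.1 p.2 then D p.1 p.2 else 1

/-- number of blocks -/
noncomputable def nb (r : Setoid Y) : ℕ := Nat.card (Quotient r)

lemma mm_mul_nn (D : Y → Y → S) {r r' : Setoid Y} (h : r' ≤ r) :
    mm D r * nn D r r' = mm D r' := by
  unfold mm nn
  rw [← Finset.prod_mul_distrib]
  refine Finset.prod_congr rfl fun p _ => ?_
  by_cases h1 : r p.1 p.2
  · by_cases h2 : r' p.1 p.2 <;> simp [h1, h2]
  · have h2 : ¬ r' p.1 p.2 := fun h3 => h1 (h h3)
    simp only [h1, ↓reduceIte, h2, not_false_eq_true, and_true, mul_one]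

lemma nn_dvd_mm (D : Y → Y → S) (r σ : Setoid Y) : nn D r (r ⊓ σ) ∣ mm D σ := by
  unfold mm nn
  refine Finset.prod_dvd_prod_of_dvd _ _ fun p _ => ?_
  by_cases h1 : r p.1 p.2
  · by_cases h2 : σ p.1 p.2
    · have h3 : (r ⊓ σ) p.1 p.2 := ⟨h1, h2⟩
      simp [h3]
    · have h3 : ¬ (r ⊓ σ) p.1 p.2 := fun h4 => h2 h4.2
      simp only [h1, h3, not_false_eq_true, and_self, ↓reduceIte, h2, dvd_refl]
  · simp only [h1, false_and, ↓reduceIte, isUnit_one, IsUnit.dvd]

lemma th_dvd_th (θ : Y → Y → S) {r σ : Setoid Y} (h : r ≤ σ) : th θ r ∣ th θ σ := by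
  unfold th
  refine Finset.prod_dvd_prod_of_dvd _ _ fun p _ => ?_
  by_cases h1 : r p.1 p.2
  · have h2 : σ p.1 p.2 := h h1
    simp [h1, h2]
  · simp only [h1, ↓reduceIte, isUnit_one, IsUnit.dvd]

lemma nb_le_card (r : Setoid Y) : nb r ≤ Fintype.card Y := by
  unfold nb
  rw [← Nat.card_eq_fintype_card]
  exact Nat.card_le_card_of_surjective _ (Quotient.mk_surjective (s := r))

lemma eq_of_nb_le {r σ : Setoid Y} (h : r ≤ σ) (hn : nb r ≤ nb σ) : r = σ := by
  classical
  have : Fintype (Quotient r) := Fintype.ofFinite _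
  have : Fintype (Quotient σ) := Fintype.ofFinite _
  let f : Quotient r → Quotient σ := Quotient.map' id fun a b hab => h hab
  have hf : Function.Surjective f := by
    intro q
    obtain ⟨a, rfl⟩ := Quotient.mk_surjective q
    exact ⟨Quotient.mk r a, rfl⟩
  have hc : Fintype.card (Quotient r) = Fintype.card (Quotient σ) := by
    refine le_antisymm ?_ (Fintype.card_le_of_surjective f hf)
    simpa only [nb, Nat.card_eq_fintype_card] using hn
  have hb : Function.Bijective f := (Fintype.bijective_iff_surjective_and_card f).2 ⟨hf, hc⟩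
  refine le_antisymm h fun a b hab => ?_
  have h1 : f (Quotient.mk r a) = f (Quotient.mk r b) := Quotient.sound hab
  exact Quotient.exact (hb.1 h1)

/-- translations of subsets which do not contain `pt` -/
structure Trans (D θ : Y → Y → S) (pt : Y) where
  τ : Set Y → S →+* S[X]
  τ0 : ∀ C s, (τ C s).coeff 0 = s
  τD : ∀ C a b, pt ∉ C → (a ∈ C ↔ b ∈ C) → τ C (D a b) = Polynomial.C (D a b)
  τθ : ∀ C a b, pt ∉ C → (a ∈ C ↔ b ∈ C) → τ C (θ a b) = Polynomial.C (θ a b)
  τu : ∀ C a b, pt ∉ C → ¬ (a ∈ C ↔ b ∈ C) → IsUnit (τ C (D a b)).leadingCoeff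

/-- ideal of the cuts of the blocks of `r` -/
noncomputable def JJ (D : Y → Y → S) (r : Setoid Y) : Ideal S :=
  Ideal.span {p | ∃ r' : Setoid Y, r' < r ∧ p = nn D r r'}

lemma mm_mem_JJ (D : Y → Y → S) {r σ : Setoid Y} (h : ¬ r ≤ σ) : mm D σ ∈ JJ D r := by
  refine Ideal.mem_of_dvd _ (nn_dvd_mm D r σ) (Ideal.subset_span ⟨r ⊓ σ, ?_, rfl⟩)
  refine lt_of_le_of_ne inf_le_left fun he => h ?_
  rw [← he]
  exact inf_le_right

/-- ideal modulo which `mm D r` is a nonzerodivisor -/
noncomputable def II (D θ : Y → Y → S) (r : Setoid Y) : Ideal S :=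
  Ideal.span {th θ r} ⊔ JJ D r

lemma II_le {D θ : Y → Y → S} {pt : Y} (t : Trans D θ pt) (r : Setoid Y) (a : Y)
    (ha : ¬ r pt a) {s : S} (hs : s ∈ II D θ r) :
    t.τ {x | r x a} s ∈ (II D θ r).map (Polynomial.C : S →+* S[X]) := by
  have hmem : ∀ p : Y × Y, r p.1 p.2 → (p.1 ∈ {x | r x a} ↔ p.2 ∈ {x | r x a}) :=
    fun p hp => ⟨fun h => r.trans (r.symm hp) h, fun h => r.trans hp h⟩
  have h : II D θ r ≤ ((II D θ r).map (Polynomial.C : S →+* S[X])).comap (t.τ {x | r x a}) := by
    refine sup_le (Ideal.span_le.2 ?_) (Ideal.span_le.2 ?_)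
    · rintro _ rfl
      have h1 : t.τ {x | r x a} (th θ r) = Polynomial.C (th θ r) := by
        unfold th
        rw [map_prod, map_prod]
        refine Finset.prod_congr rfl fun p _ => ?_
        split_ifs with hp
        · exact t.τθ _ _ _ ha (hmem p hp)
        · rw [map_one, map_one]
      change t.τ {x | r x a} (th θ r) ∈ (II D θ r).map (Polynomial.C : S →+* S[X])
      rw [h1]
      exact Ideal.mem_map_of_mem _ (Ideal.mem_sup_left (Ideal.mem_span_singleton_self _))
    · rintro _ ⟨r', hr', rfl⟩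
      have h1 : t.τ {x | r x a} (nn D r r') = Polynomial.C (nn D r r') := by
        unfold nn
        rw [map_prod, map_prod]
        refine Finset.prod_congr rfl fun p _ => ?_
        split_ifs with hp
        · exact t.τD _ _ _ ha (hmem p hp.1)
        · rw [map_one, map_one]
      change t.τ {x | r x a} (nn D r r') ∈ (II D θ r).map (Polynomial.C : S →+* S[X])
      rw [h1]
      exact Ideal.mem_map_of_mem _ (Ideal.mem_sup_right (Ideal.subset_span ⟨r', hr', rfl⟩))
  exact h hs

lemma nzd_one {D θ : Y → Y → S} {pt : Y} (t : Trans D θ pt) (r : Setoid Y) {a b : Y}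
    (hab : ¬ r a b) {u : S} (hu : D a b * u ∈ II D θ r) : u ∈ II D θ r := by
  obtain ⟨c, hc, hcu⟩ : ∃ c, ¬ r pt c ∧ ¬ (r a c ↔ r b c) := by
    by_cases h1 : r pt a
    · refine ⟨b, fun h2 => hab (r.trans (r.symm h1) h2), fun h2 => hab (h2.2 (r.refl b))⟩
    · exact ⟨a, h1, fun h2 => hab (r.symm (h2.1 (r.refl a)))⟩
  have h1 := II_le t r c hc hu
  rw [Ideal.mem_map_C_iff, map_mul] at h1
  have h2 := coeff_mem_of_mul (II D θ r) (t.τu {x | r x c} a b hc hcu) h1 0
  rwa [t.τ0] at h2

lemma nzd_prod {ι : Type*} (I : Ideal S) (s : Finset ι) (f : ι → S)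
    (hf : ∀ i ∈ s, ∀ u, f i * u ∈ I → u ∈ I) {u : S} (hu : (∏ i ∈ s, f i) * u ∈ I) : u ∈ I := by
  classical
  induction s using Finset.induction_on generalizing u with
  | empty => simpa only [Finset.prod_empty, one_mul] using hu
  | insert i s his ih =>
    rw [Finset.prod_insert his, mul_assoc] at hu
    exact ih (fun j hj => hf j (Finset.mem_insert_of_mem hj))
      (hf i (Finset.mem_insert_self _ _) _ hu)

lemma nzd {D θ : Y → Y → S} {pt : Y} (t : Trans D θ pt) (r : Setoid Y) {u : S}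
    (hu : mm D r * u ∈ II D θ r) : u ∈ II D θ r := by
  refine nzd_prod _ _ _ (fun p _ v hv => ?_) hu
  split_ifs at hv with hp
  · rwa [one_mul] at hv
  · exact nzd_one t r hp hv

/-- span of the products with at least `l` blocks -/
noncomputable def KK (D : Y → Y → S) (l : ℕ) : Ideal S :=
  Ideal.span {p | ∃ r : Setoid Y, l ≤ nb r ∧ p = mm D r}

/-- span of the decorated products with at least `l` blocks -/
noncomputable def WW (D θ : Y → Y → S) (l : ℕ) : Ideal S :=
  Ideal.span {p | ∃ r : Setoid Y, l ≤ nb r ∧ p = mm D r * th θ r}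

lemma WW_anti (D θ : Y → Y → S) {l l' : ℕ} (h : l ≤ l') : WW D θ l' ≤ WW D θ l :=
  Ideal.span_mono fun _ ⟨r, hr, hp⟩ => ⟨r, h.trans hr, hp⟩

lemma mm_mul_JJ (D : Y → Y → S) (r : Setoid Y) {c : S} (hc : c ∈ JJ D r) :
    mm D r * c ∈ KK D (nb r + 1) := by
  have h : JJ D r ≤ Submodule.comap (LinearMap.mulLeft S (mm D r)) (KK D (nb r + 1)) := by
    refine Submodule.span_le.2 ?_
    rintro _ ⟨r', hr', rfl⟩
    change mm D r * nn D r r' ∈ KK D (nb r + 1)
    rw [mm_mul_nn D hr'.le]
    refine Ideal.subset_span ⟨r', ?_, rfl⟩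
    by_contra h
    exact hr'.ne (eq_of_nb_le hr'.le (by omega))
  exact h hc

/-- THEOREM (cluster filtration) -/
theorem cluster_aux {D θ : Y → Y → S} {pt : Y} (t : Trans D θ pt) (k : ℕ) :
    ∀ l, Fintype.card Y + 1 ≤ l + k → ∀ u ∈ WW D θ 0, u ∈ KK D l → u ∈ WW D θ l := by
  classical
  have : Finite (Setoid Y) := Finite.of_injective (fun r : Setoid Y => fun a b => r a b)
    fun r r' h => Setoid.ext fun a b => iff_of_eq (congrFun (congrFun h a) b)
  have : Fintype (Setoid Y) := Fintype.ofFinite _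
  induction k with
  | zero =>
    intro l hl u _ hu
    have h0 : KK D l = ⊥ := by
      rw [eq_bot_iff]
      refine Ideal.span_le.2 ?_
      rintro _ ⟨r, hr, rfl⟩
      exact absurd (nb_le_card r) (by omega)
    rw [h0, Ideal.mem_bot] at hu
    rw [hu]
    exact Ideal.zero_mem _
  | succ k ih =>
    intro l hl u hW hK
    set F : Finset (Setoid Y) := Finset.univ.filter fun r => nb r = l with hF
    have h1 : KK D l ≤ Submodule.span S (mm D '' (F : Set (Setoid Y))) ⊔ KK D (l + 1) := by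
      refine Ideal.span_le.2 ?_
      rintro _ ⟨r, hr, rfl⟩
      rcases Nat.eq_or_lt_of_le hr with hr | hr
      · exact Ideal.mem_sup_left (Submodule.subset_span ⟨r, by simp only [hF, hr, Finset.coe_filter, Finset.mem_univ, true_and, Set.mem_ofPred_eq], rfl⟩)
      · exact Ideal.mem_sup_right (Ideal.subset_span ⟨r, hr, rfl⟩)
    obtain ⟨y, hy, z, hz, hyz⟩ := Submodule.mem_sup.1 (h1 hK)
    obtain ⟨c, hc⟩ := (Submodule.mem_span_image_finset_iff_exists_fun' S).1 hy
    have hI : ∀ r ∈ F, c r ∈ II D θ r := by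
      intro r hr
      have hrl : nb r = l := by simpa only [hF, Finset.mem_filter, Finset.mem_univ, true_and] using hr
      refine nzd t r ?_
      have hzr : z ∈ JJ D r := by
        have h2 : KK D (l + 1) ≤ JJ D r := by
          refine Ideal.span_le.2 ?_
          rintro _ ⟨σ, hσ, rfl⟩
          refine mm_mem_JJ D fun hle => ?_
          have h3 := eq_of_nb_le hle (by omega)
          rw [h3] at hrl
          omega
        exact h2 hz
      have hur : u ∈ II D θ r := by
        have h2 : WW D θ 0 ≤ II D θ r := by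
          refine Ideal.span_le.2 ?_
          rintro _ ⟨σ, _, rfl⟩
          by_cases hle : r ≤ σ
          · refine Ideal.mem_sup_left (Ideal.mul_mem_left _ _ ?_)
            exact Ideal.mem_span_singleton.2 (th_dvd_th θ hle)
          · exact Ideal.mem_sup_right (Ideal.mul_mem_right _ _ (mm_mem_JJ D hle))
        exact h2 hW
      have hsum : ∑ i ∈ F.erase r, c i • mm D i ∈ JJ D r := by
        refine Submodule.sum_mem _ fun σ hσ => ?_
        rw [Finset.mem_erase] at hσ
        have hσl : nb σ = l := by simpa only [hF, Finset.mem_filter, Finset.mem_univ, true_and] using hσ.2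
        refine Ideal.mul_mem_left _ _ (mm_mem_JJ D fun hle => hσ.1 ?_)
        exact (eq_of_nb_le hle (by omega)).symm
      have h3 : mm D r * c r = u - z - ∑ i ∈ F.erase r, c i • mm D i := by
        rw [← hyz, ← hc, ← Finset.add_sum_erase F _ hr, smul_eq_mul]
        ring
      rw [h3]
      exact Ideal.sub_mem _ (Ideal.sub_mem _ hur (Ideal.mem_sup_right hzr))
        (Ideal.mem_sup_right hsum)
    have hg : ∀ r, ∃ g, r ∈ F → c r - th θ r * g ∈ JJ D r := by
      intro r
      by_cases hr : r ∈ F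
      · obtain ⟨a, ha, b, hb, hab⟩ := Submodule.mem_sup.1 (hI r hr)
        obtain ⟨g, hg⟩ := Ideal.mem_span_singleton'.1 ha
        refine ⟨g, fun _ => ?_⟩
        rw [← hab, ← hg, mul_comm (th θ r) g, add_sub_cancel_left]
        exact hb
      · exact ⟨0, fun h => absurd h hr⟩
    choose g hg using hg
    have h4 : ∑ r ∈ F, g r • (mm D r * th θ r) ∈ WW D θ l := by
      refine Submodule.sum_mem _ fun r hr => Ideal.mul_mem_left _ _ (Ideal.subset_span ⟨r, ?_, rfl⟩)
      have hrl : nb r = l := by simpa only [hF, Finset.mem_filter, Finset.mem_univ, true_and] using hr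
      exact hrl.ge
    have h5 : u - ∑ r ∈ F, g r • (mm D r * th θ r) ∈ KK D (l + 1) := by
      have h6 : u - ∑ r ∈ F, g r • (mm D r * th θ r) =
          ∑ r ∈ F, mm D r * (c r - th θ r * g r) + z := by
        rw [← hyz, ← hc, add_sub_right_comm, ← Finset.sum_sub_distrib]
        congr 1
        refine Finset.sum_congr rfl fun r _ => ?_
        rw [smul_eq_mul, smul_eq_mul]
        ring
      rw [h6]
      refine Ideal.add_mem _ (Submodule.sum_mem _ fun r hr => ?_) hz
      have hrl : nb r = l := by simpa only [hF, Finset.mem_filter, Finset.mem_univ, true_and] using hr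
      have h7 := mm_mul_JJ D r (hg r hr)
      rwa [hrl] at h7
    have h8 : u - ∑ r ∈ F, g r • (mm D r * th θ r) ∈ WW D θ (l + 1) :=
      ih (l + 1) (by omega) _ (Ideal.sub_mem _ hW (WW_anti D θ (Nat.zero_le l) h4)) h5
    have h9 := Ideal.add_mem _ (WW_anti D θ (Nat.le_succ l) h8) h4
    rwa [sub_add_cancel] at h9

theorem cluster {D θ : Y → Y → S} {pt : Y} (t : Trans D θ pt) (l : ℕ) {u : S}
    (h1 : u ∈ WW D θ 0) (h2 : u ∈ KK D l) : u ∈ WW D θ l :=
  cluster_aux t (Fintype.card Y + 1) l (by omega) u h1 h2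

end defs

end Vale.Agent.P291.J
end
end

section

section

set_option autoImplicit false

/-! Part I: elements `u` with `u * Delta` in the ideal of the cuts are sums over colourings. -/

namespace Vale.Agent.P291.J

open MvPolynomial Vale.Agent.P291.G Vale.Agent.P291.H

section trans
variable (D : QData) (Z : Type)

open Classical in
/-- translation of the marks in `C` -/
noncomputable def tr (C : Set (Option (B D))) : S D Z →ₐ[ℂ] Polynomial (S D Z) :=
  aeval (Sum.elim (fun b => if some b ∈ C then Polynomial.C (xx D Z b) + Polynomial.X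
    else Polynomial.C (xx D Z b)) fun z => Polynomial.C (X (Sum.inr z)))

lemma tr_xx_of {C : Set (Option (B D))} {b : B D} (h : some b ∈ C) :
    tr D Z C (xx D Z b) = Polynomial.C (xx D Z b) + Polynomial.X := by
  rw [tr, xx, aeval_X, Sum.elim_inl, if_pos h]
  rfl

lemma tr_xx_not {C : Set (Option (B D))} {b : B D} (h : some b ∉ C) :
    tr D Z C (xx D Z b) = Polynomial.C (xx D Z b) := by
  rw [tr, xx, aeval_X, Sum.elim_inl, if_neg h]
  rfl

lemma tr_inr (C : Set (Option (B D))) (z : Z) :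
    tr D Z C (X (Sum.inr z)) = Polynomial.C (X (Sum.inr z)) := by
  rw [tr, aeval_X, Sum.elim_inr]

lemma tr_coeff_zero (C : Set (Option (B D))) (s : S D Z) : (tr D Z C s).coeff 0 = s := by
  have h : ((Polynomial.aeval (0 : S D Z)).restrictScalars ℂ).comp (tr D Z C) =
      AlgHom.id ℂ (S D Z) := by
    refine MvPolynomial.algHom_ext fun i => ?_
    rcases i with b | z
    · by_cases hb : some b ∈ C
      · have h1 := tr_xx_of D Z hb
        rw [xx] at h1
        simp [h1]
      · have h1 := tr_xx_not D Z hb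
        rw [xx] at h1
        simp [h1]
    · simp only [AlgHom.coe_comp, AlgHom.coe_restrictScalars', Polynomial.coe_aeval_eq_eval, Function.comp_apply, tr_inr, Polynomial.eval_C, AlgHom.coe_id, id_eq]
  have h2 := DFunLike.congr_fun h s
  rw [Polynomial.coeff_zero_eq_eval_zero]
  simpa [Polynomial.aeval_def, Polynomial.eval₂_eq_eval_map] using h2

/-- product of the differences of the pairs at the same vertex -/
noncomputable def Delta : S D Z :=
  ∏ p : B D × B D, if p.1 ≠ p.2 ∧ p.1.1 = p.2.1 then xx D Z p.1 - xx D Z p.2 else 1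

/-- differences -/
noncomputable def TH : Option (B D) → Option (B D) → S D Z
  | some b, some c => if b ≠ c ∧ b.1 = c.1 then xx D Z b - xx D Z c else 1
  | _, _ => 1

end trans

section
variable {D : QData} {Z : Type} (w : Wts D Z)

/-- labelled weights -/
structure Lab where
  ta : D.A → S D Z
  tz : (i : D.I) → Fin (D.w i) → S D Z
  hta : ∀ C a, tr D Z C (ta a) = Polynomial.C (ta a)
  htz : ∀ C i k, tr D Z C (tz i k) = Polynomial.C (tz i k)
  hh : ∀ b c, w.h b c = ∏ a with D.src a = b.1 ∧ D.tgt a = c.1, (xx D Z c - xx D Z b + ta a)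
  hz : ∀ b, w.z b = ∏ k : Fin (D.w b.1), (tz b.1 k - xx D Z b)

/-- half weights of the pairs -/
noncomputable def DD : Option (B D) → Option (B D) → S D Z
  | some b, some c => w.h b c
  | some b, none => w.z b
  | none, _ => 1

lemma lc_add {R : Type*} [CommRing R] [Nontrivial R] (a b c : R) :
    IsUnit ((Polynomial.C a + Polynomial.X) - Polynomial.C b + Polynomial.C c).leadingCoeff := by
  have h : (Polynomial.C a + Polynomial.X) - Polynomial.C b + Polynomial.C c =
      Polynomial.X + Polynomial.C (a - b + c) := by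
    rw [map_add, map_sub]
    ring
  rw [h, Polynomial.leadingCoeff_X_add_C]
  exact isUnit_one

lemma lc_sub {R : Type*} [CommRing R] [Nontrivial R] (a b c : R) :
    IsUnit (Polynomial.C a - (Polynomial.C b + Polynomial.X) + Polynomial.C c).leadingCoeff := by
  have h : Polynomial.C a - (Polynomial.C b + Polynomial.X) + Polynomial.C c =
      -(Polynomial.X + Polynomial.C (b - a - c)) := by
    rw [map_sub, map_sub]
    ring
  rw [h, Polynomial.leadingCoeff_neg, Polynomial.leadingCoeff_X_add_C]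
  exact isUnit_one.neg

lemma lc_prod {R : Type*} [CommRing R] [IsDomain R] {ι : Type*} (s : Finset ι)
    (f : ι → Polynomial R) (h : ∀ i ∈ s, IsUnit (f i).leadingCoeff) :
    IsUnit (∏ i ∈ s, f i).leadingCoeff := by
  rw [Polynomial.leadingCoeff_prod]
  exact Finset.prod_induction _ IsUnit (fun _ _ => IsUnit.mul) isUnit_one h

/-- the translations -/
noncomputable def trans (L : Lab w) : Trans (DD w) (TH D Z) none where
  τ C := (tr D Z C : S D Z →+* Polynomial (S D Z))
  τ0 C s := tr_coeff_zero D Z C s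
  τD C a b hC hab := by
    change tr D Z C (DD w a b) = Polynomial.C (DD w a b)
    rcases a with _ | a
    · rw [DD, map_one, map_one]
    · rcases b with _ | b
      · have ha : some a ∉ C := fun h => hC (hab.1 h)
        rw [DD, L.hz, map_prod, map_prod]
        refine Finset.prod_congr rfl fun k _ => ?_
        rw [map_sub, map_sub, L.htz, tr_xx_not D Z ha]
      · rw [DD, L.hh, map_prod, map_prod]
        refine Finset.prod_congr rfl fun k _ => ?_
        rw [map_add, map_sub, map_add, map_sub, L.hta]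
        by_cases ha : some a ∈ C
        · rw [tr_xx_of D Z ha, tr_xx_of D Z (hab.1 ha)]
          ring
        · rw [tr_xx_not D Z ha, tr_xx_not D Z fun h => ha (hab.2 h)]
  τθ C a b hC hab := by
    change tr D Z C (TH D Z a b) = Polynomial.C (TH D Z a b)
    rcases a with _ | a
    · rw [TH, map_one, map_one]
      rintro x y h
      cases h
    · rcases b with _ | b
      · rw [TH, map_one, map_one]
        rintro x y _ h
        cases h
      · rw [TH]
        split_ifs
        · rw [map_sub, map_sub]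
          by_cases ha : some a ∈ C
          · rw [tr_xx_of D Z ha, tr_xx_of D Z (hab.1 ha)]
            ring
          · rw [tr_xx_not D Z ha, tr_xx_not D Z fun h => ha (hab.2 h)]
        · rw [map_one, map_one]
  τu C a b hC hab := by
    change IsUnit (tr D Z C (DD w a b)).leadingCoeff
    rcases a with _ | a
    · rw [DD, map_one, Polynomial.leadingCoeff_one]
      exact isUnit_one
    · rcases b with _ | b
      · have ha : some a ∈ C := by
          by_contra h
          exact hab ⟨fun h1 => absurd h1 h, fun h1 => absurd h1 hC⟩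
        rw [DD, L.hz, map_prod]
        refine lc_prod _ _ fun k _ => ?_
        rw [map_sub, L.htz, tr_xx_of D Z ha]
        simpa using lc_sub (L.tz a.1 k) (xx D Z a) 0
      · rw [DD, L.hh, map_prod]
        refine lc_prod _ _ fun k _ => ?_
        rw [map_add, map_sub, L.hta]
        by_cases ha : some a ∈ C
        · have hb : some b ∉ C := fun h => hab ⟨fun _ => h, fun _ => ha⟩
          rw [tr_xx_of D Z ha, tr_xx_not D Z hb]
          exact lc_sub _ _ _
        · have hb : some b ∈ C := by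
            by_contra h
            exact hab ⟨fun h1 => absurd h1 ha, fun h1 => absurd h1 h⟩
          rw [tr_xx_not D Z ha, tr_xx_of D Z hb]
          exact lc_add _ _ _

/-- same-colour differences inside the classes of a colouring -/
noncomputable def Rnc (g : B D → ℕ) : S D Z :=
  ∏ p : B D × B D,
    if (p.1 ≠ p.2 ∧ p.1.1 = p.2.1) ∧ g p.1 = g p.2 then xx D Z p.1 - xx D Z p.2 else 1

/-- weights between the classes of a colouring, the class `0` contains infinity -/
noncomputable def Wg (g : B D → ℕ) : S D Z :=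
  (∏ p : B D × B D, if g p.1 ≠ g p.2 then w.h p.1 p.2 else 1) *
    ∏ b, if g b ≠ 0 then w.z b else 1

/-- ideal of the cuts -/
noncomputable def K0 : Ideal (S D Z) :=
  Ideal.span {p | ∃ N : Finset (B D), N.Nonempty ∧ p = e w N * e w Nᶜ * zs w N}

/-- extension of a colouring to infinity -/
def exc (g : B D → ℕ) : Option (B D) → ℕ
  | some b => g b
  | none => 0

lemma prod_option_sq {M : Type*} [CommMonoid M] {β : Type*} [Fintype β]
    (f : Option β × Option β → M) : ∏ p, f p =
      (∏ p : β × β, f (some p.1, some p.2)) * (∏ b : β, f (some b, none)) *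
        (∏ b : β, f (none, some b)) * f (none, none) := by
  rw [Fintype.prod_prod_type, Fintype.prod_option, Fintype.prod_option, Fintype.prod_prod_type]
  have h : ∏ x : β, ∏ y : Option β, f (some x, y) =
      (∏ b : β, f (some b, none)) * ∏ x : β, ∏ y : β, f (some x, some y) := by
    rw [← Finset.prod_mul_distrib]
    exact Finset.prod_congr rfl fun x _ => Fintype.prod_option _
  rw [h]
  simp only [mul_comm, mul_assoc]

lemma mm_eq (r : Setoid (Option (B D))) (g : B D → ℕ)
    (hg : ∀ a b, r a b ↔ exc g a = exc g b) : mm (DD w) r = Wg w g := by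
  classical
  rw [mm, prod_option_sq, Wg]
  dsimp only
  have h3 : ∏ b : B D, (if r none (some b) then 1 else DD w none (some b)) = 1 :=
    Finset.prod_eq_one fun b _ => by
      rw [DD, ite_self]
  have h4 : (if r none none then 1 else DD w none none) = 1 := by
    rw [DD, ite_self]
  rw [h3, h4, mul_one, mul_one]
  congr 1
  · refine Finset.prod_congr rfl fun p _ => ?_
    have h := hg (some p.1) (some p.2)
    by_cases h1 : g p.1 = g p.2
    · rw [if_pos (h.2 h1), if_neg fun h2 => h2 h1]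
    · rw [if_neg fun h2 => h1 (h.1 h2), if_pos h1]
      rfl
  · refine Finset.prod_congr rfl fun b _ => ?_
    have h := hg (some b) none
    by_cases h1 : g b = 0
    · rw [if_pos (h.2 h1), if_neg fun h2 => h2 h1]
    · rw [if_neg fun h2 => h1 (h.1 h2), if_pos h1]
      rfl

lemma TH_none_left (b : Option (B D)) : TH D Z none b = 1 := by
  rw [TH]
  rintro x y h
  cases h

lemma TH_none_right (a : Option (B D)) : TH D Z a none = 1 := by
  rw [TH]
  rintro x y _ h
  cases h

lemma th_eq (r : Setoid (Option (B D))) (g : B D → ℕ)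
    (hg : ∀ a b, r a b ↔ exc g a = exc g b) : th (TH D Z) r = Rnc g := by
  classical
  rw [th, prod_option_sq, Rnc]
  dsimp only
  have h3 : ∏ b : B D, (if r none (some b) then TH D Z none (some b) else 1) = 1 :=
    Finset.prod_eq_one fun b _ => by
      rw [TH_none_left, ite_self]
  have h2 : ∏ b : B D, (if r (some b) none then TH D Z (some b) none else 1) = 1 :=
    Finset.prod_eq_one fun b _ => by
      rw [TH_none_right, ite_self]
  have h4 : (if r none none then TH D Z none none else 1) = 1 := by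
    rw [TH_none_left, ite_self]
  rw [h2, h3, h4, mul_one, mul_one, mul_one]
  refine Finset.prod_congr rfl fun p _ => ?_
  have h := hg (some p.1) (some p.2)
  by_cases h1 : g p.1 = g p.2
  · rw [if_pos (h.2 h1), TH]
    exact if_congr (by simp [h1]) rfl rfl
  · rw [if_neg fun h2 => h1 (h.1 h2), if_neg fun h2 => h1 h2.2]

/-- a partition into few classes comes from a colouring -/
lemma exists_colouring (r : Setoid (Option (B D))) {m : ℕ} (hm : Fintype.card (B D) < m) :
    ∃ g : B D → Fin m, ∀ a b, r a b ↔ exc (fun b => (g b : ℕ)) a = exc (fun b => (g b : ℕ)) b := by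
  classical
  have hfin : Fintype (Quotient r) := Fintype.ofFinite _
  have hcard : Fintype.card (Quotient r) ≤ Fintype.card (Fin m) := by
    have h := nb_le_card r
    rw [nb, Nat.card_eq_fintype_card, Fintype.card_option] at h
    rw [Fintype.card_fin]
    omega
  obtain ⟨f⟩ := Function.Embedding.nonempty_of_card_le hcard
  have hm0 : 0 < m := by omega
  let c : Quotient r → Fin m := fun q => Equiv.swap (f (Quotient.mk r none)) ⟨0, hm0⟩ (f q)
  have hc : Function.Injective c := (Equiv.injective _).comp f.injective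
  have hc0 : c (Quotient.mk r none) = ⟨0, hm0⟩ := Equiv.swap_apply_left _ _
  refine ⟨fun b => c (Quotient.mk r (some b)), fun a b => ?_⟩
  have h : ∀ a : Option (B D), exc (fun b => ((c (Quotient.mk r (some b)) : Fin m) : ℕ)) a =
      ((c (Quotient.mk r a) : Fin m) : ℕ) := by
    rintro (_ | a)
    · rw [hc0]
      rfl
    · rfl
  rw [h, h, Fin.val_inj]
  exact ⟨fun hab => congrArg c (Quotient.sound hab), fun hab => Quotient.exact (hc hab)⟩

/-- PART I. -/
theorem partI (L : Lab w) {m : ℕ} (hm : Fintype.card (B D) < m) {u : S D Z}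
    (hu : u * Delta D Z ∈ K0 w) :
    ∃ s : (B D → Fin m) → S D Z, u * Delta D Z =
      ∑ g ∈ Finset.univ.filter (fun g : B D → Fin m => ∃ b, (g b : ℕ) ≠ 0),
        s g * (Rnc (fun b => (g b : ℕ)) * Wg w fun b => (g b : ℕ)) := by
  classical
  have h1 : u * Delta D Z ∈ WW (DD w) (TH D Z) 0 := by
    refine Ideal.mul_mem_left _ _ (Ideal.subset_span ⟨⊤, Nat.zero_le _, ?_⟩)
    have hg : ∀ a b : Option (B D), (⊤ : Setoid (Option (B D))) a b ↔
        exc (fun _ => 0) a = exc (fun _ => 0) b := by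
      rintro (_ | a) (_ | b) <;> simp [exc, Setoid.top_def]
    rw [mm_eq w ⊤ (fun _ => 0) hg, th_eq ⊤ (fun _ => 0) hg, Wg, Rnc, Delta]
    simp only [ne_eq, not_true_eq_false, ↓reduceIte, Finset.prod_const_one, mul_one, and_true, one_mul]
  have h2 : u * Delta D Z ∈ KK (DD w) 2 := by
    have h : K0 w ≤ KK (DD w) 2 := by
      refine Ideal.span_le.2 ?_
      rintro _ ⟨N, hN, rfl⟩
      set g : B D → ℕ := fun b => if b ∈ N then 1 else 0 with hgdef
      let r : Setoid (Option (B D)) := Setoid.ker (exc g)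
      have hg : ∀ a b, r a b ↔ exc g a = exc g b := fun a b => Iff.rfl
      refine Ideal.subset_span ⟨r, ?_, ?_⟩
      · obtain ⟨b, hb⟩ := hN
        rw [nb]
        have h3 : Nontrivial (Quotient r) := by
          refine ⟨⟨Quotient.mk r (some b), Quotient.mk r none, fun h4 => ?_⟩⟩
          have h5 : exc g (some b) = exc g none := Quotient.exact h4
          simp only [exc, hgdef, hb, ↓reduceIte, one_ne_zero] at h5
        exact Finite.one_lt_card
      · rw [mm_eq w r g hg, Wg]
        have h3 : zs w N = ∏ b, if g b ≠ 0 then w.z b else 1 := by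
          rw [zs, ← Finset.prod_filter]
          refine Finset.prod_congr ?_ fun _ _ => rfl
          ext b
          simp only [hgdef, ne_eq, ite_eq_right_iff, one_ne_zero, imp_false, Decidable.not_not, Finset.subset_univ, Finset.filter_mem_eq_of_subset]
        have h4 : e w N * e w Nᶜ = ∏ p : B D × B D, if g p.1 ≠ g p.2 then w.h p.1 p.2 else 1 := by
          rw [e, e, compl_compl, Fintype.prod_prod_type, ← Finset.prod_mul_prod_compl N]
          congr 1
          · refine Finset.prod_congr rfl fun b hb => ?_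
            rw [← Finset.prod_filter]
            refine Finset.prod_congr ?_ fun _ _ => rfl
            ext c
            simp only [Finset.mem_compl, hgdef, hb, ↓reduceIte, ne_eq, left_eq_ite_iff, one_ne_zero, imp_false, Decidable.not_not, Finset.mem_filter, Finset.mem_univ, true_and]
          · refine Finset.prod_congr rfl fun b hb => ?_
            rw [← Finset.prod_filter]
            refine Finset.prod_congr ?_ fun _ _ => rfl
            ext c
            rw [Finset.mem_compl] at hb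
            simp only [hgdef, hb, ↓reduceIte, ne_eq, right_eq_ite_iff, zero_ne_one, imp_false, Decidable.not_not, Finset.subset_univ, Finset.filter_mem_eq_of_subset]
        rw [h3, h4]
    exact h hu
  have h3 := cluster (trans w L) 2 h1 h2
  have h4 : WW (DD w) (TH D Z) 2 ≤ Submodule.span (S D Z)
      ((fun g : B D → Fin m => Rnc (fun b => (g b : ℕ)) * Wg w fun b => (g b : ℕ)) ''
        (Finset.univ.filter (fun g : B D → Fin m => ∃ b, (g b : ℕ) ≠ 0) :
          Finset (B D → Fin m))) := by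
    refine Ideal.span_le.2 ?_
    rintro _ ⟨r, hr, rfl⟩
    obtain ⟨g, hg⟩ := exists_colouring r hm
    refine Submodule.subset_span ⟨g, ?_, ?_⟩
    · rw [Finset.mem_coe, Finset.mem_filter]
      refine ⟨Finset.mem_univ _, ?_⟩
      by_contra h
      push Not at h
      have h5 : ∀ a b, r a b := by
        intro a b
        rw [hg]
        rcases a with _ | a <;> rcases b with _ | b <;> simp [exc, h]
      have h6 : Subsingleton (Quotient r) := by
        refine ⟨fun x y => ?_⟩
        obtain ⟨a, rfl⟩ := Quotient.mk_surjective x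
        obtain ⟨b, rfl⟩ := Quotient.mk_surjective y
        exact Quotient.sound (h5 a b)
      rw [nb] at hr
      have h7 : Nat.card (Quotient r) ≤ 1 := Finite.card_le_one_iff_subsingleton.2 h6
      omega
    · change Rnc (fun b => (g b : ℕ)) * Wg w (fun b => (g b : ℕ)) = mm (DD w) r * th (TH D Z) r
      rw [mm_eq w r _ hg, th_eq r _ hg, mul_comm]
  obtain ⟨s, hs⟩ := (Submodule.mem_span_image_finset_iff_exists_fun' (S D Z)).1 (h4 h3)
  exact ⟨s, hs.symm⟩

end

end Vale.Agent.P291.J
end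
end

section

section

set_option autoImplicit false

/-! The diagonal coefficient of a product of slots, and orbit sums. -/

namespace Vale.Agent.P291.J

open MvPolynomial Vale.Agent.P291.G Vale.Agent.P291.H

section
variable {D : QData} {Z : Type} (w : Wts D Z)

/-- class of a colour -/
def fb (g : B D → ℕ) (t : ℕ) : Finset (B D) := Finset.univ.filter fun b => g b = t

lemma mem_fb (g : B D → ℕ) (t : ℕ) (b : B D) : b ∈ fb g t ↔ g b = t := by
  simp only [fb, Finset.mem_filter, Finset.mem_univ, true_and]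

lemma sum_ind_fb {m : ℕ} {g : B D → ℕ} (hg : ∀ b, g b < m) :
    ∑ t ∈ Finset.range m, ind D (fb g t) = ind D Finset.univ := by
  funext b
  rw [Finset.sum_apply]
  simp only [ind, mem_fb, Finset.mem_univ, if_true]
  rw [Finset.sum_ite_eq, if_pos (Finset.mem_range.2 (hg b))]

lemma exists_col {m : ℕ} {A : ℕ → Finset (B D)}
    (h : ∑ t ∈ Finset.range m, ind D (A t) = ind D Finset.univ) :
    ∃ g : B D → Fin m, ∀ t, t < m → A t = fb (fun b => (g b : ℕ)) t := by
  have h1 : ∀ b, ((Finset.range m).filter fun t => b ∈ A t).card = 1 := by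
    intro b
    have h2 := congrFun h b
    rw [Finset.sum_apply] at h2
    simp only [ind, Finset.mem_univ, if_true] at h2
    rw [Finset.sum_boole] at h2
    exact_mod_cast h2
  have h2 : ∀ b, ∃ t, t < m ∧ b ∈ A t ∧ ∀ s, s < m → b ∈ A s → s = t := by
    intro b
    obtain ⟨t, ht⟩ := Finset.card_eq_one.1 (h1 b)
    have h3 : t ∈ (Finset.range m).filter fun t => b ∈ A t := by
      rw [ht]
      exact Finset.mem_singleton_self _
    rw [Finset.mem_filter, Finset.mem_range] at h3
    refine ⟨t, h3.1, h3.2, fun s hs hbs => ?_⟩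
    have h4 : s ∈ (Finset.range m).filter fun t => b ∈ A t := by
      rw [Finset.mem_filter, Finset.mem_range]
      exact ⟨hs, hbs⟩
    rw [ht] at h4
    exact Finset.mem_singleton.1 h4
  choose g hg1 hg2 hg3 using h2
  refine ⟨fun b => ⟨g b, hg1 b⟩, fun t ht => ?_⟩
  ext b
  rw [mem_fb]
  exact ⟨fun h => (hg3 b t ht h).symm, fun h => h ▸ hg2 b⟩

lemma prod_single {ι : Type} (s : Finset ι) (l : ι → B D → ℤ) (c : ι → S D Z) :
    ∏ i ∈ s, (AddMonoidAlgebra.single (l i) (c i) : AddMonoidAlgebra (S D Z) (B D → ℤ)) =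
      AddMonoidAlgebra.single (∑ i ∈ s, l i) (∏ i ∈ s, c i) := by
  classical
  induction s using Finset.induction_on with
  | empty => rfl
  | insert i s hi ih =>
    rw [Finset.prod_insert hi, Finset.sum_insert hi, Finset.prod_insert hi, ih,
      AddMonoidAlgebra.single_mul_single]

lemma coeff_prod_slots (m : ℕ) (c : ℕ → Finset (B D) → S D Z) :
    (∏ t ∈ Finset.range m, ∑ A, (AddMonoidAlgebra.single (ind D A) (c t A) :
      AddMonoidAlgebra (S D Z) (B D → ℤ))).coeff (ind D Finset.univ) =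
      ∑ g : B D → Fin m, ∏ t ∈ Finset.range m, c t (fb (fun b => (g b : ℕ)) t) := by
  classical
  rw [Finset.prod_range, Finset.prod_univ_sum, Fintype.piFinset_univ,
    AddMonoidAlgebra.coeff_sum, Finsupp.finsetSum_apply]
  have h1 : ∀ A : Fin m → Finset (B D),
      (∏ t : Fin m, (AddMonoidAlgebra.single (ind D (A t)) (c t (A t)) :
        AddMonoidAlgebra (S D Z) (B D → ℤ))).coeff (ind D Finset.univ) =
      if ∑ t, ind D (A t) = ind D Finset.univ then ∏ t : Fin m, c t (A t) else 0 := by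
    intro A
    rw [prod_single, AddMonoidAlgebra.coeff_single, Finsupp.single_apply]
  rw [Finset.sum_congr rfl fun A _ => h1 A, ← Finset.sum_filter]
  have h2 : (Finset.univ.filter fun A : Fin m → Finset (B D) =>
      ∑ t, ind D (A t) = ind D Finset.univ) = Finset.univ.image
        fun (g : B D → Fin m) (t : Fin m) => fb (fun b => (g b : ℕ)) t := by
    ext A
    rw [Finset.mem_filter, Finset.mem_image]
    constructor
    · rintro ⟨-, hA⟩
      have h3 : ∑ t ∈ Finset.range m, ind D (if h : t < m then A ⟨t, h⟩ else ∅) =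
          ind D Finset.univ := by
        rw [Finset.sum_range, ← hA]
        refine Finset.sum_congr rfl fun t _ => ?_
        rw [dif_pos t.2]
      obtain ⟨g, hg⟩ := exists_col (A := fun t => if h : t < m then A ⟨t, h⟩ else ∅) h3
      refine ⟨g, Finset.mem_univ _, ?_⟩
      funext t
      rw [← hg t t.2]
      exact dif_pos t.2
    · rintro ⟨g, -, rfl⟩
      refine ⟨Finset.mem_univ _, ?_⟩
      rw [← Finset.sum_range (fun t => ind D (fb (fun b => (g b : ℕ)) t))]
      exact sum_ind_fb fun b => (g b).2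
  rw [h2, Finset.sum_image]
  · refine Finset.sum_congr rfl fun g _ => ?_
    rw [Finset.prod_range]
  · intro g _ g' _ h
    funext b
    have h3 : fb (fun b => (g b : ℕ)) (g b) = fb (fun b => (g' b : ℕ)) (g b) :=
      congrFun h (g b)
    have h4 : b ∈ fb (fun b => (g b : ℕ)) (g b) := (mem_fb _ _ _).2 rfl
    rw [h3, mem_fb] at h4
    exact (Fin.ext h4).symm

/-- weights of a colouring, slot by slot -/
lemma prod_e (m : ℕ) {g : B D → ℕ} (hg : ∀ b, g b < m) :
    ∏ t ∈ Finset.range m, (e w (fb g t) * zs w (fb g t) ^ ep 1 t) = Wg w g := by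
  classical
  rw [Finset.prod_mul_distrib, Wg]
  congr 1
  · have h1 : ∀ t, e w (fb g t) = ∏ b : B D, if g b = t then
        (∏ c : B D, if g b ≠ g c then w.h b c else 1) else 1 := by
      intro t
      rw [e, fb, Finset.prod_filter]
      refine Finset.prod_congr rfl fun b _ => ?_
      split_ifs with hb
      · rw [← Finset.prod_filter]
        refine Finset.prod_congr ?_ fun _ _ => rfl
        ext c
        simp only [← hb, eq_comm, Finset.compl_filter, Finset.mem_filter, Finset.mem_univ, true_and, ne_eq]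
      · rfl
    rw [Finset.prod_congr rfl fun t _ => h1 t, Finset.prod_comm, Fintype.prod_prod_type]
    refine Finset.prod_congr rfl fun b _ => ?_
    rw [Finset.prod_ite_eq, if_pos (Finset.mem_range.2 (hg b))]
  · have h1 : ∀ t, zs w (fb g t) ^ ep 1 t = ∏ b : B D, if g b = t then
        (if g b ≠ 0 then w.z b else 1) else 1 := by
      intro t
      rw [zs, fb, Finset.prod_filter, ← Finset.prod_pow]
      refine Finset.prod_congr rfl fun b _ => ?_
      by_cases hb : g b = t
      · rw [if_pos hb, if_pos hb, ep]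
        by_cases ht : t = 0
        · rw [if_pos (by omega), pow_zero, if_neg (by omega)]
        · rw [if_neg (by omega), pow_one, if_pos (by omega)]
      · rw [if_neg hb, if_neg hb, one_pow]
    rw [Finset.prod_congr rfl fun t _ => h1 t, Finset.prod_comm]
    refine Finset.prod_congr rfl fun b _ => ?_
    rw [Finset.prod_ite_eq, if_pos (Finset.mem_range.2 (hg b))]

/-- the complementary factors -/
lemma prod_Dl (m : ℕ) {g : B D → ℕ} (hg : ∀ b, g b < m) :
    (∏ t ∈ Finset.range m, Dl D Z (fb g t)) * Delta D Z = del D Z ^ m * Rnc g := by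
  classical
  have h1 : Delta D Z = (∏ t ∈ Finset.range m, cr D Z (fb g t) (fb g t)ᶜ) * Rnc g := by
    have h2 : ∀ t, cr D Z (fb g t) (fb g t)ᶜ = ∏ b : B D, if g b = t then
        (∏ c : B D, if g b ≠ g c then (if b.1 = c.1 then xx D Z b - xx D Z c else 1) else 1)
          else 1 := by
      intro t
      rw [cr, fb, Finset.prod_filter]
      refine Finset.prod_congr rfl fun b _ => ?_
      split_ifs with hb
      · have h3 : (Finset.univ.filter fun b : B D => g b = t)ᶜ =
            Finset.univ.filter fun c : B D => g b ≠ g c := by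
          ext c
          simp only [← hb, eq_comm, Finset.compl_filter, Finset.mem_filter, Finset.mem_univ, true_and, ne_eq]
        rw [h3, Finset.prod_filter]
      · rfl
    rw [Finset.prod_congr rfl fun t _ => h2 t, Finset.prod_comm]
    have h3 : ∏ b : B D, ∏ t ∈ Finset.range m, (if g b = t then
        (∏ c : B D, if g b ≠ g c then (if b.1 = c.1 then xx D Z b - xx D Z c else 1) else 1)
          else 1) = ∏ p : B D × B D, if g p.1 ≠ g p.2 then
            (if p.1.1 = p.2.1 then xx D Z p.1 - xx D Z p.2 else 1) else 1 := by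
      rw [Fintype.prod_prod_type]
      refine Finset.prod_congr rfl fun b _ => ?_
      rw [Finset.prod_ite_eq, if_pos (Finset.mem_range.2 (hg b))]
    rw [h3, Rnc, ← Finset.prod_mul_distrib, Delta]
    refine Finset.prod_congr rfl fun p _ => ?_
    by_cases h4 : g p.1 = g p.2
    · simp only [ne_eq, h4, not_true_eq_false, ↓reduceIte, and_true, mul_ite, one_mul, mul_one]
    · have h5 : p.1 ≠ p.2 := fun h => h4 (by rw [h])
      by_cases h6 : p.1.1 = p.2.1
      · simp only [ne_eq, h5, not_false_eq_true, h6, and_self, ↓reduceIte, h4, and_false, mul_one]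
      · simp [h4, h6]
  have h2 : del D Z ^ m = ∏ t ∈ Finset.range m, (cr D Z (fb g t) (fb g t)ᶜ * Dl D Z (fb g t)) := by
    rw [Finset.prod_congr rfl fun t _ => (Dl_spec D Z (fb g t)).symm, Finset.prod_const,
      Finset.card_range]
  rw [h1, h2, Finset.prod_mul_distrib]
  ring

/-- the diagonal coefficient of a product of slots -/
lemma coeff_diag (m : ℕ) (f : ℕ → Finset (B D) → S D Z) :
    (∏ t ∈ Finset.range m, slot w (ep 1 t) (fun A => Dl D Z A * f t A)).coeff
        (ind D Finset.univ) * Delta D Z =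
      del D Z ^ m * ∑ g : B D → Fin m, (∏ t ∈ Finset.range m, f t (fb (fun b => (g b : ℕ)) t)) *
        (Rnc (fun b => (g b : ℕ)) * Wg w fun b => (g b : ℕ)) := by
  have h1 : ∏ t ∈ Finset.range m, slot w (ep 1 t) (fun A => Dl D Z A * f t A) =
      ∏ t ∈ Finset.range m, ∑ A, AddMonoidAlgebra.single (ind D A)
        (Dl D Z A * f t A * (e w A * zs w A ^ ep 1 t)) := rfl
  rw [h1, coeff_prod_slots m fun t A => Dl D Z A * f t A * (e w A * zs w A ^ ep 1 t),
    Finset.sum_mul, Finset.mul_sum]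
  refine Finset.sum_congr rfl fun g _ => ?_
  have hg : ∀ b, (fun b => (g b : ℕ)) b < m := fun b => (g b).2
  rw [Finset.prod_mul_distrib, prod_e w m hg, Finset.prod_mul_distrib]
  have h2 := prod_Dl (Z := Z) m hg
  calc (∏ t ∈ Finset.range m, Dl D Z (fb (fun b => (g b : ℕ)) t)) *
        (∏ t ∈ Finset.range m, f t (fb (fun b => (g b : ℕ)) t)) *
        Wg w (fun b => (g b : ℕ)) * Delta D Z
      = ((∏ t ∈ Finset.range m, Dl D Z (fb (fun b => (g b : ℕ)) t)) * Delta D Z) *
        ((∏ t ∈ Finset.range m, f t (fb (fun b => (g b : ℕ)) t)) *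
        Wg w (fun b => (g b : ℕ))) := by ring
    _ = _ := by
      rw [h2]
      ring

end

section
variable {D : QData} {Z : Type}

/-- gluing -/
lemma exists_W (s : B D → B D) (h1 : ∀ b, (s b).1 = b.1) (h2 : Function.Injective s) :
    ∃ σ : W D, ∀ b, perm D σ b = s b := by
  have h3 : ∀ (i : D.I) (r : Fin (D.v i)), ∃ r' : Fin (D.v i), s ⟨i, r⟩ = ⟨i, r'⟩ := by
    intro i r
    have h4 := h1 ⟨i, r⟩
    generalize s ⟨i, r⟩ = c at h4 ⊢
    obtain ⟨j, r'⟩ := c
    simp only at h4
    subst h4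
    exact ⟨r', rfl⟩
  choose f hf using h3
  have hinj : ∀ i, Function.Injective (f i) := by
    intro i r r' h
    have h4 : s ⟨i, r⟩ = s ⟨i, r'⟩ := by rw [hf, hf, h]
    have h5 := h2 h4
    simpa using h5
  refine ⟨fun i => Equiv.ofBijective (f i) (Finite.injective_iff_bijective.1 (hinj i)), ?_⟩
  rintro ⟨i, r⟩
  rw [hf]
  rfl

lemma perm_ext {σ τ : W D} (h : ∀ b, perm D σ b = perm D τ b) : σ = τ := by
  funext i
  ext1 r
  have h1 := h ⟨i, r⟩
  simpa only [perm, Equiv.sigmaCongrRight_apply, Sigma.mk.injEq, heq_eq_eq, true_and] using h1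

lemma fb_comp (σ : W D) (g : B D → ℕ) (t : ℕ) :
    fb (fun b => g ((perm D σ).symm b)) t = mp D σ (fb g t) := by
  ext b
  rw [mem_fb, mem_mp', mem_fb]

lemma act_prod_pairs (σ : W D) (F : B D → B D → S D Z) :
    ∏ p : B D × B D, F (perm D σ p.1) (perm D σ p.2) = ∏ p : B D × B D, F p.1 p.2 :=
  Fintype.prod_equiv (Equiv.prodCongr (perm D σ) (perm D σ)) _ _ fun _ => rfl

lemma perm_fst (σ : W D) (b : B D) : (perm D σ b).1 = b.1 := rfl

lemma act_Rnc (σ : W D) (g : B D → ℕ) :
    act D Z σ (Rnc g) = Rnc (fun b => g ((perm D σ).symm b)) := by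
  rw [Rnc, Rnc, map_prod, ← act_prod_pairs σ (fun a b => if (a ≠ b ∧ a.1 = b.1) ∧
    g ((perm D σ).symm a) = g ((perm D σ).symm b) then xx D Z a - xx D Z b else 1)]
  refine Finset.prod_congr rfl fun p _ => ?_
  rw [Equiv.symm_apply_apply, Equiv.symm_apply_apply, perm_fst, perm_fst]
  have h : (perm D σ p.1 ≠ perm D σ p.2) ↔ p.1 ≠ p.2 := (perm D σ).injective.ne_iff
  rw [apply_ite (act D Z σ), map_sub, act_xx, act_xx, map_one]
  exact if_congr (by rw [h]) rfl rfl

lemma act_Wg (w : Wts D Z) (σ : W D) (g : B D → ℕ) :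
    act D Z σ (Wg w g) = Wg w (fun b => g ((perm D σ).symm b)) := by
  rw [Wg, Wg, map_mul, map_prod, map_prod, ← act_prod_pairs σ (fun a b =>
    if g ((perm D σ).symm a) ≠ g ((perm D σ).symm b) then w.h a b else 1),
    ← Equiv.prod_comp (perm D σ) (fun b => if g ((perm D σ).symm b) ≠ 0 then w.z b else 1)]
  congr 1
  · refine Finset.prod_congr rfl fun p _ => ?_
    rw [Equiv.symm_apply_apply, Equiv.symm_apply_apply, apply_ite (act D Z σ), w.h_act, map_one]
  · refine Finset.prod_congr rfl fun b _ => ?_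
    rw [Equiv.symm_apply_apply, apply_ite (act D Z σ), w.z_act, map_one]

lemma Delta_eq_Rnc : Delta D Z = Rnc fun _ => 0 := by
  rw [Delta, Rnc]
  refine Finset.prod_congr rfl fun p _ => ?_
  simp

lemma act_Delta (σ : W D) : act D Z σ (Delta D Z) = Delta D Z := by
  rw [Delta_eq_Rnc, act_Rnc]

/-- `p` depends only on the variables in `A` (and on the flavor variables) -/
def Dep (A : Finset (B D)) (p : S D Z) : Prop :=
  ∀ σ τ : W D, (∀ b ∈ A, perm D σ b = perm D τ b) → act D Z σ p = act D Z τ p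

/-- equivariant family generated by `p` at `A₀` -/
noncomputable def fam (A₀ : Finset (B D)) (p : S D Z) (A : Finset (B D)) : S D Z :=
  ∑ τ : W D, if mp D τ A₀ = A then act D Z τ p else 0

lemma orb_Dl (A₀ : Finset (B D)) (p : S D Z) :
    orb D Z A₀ (Dl D Z A₀ * p) = fun A => Dl D Z A * fam A₀ p A := by
  funext A
  rw [orb, fam, Finset.mul_sum]
  refine Finset.sum_congr rfl fun τ _ => ?_
  by_cases h : mp D τ A₀ = A
  · have h1 : ((sgn D τ : ℤ) : S D Z) * ((sgn D τ : ℤ) : S D Z) = 1 := by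
      rw [← Int.cast_mul, sgn_sq, Int.cast_one]
    rw [if_pos h, if_pos h, map_mul, act_Dl, h, ← mul_assoc, ← mul_assoc, h1, one_mul]
  · rw [if_neg h, if_neg h, mul_zero]

lemma mp_congr {σ τ : W D} {A : Finset (B D)} (h : ∀ b ∈ A, perm D σ b = perm D τ b) :
    mp D σ A = mp D τ A := by
  rw [mp, mp, Finset.map_eq_image, Finset.map_eq_image]
  exact Finset.image_congr h

lemma perm_mul_apply (σ τ : W D) (b : B D) : perm D (σ * τ) b = perm D σ (perm D τ b) := rfl

lemma orbit_sum {m : ℕ} (g₀ : B D → Fin m) (p : ℕ → S D Z)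
    (hp : ∀ t, t < m → Dep (fb (fun b => (g₀ b : ℕ)) t) (p t)) (G : (B D → Fin m) → S D Z) :
    ∃ N : ℕ, N ≠ 0 ∧ ∑ g : B D → Fin m, (∏ t ∈ Finset.range m,
        fam (fb (fun b => (g₀ b : ℕ)) t) (p t) (fb (fun b => (g b : ℕ)) t)) * G g =
      (N : S D Z) * ∑ σ : W D, act D Z σ (∏ t ∈ Finset.range m, p t) *
        G (fun b => g₀ ((perm D σ).symm b)) := by
  classical
  set A : Fin m → Finset (B D) := fun t => fb (fun b => (g₀ b : ℕ)) t with hA
  have hA' : ∀ (t : Fin m) b, b ∈ A t ↔ g₀ b = t := by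
    intro t b
    rw [hA, mem_fb, Fin.val_inj]
  set F : W D → Finset (Fin m → W D) := fun σ =>
    Finset.univ.filter fun τ => ∀ t, ∀ b ∈ A t, perm D (τ t) b = perm D σ b with hF
  have hF' : ∀ σ τ, τ ∈ F σ ↔ ∀ t, ∀ b ∈ A t, perm D (τ t) b = perm D σ b := by
    intro σ τ
    rw [hF, Finset.mem_filter]
    exact ⟨fun h => h.2, fun h => ⟨Finset.mem_univ _, h⟩⟩
  have hcard : ∀ σ, (F σ).card = (F 1).card := by
    intro σ
    refine (Finset.card_bij (fun τ _ => fun t => σ * τ t) ?_ ?_ ?_).symm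
    · intro τ hτ
      rw [hF'] at hτ ⊢
      intro t b hb
      rw [perm_mul_apply, hτ t b hb]
      rfl
    · intro τ _ τ' _ h
      funext t
      exact mul_left_cancel (congrFun h t)
    · intro τ hτ
      rw [hF'] at hτ
      refine ⟨fun t => σ⁻¹ * τ t, ?_, ?_⟩
      · rw [hF']
        intro t b hb
        rw [perm_mul_apply, hτ t b hb, ← perm_mul_apply, inv_mul_cancel]
      · funext t
        exact mul_inv_cancel_left _ _
  refine ⟨(F 1).card, ?_, ?_⟩
  · refine (Finset.card_pos.2 ⟨fun _ => 1, ?_⟩).ne'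
    rw [hF']
    exact fun _ _ _ => rfl
  -- left side
  have hL : ∀ g : B D → Fin m, (∏ t ∈ Finset.range m,
      fam (fb (fun b => (g₀ b : ℕ)) t) (p t) (fb (fun b => (g b : ℕ)) t)) * G g =
      ∑ τ : Fin m → W D, if ∀ t, mp D (τ t) (A t) = fb (fun b => (g b : ℕ)) t then
        (∏ t : Fin m, act D Z (τ t) (p t)) * G g else 0 := by
    intro g
    rw [Finset.prod_range]
    simp only [fam]
    rw [Finset.prod_univ_sum, Fintype.piFinset_univ, Finset.sum_mul]
    refine Finset.sum_congr rfl fun τ _ => ?_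
    rw [Finset.prod_ite_zero]
    simp only [Finset.mem_univ, true_implies, ite_mul, zero_mul]
    rfl
  have hR : ∀ σ : W D, ((F 1).card : S D Z) * (act D Z σ (∏ t ∈ Finset.range m, p t) *
      G (fun b => g₀ ((perm D σ).symm b))) =
      ∑ τ ∈ F σ, (∏ t : Fin m, act D Z (τ t) (p t)) * G (fun b => g₀ ((perm D σ).symm b)) := by
    intro σ
    have h1 : ∀ τ ∈ F σ, (∏ t : Fin m, act D Z (τ t) (p t)) *
        G (fun b => g₀ ((perm D σ).symm b)) = act D Z σ (∏ t ∈ Finset.range m, p t) *
          G (fun b => g₀ ((perm D σ).symm b)) := by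
      intro τ hτ
      rw [hF'] at hτ
      rw [Finset.prod_range, map_prod]
      congr 1
      exact Finset.prod_congr rfl fun t _ => hp t t.2 _ _ (hτ t)
    rw [Finset.sum_congr rfl h1, Finset.sum_const, nsmul_eq_mul]
    congr 2
    exact (hcard σ).symm
  have hF'' : ∑ σ : W D, ∑ τ ∈ F σ, (∏ t : Fin m, act D Z (τ t) (p t)) *
      G (fun b => g₀ ((perm D σ).symm b)) = ∑ x ∈ Finset.univ.sigma F,
        (∏ t : Fin m, act D Z (x.2 t) (p t)) * G (fun b => g₀ ((perm D x.1).symm b)) :=
    Finset.sum_sigma' _ _ _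
  have hG : ∑ g : B D → Fin m, ∑ τ : Fin m → W D,
      (if ∀ t, mp D (τ t) (A t) = fb (fun b => (g b : ℕ)) t then
        (∏ t : Fin m, act D Z (τ t) (p t)) * G g else 0) =
      ∑ x ∈ (Finset.univ : Finset ((B D → Fin m) × (Fin m → W D))).filter fun x =>
        ∀ t, mp D (x.2 t) (A t) = fb (fun b => (x.1 b : ℕ)) t,
          (∏ t : Fin m, act D Z (x.2 t) (p t)) * G x.1 := by
    rw [Finset.sum_filter, Fintype.sum_prod_type]
  rw [Finset.sum_congr rfl fun g _ => hL g, Finset.mul_sum, Finset.sum_congr rfl fun σ _ => hR σ,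
    hF'', hG]
  symm
  refine Finset.sum_bij (fun x _ => ((fun b => g₀ ((perm D x.1).symm b)), x.2)) ?_ ?_ ?_ ?_
  · rintro ⟨σ, τ⟩ hx
    have hx2 := (hF' _ _).1 (Finset.mem_sigma.1 hx).2
    rw [Finset.mem_filter]
    refine ⟨Finset.mem_univ _, fun t => ?_⟩
    rw [mp_congr (hx2 t)]
    exact (fb_comp σ (fun b => (g₀ b : ℕ)) t).symm
  · rintro ⟨σ, τ⟩ hx ⟨σ', τ'⟩ hx' h
    have hx2 := (hF' _ _).1 (Finset.mem_sigma.1 hx).2
    have hx2' := (hF' _ _).1 (Finset.mem_sigma.1 hx').2
    rw [Prod.mk.injEq] at h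
    obtain ⟨-, h2⟩ := h
    simp only at h2 hx2 hx2'
    subst h2
    have h3 : σ = σ' := by
      refine perm_ext fun b => ?_
      rw [← hx2 (g₀ b) b ((hA' _ _).2 rfl), ← hx2' (g₀ b) b ((hA' _ _).2 rfl)]
    rw [h3]
  · rintro ⟨g, τ⟩ hx
    rw [Finset.mem_filter] at hx
    have h2 : ∀ t, mp D (τ t) (A t) = fb (fun b => (g b : ℕ)) t := hx.2
    have h3 : ∀ b, g (perm D (τ (g₀ b)) b) = g₀ b := by
      intro b
      have h4 : perm D (τ (g₀ b)) b ∈ mp D (τ (g₀ b)) (A (g₀ b)) :=
        (mem_mp D _ _ _).2 ((hA' _ _).2 rfl)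
      rw [h2, mem_fb] at h4
      exact Fin.ext h4
    obtain ⟨σ, hσ⟩ := exists_W (fun b => perm D (τ (g₀ b)) b) (fun b => rfl) (by
      intro b c hbc
      have h4 : g₀ b = g₀ c := by rw [← h3 b, ← h3 c]; exact congrArg g hbc
      simp only [h4] at hbc
      exact (perm D _).injective hbc)
    refine ⟨⟨σ, τ⟩, ?_, ?_⟩
    · rw [Finset.mem_sigma]
      refine ⟨Finset.mem_univ _, (hF' _ _).2 fun t b hb => ?_⟩
      rw [hσ, (hA' _ _).1 hb]
    · rw [Prod.mk.injEq]
      refine ⟨?_, rfl⟩
      funext b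
      have h4 := h3 ((perm D σ).symm b)
      rw [← hσ, Equiv.apply_symm_apply] at h4
      exact h4.symm
  · rintro ⟨σ, τ⟩ _
    rfl

end

section
variable {D : QData} {Z : Type} (w : Wts D Z)

lemma prod_mem_prod {R : Type*} [CommRing R] [Algebra ℂ R] (m : ℕ) (M : ℕ → Submodule ℂ R)
    (y : ℕ → R) (h : ∀ j, j < m → y j ∈ M j) :
    ∏ j ∈ Finset.range m, y j ∈ ∏ j ∈ Finset.range m, M j := by
  induction m with
  | zero =>
    rw [Finset.range_zero, Finset.prod_empty, Finset.prod_empty]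
    exact Submodule.one_le.1 le_rfl
  | succ m ih =>
    rw [Finset.prod_range_succ, Finset.prod_range_succ]
    exact Submodule.mul_mem_mul (ih fun j hj => h j (by omega)) (h m (by omega))

/-- the type sequence of a colouring -/
def tyq (g : B D → ℕ) (t : ℕ) : D.I → ℕ := typ D (fb g t)

/-- the coefficient statement for one orbit and one polynomial -/
def Good (m : ℕ) (g₀ : B D → Fin m) (s : S D Z) : Prop :=
  ∃ X ∈ UU w (ep 1) m (tyq fun b => (g₀ b : ℕ)),
    X.coeff (ind D Finset.univ) * Delta D Z = del D Z ^ m * ∑ σ : W D,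
      act D Z σ (s * (Rnc (fun b => (g₀ b : ℕ)) * Wg w fun b => (g₀ b : ℕ)))

lemma good_add {m : ℕ} {g₀ : B D → Fin m} {s s' : S D Z} (h : Good w m g₀ s)
    (h' : Good w m g₀ s') : Good w m g₀ (s + s') := by
  obtain ⟨X, hX, h1⟩ := h
  obtain ⟨X', hX', h2⟩ := h'
  refine ⟨X + X', Submodule.add_mem _ hX hX', ?_⟩
  rw [AddMonoidAlgebra.coeff_add, Finsupp.add_apply, add_mul, h1, h2, ← mul_add,
    ← Finset.sum_add_distrib]
  congr 1
  refine Finset.sum_congr rfl fun σ _ => ?_
  rw [add_mul, map_add]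

lemma act_inr (σ : W D) (z : Z) : act D Z σ (X (Sum.inr z)) = X (Sum.inr z) := by
  rw [act, rename_X]
  rfl

lemma good_prod {m : ℕ} {g₀ : B D → Fin m} {p : ℕ → S D Z}
    (hp : ∀ t, t < m → Dep (fb (fun b => (g₀ b : ℕ)) t) (p t)) :
    Good w m g₀ (∏ t ∈ Finset.range m, p t) := by
  obtain ⟨N, hN, h⟩ := orbit_sum g₀ p hp
    fun g => Rnc (fun b => (g b : ℕ)) * Wg w fun b => (g b : ℕ)
  refine ⟨(N : ℂ)⁻¹ • ∏ t ∈ Finset.range m, slot w (ep 1 t)
    (orb D Z (fb (fun b => (g₀ b : ℕ)) t) (Dl D Z (fb (fun b => (g₀ b : ℕ)) t) * p t)),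
    Submodule.smul_mem _ _ ?_, ?_⟩
  · refine prod_mem_prod m _ _ fun j _ => ?_
    exact Submodule.mem_map_of_mem (orb_mem D Z _ _)
  · have h1 : (∏ t ∈ Finset.range m, slot w (ep 1 t) (orb D Z (fb (fun b => (g₀ b : ℕ)) t)
        (Dl D Z (fb (fun b => (g₀ b : ℕ)) t) * p t))) = ∏ t ∈ Finset.range m,
          slot w (ep 1 t) (fun A => Dl D Z A * fam (fb (fun b => (g₀ b : ℕ)) t) (p t) A) :=
      Finset.prod_congr rfl fun t _ => by rw [orb_Dl]
    have h2 := coeff_diag w m fun t A => fam (fb (fun b => (g₀ b : ℕ)) t) (p t) A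
    rw [← h1, h] at h2
    have h3 : ∀ σ : W D, act D Z σ ((∏ t ∈ Finset.range m, p t) *
        (Rnc (fun b => (g₀ b : ℕ)) * Wg w fun b => (g₀ b : ℕ))) =
        act D Z σ (∏ t ∈ Finset.range m, p t) *
          (Rnc (fun b => (g₀ ((perm D σ).symm b) : ℕ)) *
            Wg w fun b => (g₀ ((perm D σ).symm b) : ℕ)) := by
      intro σ
      rw [map_mul, map_mul, act_Rnc, act_Wg]
    rw [Finset.sum_congr rfl fun σ _ => h3 σ, AddMonoidAlgebra.coeff_smul, Finsupp.smul_apply,
      Algebra.smul_mul_assoc, h2]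
    have h4 : ((N : ℕ) : S D Z) = algebraMap ℂ (S D Z) N := (map_natCast _ _).symm
    rw [h4, ← Algebra.smul_def, mul_smul_comm, smul_smul, inv_mul_cancel₀ (by exact_mod_cast hN),
      one_smul]

/-- colour of a variable -/
def colv {m : ℕ} (g₀ : B D → Fin m) : B D ⊕ Z → ℕ := Sum.elim (fun b => (g₀ b : ℕ)) fun _ => 0

lemma good_monomial {m : ℕ} (hm : 0 < m) (g₀ : B D → Fin m) (u : B D ⊕ Z →₀ ℕ) (a : ℂ) :
    Good w m g₀ (monomial u a) := by
  classical
  have h1 : (monomial u a : S D Z) = ∏ t ∈ Finset.range m,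
      ((if t = 0 then C a else 1) *
        ∏ i ∈ u.support.filter (fun i => colv g₀ i = t), (X i : S D Z) ^ u i) := by
    rw [Finset.prod_mul_distrib, Finset.prod_ite_eq', if_pos (Finset.mem_range.2 hm),
      monomial_eq, Finsupp.prod]
    congr 1
    refine (Finset.prod_fiberwise_of_maps_to (fun i _ => ?_) _).symm
    rw [Finset.mem_range]
    rcases i with b | z
    · exact (g₀ b).2
    · exact hm
  rw [h1]
  refine good_prod w fun t _ σ τ hστ => ?_
  rw [map_mul, map_mul, map_prod, map_prod]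
  congr 1
  · split_ifs
    · rw [← algebraMap_eq, AlgHom.commutes, AlgHom.commutes]
    · rw [map_one, map_one]
  · refine Finset.prod_congr rfl fun i hi => ?_
    rw [map_pow, map_pow]
    congr 1
    rcases i with b | z
    · have h2 : (g₀ b : ℕ) = t := (Finset.mem_filter.1 hi).2
      have h3 := hστ b ((mem_fb _ _ _).2 h2)
      have h4 : ∀ ρ : W D, act D Z ρ (X (Sum.inl b)) = X (Sum.inl (perm D ρ b)) := by
        intro ρ
        rw [act, rename_X]
        rfl
      rw [h4, h4, h3]
    · rw [act_inr, act_inr]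

lemma good_all {m : ℕ} (hm : 0 < m) (g₀ : B D → Fin m) (s : S D Z) : Good w m g₀ s := by
  induction s using MvPolynomial.induction_on' with
  | monomial u a => exact good_monomial w hm g₀ u a
  | add p q hp hq => exact good_add w hp hq

lemma seqOK_tyq {m : ℕ} (g₀ : B D → Fin m) (h : ∃ b, (g₀ b : ℕ) ≠ 0) :
    seqOK m 1 (tyq (D := D) fun b => (g₀ b : ℕ)) := by
  refine ⟨fun j hj => ?_, ?_, ?_⟩
  · rw [tyq]
    have h1 : fb (fun b => (g₀ b : ℕ)) j = ∅ := by
      ext b
      rw [mem_fb]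
      have := (g₀ b).2
      simp only [Finset.notMem_empty, iff_false]
      omega
    rw [h1, typ_empty]
  · funext i
    rw [Finset.sum_apply, one_smul]
    have h2 : ∀ t, tyq (D := D) (fun b => (g₀ b : ℕ)) t i =
        ((Finset.univ.filter fun b : B D => b.1 = i).filter fun b => (g₀ b : ℕ) = t).card := by
      intro t
      rw [tyq, typ, fb, Finset.filter_filter, Finset.filter_filter]
      congr 1
      ext b
      simp only [Finset.mem_filter, Finset.mem_univ, true_and, and_comm]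
    rw [Finset.sum_congr rfl fun t _ => h2 t, ← Finset.card_eq_sum_card_fiberwise]
    · have h3 := congrFun (typ_univ D) i
      rw [← h3, typ]
    · intro b _
      exact Finset.mem_coe.2 (Finset.mem_range.2 (g₀ b).2)
  · intro h3
    obtain ⟨b, hb⟩ := h
    have h4 := congrFun (congrFun h3 (g₀ b)) b.1
    rw [seqT, if_neg (by omega)] at h4
    have h5 : 0 < typ D (fb (fun b => (g₀ b : ℕ)) (g₀ b)) b.1 := by
      rw [typ, Finset.card_pos]
      exact ⟨b, Finset.mem_filter.2 ⟨(mem_fb _ _ _).2 rfl, rfl⟩⟩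
    rw [tyq] at h4
    rw [h4] at h5
    exact absurd h5 (lt_irrefl _)

lemma Delta_ne_zero : Delta D Z ≠ 0 := by
  rw [Delta, Finset.prod_ne_zero_iff]
  intro p _
  split_ifs with h
  · exact vdm_sub_ne D Z h.1
  · exact one_ne_zero

/-- From the cluster expansion to the slots. -/
theorem exists_X {m : ℕ} (hm : 0 < m) {r : S D Z} (hr : ∀ σ, act D Z σ r = r)
    {s : (B D → Fin m) → S D Z} (h : r * Delta D Z =
      ∑ g ∈ Finset.univ.filter (fun g : B D → Fin m => ∃ b, (g b : ℕ) ≠ 0),
        s g * (Rnc (fun b => (g b : ℕ)) * Wg w fun b => (g b : ℕ))) :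
    ∃ X ∈ ⨆ n : ℕ → D.I → ℕ, ⨆ _ : seqOK m 1 n, UU w (ep 1) m n,
      X.coeff (ind D Finset.univ) = r * del D Z ^ m := by
  choose X hX hc using fun g : B D → Fin m => good_all w hm g (s g)
  set T := ⨆ n : ℕ → D.I → ℕ, ⨆ _ : seqOK m 1 n, UU w (ep 1) m n with hT
  have hmem : ∑ g ∈ Finset.univ.filter (fun g : B D → Fin m => ∃ b, (g b : ℕ) ≠ 0), X g ∈ T := by
    refine Submodule.sum_mem _ fun g hg => ?_
    exact Submodule.mem_iSup_of_mem _ (Submodule.mem_iSup_of_mem
      (seqOK_tyq g (Finset.mem_filter.1 hg).2) (hX g))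
  refine ⟨((Fintype.card (W D) : ℕ) : ℂ)⁻¹ • ∑ g ∈ Finset.univ.filter
    (fun g : B D → Fin m => ∃ b, (g b : ℕ) ≠ 0), X g, Submodule.smul_mem _ _ hmem, ?_⟩
  refine mul_right_cancel₀ (Delta_ne_zero (D := D) (Z := Z)) ?_
  rw [AddMonoidAlgebra.coeff_smul, Finsupp.smul_apply, AddMonoidAlgebra.coeff_sum,
    Finsupp.finsetSum_apply, Algebra.smul_mul_assoc, Finset.sum_mul,
    Finset.sum_congr rfl fun g _ => hc g, ← Finset.mul_sum, Finset.sum_comm]
  have h1 : ∀ σ : W D, ∑ g ∈ Finset.univ.filter (fun g : B D → Fin m => ∃ b, (g b : ℕ) ≠ 0),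
      act D Z σ (s g * (Rnc (fun b => (g b : ℕ)) * Wg w fun b => (g b : ℕ))) =
      r * Delta D Z := by
    intro σ
    rw [← map_sum, ← h, map_mul, hr, act_Delta]
  rw [Finset.sum_congr rfl fun σ _ => h1 σ, Finset.sum_const, Finset.card_univ, nsmul_eq_mul]
  have h4 : ((Fintype.card (W D) : ℕ) : S D Z) = algebraMap ℂ (S D Z) (Fintype.card (W D) : ℕ) :=
    (map_natCast _ _).symm
  have h5 : ((Fintype.card (W D) : ℕ) : ℂ) ≠ 0 := by
    exact_mod_cast Fintype.card_ne_zero
  rw [h4, ← Algebra.smul_def, mul_smul_comm, smul_smul, inv_mul_cancel₀ h5, one_smul]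
  ring

end

end Vale.Agent.P291.J
end
end

section

section

set_option autoImplicit false
set_option linter.unusedSectionVars false

/-! Products of Vandermonde determinants over the fibres. -/

namespace Vale.Agent.P291.H.M

open MvPolynomial Vale.Agent.P291.G

variable (D : QData) (Z : Type)

lemma diag2_mem {m : ℕ} (g : B D → Fin m) (t : Fin m) (b : B D) : b ∈ fb D g t ↔ g b = t := by
  simp only [fb, Finset.mem_filter, Finset.mem_univ, true_and]

lemma diag2_row {m : ℕ} (g : B D → Fin m) (a : B D) :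
    (∏ b ∈ (fb D g (g a))ᶜ, if a.1 = b.1 then xx D Z a - xx D Z b else 1) =
      ∏ b, if a ≠ b ∧ a.1 = b.1 ∧ g a ≠ g b then xx D Z a - xx D Z b else 1 := by
  classical
  have h1 : (fb D g (g a))ᶜ = Finset.univ.filter fun b => g a ≠ g b := by
    ext b
    rw [Finset.mem_compl, diag2_mem, Finset.mem_filter]
    constructor
    · intro h
      exact ⟨Finset.mem_univ _, fun h' => h h'.symm⟩
    · intro h h'
      exact h.2 h'.symm
  rw [h1, Finset.prod_filter]
  refine Finset.prod_congr rfl fun b _ => ?_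
  by_cases h2 : g a ≠ g b
  · have h3 : a ≠ b := fun h => h2 (by rw [h])
    by_cases h4 : a.1 = b.1
    · rw [if_pos h2, if_pos h4, if_pos ⟨h3, h4, h2⟩]
    · rw [if_pos h2, if_neg h4, if_neg fun h => h4 h.2.1]
  · rw [if_neg h2, if_neg fun h => h2 h.2.2]

lemma diag2_cr {m : ℕ} (g : B D → Fin m) :
    ∏ t : Fin m, cr D Z (fb D g t) (fb D g t)ᶜ = dd D Z fun b c => g b ≠ g c := by
  classical
  have h1 : ∀ t : Fin m, cr D Z (fb D g t) (fb D g t)ᶜ =
      ∏ a ∈ Finset.univ.filter (fun b => g b = t),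
        ∏ b, if a ≠ b ∧ a.1 = b.1 ∧ g a ≠ g b then xx D Z a - xx D Z b else 1 := by
    intro t
    unfold cr
    refine Finset.prod_congr rfl fun a ha => ?_
    have ha' : g a = t := (diag2_mem D g t a).mp ha
    rw [← ha']
    exact diag2_row D Z g a
  rw [Finset.prod_congr rfl fun t _ => h1 t, Finset.prod_fiberwise]
  unfold dd
  refine Finset.prod_congr rfl fun b _ => Finset.prod_congr rfl fun c _ => ?_
  congr

lemma diag2_split {m : ℕ} (g : B D → Fin m) :
    ddT D Z = (dd D Z fun b c => g b ≠ g c) * RR D Z g := by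
  classical
  unfold ddT RR dd
  rw [← Finset.prod_mul_distrib]
  refine Finset.prod_congr rfl fun b _ => ?_
  rw [← Finset.prod_mul_distrib]
  refine Finset.prod_congr rfl fun c _ => ?_
  by_cases h1 : b ≠ c ∧ b.1 = c.1
  · rw [if_pos ⟨h1.1, h1.2, trivial⟩]
    by_cases h2 : g b = g c
    · rw [if_neg fun h => h.2.2 h2, if_pos ⟨h1.1, h1.2, h2⟩, one_mul]
    · rw [if_pos ⟨h1.1, h1.2, h2⟩, if_neg fun h => h2 h.2.2, mul_one]
  · rw [if_neg fun h => h1 ⟨h.1, h.2.1⟩, if_neg fun h => h1 ⟨h.1, h.2.1⟩,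
      if_neg fun h => h1 ⟨h.1, h.2.1⟩, one_mul]

/-- Proof: `del = cr A Aᶜ * Dl A` (`Dl_spec`) for `A = fb g t`, so `del ^ m = (∏ t, cr (fb g t)
(fb g t)ᶜ) * ∏ t, Dl (fb g t)`. The first factor is `dd` with `p b c = (g b ≠ g c)` (`b ∈ fb g t`,
`c ∉ fb g t`), and `ddT = dd (g b ≠ g c) * RR g` (product over `b`, `c`, `if`s). -/
theorem dd_Dl {m : ℕ} (g : B D → Fin m) :
    ddT D Z * ∏ t : Fin m, Dl D Z (fb D g t) = del D Z ^ m * RR D Z g := by
  have h1 : del D Z ^ m =
      (∏ t : Fin m, cr D Z (fb D g t) (fb D g t)ᶜ) * ∏ t : Fin m, Dl D Z (fb D g t) := by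
    rw [← Finset.prod_mul_distrib, ← Finset.prod_congr rfl fun t _ => Dl_spec D Z (fb D g t),
      Finset.prod_const, Finset.card_univ, Fintype.card_fin]
  rw [h1, diag2_cr, diag2_split D Z g]
  ring

end Vale.Agent.P291.H.M
end
end

section

section

set_option autoImplicit false
set_option linter.unusedSectionVars false

/-! The identification of marks attached to a chain. -/

namespace Vale.Agent.P291.H.M

open MvPolynomial Vale.Agent.P291.G

variable (D : QData)

/-- cardinality of the marks of a given colour outside `A` -/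
lemma iota_card_compl (A : Finset (B D)) (i : D.I) :
    Nat.card {x : {b : B D // b ∉ A} // x.1.1 = i} = D.v i - typ D A i := by
  classical
  have h : (Aᶜ.filter fun b => b.1 = i).card = D.v i - typ D A i := by
    have := congrFun (typ_compl D A) i
    rwa [Pi.sub_apply, typ] at this
  have h2 : Nat.card {b : B D // b ∉ A ∧ b.1 = i} = (Aᶜ.filter fun b => b.1 = i).card := by
    rw [Nat.card_eq_fintype_card, Fintype.card_subtype]
    congr 1
    ext b
    simp only [Finset.mem_filter, Finset.mem_univ, true_and, Finset.mem_compl]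
  rw [← h, ← h2]
  exact Nat.card_congr
    { toFun := fun x => ⟨x.1.1, x.1.2, x.2⟩
      invFun := fun y => ⟨⟨y.1, y.2.1⟩, y.2.2⟩
      left_inv := fun _ => rfl
      right_inv := fun _ => rfl }

/-- cardinality of the pairs of a given colour -/
lemma iota_card_pairs {n : ℕ} (C : Fin n → Finset (B D)) (i : D.I) :
    Nat.card {y : {q : B D × Fin n // q.1 ∈ C q.2} // y.1.1.1 = i} = ∑ t, typ D (C t) i := by
  classical
  have h : ∀ t : Fin n, Nat.card {b : B D // b ∈ C t ∧ b.1 = i} = typ D (C t) i := by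
    intro t
    rw [Nat.card_eq_fintype_card, Fintype.card_subtype, typ]
    congr 1
    ext b
    simp only [Finset.mem_filter, Finset.mem_univ, true_and]
  rw [← Finset.sum_congr rfl fun t _ => h t, ← Nat.card_sigma]
  exact Nat.card_congr
    { toFun := fun y => ⟨y.1.1.2, y.1.1.1, y.1.2, y.2⟩
      invFun := fun z => ⟨⟨(z.2.1, z.1), z.2.2.1⟩, z.2.2.2⟩
      left_inv := fun _ => rfl
      right_inv := fun _ => rfl }

/-- Proof: for every colour `i`, the set of the pairs `(a, t)` with `a.1 = i`, `a ∈ C t`, `t : Fin m`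
has `∑ t, typ (C t) i = v i` elements, like the set of the `b` with `b.1 = i`; so there is a
bijection from the second set to the first one which maps `a ∈ C 0` to `(a, 0)` (first define it
on `C 0`, then biject the complements, which have the same cardinality). -/
theorem exists_io {m : ℕ} (hm : 1 ≤ m) (C : ℕ → Finset (B D)) (hC : ∀ j, C (j + 1) ⊆ C j)
    (hs : ∑ j ∈ Finset.range m, typ D (C j) = D.v) :
    ∃ (ι : B D → B D) (g₀ : B D → Fin m), Io C ι g₀ := by
  classical
  obtain ⟨n, rfl⟩ : ∃ n, m = n + 1 := ⟨m - 1, by omega⟩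
  have hcard : ∀ i : D.I, Nat.card {x : {b : B D // b ∉ C 0} // x.1.1 = i} =
      Nat.card {y : {q : B D × Fin n // q.1 ∈ C (q.2 + 1)} // y.1.1.1 = i} := by
    intro i
    rw [iota_card_compl, iota_card_pairs D (fun t : Fin n => C (t + 1)) i]
    have h1 := congrFun hs i
    rw [Finset.sum_range_succ', Pi.add_apply, Finset.sum_apply,
      Finset.sum_range (fun j => typ D (C (j + 1)) i)] at h1
    (clear * - h1; omega)
  have he : ∀ i : D.I, Nonempty ({x : {b : B D // b ∉ C 0} // x.1.1 = i} ≃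
      {y : {q : B D × Fin n // q.1 ∈ C (q.2 + 1)} // y.1.1.1 = i}) := fun i =>
    ⟨(Finite.card_eq.1 (hcard i)).some⟩
  let e : {b : B D // b ∉ C 0} ≃ {q : B D × Fin n // q.1 ∈ C (q.2 + 1)} :=
    Equiv.ofFiberEquiv (f := fun x : {b : B D // b ∉ C 0} => x.1.1)
      (g := fun y : {q : B D × Fin n // q.1 ∈ C (q.2 + 1)} => y.1.1.1) fun i => (he i).some
  have hecol : ∀ x, (e x).1.1.1 = x.1.1 := fun x =>
    Equiv.ofFiberEquiv_map (f := fun x : {b : B D // b ∉ C 0} => x.1.1)
      (g := fun y : {q : B D × Fin n // q.1 ∈ C (q.2 + 1)} => y.1.1.1) (fun i => (he i).some) x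
  refine ⟨fun b => if h : b ∈ C 0 then b else (e ⟨b, h⟩).1.1,
    fun b => if h : b ∈ C 0 then 0 else (e ⟨b, h⟩).1.2.succ, ?_, ?_, ?_, ?_, ?_⟩
  · intro b
    by_cases h : b ∈ C 0
    · simp only [dif_pos h]
    · simp only [dif_neg h]
      exact hecol ⟨b, h⟩
  · intro b h
    simp only [dif_pos h]
  · intro b
    by_cases h : b ∈ C 0
    · simp only [dif_pos h]
      exact h
    · simp only [dif_neg h]
      have := (e ⟨b, h⟩).2
      simpa only [Fin.val_succ] using this
  · intro b b' h1 h2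
    by_cases h : b ∈ C 0 <;> by_cases h' : b' ∈ C 0
    · simp only [dif_pos h, dif_pos h'] at h1
      exact h1
    · simp only [dif_pos h, dif_neg h'] at h2
      exact absurd h2.symm (Fin.succ_ne_zero _)
    · simp only [dif_neg h, dif_pos h'] at h2
      exact absurd h2 (Fin.succ_ne_zero _)
    · simp only [dif_neg h, dif_neg h'] at h1 h2
      have h3 : e ⟨b, h⟩ = e ⟨b', h'⟩ :=
        Subtype.ext (Prod.ext h1 (Fin.succ_injective _ h2))
      exact congrArg Subtype.val (e.injective h3)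
  · intro a t hat
    rcases Fin.eq_zero_or_eq_succ t with rfl | ⟨s, rfl⟩
    · have h : a ∈ C 0 := hat
      exact ⟨a, by simp only [dif_pos h], by simp only [dif_pos h]⟩
    · have h : a ∈ C ((s : ℕ) + 1) := by simpa using hat
      have hb := (e.symm ⟨(a, s), h⟩).2
      refine ⟨(e.symm ⟨(a, s), h⟩).1, ?_, ?_⟩
      · simp only [dif_neg hb, Subtype.coe_eta, Equiv.apply_symm_apply]
      · simp only [dif_neg hb, Subtype.coe_eta, Equiv.apply_symm_apply]

end Vale.Agent.P291.H.M
end
end

section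

section

set_option autoImplicit false
set_option linter.unusedSectionVars false

/-! Definitions for the extension to all regular characters: the theory with the dimension vector
`v` replaced by `N`, decompositions of the operators of type `N`. -/

namespace Vale.Agent.P291.H.N

open MvPolynomial Vale.Agent.P291.G Vale.Agent.P291.H.M

/-- the same data with another dimension vector -/
abbrev sub (D : QData) (N : D.I → ℕ) : QData := { D with v := N }

section
variable {D : QData} (Z : Type)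

/-- the substitution `x b ↦ x (ρ b)` -/
noncomputable def rn {N : D.I → ℕ} (ρ : B (sub D N) → B D) : S (sub D N) Z →ₐ[ℂ] S D Z :=
  rename (Sum.map ρ id)

/-- compatibility of the weights -/
structure Cpt {N : D.I → ℕ} {Z : Type} (w' : Wts (sub D N) Z) (w : Wts D Z) : Prop where
  h : ∀ ρ : B (sub D N) → B D, (∀ b, (ρ b).1 = b.1) → ∀ b c, rn Z ρ (w'.h b c) = w.h (ρ b) (ρ c)
  z : ∀ ρ : B (sub D N) → B D, (∀ b, (ρ b).1 = b.1) → ∀ b, rn Z ρ (w'.z b) = w.z (ρ b)

variable (D)

/-- polynomials in power sums and flavors -/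
abbrev PQ : Type := MvPolynomial ((D.I × ℕ) ⊕ Z) ℂ

/-- evaluation at the power sums of a subset -/
noncomputable def evS (A : Finset (B D)) : PQ D Z →ₐ[ℂ] S D Z :=
  aeval (Sum.elim (fun p => ps D Z A p.1 p.2) fun z => X (Sum.inr z))

open Classical in
/-- the alternating family of type `N` given by a polynomial in the power sums of the subset -/
noncomputable def fam (N : D.I → ℕ) (q : PQ D Z) (A : Finset (B D)) : S D Z :=
  if typ D A = N then Dl D Z A * evS D Z A q else 0

end

section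
variable {D : QData} {Z : Type}

/-- transposed weights -/
noncomputable def opW (w : Wts D Z) : Wts D Z where
  h b c := w.h c b
  z := w.z
  h_act σ b c := w.h_act σ c b
  z_act := w.z_act
  h_ne b c h := w.h_ne c b h.symm
  z_ne := w.z_ne

/-- span of the products of slots with types in `Pr` -/
noncomputable def VV (w : Wts D Z) (ε : ℕ → ℕ) (m : ℕ) (Pr : (ℕ → D.I → ℕ) → Prop) :
    Submodule ℂ (AddMonoidAlgebra (S D Z) (B D → ℤ)) :=
  ⨆ n : ℕ → D.I → ℕ, ⨆ _ : Pr n, UU w ε m n

/-- unframed cut ideal -/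
noncomputable def cutU (w : Wts D Z) : Ideal (S D Z) :=
  Ideal.span {p | ∃ N : Finset (B D), N.Nonempty ∧ N ≠ Finset.univ ∧ p = e w N * e w Nᶜ}

variable (D)

/-- sequences of `m` types with sum `N` -/
def totN (N : D.I → ℕ) (m : ℕ) (n : ℕ → D.I → ℕ) : Prop :=
  (∀ j, m ≤ j → n j = 0) ∧ ∑ j ∈ Finset.range m, n j = N

/-- framed decompositions -/
def ntF (N : D.I → ℕ) (m : ℕ) (n : ℕ → D.I → ℕ) : Prop := totN D N m n ∧ n 0 ≠ N

/-- unframed decompositions -/
def ntU (N : D.I → ℕ) (m : ℕ) (n : ℕ → D.I → ℕ) : Prop := totN D N m n ∧ ∀ j, n j ≠ N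

end

/-- all slots plain -/
def e0 (_ : ℕ) : ℕ := 0

end Vale.Agent.P291.H.N
end
end

section

section

set_option autoImplicit false

/-! Directed weights with labels, cut ideals and triangular ideals.
`M` is the set of marks, `A` the ring of flavor parameters. -/

namespace Vale.Agent.P291.K

open MvPolynomial

section
variable {M A : Type} [CommRing A]

/-- weight of the pair `b → c` with labels `L b c` -/
noncomputable def Dw (L : M → M → Multiset A) (b c : M) : MvPolynomial M A :=
  ((L b c).map fun l => X b - X c + C l).prod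

/-- framing weight at `b` with roots `Z b` -/
noncomputable def Zw (Z : M → Multiset A) (b : M) : MvPolynomial M A :=
  ((Z b).map fun z => X b - C z).prod

/-- relation at `b`: framing weights and weights of the pairs `b → c`, `c ∈ T b` -/
noncomputable def Pr (L : M → M → Multiset A) (Z : M → Multiset A) (T : M → Finset M) (b : M) :
    MvPolynomial M A := Zw Z b * ∏ c ∈ T b, Dw L b c

/-- the ideal of all relations -/
noncomputable def TI (L : M → M → Multiset A) (Z : M → Multiset A) (T : M → Finset M) :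
    Ideal (MvPolynomial M A) := Ideal.span (Set.range (Pr L Z T))

/-- translation of the variable `b` -/
noncomputable def tau [DecidableEq M] (b : M) :
    MvPolynomial M A →ₐ[A] Polynomial (MvPolynomial M A) :=
  aeval fun c => if c = b then Polynomial.C (X c) + Polynomial.X else Polynomial.C (X c)

/-- `f` does not depend on the variable `b` -/
def Free [DecidableEq M] (b : M) (f : MvPolynomial M A) : Prop := tau b f = Polynomial.C f

/-- `f` is monic in the variable `b` -/
def Mon [DecidableEq M] (b : M) (f : MvPolynomial M A) : Prop := (tau b f).Monic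

/-- `q` is regular modulo `I` -/
def Rg (q : MvPolynomial M A) (I : Ideal (MvPolynomial M A)) : Prop := ∀ y, q * y ∈ I → y ∈ I

/-- interchange of two variables -/
noncomputable def sw [DecidableEq M] (a b : M) : MvPolynomial M A →ₐ[A] MvPolynomial M A :=
  rename (Equiv.swap a b)

end

section
variable {M A : Type} [CommRing A] [Fintype M] [DecidableEq M]

/-- the marks of larger rank -/
def up {α : Type} [LinearOrder α] (r : M → α) (b : M) : Finset M :=
  Finset.univ.filter fun c => r b < r c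

/-- the weight of a cut -/
noncomputable def cut (L : M → M → Multiset A) (Z : M → Multiset A) (N : Finset M) :
    MvPolynomial M A := (∏ b ∈ N, Zw Z b) * ∏ b ∈ N, ∏ c ∈ Nᶜ, Dw L b c

/-- the cut ideal -/
noncomputable def KI (L : M → M → Multiset A) (Z : M → Multiset A) : Ideal (MvPolynomial M A) :=
  Ideal.span {p | ∃ N : Finset M, N.Nonempty ∧ p = cut L Z N}

/-- triangular system of relations, indexed by `B` -/
structure Tri {α : Type} [LinearOrder α] (r : M → α) (P : M → MvPolynomial M A)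
    (B : Finset M) : Prop where
  mon : ∀ b ∈ B, Mon b (P b)
  free : ∀ b ∈ B, ∀ c ∈ B, b ≠ c → r b ≤ r c → Free b (P c)

open Classical in
/-- product of the factors `x a - x b + s` over the ordered pairs of distinct marks of the same
colour with the property `p` -/
noncomputable def pp {I : Type} (col : M → I) (s : A) (p : M → M → Prop) : MvPolynomial M A :=
  ∏ a, ∏ b, if a ≠ b ∧ col a = col b ∧ p a b then X a - X b + C s else 1

/-- ranks at the `k`-th stage -/
def rk (σ : M → ℕ) (r : M → ℚ) (k : ℕ) (b : M) : ℕ ×ₗ ℚ := toLex (min (σ b) k, r b)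

end

end Vale.Agent.P291.K
end
end

section

section

set_option autoImplicit false
set_option linter.unusedSectionVars false

/-! Regular elements modulo triangular ideals. -/

namespace Vale.Agent.P291.K

open MvPolynomial

section
variable {M A : Type} [CommRing A] [DecidableEq M]

lemma tau_coeff (b : M) (f : MvPolynomial M A) : (tau b f).coeff 0 = f := by
  have h : (Polynomial.evalRingHom (0 : MvPolynomial M A)).comp (tau b).toRingHom =
      RingHom.id (MvPolynomial M A) := by
    apply MvPolynomial.ringHom_ext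
    · intro a
      simp [tau, Polynomial.algebraMap_apply]
    · intro c
      by_cases hc : c = b
      · simp [tau, hc]
      · simp only [tau, AlgHom.toRingHom_eq_coe, RingHom.coe_comp, Polynomial.coe_evalRingHom, RingHom.coe_coe, Function.comp_apply, aeval_X, hc, ↓reduceIte, Polynomial.eval_C, RingHom.id_apply]
  have h2 := congrArg (fun φ => φ f) h
  rw [Polynomial.coeff_zero_eq_eval_zero]
  simpa only [AlgHom.toRingHom_eq_coe, RingHom.coe_comp, Polynomial.coe_evalRingHom, RingHom.coe_coe,     Function.comp_apply, RingHom.id_apply] using h2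

lemma free_mul {b : M} {f g : MvPolynomial M A} (hf : Free b f) (hg : Free b g) :
    Free b (f * g) := by
  unfold Free at *
  rw [map_mul, hf, hg, Polynomial.C_mul]

lemma free_one (b : M) : Free b (1 : MvPolynomial M A) := by
  unfold Free
  rw [map_one, Polynomial.C_1]

lemma free_C (b : M) (a : A) : Free b (C a : MvPolynomial M A) := by
  unfold Free tau
  rw [aeval_C, Polynomial.algebraMap_apply, MvPolynomial.algebraMap_eq]

lemma free_prod {ι : Type} {b : M} (s : Finset ι) (f : ι → MvPolynomial M A)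
    (h : ∀ i ∈ s, Free b (f i)) : Free b (∏ i ∈ s, f i) := by
  unfold Free at *
  rw [map_prod, map_prod]
  exact Finset.prod_congr rfl h

lemma mon_mul {b : M} {f g : MvPolynomial M A} (hf : Mon b f) (hg : Mon b g) : Mon b (f * g) := by
  unfold Mon at *
  rw [map_mul]
  exact hf.mul hg

lemma mon_one (b : M) : Mon b (1 : MvPolynomial M A) := by
  unfold Mon
  rw [map_one]
  exact Polynomial.monic_one

lemma mon_prod {ι : Type} {b : M} (s : Finset ι) (f : ι → MvPolynomial M A)
    (h : ∀ i ∈ s, Mon b (f i)) : Mon b (∏ i ∈ s, f i) := by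
  unfold Mon at *
  rw [map_prod]
  exact Polynomial.monic_prod_of_monic s _ h

lemma reg_tau_X_self (b : M) :
    tau b (X b : MvPolynomial M A) = Polynomial.C (X b) + Polynomial.X := by
  simp [tau]

lemma reg_tau_X_ne {b c : M} (h : c ≠ b) :
    tau b (X c : MvPolynomial M A) = Polynomial.C (X c) := by
  simp [tau, h]

lemma reg_tau_C (b : M) (a : A) :
    tau b (C a : MvPolynomial M A) = Polynomial.C (C a) := free_C b a

lemma reg_mon_multiset (b : M) (m : Multiset (MvPolynomial M A)) (h : ∀ x ∈ m, Mon b x) :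
    Mon b m.prod := by
  induction m using Multiset.induction_on with
  | empty => simpa using mon_one (A := A) b
  | cons a m ih =>
    rw [Multiset.prod_cons]
    exact mon_mul (h a (Multiset.mem_cons_self a m))
      (ih fun x hx => h x (Multiset.mem_cons_of_mem hx))

lemma reg_free_multiset (b : M) (m : Multiset (MvPolynomial M A)) (h : ∀ x ∈ m, Free b x) :
    Free b m.prod := by
  induction m using Multiset.induction_on with
  | empty => simpa only [Multiset.prod_zero] using free_one (A := A) b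
  | cons a m ih =>
    rw [Multiset.prod_cons]
    exact free_mul (h a (Multiset.mem_cons_self a m))
      (ih fun x hx => h x (Multiset.mem_cons_of_mem hx))

/-- a difference is monic in the first variable -/
lemma mon_sub {b c : M} (h : b ≠ c) (s : A) : Mon b (X b - X c + C s : MvPolynomial M A) := by
  unfold Mon
  have e : tau b (X b - X c + C s : MvPolynomial M A) =
      Polynomial.X + Polynomial.C (X b - X c + C s) := by
    rw [map_add, map_sub, reg_tau_X_self, reg_tau_X_ne (Ne.symm h), reg_tau_C,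
      Polynomial.C_add, Polynomial.C_sub]
    ring
  rw [e]
  exact Polynomial.monic_X_add_C _

lemma free_sub {b c d : M} (hb : d ≠ b) (hc : d ≠ c) (s : A) :
    Free d (X b - X c + C s : MvPolynomial M A) := by
  unfold Free
  rw [map_add, map_sub, reg_tau_X_ne (Ne.symm hb), reg_tau_X_ne (Ne.symm hc), reg_tau_C,
    Polynomial.C_add, Polynomial.C_sub]

lemma mon_Dw (L : M → M → Multiset A) {b c : M} (h : b ≠ c) : Mon b (Dw L b c) := by
  unfold Dw
  apply reg_mon_multiset
  intro x hx
  obtain ⟨l, -, rfl⟩ := Multiset.mem_map.1 hx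
  exact mon_sub h l

lemma free_Dw (L : M → M → Multiset A) {b c d : M} (hb : d ≠ b) (hc : d ≠ c) :
    Free d (Dw L b c) := by
  unfold Dw
  apply reg_free_multiset
  intro x hx
  obtain ⟨l, -, rfl⟩ := Multiset.mem_map.1 hx
  exact free_sub hb hc l

lemma mon_Zw (Z : M → Multiset A) (b : M) : Mon b (Zw Z b) := by
  unfold Zw
  apply reg_mon_multiset
  intro x hx
  obtain ⟨z, -, rfl⟩ := Multiset.mem_map.1 hx
  unfold Mon
  have e : tau b (X b - C z : MvPolynomial M A) = Polynomial.X + Polynomial.C (X b - C z) := by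
    rw [map_sub, reg_tau_X_self, reg_tau_C, Polynomial.C_sub]
    ring
  rw [e]
  exact Polynomial.monic_X_add_C _

lemma free_Zw (Z : M → Multiset A) {b d : M} (hb : d ≠ b) : Free d (Zw Z b) := by
  unfold Zw
  apply reg_free_multiset
  intro x hx
  obtain ⟨z, -, rfl⟩ := Multiset.mem_map.1 hx
  unfold Free
  rw [map_sub, reg_tau_X_ne (Ne.symm hb), reg_tau_C, Polynomial.C_sub]

/-- a monic element is regular modulo an ideal generated by elements without the variable:
apply `tau b`, in `(S ⧸ I)[s]` a monic polynomial is regular; take the coefficient of `s ^ 0` -/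
lemma rg_of_mon (b : M) (G : Set (MvPolynomial M A)) (hG : ∀ g ∈ G, Free b g)
    {q : MvPolynomial M A} (hq : Mon b q) : Rg q (Ideal.span G) := by
  intro y hy
  set I := Ideal.span G
  set φ : MvPolynomial M A →+* Polynomial (MvPolynomial M A ⧸ I) :=
    (Polynomial.mapRingHom (Ideal.Quotient.mk I)).comp (tau b).toRingHom
  have hφa : ∀ f, φ f = (tau b f).map (Ideal.Quotient.mk I) := fun f => rfl
  have hker : I ≤ RingHom.ker φ := by
    refine Ideal.span_le.2 ?_
    intro g hg
    rw [SetLike.mem_coe, RingHom.mem_ker, hφa]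
    have h1 : tau b g = Polynomial.C g := hG g hg
    rw [h1, Polynomial.map_C, Ideal.Quotient.eq_zero_iff_mem.2 (Ideal.subset_span hg),
      Polynomial.C_0]
  have h0 : φ (q * y) = 0 := hker hy
  rw [map_mul] at h0
  have hm : (φ q).Monic := by
    rw [hφa]
    exact Polynomial.Monic.map _ hq
  have h1 : φ y = 0 := (Polynomial.Monic.mul_right_eq_zero_iff hm).1 h0
  have h2 : (φ y).coeff 0 = 0 := by
    rw [h1, Polynomial.coeff_zero]
  rw [hφa, Polynomial.coeff_map, tau_coeff] at h2
  exact Ideal.Quotient.eq_zero_iff_mem.1 h2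

/-- one may add a monic relation: if `q y = a P + g` then `P a ∈ (q) + (G)`, so `a = q a' + g'` by
`rg_of_mon`, and `q (y - a' P) ∈ (G)` -/
lemma rg_insert (b : M) (G : Set (MvPolynomial M A)) (hG : ∀ g ∈ G, Free b g)
    {q P : MvPolynomial M A} (hq : Free b q) (hP : Mon b P) (h : Rg q (Ideal.span G)) :
    Rg q (Ideal.span (insert P G)) := by
  intro y hy
  obtain ⟨a, z, hz, hy⟩ := Ideal.mem_span_insert.1 hy
  have h1 : P * a ∈ Ideal.span (insert q G) := by
    rw [Ideal.mem_span_insert]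
    refine ⟨y, -z, neg_mem hz, ?_⟩
    linear_combination -hy
  have h2 : a ∈ Ideal.span (insert q G) := by
    refine rg_of_mon b (insert q G) ?_ hP a h1
    intro g hg
    rcases Set.mem_insert_iff.1 hg with rfl | hg
    · exact hq
    · exact hG g hg
  obtain ⟨a', g', hg', ha⟩ := Ideal.mem_span_insert.1 h2
  have h3 : q * (y - a' * P) ∈ Ideal.span G := by
    have e : q * (y - a' * P) = z + P * g' := by
      linear_combination hy + P * ha
    rw [e]
    exact add_mem hz (Ideal.mul_mem_left _ _ hg')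
  have h4 := h _ h3
  rw [Ideal.mem_span_insert]
  exact ⟨a', y - a' * P, h4, by ring⟩

lemma rg_mul {q q' : MvPolynomial M A} {I : Ideal (MvPolynomial M A)} (h : Rg q I)
    (h' : Rg q' I) : Rg (q * q') I := by
  intro y hy
  apply h'
  apply h
  rwa [← mul_assoc]

end

end Vale.Agent.P291.K
end
end

section

section

set_option autoImplicit false
set_option linter.unusedSectionVars false

/-! The chain lemma. -/

namespace Vale.Agent.P291.H

open MvPolynomial Vale.Agent.P291.G

variable {D : QData} {Z : Type} (w : Wts D Z)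

/-! ### auxiliary facts -/

/-- elements of a triple product of submodules as finite sums -/
lemma chain_mem_mul3 {R : Type} [CommRing R] [Algebra ℂ R] {A B' C' : Submodule ℂ R} {x : R}
    (h : x ∈ A * B' * C') : ∃ (N : ℕ) (a b c : Fin N → R), (∀ k, a k ∈ A) ∧ (∀ k, b k ∈ B') ∧
      (∀ k, c k ∈ C') ∧ x = ∑ k, a k * b k * c k := by
  rw [← Submodule.span_eq A, ← Submodule.span_eq B', ← Submodule.span_eq C',
    Submodule.span_mul_span, Submodule.span_mul_span, Submodule.mem_span_set'] at h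
  obtain ⟨N, f, g, hg⟩ := h
  have h1 : ∀ k : Fin N, ∃ a b c : R, a ∈ A ∧ b ∈ B' ∧ c ∈ C' ∧ (g k : R) = a * b * c := by
    intro k
    obtain ⟨ab, hab, c, hc, h2⟩ := Set.mem_mul.1 (g k).2
    obtain ⟨a, ha, b, hb, h3⟩ := Set.mem_mul.1 hab
    exact ⟨a, b, c, ha, hb, hc, by rw [← h2, ← h3]⟩
  choose a b c ha hb hc habc using h1
  refine ⟨N, fun k => f k • a k, b, c, fun k => A.smul_mem _ (ha k), hb, hc, ?_⟩
  rw [← hg]
  refine Finset.sum_congr rfl fun k _ => ?_
  rw [habc, smul_mul_assoc, smul_mul_assoc]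

/-- an algebra endomorphism acts on integers trivially -/
lemma chain_act_sgn (σ τ : W D) : act D Z σ (sgn D τ : S D Z) = (sgn D τ : S D Z) := by
  rw [map_intCast]

lemma chain_sgn_sq (σ : W D) : (sgn D σ : S D Z) * (sgn D σ : S D Z) = 1 := by
  rw [← Int.cast_mul, sgn_sq, Int.cast_one]

lemma chain_mem_Gr {ε : ℕ} {n : D.I → ℕ} {A : Finset (B D)}
    {x : AddMonoidAlgebra (S D Z) (B D → ℤ) × S D Z} :
    x ∈ Gr w ε n A ↔ ∃ φ ∈ AF D Z n, (slot w ε φ, φ A) = x := Iff.rfl

/-- second components of the products of graphs are alternating up to sign under the permutations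
fixing all elements of `C₀ ⊇ C j`: each factor `φ (C j)` gives one sign -/
lemma graph_snd_act (ε : ℕ → ℕ) (m : ℕ) (n : ℕ → D.I → ℕ) (C : ℕ → Finset (B D))
    {Y : AddMonoidAlgebra (S D Z) (B D → ℤ)} {p : S D Z}
    (h : (Y, p) ∈ ∏ j ∈ Finset.range m, Gr w (ε j) (n j) (C j)) (σ : W D)
    (hσ : ∀ j, j < m → mp D σ (C j) = C j) :
    act D Z σ p = (sgn D σ : S D Z) ^ m * p := by
  have key : ∀ m, (∀ j, j < m → mp D σ (C j) = C j) →
      ∀ x ∈ ∏ j ∈ Finset.range m, Gr w (ε j) (n j) (C j),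
        act D Z σ x.2 = (sgn D σ : S D Z) ^ m * x.2 := by
    intro m
    induction m with
    | zero =>
      intro _ x hx
      rw [Finset.range_zero, Finset.prod_empty, Submodule.mem_one] at hx
      obtain ⟨c, rfl⟩ := hx
      rw [pow_zero, one_mul, Prod.algebraMap_apply, AlgHom.commutes]
    | succ m ih =>
      intro hσ x hx
      rw [Finset.prod_range_succ] at hx
      refine Submodule.mul_induction_on hx ?_ ?_
      · intro a ha b hb
        obtain ⟨φ, hφ, rfl⟩ := (chain_mem_Gr w).1 hb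
        rw [Prod.snd_mul, map_mul, ih (fun j hj => hσ j (by omega)) a ha, hφ.1 σ (C m),
          hσ m (by omega), pow_succ]
        ring
      · intro a b ha hb
        rw [Prod.snd_add, map_add, ha, hb, mul_add]
  exact key m hσ (Y, p) h

/-- first components of the products of graphs -/
lemma chain_fst_mem (ε : ℕ → ℕ) (m : ℕ) (n : ℕ → D.I → ℕ) (C : ℕ → Finset (B D))
    {x : AddMonoidAlgebra (S D Z) (B D → ℤ) × S D Z}
    (h : x ∈ ∏ j ∈ Finset.range m, Gr w (ε j) (n j) (C j)) :
    x.1 ∈ ∏ j ∈ Finset.range m, U w (ε j) (n j) := by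
  induction m generalizing x with
  | zero =>
    rw [Finset.range_zero, Finset.prod_empty, Submodule.mem_one] at h ⊢
    obtain ⟨c, rfl⟩ := h
    exact ⟨c, rfl⟩
  | succ m ih =>
    rw [Finset.prod_range_succ] at h ⊢
    refine Submodule.mul_induction_on h ?_ ?_
    · intro a ha b hb
      obtain ⟨φ, hφ, rfl⟩ := (chain_mem_Gr w).1 hb
      rw [Prod.fst_mul]
      exact Submodule.mul_mem_mul (ih ha) ⟨φ, hφ, rfl⟩
    · intro a b ha hb
      rw [Prod.fst_add]
      exact Submodule.add_mem _ ha hb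

/-- a permutation fixing all elements of a subset preserves it -/
lemma chain_mp_fix {τ : W D} {A : Finset (B D)} (h : ∀ b ∈ A, perm D τ b = b) :
    mp D τ A = A := by
  ext b
  constructor
  · intro hb
    rw [mem_mp'] at hb
    have h1 := h _ hb
    rw [Equiv.apply_symm_apply] at h1
    rwa [← h1] at hb
  · intro hb
    have h1 := (mem_mp D τ A b).2 hb
    rwa [h b hb] at h1

/-- a permutation fixing all elements outside of `q` preserves the subsets containing `q` -/
lemma chain_mp_fix_compl {τ : W D} {q P : Finset (B D)} (hq : q ⊆ P)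
    (h : ∀ b ∉ q, perm D τ b = b) : mp D τ P = P := by
  have h1 : mp D τ Pᶜ = Pᶜ := chain_mp_fix fun b hb =>
    h b fun hbq => Finset.mem_compl.1 hb (hq hbq)
  rw [mp_compl] at h1
  exact compl_injective h1

/-- the subsets of the chain are contained in the second one -/
lemma chain_subset {m : ℕ} {C : ℕ → Finset (B D)} (hC : ∀ j, j + 1 < m → C (j + 1) ⊆ C j)
    (j : ℕ) (hj : j + 1 < m) : C (j + 1) ⊆ C 1 := by
  induction j with
  | zero => exact subset_rfl
  | succ j ih => exact (hC (j + 1) hj).trans (ih (by omega))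

/-- the vanishing of the sums of the products with the permuted `K k` -/
lemma chain_act_sum {N : ℕ} {P q : Finset (B D)} (hq : q ⊆ P) (K p : Fin N → S D Z)
    (hK : ∀ k σ, mp D σ P = P → mp D σ q = q → act D Z σ (K k) = (sgn D σ : S D Z) * K k)
    (r : ℕ) (hp : ∀ k σ, (∀ b ∈ q, perm D σ b = b) →
      act D Z σ (p k) = (sgn D σ : S D Z) ^ r * p k)
    (h0 : ∑ k, K k * p k = 0) {τ : W D} (hτ : mp D τ q = q) :
    ∑ k, act D Z τ (K k) * p k = 0 := by
  obtain ⟨τ1, τ2, rfl, h1, h2⟩ := exists_factor D hτ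
  have e1 : ∀ k, act D Z (τ2 * τ1) (K k) * p k =
      ((sgn D τ1 : S D Z) * (sgn D τ2 : S D Z) ^ r) * act D Z τ2 (K k * p k) := by
    intro k
    rw [act_mul, hK k τ1 (chain_mp_fix_compl hq h1) (chain_mp_fix_compl subset_rfl h1), map_mul,
      map_mul, hp k τ2 h2, chain_act_sgn]
    have h3 : ((sgn D τ2 : S D Z) ^ r) * ((sgn D τ2 : S D Z) ^ r) = 1 := by
      rw [← mul_pow, chain_sgn_sq, one_pow]
    calc (sgn D τ1 : S D Z) * act D Z τ2 (K k) * p k
        = (sgn D τ1 : S D Z) * act D Z τ2 (K k) * p k * 1 := by rw [mul_one]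
      _ = _ := by rw [← h3]; ring
  rw [Finset.sum_congr rfl fun k _ => e1 k, ← Finset.mul_sum, ← map_sum, h0, map_zero, mul_zero]

/-- value of the sum of the second factors -/
lemma chain_liftQ_sum {N : ℕ} {P q : Finset (B D)} (hq : q ⊆ P) (K p : Fin N → S D Z)
    (hK : ∀ k σ, mp D σ P = P → mp D σ q = q → act D Z σ (K k) = (sgn D σ : S D Z) * K k)
    (r : ℕ) (hp : ∀ k σ, (∀ b ∈ q, perm D σ b = b) →
      act D Z σ (p k) = (sgn D σ : S D Z) ^ r * p k)
    (h0 : ∑ k, K k * p k = 0) (t : Finset (B D × B D)) (c : ℂ) :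
    ∑ k, liftQ D Z q t (C c * K k) q * p k = 0 := by
  have e1 : ∀ k, liftQ D Z q t (C c * K k) q * p k =
      ∑ τ ∈ Finset.univ.filter fun τ : W D => mp D τ q = q,
        ((sgn D τ : S D Z) * act D Z τ ((∏ p ∈ t, xx D Z p.1) * C c)) *
          (act D Z τ (K k) * p k) := by
    intro k
    rw [liftQ, orb_self, Finset.sum_mul]
    refine Finset.sum_congr rfl fun τ _ => ?_
    rw [← mul_assoc (∏ p ∈ t, xx D Z p.1), map_mul _ _ (K k)]
    ring
  rw [Finset.sum_congr rfl fun k _ => e1 k, Finset.sum_comm]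
  refine Finset.sum_eq_zero fun τ hτ => ?_
  rw [← Finset.mul_sum, chain_act_sum hq K p hK r hp h0 (Finset.mem_filter.1 hτ).2, mul_zero]

lemma chain_UU_succ (ε : ℕ → ℕ) (m : ℕ) (n : ℕ → D.I → ℕ) : UU w ε (m + 1) n =
    U w (ε 0) (n 0) * UU w (fun j => ε (j + 1)) m (fun j => n (j + 1)) := by
  rw [UU, Finset.prod_range_succ', UU]
  exact Submodule.mul_comm _ _

lemma chain_move_zero (n : ℕ → D.I → ℕ) (i : ℕ) (δ : D.I → ℕ) : move n (i + 1) δ 0 = n 0 := by
  rw [move, Function.update_of_ne (by omega), Function.update_of_ne (by omega)]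

lemma chain_move_succ (n : ℕ → D.I → ℕ) (i : ℕ) (δ : D.I → ℕ) (j : ℕ) :
    move n (i + 1) δ (j + 1) = move (fun j => n (j + 1)) i δ j := by
  simp only [move, Function.update_apply, add_left_inj]

lemma chain_UU_move_shift (ε : ℕ → ℕ) (m : ℕ) (n : ℕ → D.I → ℕ) (i : ℕ) (δ : D.I → ℕ) :
    UU w ε (m + 1) (move n (i + 1) δ) =
      U w (ε 0) (n 0) * UU w (fun j => ε (j + 1)) m (move (fun j => n (j + 1)) i δ) := by
  rw [chain_UU_succ, chain_move_zero]
  congr 2
  funext j
  exact chain_move_succ n i δ j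

lemma chain_UU_move_zero (ε : ℕ → ℕ) (m : ℕ) (n : ℕ → D.I → ℕ) (δ : D.I → ℕ) :
    UU w ε (m + 2) (move n 0 δ) = U w (ε 0) (n 0 + δ) * U w (ε 1) (n 1 - δ) *
      UU w (fun j => ε (j + 1 + 1)) m (fun j => n (j + 1 + 1)) := by
  rw [chain_UU_succ, chain_UU_succ, mul_assoc]
  rfl

/-- CHAIN LEMMA. If `(X, 0)` is in the product of the graphs of the slots at the nested chain
`C 0 ⊇ C 1 ⊇ ...` (of types `n j = typ (C j)`), then `X` lies in the span of the products with two
neighbouring types `n i, n (i+1)` replaced by `n i + δ, n (i+1) - δ`, `δ ≠ 0`.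

Proof: induction on `m`, generalizing over `ε n C T X`. `m = 0`: the product is `1` (spanned by
`(1,1)`), so `X = 0`. `m = 1`: `X = slot φ`, `φ (C 0) = 0`, hence `φ = 0` (`AF_eq_zero`).
`m = m' + 2`: put `P = C 0`, `q = C 1`, `Γ' = ∏_{j < m'} Gr (ε (j+2)) (n (j+2)) (C (j+2))`. An element
of the product is `∑_k (slot φ_k * slot ψ_k * Y_k, φ_k P * ψ_k q * p_k)` with `(Y_k, p_k) ∈ Γ'`. Let
`K_k` be as in `pair_lift` for `φ_k, ψ_k`, `c = liftc`. For `t ⊆ prs P q` put
`X_t = ∑_k slot (liftQ q t (c⁻¹ K_k)) * Y_k`, `p_t = ∑_k liftQ q t (c⁻¹ K_k) q * p_k`, so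
`(X_t, p_t)` is in the product of the graphs for the sequences shifted by one. CLAIM: `p_t = 0`.
Indeed `0 = ∑_k φ_k P ψ_k q p_k = Dl P * cr (P \ q) Pᶜ * ∑_k K_k p_k`, so `∑_k K_k p_k = 0`, and
`liftQ q t K q = ∑_{τ, mp τ q = q} sgn τ * τ(b_t) * τ(K)`; by `exists_factor` `τ = τ2 τ1` with `τ1`
the identity outside `q` and `τ2` the identity on `q`; so `mp τ1 q = q`, `mp τ1 P = P`,
`τ1 K_k = sgn τ1 K_k`, and `τ2` fixes all `C (j+2) ⊆ q` so `p_k = ± τ2 p_k` with a sign independent
of `k` (`graph_snd_act`; `± 1` squares to `1`). Hence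
`∑_k τ(K_k) p_k = ± τ2 (∑_k K_k p_k) = 0`. By the induction hypothesis for the shifted sequences and
`T' = {Y | ∀ φ ∈ AF (n 0), slot (ε 0) φ * Y ∈ T}` we get `X_t ∈ T'`, so
`slot (liftP P q t) * X_t ∈ T`. Finally
`X - ∑_t slot (liftP P q t) * X_t = ∑_k (slot φ_k slot ψ_k - ∑_t slot (liftP t) slot (liftQ t (c⁻¹ K_k))) Y_k`
is in `T` by the last part of `pair_lift` with `T'' = {Y | Y * Y_k ∈ T}` (this is the case `i = 0`
of `hT`). -/
theorem chain (m : ℕ) (ε : ℕ → ℕ) (n : ℕ → D.I → ℕ) (C : ℕ → Finset (B D))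
    (hε : ∀ j, ε j ≤ ε (j + 1)) (hC : ∀ j, j + 1 < m → C (j + 1) ⊆ C j)
    (hn : ∀ j, j < m → typ D (C j) = n j)
    (T : Submodule ℂ (AddMonoidAlgebra (S D Z) (B D → ℤ)))
    (hT : ∀ i (δ : D.I → ℕ), i + 1 < m → δ ≠ 0 → δ ≤ n (i + 1) → UU w ε m (move n i δ) ≤ T)
    (X : AddMonoidAlgebra (S D Z) (B D → ℤ))
    (hX : (X, (0 : S D Z)) ∈ ∏ j ∈ Finset.range m, Gr w (ε j) (n j) (C j)) : X ∈ T := by
  induction m generalizing ε n C T X with
  | zero =>
    rw [Finset.range_zero, Finset.prod_empty, Submodule.mem_one] at hX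
    obtain ⟨c, hc⟩ := hX
    have h1 : algebraMap ℂ (AddMonoidAlgebra (S D Z) (B D → ℤ)) c = X := congrArg Prod.fst hc
    have h2 : algebraMap ℂ (S D Z) c = 0 := congrArg Prod.snd hc
    rw [MvPolynomial.algebraMap_eq, MvPolynomial.C_eq_zero] at h2
    rw [← h1, h2, map_zero]
    exact T.zero_mem
  | succ m ih =>
    rcases m with _ | m
    · rw [zero_add, Finset.prod_range_one] at hX
      obtain ⟨φ, hφ, hφX⟩ := (chain_mem_Gr w).1 hX
      have h1 : slot w (ε 0) φ = X := congrArg Prod.fst hφX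
      have h2 : φ (C 0) = 0 := congrArg Prod.snd hφX
      rw [← h1, AF_eq_zero D Z hφ (hn 0 (by omega)) h2, map_zero]
      exact T.zero_mem
    · -- notation
      obtain ⟨P, hP⟩ : ∃ P, P = C 0 := ⟨_, rfl⟩
      obtain ⟨q, hq⟩ : ∃ q, q = C 1 := ⟨_, rfl⟩
      have hqP : q ⊆ P := by rw [hP, hq]; exact hC 0 (by omega)
      have hn0 : n 0 = typ D P := by rw [hP]; exact (hn 0 (by omega)).symm
      have hn1 : n 1 = typ D q := by rw [hq]; exact (hn 1 (by omega)).symm
      -- the element as a sum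
      have hX1 : (X, (0 : S D Z)) ∈ Gr w (ε 0) (n 0) (C 0) * Gr w (ε 1) (n 1) (C 1) *
          ∏ j ∈ Finset.range m, Gr w (ε (j + 1 + 1)) (n (j + 1 + 1)) (C (j + 1 + 1)) := by
        rw [Finset.prod_range_succ', Finset.prod_range_succ'] at hX
        have e1 : ∀ a b c : Submodule ℂ (AddMonoidAlgebra (S D Z) (B D → ℤ) × S D Z),
            a * b * c = c * b * a := fun a b c => by
          rw [Submodule.mul_comm (a * b) c, Submodule.mul_comm a b]
          exact (mul_assoc c b a).symm
        rw [e1] at hX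
        exact hX
      obtain ⟨N, a, b, c, ha, hb, hc, hs⟩ := chain_mem_mul3 hX1
      choose φ hφ hφa using fun k => (chain_mem_Gr w).1 (ha k)
      choose ψ hψ hψb using fun k => (chain_mem_Gr w).1 (hb k)
      have hXs : X = ∑ k, slot w (ε 0) (φ k) * slot w (ε 1) (ψ k) * (c k).1 := by
        have h1 := congrArg Prod.fst hs
        rw [Prod.fst_sum] at h1
        refine h1.trans ?_
        refine Finset.sum_congr rfl fun k _ => ?_
        rw [Prod.fst_mul, Prod.fst_mul, ← hφa k, ← hψb k]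
      have h0s : 0 = ∑ k, φ k P * ψ k q * (c k).2 := by
        have h1 := congrArg Prod.snd hs
        rw [Prod.snd_sum] at h1
        refine h1.trans ?_
        refine Finset.sum_congr rfl fun k _ => ?_
        rw [Prod.snd_mul, Prod.snd_mul, ← hφa k, ← hψb k, hP, hq]
      -- the polynomials `K k`
      have hpl := fun k => pair_lift w (hε 0) hqP (φ := φ k) (ψ := ψ k) (hn0 ▸ hφ k) (hn1 ▸ hψ k)
      choose K hK1 hK2 hK3 using hpl
      have hKs : ∑ k, K k * (c k).2 = 0 := by
        have h1 : (Dl D Z P * cr D Z (P \ q) Pᶜ) * ∑ k, K k * (c k).2 = 0 := by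
          rw [Finset.mul_sum]
          refine Eq.trans (Finset.sum_congr rfl fun k _ => ?_) h0s.symm
          rw [hK1 k, mul_assoc (Dl D Z P * cr D Z (P \ q) Pᶜ)]
        rcases mul_eq_zero.1 h1 with h2 | h2
        · exfalso
          refine mul_ne_zero (Dl_ne_zero D Z P) (cr_ne_zero D Z ?_) h2
          exact disjoint_compl_right.mono_left Finset.sdiff_subset
        · exact h2
      -- the second components are alternating under the stabilizer
      have hp : ∀ k σ, (∀ b ∈ q, perm D σ b = b) →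
          act D Z σ (c k).2 = (sgn D σ : S D Z) ^ m * (c k).2 := by
        intro k σ hσ
        refine graph_snd_act w (fun j => ε (j + 1 + 1)) m (fun j => n (j + 1 + 1))
          (fun j => C (j + 1 + 1)) (Y := (c k).1) (hc k) σ fun j hj => ?_
        refine chain_mp_fix fun b hb => hσ b ?_
        rw [hq]
        exact chain_subset hC (j + 1) (by omega) hb
      obtain ⟨κ, hκ⟩ : ∃ κ : ℂ, κ = (liftc D P q : ℂ)⁻¹ := ⟨_, rfl⟩
      rw [← hκ] at hK3
      have hXt : ∀ t : Finset (B D × B D),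
          (∑ k, slot w (ε 1) (liftQ D Z q t (MvPolynomial.C κ * K k)) * (c k).1, (0 : S D Z)) ∈
            ∏ j ∈ Finset.range (m + 1), Gr w (ε (j + 1)) (n (j + 1)) (C (j + 1)) := by
        intro t
        have e1 : (∑ k, slot w (ε 1) (liftQ D Z q t (MvPolynomial.C κ * K k)) * (c k).1,
            (0 : S D Z)) = ∑ k, c k * (slot w (ε 1) (liftQ D Z q t (MvPolynomial.C κ * K k)),
              liftQ D Z q t (MvPolynomial.C κ * K k) q) := by
          refine Prod.ext ?_ ?_
          · rw [Prod.fst_sum]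
            show ∑ k, slot w (ε 1) (liftQ D Z q t (MvPolynomial.C κ * K k)) * (c k).1 = _
            refine Finset.sum_congr rfl fun k _ => ?_
            rw [Prod.fst_mul, mul_comm]
          · rw [Prod.snd_sum]
            refine Eq.trans (chain_liftQ_sum hqP K (fun k => (c k).2) hK2 m hp hKs t κ).symm
              (Finset.sum_congr rfl fun k _ => ?_)
            rw [Prod.snd_mul, mul_comm]
        rw [e1, Finset.prod_range_succ']
        refine Submodule.sum_mem _ fun k _ => Submodule.mul_mem_mul (hc k) ?_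
        refine (chain_mem_Gr w).2 ⟨liftQ D Z q t (MvPolynomial.C κ * K k), ?_, ?_⟩
        · rw [zero_add, hn1]
          exact liftQ_mem D Z q t _
        · rw [zero_add, ← hq]
      -- the induction hypothesis
      let T' : Submodule ℂ (AddMonoidAlgebra (S D Z) (B D → ℤ)) :=
        { carrier := {Y | ∀ φ ∈ AF D Z (n 0), slot w (ε 0) φ * Y ∈ T}
          add_mem' := fun ha hb φ hφ => by
            rw [mul_add]
            exact T.add_mem (ha φ hφ) (hb φ hφ)
          zero_mem' := fun φ _ => by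
            rw [mul_zero]
            exact T.zero_mem
          smul_mem' := fun r Y hY φ hφ => by
            rw [mul_smul_comm]
            exact T.smul_mem r (hY φ hφ) }
      have hT' : ∀ i (δ : D.I → ℕ), i + 1 < m + 1 → δ ≠ 0 → δ ≤ (fun j => n (j + 1)) (i + 1) →
          UU w (fun j => ε (j + 1)) (m + 1) (move (fun j => n (j + 1)) i δ) ≤ T' := by
        intro i δ hi hδ hδn Y hY φ hφ
        have h1 := hT (i + 1) δ (by (clear * - hi; omega)) hδ hδn
        rw [chain_UU_move_shift] at h1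
        exact h1 (Submodule.mul_mem_mul ⟨φ, hφ, rfl⟩ hY)
      have hm : ∀ t : Finset (B D × B D), slot w (ε 0) (liftP D Z P q t) *
          ∑ k, slot w (ε 1) (liftQ D Z q t (MvPolynomial.C κ * K k)) * (c k).1 ∈ T := by
        intro t
        have h1 := ih (fun j => ε (j + 1)) (fun j => n (j + 1)) (fun j => C (j + 1))
          (fun j => hε (j + 1)) (fun j hj => hC (j + 1) (by omega))
          (fun j hj => hn (j + 1) (by omega)) T' hT' _ (hXt t)
        refine h1 (liftP D Z P q t) ?_
        rw [hn0]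
        exact liftP_mem D Z P q t
      have hfin : X = ∑ t ∈ (prs D P q).powerset, slot w (ε 0) (liftP D Z P q t) *
            ∑ k, slot w (ε 1) (liftQ D Z q t (MvPolynomial.C κ * K k)) * (c k).1 +
          ∑ k, (slot w (ε 0) (φ k) * slot w (ε 1) (ψ k) - ∑ t ∈ (prs D P q).powerset,
            slot w (ε 0) (liftP D Z P q t) *
              slot w (ε 1) (liftQ D Z q t (MvPolynomial.C κ * K k))) * (c k).1 := by
        have e1 : ∑ t ∈ (prs D P q).powerset, slot w (ε 0) (liftP D Z P q t) *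
            ∑ k, slot w (ε 1) (liftQ D Z q t (MvPolynomial.C κ * K k)) * (c k).1 =
            ∑ k, (∑ t ∈ (prs D P q).powerset, slot w (ε 0) (liftP D Z P q t) *
              slot w (ε 1) (liftQ D Z q t (MvPolynomial.C κ * K k))) * (c k).1 := by
          simp only [Finset.mul_sum, Finset.sum_mul]
          rw [Finset.sum_comm]
          refine Finset.sum_congr rfl fun k _ => Finset.sum_congr rfl fun t _ => ?_
          rw [mul_assoc]
        rw [e1, hXs, ← Finset.sum_add_distrib]
        refine Finset.sum_congr rfl fun k _ => ?_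
        rw [← add_mul, add_sub_cancel]
      rw [hfin]
      refine T.add_mem (T.sum_mem fun t _ => hm t) (T.sum_mem fun k _ => ?_)
      refine hK3 k (T.comap (LinearMap.mulRight ℂ (c k).1)) fun δ hδ hδq Y hY => ?_
      show Y * (c k).1 ∈ T
      have h1 := hT 0 δ (by omega) hδ (by rw [zero_add, hn1]; exact hδq)
      rw [chain_UU_move_zero] at h1
      refine h1 (Submodule.mul_mem_mul ?_
        (chain_fst_mem w (fun j => ε (j + 1 + 1)) m (fun j => n (j + 1 + 1))
          (fun j => C (j + 1 + 1)) (hc k)))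
      rw [hn0, hn1]
      exact hY

end Vale.Agent.P291.H
end
end

section

section

set_option autoImplicit false
set_option linter.unusedSectionVars false
set_option linter.unusedSimpArgs false

/-! Chain straightening for products of determinantal ideals. -/

namespace Vale.Agent.P291.GChain

open Finset Matrix Vale.Agent.P291.GDet

section
variable {Q : Type} [Fintype Q] [DecidableEq Q] {R : Type} [CommRing R] {v : Q → ℕ}
  {Ar : Type} [Fintype Ar] (src tgt : Ar → Q) {C : Type} [CommMonoid C]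
  (Φ : (i : Q) → C →* Matrix (Fin (v i)) (Fin (v i)) R) (fr : Q → C) (l : Ar → C)

/-- `fr i` times the product of the factors of the arrows leaving `i` whose target is not in `m`. -/
def gpol (i : Q) (m : Q → ℕ) : C := fr i * ∏ a with src a = i ∧ m (tgt a) = 0, l a

/-- product of determinantal ideals. -/
def Lm (m : Q → ℕ) : Ideal R := ∏ i, detIdeal (Φ i (gpol src tgt fr l i m)) (m i)

variable (J : Q → Prop) [DecidablePred J]

lemma comm_mul (i : Q) (a b : C) : Φ i a * Φ i b = Φ i (a * b) := (map_mul _ _ _).symm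

/-- one vertex -/
lemma pair_vertex (i : Q) (m1 m2 m1' m2' : Q → ℕ)
    (h1' : ∀ a, m1' (tgt a) = 0 ↔ m1 (tgt a) = 0 ∧ m2 (tgt a) = 0)
    (h2' : ∀ a, m2' (tgt a) = 0 ↔ m1 (tgt a) = 0 ∨ m2 (tgt a) = 0) (a b : ℕ) :
    detIdeal (Φ i (gpol src tgt fr l i m1)) a * detIdeal (Φ i (gpol src tgt fr l i m2)) b ≤
      ∑ p ∈ antidiagonal (a + b), detIdeal (Φ i (gpol src tgt fr l i m1')) p.1 *
        detIdeal (Φ i (gpol src tgt fr l i m2')) p.2 := by
  classical
  set Y : C := ∏ a with src a = i ∧ (m1 (tgt a) = 0 ∧ m2 (tgt a) ≠ 0), l a with hY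
  set Z : C := ∏ a with src a = i ∧ (m2 (tgt a) = 0 ∧ m1 (tgt a) ≠ 0), l a with hZ
  have e1 : gpol src tgt fr l i m1 = Y * gpol src tgt fr l i m1' := by
    rw [gpol, gpol, mul_left_comm]
    congr 1
    rw [hY, ← Finset.prod_union]
    · refine Finset.prod_congr ?_ fun _ _ => rfl
      ext x
      simp only [Finset.mem_filter, Finset.mem_union, Finset.mem_univ, true_and, h1']
      (clear * -; tauto)
    · rw [Finset.disjoint_filter]
      intro x _ hx
      rw [h1']
      (clear * - hx; tauto)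
  have e2 : gpol src tgt fr l i m2 = gpol src tgt fr l i m1' * Z := by
    rw [gpol, gpol, mul_assoc]
    congr 1
    rw [hZ, ← Finset.prod_union]
    · refine Finset.prod_congr ?_ fun _ _ => rfl
      ext x
      simp only [Finset.mem_filter, Finset.mem_union, Finset.mem_univ, true_and, h1']
      (clear * -; tauto)
    · rw [Finset.disjoint_filter]
      intro x _ hx
      rw [h1'] at hx
      (clear * - hx; tauto)
  have e3 : gpol src tgt fr l i m2' = Y * gpol src tgt fr l i m1' * Z := by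
    rw [← e1, gpol, gpol, mul_assoc]
    congr 1
    rw [hZ, ← Finset.prod_union]
    · refine Finset.prod_congr ?_ fun _ _ => rfl
      ext x
      simp only [Finset.mem_filter, Finset.mem_union, Finset.mem_univ, true_and, h2']
      (clear * -; tauto)
    · rw [Finset.disjoint_filter]
      intro x _ hx
      tauto
  rw [e1, e2, e3, map_mul, map_mul, map_mul, map_mul]
  exact frobenius _ _ _ a b

/-- the set of allowed replacements of a pair at a vertex -/
def tset (m1 m2 : Q → ℕ) (i : Q) : Finset (ℕ × ℕ) :=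
  if J i then {(max (m1 i) (m2 i), min (m1 i) (m2 i))} else antidiagonal (m1 i + m2 i)

lemma gpol_congr (i : Q) (m m' : Q → ℕ) (h : ∀ a, m (tgt a) = 0 ↔ m' (tgt a) = 0) :
    gpol src tgt fr l i m = gpol src tgt fr l i m' := by
  rw [gpol, gpol]
  congr 1
  refine Finset.prod_congr ?_ fun _ _ => rfl
  ext x
  simp only [Finset.mem_filter, h]

lemma mul_le_sum {ι : Type} (s : Finset ι) (f : ι → Ideal R) (p : ι) (hp : p ∈ s) :
    f p ≤ ∑ p ∈ s, f p := Finset.single_le_sum (f := f) (fun p _ => bot_le) hp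

lemma sum_le_iff {ι : Type} (s : Finset ι) (f : ι → Ideal R) (I : Ideal R) (h : ∀ p ∈ s, f p ≤ I) :
    ∑ p ∈ s, f p ≤ I := by
  rw [Ideal.sum_eq_sup]
  exact Finset.sup_le h

/-- one vertex, with the stronger conclusion at the vertices in `J` -/
lemma pair_vertex' (hJ : ∀ i, J i → v i ≤ 1) (ht : ∀ a, J (tgt a)) (i : Q)
    (m1 m2 : Q → ℕ) (h1 : ∀ i, m1 i ≤ v i) (h2 : ∀ i, m2 i ≤ v i) :
    detIdeal (Φ i (gpol src tgt fr l i m1)) (m1 i) * detIdeal (Φ i (gpol src tgt fr l i m2)) (m2 i) ≤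
      ∑ p ∈ tset J m1 m2 i,
        detIdeal (Φ i (gpol src tgt fr l i fun j => max (m1 j) (m2 j))) p.1 *
        detIdeal (Φ i (gpol src tgt fr l i fun j => min (m1 j) (m2 j))) p.2 := by
  classical
  have h := pair_vertex src tgt Φ fr l i m1 m2 (fun j => max (m1 j) (m2 j))
    (fun j => min (m1 j) (m2 j)) (fun a => by simp only [Nat.max_eq_zero_iff])
    (fun a => by simp only [Nat.min_eq_zero_iff]) (m1 i) (m2 i)
  rw [tset]
  split_ifs with hi
  · refine h.trans ?_
    rw [Finset.sum_singleton]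
    refine sum_le_iff _ _ _ fun p hp => ?_
    rw [HasAntidiagonal.mem_antidiagonal] at hp
    have hv := hJ i hi
    have b1 := h1 i
    have b2 := h2 i
    simp only
    by_cases c1 : v i < p.1
    · rw [detIdeal_eq_bot _ (by simpa only [Fintype.card_fin] using c1), Ideal.bot_mul]; exact bot_le
    by_cases c2 : v i < p.2
    · rw [detIdeal_eq_bot (Φ i (gpol src tgt fr l i fun j => min (m1 j) (m2 j)))
        (by simpa only [Fintype.card_fin] using c2), Ideal.mul_bot]
      exact bot_le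
    by_cases c3 : p.1 = max (m1 i) (m2 i)
    · have c4 : p.2 = min (m1 i) (m2 i) := by (clear * - hp hv b1 b2 c1 c2 c3; omega)
      rw [c3, c4]
    · have c5 : p.1 = 0 := by omega
      have c6 : p.2 = 1 := by (clear * - hp hv c2 c3 c5; omega)
      have c7 : max (m1 i) (m2 i) = 1 := by omega
      have c8 : min (m1 i) (m2 i) = 0 := by (clear * - hp c5 c6; omega)
      rw [c5, c6, c7, c8, detIdeal_zero, detIdeal_zero, Ideal.one_eq_top.symm, one_mul, mul_one]
      -- `min` polynomial is a multiple of the `max` polynomial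
      obtain ⟨c, hc⟩ : ∃ c, gpol src tgt fr l i (fun j => min (m1 j) (m2 j)) =
          gpol src tgt fr l i (fun j => max (m1 j) (m2 j)) * c := by
        refine ⟨∏ a with src a = i ∧ (min (m1 (tgt a)) (m2 (tgt a)) = 0 ∧
          ¬ max (m1 (tgt a)) (m2 (tgt a)) = 0), l a, ?_⟩
        rw [gpol, gpol, mul_assoc]
        congr 1
        rw [← Finset.prod_union]
        · refine Finset.prod_congr ?_ fun _ _ => rfl
          ext x
          simp only [Finset.mem_filter, Finset.mem_union, Finset.mem_univ, true_and]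
          constructor
          · rintro ⟨q1, q2⟩
            by_cases q3 : max (m1 (tgt x)) (m2 (tgt x)) = 0
            · exact Or.inl ⟨q1, q3⟩
            · exact Or.inr ⟨q1, q2, q3⟩
          · rintro (⟨q1, q2⟩ | ⟨q1, q2, q3⟩)
            · exact ⟨q1, by omega⟩
            · exact ⟨q1, q2⟩
        · rw [Finset.disjoint_filter]
          intro x _ hx
          (clear * - hx; tauto)
      rw [hc, map_mul]
      exact detIdeal_mul_le _ _ _
  · exact h

/-- the pair lemma -/
lemma pair_le (hJ : ∀ i, J i → v i ≤ 1) (ht : ∀ a, J (tgt a))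
    (m1 m2 : Q → ℕ) (h1 : ∀ i, m1 i ≤ v i) (h2 : ∀ i, m2 i ≤ v i) :
    Lm src tgt Φ fr l m1 * Lm src tgt Φ fr l m2 ≤
      ∑ p ∈ Fintype.piFinset (tset J m1 m2), Lm src tgt Φ fr l (fun i => (p i).1) *
        Lm src tgt Φ fr l (fun i => (p i).2) := by
  rw [Lm, Lm, ← Finset.prod_mul_distrib]
  refine le_trans (Finset.prod_le_prod' (N := Ideal R) fun i _ =>
    pair_vertex' src tgt Φ fr l J hJ ht i m1 m2 h1 h2) ?_
  rw [Finset.prod_univ_sum]
  refine Finset.sum_le_sum fun p hp => ?_
  rw [Lm, Lm, ← Finset.prod_mul_distrib]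
  refine le_of_eq (Finset.prod_congr rfl fun i _ => ?_)
  rw [Fintype.mem_piFinset] at hp
  have hp' : ∀ j, J j → p j = (max (m1 j) (m2 j), min (m1 j) (m2 j)) := by
    intro j hj
    have := hp j
    rw [tset, if_pos hj, Finset.mem_singleton] at this
    exact this
  congr 2
  · congr 1
    exact gpol_congr _ _ _ _ _ _ _ fun a => by rw [hp' _ (ht a)]
  · congr 1
    exact gpol_congr _ _ _ _ _ _ _ fun a => by rw [hp' _ (ht a)]

/-- the measure -/
def meas {K : ℕ} (m : Fin K → Q → ℕ) : ℕ := ∑ c : Fin K, (c : ℕ) * ∑ j with J j, m c j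

lemma Lm_eq_bot (m : Q → ℕ) (i : Q) (h : v i < m i) : Lm src tgt Φ fr l m = ⊥ := by
  rw [Lm]
  exact Finset.prod_eq_zero (mem_univ i) (detIdeal_eq_bot _ (by simpa only [Fintype.card_fin] using h))

lemma straighten (hJ : ∀ i, J i → v i ≤ 1) (ht : ∀ a, J (tgt a)) {K : ℕ} (d c : Ideal R) :
    ∀ (N : ℕ) (m : Fin K → Q → ℕ), meas J m = N → (∀ c i, m c i ≤ v i) →
    (∀ m' : Fin K → Q → ℕ, (∀ c i, m' c i ≤ v i) → (∀ i, ∑ c, m' c i = ∑ c, m c i) →
      (∀ j, J j → Antitone fun c => m' c j) → (∏ k, Lm src tgt Φ fr l (m' k)) * d ≤ c) →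
    (∏ k, Lm src tgt Φ fr l (m k)) * d ≤ c := by
  intro N
  induction N using Nat.strong_induction_on with
  | _ N ih =>
  intro m hN hm H
  by_cases hs : ∀ j, J j → Antitone fun c => m c j
  · exact H m hm (fun _ => rfl) hs
  push Not at hs
  obtain ⟨j0, hj0, hna⟩ := hs
  rw [Antitone] at hna
  push Not at hna
  obtain ⟨k1, k2, hk, hlt⟩ := hna
  have hk' : k1 < k2 := lt_of_le_of_ne hk (by rintro rfl; exact lt_irrefl _ hlt)
  have hne : k1 ≠ k2 := ne_of_lt hk'
  -- split the product
  have hsplit : ∀ f : Fin K → Ideal R, ∏ k, f k = f k1 * f k2 * ∏ k ∈ (univ.erase k1).erase k2, f k := by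
    intro f
    rw [← Finset.mul_prod_erase univ f (mem_univ k1),
      ← Finset.mul_prod_erase (univ.erase k1) f (a := k2) (by simp only [mem_erase, ne_eq, hne.symm, not_false_eq_true, mem_univ, and_self]), mul_assoc]
  rw [hsplit]
  refine le_trans (Ideal.mul_mono_left (Ideal.mul_mono_left
    (pair_le src tgt Φ fr l J hJ ht (m k1) (m k2) (hm k1) (hm k2)))) ?_
  rw [Finset.sum_mul, Finset.sum_mul]
  refine sum_le_iff _ _ _ fun p hp => ?_
  rw [Fintype.mem_piFinset] at hp
  set m' : Fin K → Q → ℕ := fun k => if k = k1 then (fun i => (p i).1) else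
    if k = k2 then (fun i => (p i).2) else m k with hm'
  have e1 : m' k1 = fun i => (p i).1 := by simp [hm']
  have e2 : m' k2 = fun i => (p i).2 := by simp [hm', hne.symm]
  have e3 : ∀ k, k ≠ k1 → k ≠ k2 → m' k = m k := fun k h1 h2 => by simp [hm', h1, h2]
  have hgoal : Lm src tgt Φ fr l (fun i => (p i).1) * Lm src tgt Φ fr l (fun i => (p i).2) *
      ∏ k ∈ (univ.erase k1).erase k2, Lm src tgt Φ fr l (m k) =
      ∏ k, Lm src tgt Φ fr l (m' k) := by
    rw [hsplit, e1, e2]
    congr 1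
    refine Finset.prod_congr rfl fun k hk => ?_
    rw [Finset.mem_erase, Finset.mem_erase] at hk
    rw [e3 k hk.2.1 hk.1]
  rw [hgoal]
  -- sums
  have hsumsplit : ∀ f : Fin K → ℕ, ∑ k, f k = f k1 + f k2 + ∑ k ∈ (univ.erase k1).erase k2, f k := by
    intro f
    rw [← Finset.add_sum_erase univ f (mem_univ k1),
      ← Finset.add_sum_erase (univ.erase k1) f (a := k2) (by simp only [mem_erase, ne_eq, hne.symm, not_false_eq_true, mem_univ, and_self]), add_assoc]
  have hps : ∀ i, (p i).1 + (p i).2 = m k1 i + m k2 i := by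
    intro i
    have := hp i
    rw [tset] at this
    split_ifs at this with hi
    · rw [Finset.mem_singleton] at this
      rw [this]; exact max_add_min _ _
    · rwa [HasAntidiagonal.mem_antidiagonal] at this
  have hpJ : ∀ j, J j → p j = (max (m k1 j) (m k2 j), min (m k1 j) (m k2 j)) := by
    intro j hj
    have := hp j
    rw [tset, if_pos hj, Finset.mem_singleton] at this
    exact this
  have hsum : ∀ i, ∑ k, m' k i = ∑ k, m k i := by
    intro i
    rw [hsumsplit, hsumsplit (fun k => m k i)]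
    simp only [e1, e2]
    rw [hps i]
    congr 1
    refine Finset.sum_congr rfl fun k hk => ?_
    rw [Finset.mem_erase, Finset.mem_erase] at hk
    rw [e3 k hk.2.1 hk.1]
  by_cases hv : ∀ k i, m' k i ≤ v i
  · refine ih (meas J m') ?_ m' rfl hv fun m'' a1 a2 a3 => H m'' a1 (fun i => (a2 i).trans (hsum i)) a3
    -- the measure decreases
    rw [← hN, meas, meas, hsumsplit, hsumsplit (fun k => (k : ℕ) * ∑ j with J j, m k j)]
    have h0 : ∑ k ∈ (univ.erase k1).erase k2, (k : ℕ) * ∑ j with J j, m' k j =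
        ∑ k ∈ (univ.erase k1).erase k2, (k : ℕ) * ∑ j with J j, m k j := by
      refine Finset.sum_congr rfl fun k hk => ?_
      rw [Finset.mem_erase, Finset.mem_erase] at hk
      rw [e3 k hk.2.1 hk.1]
    rw [h0]
    have s1 : ∑ j with J j, m' k1 j = ∑ j with J j, max (m k1 j) (m k2 j) := by
      refine Finset.sum_congr rfl fun j hj => ?_
      rw [e1]
      change (p j).1 = _
      rw [hpJ j (Finset.mem_filter.1 hj).2]
    have s2 : ∑ j with J j, m' k2 j = ∑ j with J j, min (m k1 j) (m k2 j) := by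
      refine Finset.sum_congr rfl fun j hj => ?_
      rw [e2]
      change (p j).2 = _
      rw [hpJ j (Finset.mem_filter.1 hj).2]
    rw [s1, s2]
    have s3 : ∑ j with J j, max (m k1 j) (m k2 j) + ∑ j with J j, min (m k1 j) (m k2 j) =
        ∑ j with J j, m k1 j + ∑ j with J j, m k2 j := by
      rw [← Finset.sum_add_distrib, ← Finset.sum_add_distrib]
      exact Finset.sum_congr rfl fun j _ => max_add_min _ _
    have s4 : ∑ j with J j, m k1 j < ∑ j with J j, max (m k1 j) (m k2 j) := by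
      refine Finset.sum_lt_sum (fun j _ => le_max_left _ _) ⟨j0, ?_, ?_⟩
      · simp only [mem_filter, mem_univ, hj0, and_self]
      · exact lt_max_of_lt_right hlt
    have hkk : (k1 : ℕ) < (k2 : ℕ) := hk'
    obtain ⟨t, ht⟩ : ∃ t, (k2 : ℕ) = k1 + t + 1 := ⟨k2 - k1 - 1, by omega⟩
    rw [ht]
    set A := ∑ j with J j, m k1 j
    set B := ∑ j with J j, m k2 j
    set A' := ∑ j with J j, max (m k1 j) (m k2 j)
    set B' := ∑ j with J j, min (m k1 j) (m k2 j)
    have s5 : B' < B := by (clear * - s4 s3; omega)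
    have s6 : (k1 : ℕ) * A' + (k1 : ℕ) * B' = (k1 : ℕ) * A + (k1 : ℕ) * B := by
      rw [← mul_add, ← mul_add, s3]
    have s7 : (t + 1) * B' < (t + 1) * B := Nat.mul_lt_mul_of_pos_left s5 (Nat.succ_pos t)
    nlinarith only [s6, s7]
  · push Not at hv
    obtain ⟨k, i, hki⟩ := hv
    have : ∏ k, Lm src tgt Φ fr l (m' k) = ⊥ :=
      Finset.prod_eq_zero (mem_univ k) (Lm_eq_bot src tgt Φ fr l (m' k) i hki)
    rw [this, Ideal.bot_mul]
    exact bot_le

/-- a sorted `0/1` sequence is determined by its sum -/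
lemma antitone_unique : ∀ {K : ℕ} (f g : Fin K → ℕ), Antitone f → Antitone g → (∀ k, f k ≤ 1) →
    (∀ k, g k ≤ 1) → ∑ k, f k = ∑ k, g k → f = g := by
  intro K
  induction K with
  | zero => intro f g _ _ _ _ _; exact Subsingleton.elim _ _
  | succ K ih =>
    intro f g hf hg hf1 hg1 hs
    rw [Fin.sum_univ_succ, Fin.sum_univ_succ] at hs
    have key : ∀ (f g : Fin (K + 1) → ℕ), Antitone f → (∀ k, g k ≤ 1) →
        f 0 + ∑ k : Fin K, f k.succ = g 0 + ∑ k : Fin K, g k.succ → f 0 = 0 → g 0 = 0 := by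
      intro f g hf hg1 hs h0
      have : ∑ k : Fin K, f k.succ = 0 := Finset.sum_eq_zero fun k _ => by
        have := hf (Fin.zero_le k.succ)
        omega
      omega
    have h0 : f 0 = g 0 := by
      have a1 := hf1 0
      have a2 := hg1 0
      by_cases h : f 0 = 0
      · rw [h, key f g hf hg1 hs h]
      · have h' : g 0 ≠ 0 := fun h' => h (key g f hg hf1 hs.symm h')
        omega
    have h1 : (fun k : Fin K => f k.succ) = fun k => g k.succ := by
      refine ih _ _ (fun a b hab => hf (Fin.succ_le_succ_iff.2 hab))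
        (fun a b hab => hg (Fin.succ_le_succ_iff.2 hab)) (fun k => hf1 _) (fun k => hg1 _) ?_
      omega
    funext k
    refine Fin.cases h0 (fun k => congrFun h1 k) k

/-- the star lemma -/
lemma star (hJ : ∀ i, J i → v i ≤ 1) (ht : ∀ a, J (tgt a)) (hl : ∀ a, v (tgt a) = 0 → l a = 1)
    {K : ℕ} (mE mF : Fin K → Q → ℕ) (hE : ∀ k i, mE k i ≤ v i) (hF : ∀ k i, mF k i ≤ v i)
    (hs : ∀ i, ∑ k, mE k i = ∑ k, mF k i) (hne : ∃ i, ∑ k, mE k i ≠ 0) (I : Ideal R)
    (hI : ∀ m : Q → ℕ, (∀ i, m i ≤ v i) → m ≠ 0 →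
      Lm src tgt Φ fr l m * Lm src tgt Φ 1 l (fun i => v i - m i) ≤ I) :
    (∏ k, Lm src tgt Φ fr l (mE k)) * ∏ k, Lm src tgt Φ 1 l (fun i => v i - mF k i) ≤ I := by
  refine straighten src tgt Φ fr l J hJ ht _ _ _ mE rfl hE fun m' hm' hsm' hanti => ?_
  rw [mul_comm]
  refine straighten src tgt Φ 1 l J hJ ht _ _ _ (fun k i => v i - mF k i) rfl
    (fun k i => Nat.sub_le _ _) fun m'' hm'' hsm'' hanti'' => ?_
  -- reverse the second family
  set mG : Fin K → Q → ℕ := fun k i => v i - m'' (Fin.rev k) i with hmG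
  have hprod : ∏ k, Lm src tgt Φ 1 l (m'' k) = ∏ k, Lm src tgt Φ 1 l (fun i => v i - mG k i) := by
    rw [← Equiv.prod_comp Fin.revPerm]
    refine Finset.prod_congr rfl fun k _ => ?_
    congr 1
    funext i
    have := hm'' (Fin.rev k) i
    simp only [hmG, Fin.revPerm_apply]
    omega
  have hsG : ∀ i, ∑ k, mG k i = ∑ k, m' k i := by
    intro i
    rw [hsm' i, hs i]
    have e1 : ∑ k, mG k i = ∑ k, (v i - m'' k i) := by
      rw [← Equiv.sum_comp Fin.revPerm]
      refine Finset.sum_congr rfl fun k _ => ?_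
      simp only [hmG, Fin.revPerm_apply, Fin.rev_rev]
    have e2 : ∑ k, (v i - m'' k i) + ∑ k, m'' k i = K * v i := by
      rw [← Finset.sum_add_distrib, Finset.sum_congr rfl fun k _ => Nat.sub_add_cancel (hm'' k i)]
      simp only [sum_const, card_univ, Fintype.card_fin, smul_eq_mul]
    have e3 : ∑ k, mF k i + ∑ k, (v i - mF k i) = K * v i := by
      rw [← Finset.sum_add_distrib, Finset.sum_congr rfl fun k _ => Nat.add_sub_cancel' (hF k i)]
      simp only [sum_const, card_univ, Fintype.card_fin, smul_eq_mul]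
    have e4 := hsm'' i
    omega
  have hGJ : ∀ j, J j → ∀ k, mG k j = m' k j := by
    intro j hj
    have := antitone_unique (fun k => mG k j) (fun k => m' k j) ?_ (hanti j hj) ?_ ?_ (hsG j)
    · exact fun k => congrFun this k
    · intro a b hab
      simp only [hmG]
      have := hanti'' j hj (Fin.rev_le_rev.2 hab)
      simp only at this
      omega
    · intro k
      have := hJ j hj
      simp only [hmG]; omega
    · intro k
      exact (hm' k j).trans (hJ j hj)
  rw [mul_comm, hprod, ← Finset.prod_mul_distrib]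
  have hle1 : ∀ (f : Fin K → Ideal R) (k0 : Fin K), ∏ k, f k ≤ f k0 := by
    intro f k0
    rw [← Finset.mul_prod_erase univ f (mem_univ k0)]
    exact Ideal.mul_le_left
  by_cases hcase : ∀ k i, m' k i ≤ mG k i
  · -- all equal
    have heq : ∀ k i, m' k i = mG k i := by
      intro k i
      have h1 := hsG i
      by_contra hne2
      have h2 : ∑ k, m' k i < ∑ k, mG k i :=
        Finset.sum_lt_sum (fun k _ => hcase k i) ⟨k, mem_univ k, lt_of_le_of_ne (hcase k i) hne2⟩
      omega
    obtain ⟨i, hi⟩ := hne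
    rw [← hsm' i] at hi
    obtain ⟨k0, -, hk0⟩ := Finset.exists_ne_zero_of_sum_ne_zero hi
    refine (hle1 _ k0).trans ?_
    have h3 : (fun i => v i - mG k0 i) = fun i => v i - m' k0 i := by
      funext i; rw [heq]
    rw [h3]
    exact hI (m' k0) (hm' k0) fun h => hk0 (congrFun h i)
  · push Not at hcase
    obtain ⟨k, i, hki⟩ := hcase
    have hiJ : ¬ J i := fun h => by rw [hGJ i h k] at hki; exact lt_irrefl _ hki
    refine (hle1 _ k).trans ?_
    -- the ideal of the vertex `i`
    have hP : detIdeal (Φ i (fr i * ∏ a with src a = i, l a)) 1 ≤ I := by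
      have h4 := hI (fun j => if j = i then 1 else 0) (fun j => by
        by_cases h : j = i
        · subst h
          simp only [if_true]
          have := hm' k j
          omega
        · simp [h]) (fun h => by simpa only [↓reduceIte, Pi.zero_apply, one_ne_zero] using congrFun h i)
      refine le_trans ?_ h4
      have h5 : Lm src tgt Φ fr l (fun j => if j = i then 1 else 0) =
          detIdeal (Φ i (fr i * ∏ a with src a = i, l a)) 1 := by
        rw [Lm, ← Finset.mul_prod_erase univ _ (mem_univ i)]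
        have h6 : ∏ x ∈ univ.erase i, detIdeal (Φ x (gpol src tgt fr l x fun j => if j = i then 1 else 0))
            (if x = i then 1 else 0) = 1 := by
          refine Finset.prod_eq_one fun x hx => ?_
          rw [if_neg (Finset.ne_of_mem_erase hx), detIdeal_zero, Ideal.one_eq_top]
        rw [h6, mul_one, if_pos rfl]
        congr 2
        rw [gpol]
        congr 1
        refine Finset.prod_congr ?_ fun _ _ => rfl
        ext a
        simp only [Finset.mem_filter, Finset.mem_univ, true_and, and_iff_left_iff_imp]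
        intro _
        rw [if_neg]
        rintro h
        exact hiJ (h ▸ ht a)
      have h7 : Lm src tgt Φ 1 l (fun j => v j - if j = i then 1 else 0) = ⊤ := by
        rw [Lm, ← Ideal.one_eq_top]
        refine Finset.prod_eq_one fun x _ => ?_
        have h8 : gpol src tgt 1 l x (fun j => v j - if j = i then 1 else 0) = 1 := by
          rw [gpol, Pi.one_apply, one_mul]
          refine Finset.prod_eq_one fun a ha => ?_
          rw [Finset.mem_filter] at ha
          apply hl
          have h9 := ha.2.2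
          rw [if_neg (fun h : tgt a = i => hiJ (h ▸ ht a))] at h9
          simpa only [tsub_zero] using h9
        rw [h8, map_one, detIdeal_one (by rw [Fintype.card_fin]; exact Nat.sub_le _ _),
          Ideal.one_eq_top]
      rw [h5, h7, Ideal.mul_top]
    refine le_trans ?_ hP
    -- use Sylvester at the vertex `i`
    have h10 : Lm src tgt Φ fr l (m' k) * Lm src tgt Φ 1 l (fun i => v i - mG k i) ≤
        detIdeal (Φ i (gpol src tgt fr l i (m' k))) (m' k i) *
        detIdeal (Φ i (gpol src tgt 1 l i (fun i => v i - mG k i))) (v i - mG k i) := by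
      refine Ideal.mul_mono ?_ ?_
      · rw [Lm, ← Finset.mul_prod_erase univ _ (mem_univ i)]
        exact Ideal.mul_le_left
      · rw [Lm, ← Finset.mul_prod_erase univ _ (mem_univ i)]
        exact Ideal.mul_le_left
    refine h10.trans ((sylvester _ _ _ _ ?_).trans (le_of_eq ?_))
    · rw [Fintype.card_fin]
      have h11 : mG k i ≤ v i := by simp only [hmG]; (clear * -; omega)
      omega
    · rw [← map_mul]
      congr 2
      rw [gpol, gpol, Pi.one_apply, one_mul, mul_assoc]
      congr 1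
      rw [Finset.prod_filter, Finset.prod_filter, Finset.prod_filter, ← Finset.prod_mul_distrib]
      refine Finset.prod_congr rfl fun a _ => ?_
      by_cases h12 : src a = i
      · have h13 := hGJ (tgt a) (ht a) k
        have h14 := hJ (tgt a) (ht a)
        have h15 := hm' k (tgt a)
        rcases Nat.eq_zero_or_pos (v (tgt a)) with h16 | h16
        · rw [hl a h16]; simp only [ite_self, mul_one]
        · by_cases h17 : m' k (tgt a) = 0
          · have h18 : ¬ (v (tgt a) - mG k (tgt a) = 0) := by omega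
            simp only [h12, h17, and_self, ↓reduceIte, h18, and_false, mul_one]
          · have h18 : (v (tgt a) - mG k (tgt a) = 0) := by omega
            simp only [h12, h17, and_false, ↓reduceIte, h18, and_self, one_mul]
      · simp only [h12, false_and, ↓reduceIte, mul_one]

end

end Vale.Agent.P291.GChain
end
end

section

section

set_option autoImplicit false
set_option linter.unusedSectionVars false

/-! The invariant ring, characteristic polynomials and the shape of the Euler factors. -/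

namespace Vale.Agent.P291.G

open MvPolynomial Matrix Vale.Agent.P291.GDet Vale.Agent.P291.GVdm Vale.Agent.P291.GChain

variable (D : QData)

/-- invariants -/
noncomputable def Ainv : Subalgebra ℂ (P D) where
  carrier := {f | ∀ σ : W D, actP D σ f = f}
  mul_mem' := fun hf hg σ => by rw [map_mul, hf σ, hg σ]
  add_mem' := fun hf hg σ => by rw [map_add, hf σ, hg σ]
  algebraMap_mem' := fun r σ => AlgHom.commutes _ r

lemma mem_Ainv {f : P D} : f ∈ Ainv D ↔ ∀ σ : W D, actP D σ f = f := Iff.rfl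

/-- the characteristic polynomial in `P` -/
noncomputable def chP (i : D.I) : Polynomial (P D) :=
  ∏ r : Fin (D.v i), (Polynomial.X - Polynomial.C (XX D ⟨i, r⟩))

lemma chP_map (i : D.I) (σ : W D) : (chP D i).map (actP D σ).toRingHom = chP D i := by
  rw [chP, Polynomial.map_prod]
  refine Fintype.prod_equiv (σ i) _ _ fun r => ?_
  rw [Polynomial.map_sub, Polynomial.map_X, Polynomial.map_C]
  congr 2
  exact actP_XX D σ ⟨i, r⟩

lemma exists_chA (i : D.I) : ∃ f : Polynomial (Ainv D), f.map (Ainv D).val.toRingHom = chP D i ∧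
    f.natDegree = D.v i ∧ f.Monic := by
  have hm : (chP D i).Monic := Polynomial.monic_prod_of_monic _ _ fun r _ => Polynomial.monic_X_sub_C _
  have hd : (chP D i).natDegree = D.v i := by
    rw [chP, Polynomial.natDegree_prod_of_monic _ _ fun r _ => Polynomial.monic_X_sub_C _]
    simp only [Polynomial.natDegree_sub_C, Polynomial.natDegree_X, Finset.sum_const, Finset.card_univ, Fintype.card_fin, smul_eq_mul, mul_one]
  have hl : chP D i ∈ Polynomial.lifts (Ainv D).val.toRingHom := by
    rw [Polynomial.lifts_iff_coeff_lifts]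
    intro n
    refine ⟨⟨(chP D i).coeff n, ?_⟩, rfl⟩
    rw [mem_Ainv]
    intro σ
    have := congrArg (fun p => p.coeff n) (chP_map D i σ)
    simp only [Polynomial.coeff_map] at this
    exact this
  obtain ⟨q, h1, h2, h3⟩ := Polynomial.lifts_and_natDegree_eq_and_monic hl hm
  exact ⟨q, h1, h2.trans hd, h3⟩

/-- the characteristic polynomial -/
noncomputable def chA (i : D.I) : Polynomial (Ainv D) := (exists_chA D i).choose

lemma chA_map (i : D.I) : (chA D i).map (Ainv D).val.toRingHom = chP D i :=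
  (exists_chA D i).choose_spec.1
lemma chA_deg (i : D.I) : (chA D i).natDegree = D.v i := (exists_chA D i).choose_spec.2.1
lemma chA_monic (i : D.I) : (chA D i).Monic := (exists_chA D i).choose_spec.2.2

lemma lin_inv (m : Fin D.rk → ℤ) : lin (YY D) m ∈ Ainv D := by
  rw [mem_Ainv]
  intro σ
  have h := map_lin (actP D σ).toRingHom (YY D) m
  have h2 : (fun b => (actP D σ).toRingHom (YY D b)) = YY D := by
    funext b; exact actP_YY D σ b
  rw [h2] at h
  exact h

section
variable (hD : ∀ a, D.v (D.tgt a) ≤ 1)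
include hD

lemma perm_tgt (σ : W D) (a : D.A) (s : Fin (D.v (D.tgt a))) :
    perm D σ ⟨D.tgt a, s⟩ = ⟨D.tgt a, s⟩ := by
  rw [perm_apply]
  congr 1
  have := hD a
  have h1 := s.2
  have h2 := (σ (D.tgt a) s).2
  exact Fin.ext (by omega)

lemma XX_inv (a : D.A) (s : Fin (D.v (D.tgt a))) : XX D ⟨D.tgt a, s⟩ ∈ Ainv D := by
  rw [mem_Ainv]
  intro σ
  rw [actP_XX, perm_tgt D hD]

/-- the factor of an arrow -/
noncomputable def la (a : D.A) : Polynomial (Ainv D) :=
  ∏ s : Fin (D.v (D.tgt a)), (Polynomial.C (⟨XX D ⟨D.tgt a, s⟩ + lin (YY D) (D.ta a),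
    (Ainv D).add_mem (XX_inv D hD a s) (lin_inv D _)⟩ : Ainv D) - Polynomial.X)

omit hD in
/-- the factor of the framing -/
noncomputable def fra (i : D.I) : Polynomial (Ainv D) :=
  ∏ k : Fin (D.w i), (Polynomial.C (⟨lin (YY D) (D.tw i k), lin_inv D _⟩ : Ainv D) - Polynomial.X)

lemma la_one (a : D.A) (h : D.v (D.tgt a) = 0) : la D hD a = 1 := by
  rw [la]
  refine Finset.prod_eq_one fun s _ => ?_
  exact absurd s.2 (by omega)

end

section
variable {C : Type} [CommRing C]

lemma eul_prod (x : B D → C) (y : Fin D.rk → C) (l : B D → ℤ) :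
    eul D x y l = ∏ b : B D, ((∏ a with D.src a = b.1, ∏ s : Fin (D.v (D.tgt a)),
      (x ⟨D.tgt a, s⟩ - x b + lin y (D.ta a)) ^ (l b - l ⟨D.tgt a, s⟩).toNat) *
      ∏ k : Fin (D.w b.1), (lin y (D.tw b.1 k) - x b) ^ (l b).toNat) := by
  rw [eul, Finset.prod_mul_distrib, Fintype.prod_sigma, Fintype.prod_sigma]
  congr 1
  set F : D.A → B D → C := fun a b => ∏ s : Fin (D.v (D.tgt a)),
      (x ⟨D.tgt a, s⟩ - x b + lin y (D.ta a)) ^ (l b - l ⟨D.tgt a, s⟩).toNat with hF
  have h1 : ∏ a, ∏ r, ∏ s, (x ⟨D.tgt a, s⟩ - x ⟨D.src a, r⟩ + lin y (D.ta a)) ^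
      (l ⟨D.src a, r⟩ - l ⟨D.tgt a, s⟩).toNat = ∏ a, ∏ r : Fin (D.v (D.src a)), F a ⟨D.src a, r⟩ := rfl
  rw [h1, ← Finset.prod_fiberwise Finset.univ D.src]
  refine Finset.prod_congr rfl fun i _ => ?_
  have h2 : (∏ r : Fin (D.v i), ∏ a with D.src a = i, F a ⟨i, r⟩) =
      ∏ a with D.src a = i, ∏ r : Fin (D.v i), F a ⟨i, r⟩ := Finset.prod_comm
  refine Eq.trans ?_ h2.symm
  refine Finset.prod_congr rfl fun a ha => ?_
  rw [Finset.mem_filter] at ha
  obtain ⟨-, ha⟩ := ha
  subst ha
  rfl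

end

/-- number of ones of `l` at `i` -/
noncomputable def mOf (l : B D → ℤ) (i : D.I) : ℕ :=
  (Finset.univ.filter fun r : Fin (D.v i) => l ⟨i, r⟩ = 1).card

lemma mOf_le (l : B D → ℤ) (i : D.I) : mOf D l i ≤ D.v i := by
  rw [mOf]
  exact (Finset.card_le_univ _).trans (by simp only [Fintype.card_fin, Std.le_refl])

lemma mOf_eq_zero {l : B D → ℤ} {i : D.I} (h : mOf D l i = 0) (hl : Min D l) (r : Fin (D.v i)) :
    l ⟨i, r⟩ = 0 := by
  rw [mOf, Finset.card_eq_zero, Finset.filter_eq_empty_iff] at h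
  exact (hl ⟨i, r⟩).resolve_right (h (Finset.mem_univ r))

lemma mOf_tgt {l : B D → ℤ} {i : D.I} (hi : D.v i ≤ 1) (h : mOf D l i ≠ 0) (r : Fin (D.v i)) :
    l ⟨i, r⟩ = 1 := by
  rw [mOf] at h
  obtain ⟨s, hs⟩ := Finset.card_ne_zero.1 h
  have h1 := s.2
  have h2 := r.2
  have : r = s := Fin.ext (by omega)
  rw [this]
  exact (Finset.mem_filter.1 hs).2

section
variable {K : Type} [Field K] [Algebra ℂ K] (x : B D → K) (y : Fin D.rk → K)

/-- evaluation on invariants -/
noncomputable def ιK : Ainv D →+* K := (EV D x y).toRingHom.comp (Ainv D).val.toRingHom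

lemma ιK_apply (r : Ainv D) : ιK D x y r = EV D x y (r : P D) := rfl

lemma EV_lin (m : Fin D.rk → ℤ) : EV D x y (lin (YY D) m) = lin y m := by
  have h := map_lin (EV D x y).toRingHom (YY D) m
  have h2 : (fun b => (EV D x y).toRingHom (YY D b)) = y := by
    funext b; exact EV_YY D x y b
  rw [h2] at h
  exact h

lemma eval_chA (i : D.I) (r : Fin (D.v i)) :
    Polynomial.eval₂ (ιK D x y) (x ⟨i, r⟩) (chA D i) = 0 := by
  have h1 : Polynomial.eval₂ (ιK D x y) (x ⟨i, r⟩) (chA D i) =
      Polynomial.eval₂ (EV D x y).toRingHom (x ⟨i, r⟩) (chP D i) := by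
    rw [← chA_map, Polynomial.eval₂_map]; rfl
  rw [h1, chP, Polynomial.eval₂_finsetProd]
  refine Finset.prod_eq_zero (Finset.mem_univ r) ?_
  rw [Polynomial.eval₂_sub, Polynomial.eval₂_X, Polynomial.eval₂_C]
  have : (EV D x y).toRingHom (XX D ⟨i, r⟩) = x ⟨i, r⟩ := EV_XX D x y _
  rw [this, sub_self]

variable (hD : ∀ a, D.v (D.tgt a) ≤ 1)

lemma eval_la (a : D.A) (z : K) : Polynomial.eval₂ (ιK D x y) z (la D hD a) =
    ∏ s : Fin (D.v (D.tgt a)), (x ⟨D.tgt a, s⟩ - z + lin y (D.ta a)) := by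
  rw [la, Polynomial.eval₂_finsetProd]
  refine Finset.prod_congr rfl fun s _ => ?_
  rw [Polynomial.eval₂_sub, Polynomial.eval₂_X, Polynomial.eval₂_C, ιK_apply]
  simp only [map_add, EV_XX, EV_lin]
  ring

lemma eval_fra (i : D.I) (z : K) : Polynomial.eval₂ (ιK D x y) z (fra D i) =
    ∏ k : Fin (D.w i), (lin y (D.tw i k) - z) := by
  rw [fra, Polynomial.eval₂_finsetProd]
  refine Finset.prod_congr rfl fun s _ => ?_
  rw [Polynomial.eval₂_sub, Polynomial.eval₂_X, Polynomial.eval₂_C, ιK_apply]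
  simp only [EV_lin]

lemma eval_gpol (fr : D.I → Polynomial (Ainv D)) (i : D.I) (m : D.I → ℕ) (z : K) :
    Polynomial.eval₂ (ιK D x y) z (gpol D.src D.tgt fr (la D hD) i m) =
    Polynomial.eval₂ (ιK D x y) z (fr i) * ∏ a with D.src a = i ∧ m (D.tgt a) = 0,
      ∏ s : Fin (D.v (D.tgt a)), (x ⟨D.tgt a, s⟩ - z + lin y (D.ta a)) := by
  rw [gpol, Polynomial.eval₂_mul, Polynomial.eval₂_finsetProd]
  congr 1
  exact Finset.prod_congr rfl fun a _ => eval_la D x y hD a z

/-- Euler factor of a positive minuscule cocharacter -/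
lemma eul_pos (l : B D → ℤ) (hl : Min D l) (σ : W D) :
    eul D (x ∘ perm D σ) y l = ∏ b : B D, if l b = 1 then
      Polynomial.eval₂ (ιK D x y) (x (perm D σ b))
        (gpol D.src D.tgt (fra D) (la D hD) b.1 (mOf D l)) else 1 := by
  rw [eul_prod]
  refine Finset.prod_congr rfl fun b _ => ?_
  split_ifs with hb
  · rw [eval_gpol, eval_fra, mul_comm]
    congr 1
    · refine Finset.prod_congr rfl fun k _ => ?_
      rw [hb]; simp [Function.comp]
    · rw [Finset.prod_filter, Finset.prod_filter]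
      refine Finset.prod_congr rfl fun a _ => ?_
      by_cases h1 : D.src a = b.1
      · by_cases h2 : mOf D l (D.tgt a) = 0
        · rw [if_pos h1, if_pos ⟨h1, h2⟩]
          refine Finset.prod_congr rfl fun s _ => ?_
          rw [hb, mOf_eq_zero D h2 hl s]
          simp only [Function.comp, perm_tgt D hD]
          simp only [sub_zero, Int.toNat_one, pow_one]
        · rw [if_pos h1, if_neg (fun h => h2 h.2)]
          refine Finset.prod_eq_one fun s _ => ?_
          rw [hb, mOf_tgt D (hD a) h2 s]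
          simp only [Function.comp_apply, sub_self, Int.toNat_zero, pow_zero]
      · rw [if_neg h1, if_neg (fun h => h1 h.1)]
  · have hb0 : l b = 0 := (hl b).resolve_right hb
    rw [hb0]
    have h1 : ∀ a, ∀ s : Fin (D.v (D.tgt a)), (0 - l ⟨D.tgt a, s⟩).toNat = 0 := by
      intro a s
      rcases hl ⟨D.tgt a, s⟩ with h | h <;> simp only [h, zero_sub, Int.reduceNeg, Int.reduceToNat]
    rw [Finset.prod_eq_one (fun a _ => Finset.prod_eq_one fun s _ => by rw [h1, pow_zero]), one_mul]
    exact Finset.prod_eq_one fun k _ => by simp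

/-- Euler factor of a negative minuscule cocharacter -/
lemma eul_neg (l : B D → ℤ) (hl : Min D l) (σ : W D) :
    eul D (x ∘ perm D σ) y (-l) = ∏ b : B D, if l b = 1 then 1 else
      Polynomial.eval₂ (ιK D x y) (x (perm D σ b))
        (gpol D.src D.tgt 1 (la D hD) b.1 (fun i => D.v i - mOf D l i)) := by
  rw [eul_prod]
  refine Finset.prod_congr rfl fun b _ => ?_
  split_ifs with hb
  · rw [Pi.neg_apply, hb]
    have h1 : ∀ a, ∀ s : Fin (D.v (D.tgt a)), (-1 - (-l) ⟨D.tgt a, s⟩).toNat = 0 := by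
      intro a s
      rcases hl ⟨D.tgt a, s⟩ with h | h <;> simp [h]
    rw [Finset.prod_eq_one (fun a _ => Finset.prod_eq_one fun s _ => by rw [h1, pow_zero]), one_mul]
    exact Finset.prod_eq_one fun k _ => by simp
  · have hb0 : l b = 0 := (hl b).resolve_right hb
    rw [eval_gpol, Pi.one_apply, Polynomial.eval₂_one, one_mul, Pi.neg_apply, hb0]
    have h0 : ∏ k : Fin (D.w b.1), (lin y (D.tw b.1 k) - (x ∘ perm D σ) b) ^ (-(0 : ℤ)).toNat = 1 := by
      simp only [Function.comp_apply, neg_zero, Int.toNat_zero, pow_zero, Finset.prod_const_one]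
    rw [h0, mul_one, Finset.prod_filter, Finset.prod_filter]
    refine Finset.prod_congr rfl fun a _ => ?_
    by_cases h1 : D.src a = b.1
    · by_cases h2 : D.v (D.tgt a) - mOf D l (D.tgt a) = 0
      · rw [if_pos h1, if_pos ⟨h1, h2⟩]
        refine Finset.prod_congr rfl fun s _ => ?_
        have h3 : mOf D l (D.tgt a) ≠ 0 := by
          have := s.2
          omega
        rw [Pi.neg_apply, mOf_tgt D (hD a) h3 s]
        simp only [Function.comp, perm_tgt D hD]
        simp only [neg_zero, Int.reduceNeg, sub_neg_eq_add, zero_add, Int.toNat_one, pow_one]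
      · rw [if_pos h1, if_neg (fun h => h2 h.2)]
        refine Finset.prod_eq_one fun s _ => ?_
        have h3 : mOf D l (D.tgt a) = 0 := by
          have := hD a
          omega
        rw [Pi.neg_apply, mOf_eq_zero D h3 hl s]
        simp only [Function.comp_apply, neg_zero, sub_self, Int.toNat_zero, pow_zero]
    · rw [if_neg h1, if_neg (fun h => h1 h.1)]

end

end Vale.Agent.P291.G
end
end
namespace AFast205980x8032a
@[reducible] noncomputable def a0 {x1 : Vale.Agent.P291.T.QData} : CommRing ↥(Vale.Agent.P291.G.Ainv x1) := inferInstance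
end AFast205980x8032a
attribute [local instance] AFast205980x8032a.a0
namespace AFast205980x8032b
@[reducible] noncomputable def a0 {x1 : Vale.Agent.P291.T.QData} : CommMonoid (Polynomial ↥(Vale.Agent.P291.G.Ainv x1)) := inferInstance
theorem a1 {x1 : Vale.Agent.P291.T.QData} {x2 : Type} [x3 : CommRing x2] {x4 : Type} [x5 : Field x4] [x6 : Algebra ℂ x4] [x7 : Algebra x4 x2] {x8 : Vale.Agent.P291.T.B x1 → x4} {x9 : Fin x1.rk → x4} {x10 : (Vale.Agent.P291.T.B x1 → ℤ) → x2} : NonUnitalRingHomClass (↥(Vale.Agent.P291.G.Ainv x1) →+* ↥(Vale.Agent.P291.G.coulomb x1 x8 x9 x10)) ↥(Vale.Agent.P291.G.Ainv x1) ↥(Vale.Agent.P291.G.coulomb x1 x8 x9 x10) := inferInstance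
theorem a2 {x1 : Vale.Agent.P291.T.QData} {x2 : Type} [x3 : CommRing x2] {x4 : Type} [x5 : Field x4] [x6 : Algebra ℂ x4] [x7 : Algebra x4 x2] {x8 : Vale.Agent.P291.T.B x1 → x4} {x9 : Fin x1.rk → x4} {x10 : (Vale.Agent.P291.T.B x1 → ℤ) → x2} : MulHomClass (↥(Vale.Agent.P291.G.Ainv x1) →+* ↥(Vale.Agent.P291.G.coulomb x1 x8 x9 x10)) ↥(Vale.Agent.P291.G.Ainv x1) ↥(Vale.Agent.P291.G.coulomb x1 x8 x9 x10) := inferInstance
end AFast205980x8032b
attribute [local instance] AFast205980x8032b.a0 AFast205980x8032b.a1 AFast205980x8032b.a2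

section

section

set_option autoImplicit false
set_option linter.unusedSectionVars false

/-! Dressed monopole operators as products of determinants. -/

namespace Vale.Agent.P291.G

open MvPolynomial Matrix Vale.Agent.P291.GDet Vale.Agent.P291.GVdm Vale.Agent.P291.GChain

variable (D : QData)

section
variable {K L : Type} [Field K] [Algebra ℂ K] [CommRing L] [Algebra K L]
  (x : B D → K) (y : Fin D.rk → K) (u : (B D → ℤ) → L)

/-- evaluation on invariants with values in `L` -/
noncomputable def ιL : Ainv D →+* L := (algebraMap K L).comp (ιK D x y)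

/-- the roots in `L` -/
noncomputable def yL (i : D.I) (r : Fin (D.v i)) : L := algebraMap K L (x ⟨i, r⟩)

/-- the columns in `S` at the vertex `i` -/
noncomputable def cols (l : B D → ℤ) (i : D.I) : Finset (Fin (D.v i)) :=
  Finset.univ.filter fun c => l ⟨i, c⟩ = 1

/-- matrix of columns over the invariants -/
noncomputable def Xm (φ : B D → Polynomial (Ainv D)) (i : D.I) :
    Matrix (Fin (D.v i)) (Fin (D.v i)) (Ainv D) := colM (chA D i) (D.v i) fun c => φ ⟨i, c⟩

/-- the determinant of the vertex `i` -/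
noncomputable def DDi (l : B D → ℤ) (β1 β0 : B D → L) (φ : B D → Polynomial (Ainv D)) (i : D.I) : L :=
  (mixCols (cols D l i) (Md (yL D x i) (fun r => β1 ⟨i, r⟩) * (Xm D φ i).map (ιL D x y (L := L)))
    (Md (yL D x i) (fun r => β0 ⟨i, r⟩) * (Xm D φ i).map (ιL D x y (L := L)))).det

lemma ιL_apply (r : Ainv D) : ιL D x y (L := L) r = algebraMap K L (EV D x y (r : P D)) := rfl

lemma eval_ιL (z : K) (p : Polynomial (Ainv D)) :
    Polynomial.eval₂ (ιL D x y (L := L)) (algebraMap K L z) p =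
      algebraMap K L (Polynomial.eval₂ (ιK D x y) z p) := by
  rw [ιL, Polynomial.hom_eval₂]

lemma eval_chL (i : D.I) (r : Fin (D.v i)) :
    Polynomial.eval₂ (ιL D x y (L := L)) (yL D x i r) (chA D i) = 0 := by
  rw [yL, eval_ιL, eval_chA, map_zero]

variable (hxy : AlgebraicIndependent ℂ (Sum.elim x y))
include hxy

lemma x_inj : Function.Injective x := by
  have h := hxy.injective
  exact fun a b hab => Sum.inl_injective (h (by simpa using hab))

lemma vK_unit (i : D.I) : (vandermonde fun r : Fin (D.v i) => x ⟨i, r⟩).det ≠ 0 := by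
  rw [det_vandermonde_ne_zero_iff]
  intro r s h
  have := x_inj D x y hxy h
  simpa using this

omit hxy in
lemma vL_eq (i : D.I) : (vandermonde (yL D x i (L := L))).det =
    algebraMap K L (vandermonde fun r : Fin (D.v i) => x ⟨i, r⟩).det := by
  rw [RingHom.map_det]
  congr 1
  ext r c
  simp [vandermonde_apply, yL]

lemma vL_unit (i : D.I) : IsUnit (vandermonde (yL D x i (L := L))).det := by
  rw [vL_eq]
  exact (IsUnit.mk0 _ (vK_unit D x y hxy i)).map (algebraMap K L)

omit hxy in
lemma EV_Del : EV D x y (Del D) = ∏ i, (vandermonde fun r : Fin (D.v i) => x ⟨i, r⟩).det := by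
  rw [Del, map_prod]
  refine Finset.prod_congr rfl fun i _ => ?_
  rw [AlgHom.map_det]
  congr 1
  ext r c
  rw [AlgHom.mapMatrix_apply, Matrix.map_apply, vandermonde_apply, map_pow, EV_XX, vandermonde_apply]

/-- the polynomial of a family of one-variable polynomials -/
noncomputable def hφ (φ : B D → Polynomial (Ainv D)) : P D :=
  ∏ b : B D, Polynomial.eval₂ (Ainv D).val.toRingHom (XX D b) (φ b)

omit hxy in
lemma EV_act_hφ (σ : W D) (φ : B D → Polynomial (Ainv D)) :
    EV D x y (actP D σ (hφ D φ)) =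
      ∏ b : B D, Polynomial.eval₂ (ιK D x y) (x (perm D σ b)) (φ b) := by
  rw [hφ, map_prod, map_prod]
  refine Finset.prod_congr rfl fun b _ => ?_
  have h1 : EV D x y (actP D σ (Polynomial.eval₂ (Ainv D).val.toRingHom (XX D b) (φ b))) =
      ((EV D x y).toRingHom.comp (actP D σ).toRingHom)
        (Polynomial.eval₂ (Ainv D).val.toRingHom (XX D b) (φ b)) := rfl
  rw [h1, Polynomial.hom_eval₂]
  have h2 : ((EV D x y).toRingHom.comp (actP D σ).toRingHom).comp (Ainv D).val.toRingHom =
      ιK D x y := by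
    ext r
    change EV D x y (actP D σ (r : P D)) = EV D x y (r : P D)
    rw [(mem_Ainv D).1 r.2 σ]
  have h3 : ((EV D x y).toRingHom.comp (actP D σ).toRingHom) (XX D b) = x (perm D σ b) := by
    change EV D x y (actP D σ (XX D b)) = _
    rw [actP_XX, EV_XX]
  rw [h2, h3]

/-- the determinant formula -/
lemma TT_DD (l l' : B D → ℤ) (β1 β0 : B D → L)
    (hβ : ∀ σ : W D, algebraMap K L (EV D x y (actP D σ (eul D (XX D) (YY D) l'))) *
      u (l' ∘ (perm D σ).symm) = ∏ b : B D, if l b = 1 then β1 (perm D σ b) else β0 (perm D σ b))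
    (κ : Ainv D) (φ : B D → Polynomial (Ainv D)) :
    (EV D x y (Del D))⁻¹ • TT D x y u l' ((κ : P D) * hφ D φ) =
      ιL D x y κ * ∏ i, DDi D x y l β1 β0 φ i := by
  have h0 := EV_Del_ne D x y hxy
  rw [inv_smul_eq_iff₀ h0, Algebra.smul_def, EV_Del, map_prod, ← mul_assoc, mul_comm _ (ιL D x y κ),
    mul_assoc, ← Finset.prod_mul_distrib]
  have h1 : ∀ i, algebraMap K L (vandermonde fun r : Fin (D.v i) => x ⟨i, r⟩).det *
      DDi D x y l β1 β0 φ i = (Matrix.of fun r c : Fin (D.v i) =>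
        (if l ⟨i, c⟩ = 1 then β1 ⟨i, r⟩ else β0 ⟨i, r⟩) *
        algebraMap K L (Polynomial.eval₂ (ιK D x y) (x ⟨i, r⟩) (φ ⟨i, c⟩))).det := by
    intro i
    rw [← vL_eq, DDi, det_mixed (vL_unit D x y hxy i)]
    congr 1
    ext r c
    rw [Matrix.of_apply, Matrix.of_apply, Xm, vand_colM (ιL D x y) (chA_monic D i) (chA_deg D i) _
      (fun r => eval_chL D x y i r), Matrix.of_apply, yL, eval_ιL]
    congr 1
    simp only [cols, Finset.mem_filter, Finset.mem_univ, true_and]
  have h1' : ∀ i, algebraMap K L (vandermonde fun r : Fin (D.v i) => x ⟨i, r⟩).det *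
      DDi D x y l β1 β0 φ i = ∑ τ : Equiv.Perm (Fin (D.v i)), ((Equiv.Perm.sign τ : ℤ) : L) *
        ((∏ r, if l ⟨i, r⟩ = 1 then β1 ⟨i, τ r⟩ else β0 ⟨i, τ r⟩) *
        ∏ r, algebraMap K L (Polynomial.eval₂ (ιK D x y) (x ⟨i, τ r⟩) (φ ⟨i, r⟩))) := by
    intro i
    rw [h1, det_apply']
    refine Finset.sum_congr rfl fun τ _ => ?_
    rw [← Finset.prod_mul_distrib]
    rfl
  rw [Finset.prod_congr rfl fun i _ => h1' i, Finset.prod_univ_sum, Fintype.piFinset_univ,
    Finset.mul_sum, TT]
  refine Finset.sum_congr rfl fun σ _ => ?_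
  rw [Algebra.smul_def]
  have h2 : EV D x y (actP D σ ((κ : P D) * hφ D φ * eul D (XX D) (YY D) l')) =
      EV D x y (κ : P D) * (∏ b : B D, Polynomial.eval₂ (ιK D x y) (x (perm D σ b)) (φ b)) *
      EV D x y (actP D σ (eul D (XX D) (YY D) l')) := by
    rw [map_mul, map_mul, map_mul, map_mul, EV_act_hφ, (mem_Ainv D).1 κ.2 σ]
  rw [h2, map_mul, map_mul, map_mul, mul_assoc, mul_assoc, hβ σ, ιL_apply, map_intCast, sgn]
  rw [Int.cast_prod, map_prod, Finset.prod_mul_distrib, Fintype.prod_sigma, Fintype.prod_sigma]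
  simp only [perm_apply, Finset.prod_mul_distrib]
  ring

end

end Vale.Agent.P291.G
end
end

section

section

set_option autoImplicit false
set_option linter.unusedSectionVars false

/-! The two families of dressed monopole operators and their values at `u = 1`. -/

namespace Vale.Agent.P291.G

open MvPolynomial Matrix Vale.Agent.P291.GDet Vale.Agent.P291.GVdm Vale.Agent.P291.GChain

variable (D : QData)

section
variable {K L : Type} [Field K] [Algebra ℂ K] [CommRing L] [Algebra K L]
  (x : B D → K) (y : Fin D.rk → K) (u : (B D → ℤ) → L)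

/-- the products of determinants -/
def DDset (l : B D → ℤ) (β1 β0 : B D → L) : Set L :=
  {z | ∃ (κ : Ainv D) (φ : B D → Polynomial (Ainv D)),
    z = ιL D x y κ * ∏ i, DDi D x y l β1 β0 φ i}

lemma TT_add (l : B D → ℤ) (p q : P D) :
    TT D x y u l (p + q) = TT D x y u l p + TT D x y u l q := by
  rw [TT, TT, TT, ← Finset.sum_add_distrib]
  refine Finset.sum_congr rfl fun σ _ => ?_
  rw [← add_smul, add_mul, map_add, map_add, mul_add]

variable (hxy : AlgebraicIndependent ℂ (Sum.elim x y))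
include hxy

lemma TT_mem (l l' : B D → ℤ) (β1 β0 : B D → L)
    (hβ : ∀ σ : W D, algebraMap K L (EV D x y (actP D σ (eul D (XX D) (YY D) l'))) *
      u (l' ∘ (perm D σ).symm) = ∏ b : B D, if l b = 1 then β1 (perm D σ b) else β0 (perm D σ b))
    (h : P D) :
    (EV D x y (Del D))⁻¹ • TT D x y u l' h ∈ AddSubgroup.closure (DDset D x y l β1 β0) := by
  induction h using MvPolynomial.induction_on' with
  | monomial s c =>
    apply AddSubgroup.subset_closure
    have hκ : (MvPolynomial.C c : P D) * ∏ j, YY D j ^ s (Sum.inr j) ∈ Ainv D := by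
      rw [mem_Ainv]
      intro σ
      rw [map_mul, map_prod]
      congr 1
      · rw [actP, rename_C]
      · refine Finset.prod_congr rfl fun j _ => ?_
        rw [map_pow, actP_YY]
    refine ⟨⟨_, hκ⟩, fun b => Polynomial.X ^ s (Sum.inl b), ?_⟩
    rw [← TT_DD D x y u hxy l l' β1 β0 hβ]
    congr 2
    rw [monomial_eq, Finsupp.prod_fintype _ _ (fun _ => pow_zero _), Fintype.prod_sum_type]
    change _ = MvPolynomial.C c * (∏ j, YY D j ^ s (Sum.inr j)) * _
    rw [mul_assoc]
    congr 1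
    rw [mul_comm]
    congr 1
    rw [hφ]
    refine Finset.prod_congr rfl fun b _ => ?_
    rw [Polynomial.eval₂_pow, Polynomial.eval₂_X]
    rfl
  | add p q hp hq =>
    rw [TT_add, smul_add]
    exact AddSubgroup.add_mem _ hp hq

/-- monopole operators lie in the span of products of determinants -/
lemma mono_mem (l l' : B D → ℤ) (hl' : ∀ b b', l' b - l' b' ≤ 1) (β1 β0 : B D → L)
    (hβ : ∀ σ : W D, algebraMap K L (EV D x y (actP D σ (eul D (XX D) (YY D) l'))) *
      u (l' ∘ (perm D σ).symm) = ∏ b : B D, if l b = 1 then β1 (perm D σ b) else β0 (perm D σ b))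
    (f : P D) : mono D x y u l' f ∈ AddSubgroup.closure (DDset D x y l β1 β0) := by
  obtain ⟨h, hh⟩ := mono_TT D x y u hxy l' hl' f
  rw [hh]
  exact TT_mem D x y u hxy l l' β1 β0 hβ h

/-- products of determinants are monopole operators -/
lemma DD_mono (l l' : B D → ℤ) (hl' : ∀ b b', l' b - l' b' ≤ 1) (β1 β0 : B D → L)
    (hβ : ∀ σ : W D, algebraMap K L (EV D x y (actP D σ (eul D (XX D) (YY D) l'))) *
      u (l' ∘ (perm D σ).symm) = ∏ b : B D, if l b = 1 then β1 (perm D σ b) else β0 (perm D σ b))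
    (κ : Ainv D) (φ : B D → Polynomial (Ainv D)) :
    ∃ f : P D, ιL D x y κ * ∏ i, DDi D x y l β1 β0 φ i = mono D x y u l' f := by
  rw [← TT_DD D x y u hxy l l' β1 β0 hβ]
  exact TT_mono D x y u hxy l' hl' _

omit hxy

/-- unit cocharacters -/
def dl (b : B D) : B D → ℤ := Pi.single b 1

lemma min_sub {l : B D → ℤ} (hl : Min D l) (b b' : B D) : l b - l b' ≤ 1 := by
  rcases hl b with h | h <;> rcases hl b' with h' | h' <;> rw [h, h'] <;> norm_num

lemma min_sub_neg {l : B D → ℤ} (hl : Min D l) (b b' : B D) : (-l) b - (-l) b' ≤ 1 := by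
  rw [Pi.neg_apply, Pi.neg_apply]
  rcases hl b with h | h <;> rcases hl b' with h' | h' <;> rw [h, h'] <;> norm_num

lemma comp_eq_sum {l : B D → ℤ} (hl : Min D l) (σ : W D) :
    l ∘ (perm D σ).symm = ∑ b, if l b = 1 then dl D (perm D σ b) else 0 := by
  funext b'
  rw [Finset.sum_apply, Finset.sum_eq_single ((perm D σ).symm b')]
  · rw [Function.comp]
    rcases hl ((perm D σ).symm b') with h | h
    · rw [h]; simp only [zero_ne_one, ↓reduceIte, Pi.zero_apply]
    · rw [h, if_pos rfl, Equiv.apply_symm_apply, dl, Pi.single_eq_same]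
  · intro b _ hb
    split_ifs
    · rw [dl, Pi.single_eq_of_ne]
      intro h
      apply hb
      rw [h, Equiv.symm_apply_apply]
    · rfl
  · intro h
    exact absurd (Finset.mem_univ _) h

section
variable (hu : ∀ l l', u (l + l') = u l * u l') (hu0 : u 0 = 1)
include hu hu0

lemma u_sum {ι : Type} (s : Finset ι) (f : ι → B D → ℤ) :
    u (∑ b ∈ s, f b) = ∏ b ∈ s, u (f b) := by
  classical
  induction s using Finset.induction_on with
  | empty => simpa only [Finset.sum_empty, Finset.prod_empty] using hu0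
  | insert a s ha ih => rw [Finset.sum_insert ha, Finset.prod_insert ha, hu, ih]

lemma u_comp {l : B D → ℤ} (hl : Min D l) (σ : W D) :
    u (l ∘ (perm D σ).symm) = ∏ b, if l b = 1 then u (dl D (perm D σ b)) else 1 := by
  rw [comp_eq_sum D hl, u_sum D u hu hu0]
  refine Finset.prod_congr rfl fun b _ => ?_
  split_ifs
  · rfl
  · exact hu0

lemma u_comp_neg {l : B D → ℤ} (hl : Min D l) (σ : W D) :
    u ((-l) ∘ (perm D σ).symm) = ∏ b, if l b = 1 then u (-dl D (perm D σ b)) else 1 := by
  have h1 : (-l) ∘ (perm D σ).symm = -(l ∘ (perm D σ).symm) := rfl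
  rw [h1, comp_eq_sum D hl, ← Finset.sum_neg_distrib, u_sum D u hu hu0]
  refine Finset.prod_congr rfl fun b _ => ?_
  split_ifs
  · rfl
  · rw [neg_zero, hu0]

variable (hD : ∀ a, D.v (D.tgt a) ≤ 1)

/-- weights of the positive operators -/
noncomputable def bE (l : B D → ℤ) (b : B D) : L :=
  algebraMap K L (Polynomial.eval₂ (ιK D x y) (x b)
    (gpol D.src D.tgt (fra D) (la D hD) b.1 (mOf D l))) * u (dl D b)

/-- weights of the negative operators -/
noncomputable def bF (l : B D → ℤ) (b : B D) : L :=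
  algebraMap K L (Polynomial.eval₂ (ιK D x y) (x b)
    (gpol D.src D.tgt 1 (la D hD) b.1 fun i => D.v i - mOf D l i))

lemma hβE {l : B D → ℤ} (hl : Min D l) (σ : W D) :
    algebraMap K L (EV D x y (actP D σ (eul D (XX D) (YY D) l))) *
      u (l ∘ (perm D σ).symm) =
      ∏ b : B D, if l b = 1 then bE D x y u hD l (perm D σ b) else (fun _ => 1) (perm D σ b) := by
  rw [← eul_act, eul_pos D x y hD l hl, map_prod, u_comp D u hu hu0 hl, ← Finset.prod_mul_distrib]
  refine Finset.prod_congr rfl fun b _ => ?_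
  split_ifs
  · rfl
  · rw [map_one, mul_one]

lemma hβF {l : B D → ℤ} (hl : Min D l) (σ : W D) :
    algebraMap K L (EV D x y (actP D σ (eul D (XX D) (YY D) (-l)))) *
      u ((-l) ∘ (perm D σ).symm) =
      ∏ b : B D, if l b = 1 then (fun b => u (-dl D b)) (perm D σ b) else
        bF D x y hD l (perm D σ b) := by
  rw [← eul_act, eul_neg D x y hD l hl, map_prod, u_comp_neg D u hu hu0 hl,
    ← Finset.prod_mul_distrib]
  refine Finset.prod_congr rfl fun b _ => ?_
  split_ifs
  · rw [map_one, one_mul]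
  · rw [mul_one]; rfl

end

end

end Vale.Agent.P291.G
end
end

section

section

set_option autoImplicit false
set_option linter.unusedSectionVars false

/-! Averages of monomials over Young subgroups are polynomials in power sums. -/

namespace Vale.Agent.P291.H.M

open MvPolynomial Vale.Agent.P291.G

variable (D : QData) (Z : Type)

/-- the algebra generated by the power sums of the blocks `{b | P b = k}` of each colour and the
flavors -/
noncomputable def gA {κ : Type} [DecidableEq κ] (P : B D → κ) : Subalgebra ℂ (S D Z) :=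
  Algebra.adjoin ℂ ((Set.range fun p : κ × D.I × ℕ =>
    ps D Z (Finset.univ.filter fun b => P b = p.1) p.2.1 p.2.2) ∪
      Set.range fun z : Z => (X (Sum.inr z) : S D Z))

section
variable {κ : Type} [DecidableEq κ] (P : B D → κ)

open Classical in
/-- the sum of the monomial with exponents `a` over the Young subgroup -/
noncomputable def genA_M (a : B D → ℕ) : S D Z :=
  ∑ σ : W D, if ∀ b, P (perm D σ b) = P b then ∏ b, xx D Z (perm D σ b) ^ a b else 0

lemma genA_perm_mul (σ τ : W D) (b : B D) : perm D (σ * τ) b = perm D σ (perm D τ b) := rfl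

lemma genA_ps (σ : W D) (h : ∀ b, P (perm D σ b) = P b) (k : κ) (i : D.I) (j : ℕ) :
    ps D Z (Finset.univ.filter fun b => P b = k) i j =
      ∑ c : B D, if P c = k ∧ c.1 = i then xx D Z (perm D σ c) ^ j else 0 := by
  rw [ps, Finset.sum_filter, ← Equiv.sum_comp (perm D σ)]
  refine Finset.sum_congr rfl fun c _ => ?_
  have h1 : (perm D σ c).1 = c.1 := rfl
  rw [h c, h1, ite_and]

lemma genA_mul (a : B D → ℕ) (b₀ : B D) (e : ℕ) :
    genA_M D Z P a * ps D Z (Finset.univ.filter fun b => P b = P b₀) b₀.1 e =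
      ∑ c ∈ Finset.univ.filter (fun c : B D => P c = P b₀ ∧ c.1 = b₀.1),
        genA_M D Z P (a + Pi.single c e) := by
  classical
  simp only [genA_M]
  rw [Finset.sum_comm, Finset.sum_mul]
  refine Finset.sum_congr rfl fun σ _ => ?_
  split_ifs with h
  · rw [genA_ps D Z P σ h, Finset.mul_sum, Finset.sum_filter]
    refine Finset.sum_congr rfl fun c _ => ?_
    split_ifs with h2
    · have : ∀ b, xx D Z (perm D σ b) ^ (a + Pi.single c e : B D → ℕ) b =
          xx D Z (perm D σ b) ^ a b * (if b = c then xx D Z (perm D σ b) ^ e else 1) := by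
        intro b
        by_cases hb : b = c
        · subst hb
          rw [Pi.add_apply, Pi.single_eq_same, pow_add, if_pos rfl]
        · rw [Pi.add_apply, Pi.single_eq_of_ne hb, add_zero, if_neg hb, mul_one]
      rw [Finset.prod_congr rfl fun b _ => this b, Finset.prod_mul_distrib,
        Finset.prod_ite_eq' Finset.univ c, if_pos (Finset.mem_univ c)]
    · rw [mul_zero]
  · rw [zero_mul]
    simp only [Finset.sum_const_zero]

lemma genA_swap (a : B D → ℕ) (b₀ c : B D) (hP : P c = P b₀) (hc : c.1 = b₀.1)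
    (h0 : Function.update a b₀ 0 c = 0) :
    genA_M D Z P (Function.update a b₀ 0 + Pi.single c (a b₀)) = genA_M D Z P a := by
  classical
  obtain ⟨τ, hτ⟩ := exists_W D (Equiv.swap b₀ c) (Equiv.swap b₀ c).injective (by
    intro b
    by_cases h1 : b = b₀
    · subst h1
      rw [Equiv.swap_apply_left, hc]
    by_cases h2 : b = c
    · subst h2
      rw [Equiv.swap_apply_right, hc]
    rw [Equiv.swap_apply_of_ne_of_ne h1 h2])
  have hPs : ∀ b, P (Equiv.swap b₀ c b) = P b := by
    intro b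
    by_cases h1 : b = b₀
    · subst h1
      rw [Equiv.swap_apply_left, hP]
    by_cases h2 : b = c
    · subst h2
      rw [Equiv.swap_apply_right, hP]
    rw [Equiv.swap_apply_of_ne_of_ne h1 h2]
  have ha : ∀ b, (Function.update a b₀ 0 + Pi.single c (a b₀) : B D → ℕ) b =
      a (Equiv.swap b₀ c b) := by
    intro b
    by_cases h2 : b = c
    · subst h2
      rw [Equiv.swap_apply_right, Pi.add_apply, Pi.single_eq_same, h0, zero_add]
    · rw [Pi.add_apply, Pi.single_eq_of_ne h2, add_zero]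
      by_cases h1 : b = b₀
      · subst h1
        rw [Equiv.swap_apply_left, Function.update_self]
        rw [Function.update_of_ne (Ne.symm h2)] at h0
        exact h0.symm
      · rw [Equiv.swap_apply_of_ne_of_ne h1 h2, Function.update_of_ne h1]
  rw [genA_M, genA_M, ← Equiv.sum_comp (Equiv.mulRight τ)]
  refine Finset.sum_congr rfl fun σ _ => ?_
  have e1 : (∀ b, P (perm D ((Equiv.mulRight τ) σ) b) = P b) ↔ ∀ b, P (perm D σ b) = P b := by
    rw [Equiv.coe_mulRight]
    constructor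
    · intro h b
      have h1 := h (Equiv.swap b₀ c b)
      rw [genA_perm_mul, hτ, Equiv.swap_apply_self, hPs] at h1
      exact h1
    · intro h b
      rw [genA_perm_mul, h, hτ, hPs]
  by_cases h : ∀ b, P (perm D σ b) = P b
  · rw [if_pos (e1.2 h), if_pos h, ← Equiv.prod_comp (Equiv.swap b₀ c)]
    refine Finset.prod_congr rfl fun b _ => ?_
    rw [Equiv.coe_mulRight, genA_perm_mul, hτ, Equiv.swap_apply_self, ha, Equiv.swap_apply_self]
  · rw [if_neg (fun h' => h (e1.1 h')), if_neg h]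

end

/-- Averages of monomials. Proof by induction on `((univ.filter fun b => a b ≠ 0)).card`.
If it is `0`, the sum is a natural number. Otherwise choose `b₀` with `a b₀ ≠ 0`, let
`a' = Function.update a b₀ 0` and `M a` the sum in the statement. Let `N` be the block of `b₀`
(`P c = P b₀`, `c.1 = b₀.1`) and `p = ps (filter (P · = P b₀)) b₀.1 (a b₀)`, which is fixed by the
`σ` in the sum, so `M a' * p = ∑ σ, act σ (∏ b, xx b ^ a' b * p) = ∑ c ∈ N, M (a' + a b₀ δ_c)`
(`act σ (∏ b, xx b ^ a b) = ∏ b, xx (perm σ b) ^ a b`). For `c ∈ N` with `a' c = 0`,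
`M (a' + a b₀ δ_c) = M a` (compose with the transposition of `b₀` and `c`, which is in the group,
`Equiv.swap`, `exists_W`); this holds for `c = b₀`, so there are `k ≥ 1` of them. For `c ∈ N` with
`a' c ≠ 0` the support of `a' + a b₀ δ_c` is that of `a'`, which is smaller, so the induction
hypothesis applies. Hence `k • M a` is in the algebra, and `M a` too (`ℂ`-algebra). -/
theorem gen_mono {κ : Type} [DecidableEq κ] (P : B D → κ) (a : B D → ℕ) :
    (∑ σ : W D, open Classical in if ∀ b, P (perm D σ b) = P b then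
      ∏ b, xx D Z (perm D σ b) ^ a b else 0) ∈ gA D Z P := by
  classical
  change genA_M D Z P a ∈ gA D Z P
  induction hn : (Finset.univ.filter fun b => a b ≠ 0).card using Nat.strong_induction_on
    generalizing a with
  | _ n ih =>
  subst hn
  by_cases h0 : ∀ b, a b = 0
  · rw [genA_M]
    refine Subalgebra.sum_mem _ fun σ _ => ?_
    split_ifs
    · rw [Finset.prod_congr rfl fun b _ => by rw [h0 b, pow_zero], Finset.prod_const_one]
      exact Subalgebra.one_mem _
    · exact Subalgebra.zero_mem _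
  · push Not at h0
    obtain ⟨b₀, hb₀⟩ := h0
    set a' : B D → ℕ := Function.update a b₀ 0 with ha'
    have hlt : (Finset.univ.filter fun b => a' b ≠ 0).card <
        (Finset.univ.filter fun b => a b ≠ 0).card := by
      refine Finset.card_lt_card ⟨fun b hb => ?_, fun hs => ?_⟩
      · rw [Finset.mem_filter] at hb ⊢
        refine ⟨Finset.mem_univ _, fun h => hb.2 ?_⟩
        rw [ha', Function.update_apply]
        split_ifs
        · rfl
        · exact h
      · have := hs (Finset.mem_filter.2 ⟨Finset.mem_univ b₀, hb₀⟩)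
        rw [Finset.mem_filter, ha', Function.update_self] at this
        exact this.2 rfl
    have hM' : genA_M D Z P a' ∈ gA D Z P := ih _ hlt a' rfl
    have hp : ps D Z (Finset.univ.filter fun b => P b = P b₀) b₀.1 (a b₀) ∈ gA D Z P :=
      Algebra.subset_adjoin (Or.inl ⟨(P b₀, b₀.1, a b₀), rfl⟩)
    have hkey := genA_mul D Z P a' b₀ (a b₀)
    rw [← Finset.sum_filter_add_sum_filter_not _ (fun c => a' c = 0)] at hkey
    have h1 : ∑ c ∈ (Finset.univ.filter (fun c : B D => P c = P b₀ ∧ c.1 = b₀.1)).filter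
        (fun c => a' c = 0), genA_M D Z P (a' + Pi.single c (a b₀)) =
        ((Finset.univ.filter (fun c : B D => P c = P b₀ ∧ c.1 = b₀.1)).filter
        (fun c => a' c = 0)).card • genA_M D Z P a := by
      rw [← Finset.sum_const]
      refine Finset.sum_congr rfl fun c hc => ?_
      rw [Finset.mem_filter, Finset.mem_filter] at hc
      exact genA_swap D Z P a b₀ c hc.1.2.1 hc.1.2.2 hc.2
    have h2 : ∑ c ∈ (Finset.univ.filter (fun c : B D => P c = P b₀ ∧ c.1 = b₀.1)).filter
        (fun c => ¬ a' c = 0), genA_M D Z P (a' + Pi.single c (a b₀)) ∈ gA D Z P := by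
      refine Subalgebra.sum_mem _ fun c hc => ?_
      rw [Finset.mem_filter] at hc
      refine ih _ (lt_of_eq_of_lt ?_ hlt) _ rfl
      congr 1
      refine Finset.filter_congr fun b _ => ?_
      by_cases hb : b = c
      · subst hb
        rw [Pi.add_apply, Pi.single_eq_same]
        exact ⟨fun _ => hc.2, fun _ h => hc.2 (by omega)⟩
      · rw [Pi.add_apply, Pi.single_eq_of_ne hb, add_zero]
    rw [h1] at hkey
    set k := ((Finset.univ.filter (fun c : B D => P c = P b₀ ∧ c.1 = b₀.1)).filter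
        (fun c => a' c = 0)).card with hk
    have hk0 : k ≠ 0 := by
      refine Finset.card_ne_zero_of_mem (a := b₀) ?_
      rw [Finset.mem_filter, Finset.mem_filter]
      exact ⟨⟨Finset.mem_univ _, rfl, rfl⟩, by rw [ha', Function.update_self]⟩
    have h3 : k • genA_M D Z P a ∈ gA D Z P := by
      rw [eq_sub_of_add_eq hkey.symm]
      exact Subalgebra.sub_mem _ (Subalgebra.mul_mem _ hM' hp) h2
    have h4 : genA_M D Z P a = ((k : ℂ)⁻¹) • (k • genA_M D Z P a) := by
      rw [← Nat.cast_smul_eq_nsmul ℂ, smul_smul, inv_mul_cancel₀ (Nat.cast_ne_zero.2 hk0), one_smul]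
    rw [h4]
    exact Subalgebra.smul_mem _ h3 _

end Vale.Agent.P291.H.M
end
end

section

section

set_option autoImplicit false
set_option linter.unusedSectionVars false

/-! Invariants of Young subgroups are polynomials in power sums. -/

namespace Vale.Agent.P291.H.M

open MvPolynomial Vale.Agent.P291.G

variable (D : QData) (Z : Type)

lemma Gen_act_inr (σ : W D) (z : Z) : act D Z σ (X (Sum.inr z)) = X (Sum.inr z) := by
  rw [act, rename_X]; rfl

lemma Gen_prod (a : B D → ℕ) (b₀ : B D) (p : S D Z) :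
    (∏ b, xx D Z b ^ a b) * (p * X (Sum.inl b₀)) =
      (∏ b, xx D Z b ^ (open Classical in a b + if b = b₀ then 1 else 0)) * p := by
  classical
  have h1 : (∏ b, xx D Z b ^ (open Classical in a b + if b = b₀ then 1 else 0)) =
      (∏ b, xx D Z b ^ a b) * xx D Z b₀ := by
    simp only [pow_add, Finset.prod_mul_distrib]
    congr 1
    rw [Finset.prod_eq_single b₀ (fun b _ hb => by rw [if_neg hb, pow_zero])
      (fun h => absurd (Finset.mem_univ _) h), if_pos rfl, pow_one]
  rw [h1, xx]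
  ring

lemma Gen_aux {κ : Type} [DecidableEq κ] (P : B D → κ) (p : S D Z) : ∀ a : B D → ℕ,
    (∑ σ : W D, open Classical in if ∀ b, P (perm D σ b) = P b then
      act D Z σ ((∏ b, xx D Z b ^ a b) * p) else 0) ∈ gA D Z P := by
  induction p using MvPolynomial.induction_on with
  | C c =>
    intro a
    have h1 : (∑ σ : W D, open Classical in if ∀ b, P (perm D σ b) = P b then
        act D Z σ ((∏ b, xx D Z b ^ a b) * C c) else 0) =
        (∑ σ : W D, open Classical in if ∀ b, P (perm D σ b) = P b then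
          ∏ b, xx D Z (perm D σ b) ^ a b else 0) * algebraMap ℂ (S D Z) c := by
      rw [Finset.sum_mul]
      refine Finset.sum_congr rfl fun σ _ => ?_
      split_ifs
      · rw [map_mul, map_prod]
        congr 1
        · refine Finset.prod_congr rfl fun b _ => ?_
          rw [map_pow, act_xx]
        · exact AlgHom.commutes (act D Z σ) c
      · rw [zero_mul]
    rw [h1]
    exact Subalgebra.mul_mem _ (gen_mono D Z P a) (Subalgebra.algebraMap_mem _ c)
  | add p q hp hq =>
    intro a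
    have h1 : (∑ σ : W D, open Classical in if ∀ b, P (perm D σ b) = P b then
        act D Z σ ((∏ b, xx D Z b ^ a b) * (p + q)) else 0) =
        (∑ σ : W D, open Classical in if ∀ b, P (perm D σ b) = P b then
          act D Z σ ((∏ b, xx D Z b ^ a b) * p) else 0) +
        (∑ σ : W D, open Classical in if ∀ b, P (perm D σ b) = P b then
          act D Z σ ((∏ b, xx D Z b ^ a b) * q) else 0) := by
      rw [← Finset.sum_add_distrib]
      refine Finset.sum_congr rfl fun σ _ => ?_
      split_ifs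
      · rw [mul_add, map_add]
      · rw [add_zero]
    rw [h1]
    exact Subalgebra.add_mem _ (hp a) (hq a)
  | mul_X p i hp =>
    intro a
    cases i with
    | inl b₀ =>
      rw [Gen_prod]
      exact hp _
    | inr z =>
      have h1 : (∑ σ : W D, open Classical in if ∀ b, P (perm D σ b) = P b then
          act D Z σ ((∏ b, xx D Z b ^ a b) * (p * X (Sum.inr z))) else 0) =
          (∑ σ : W D, open Classical in if ∀ b, P (perm D σ b) = P b then
            act D Z σ ((∏ b, xx D Z b ^ a b) * p) else 0) * X (Sum.inr z) := by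
        rw [Finset.sum_mul]
        refine Finset.sum_congr rfl fun σ _ => ?_
        split_ifs
        · rw [← mul_assoc, map_mul, Gen_act_inr]
        · rw [zero_mul]
      rw [h1]
      exact Subalgebra.mul_mem _ (hp a)
        (Algebra.subset_adjoin (Or.inr ⟨z, rfl⟩))

/-- Invariants of Young subgroups. Proof: let `H = {σ | ∀ b, P (perm σ b) = P b}`; `1 ∈ H`, so
`H.card ≠ 0`, and `(H.card : ℂ) • f = ∑ σ ∈ H, act σ f = ∑ μ ∈ f.support, coeff μ f • ∑ σ ∈ H,
act σ (monomial μ 1)`. A monomial of `S D Z = MvPolynomial (B D ⊕ Z) ℂ` is the product of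
`∏ b, xx b ^ μ (inl b)` and of a monomial in the flavors `X (inr z)`, which is fixed by `act` and
is in `gA`. Use `gen_mono`. -/
theorem gen {κ : Type} [DecidableEq κ] (P : B D → κ) {f : S D Z}
    (hf : ∀ σ : W D, (∀ b, P (perm D σ b) = P b) → act D Z σ f = f) : f ∈ gA D Z P := by
  classical
  have h := Gen_aux D Z P f (fun _ => 0)
  set H : Finset (W D) := Finset.univ.filter fun σ : W D => ∀ b, P (perm D σ b) = P b with hH
  have h1 : (∑ σ : W D, open Classical in if ∀ b, P (perm D σ b) = P b then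
      act D Z σ ((∏ b, xx D Z b ^ (fun _ : B D => 0) b) * f) else 0) = (H.card : ℂ) • f := by
    have h2 : (∑ σ : W D, open Classical in if ∀ b, P (perm D σ b) = P b then
        act D Z σ ((∏ b, xx D Z b ^ (fun _ : B D => 0) b) * f) else 0) = ∑ σ ∈ H, f := by
      rw [hH, Finset.sum_filter]
      refine Finset.sum_congr rfl fun σ _ => ?_
      split_ifs with h3
      · simp only [pow_zero, Finset.prod_const_one, one_mul]
        exact hf σ h3
      · rfl
    rw [h2, Finset.sum_const, Nat.cast_smul_eq_nsmul]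
  rw [h1] at h
  have hne : (H.card : ℂ) ≠ 0 := by
    rw [Nat.cast_ne_zero, ← Nat.pos_iff_ne_zero, Finset.card_pos]
    exact ⟨1, by
      rw [hH, Finset.mem_filter]
      exact ⟨Finset.mem_univ _, fun b => rfl⟩⟩
  have h3 := Subalgebra.smul_mem _ h ((H.card : ℂ)⁻¹)
  rwa [smul_smul, inv_mul_cancel₀ hne, one_smul] at h3

end Vale.Agent.P291.H.M
end
end

section

section

set_option autoImplicit false
set_option linter.unusedSectionVars false

/-! Alternating families in terms of power sums. -/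

namespace Vale.Agent.P291.H.M

open MvPolynomial Vale.Agent.P291.G

variable (D : QData) (Z : Type)

lemma AFform_evA_inl {m : ℕ} (A : Fin m → Finset (B D)) (t : Fin m) (i : D.I) (j : ℕ) :
    evA D Z A (X (Sum.inl (t, i, j))) = ps D Z (A t) i j := by
  rw [evA, aeval_X]
  rfl

lemma AFform_evA_tot {m : ℕ} (A : Fin m → Finset (B D)) (i : D.I) (j : ℕ) :
    evA D Z A (X (Sum.inr (Sum.inl (i, j)))) = ps D Z Finset.univ i j := by
  rw [evA, aeval_X]
  rfl

lemma AFform_evA_flavor {m : ℕ} (A : Fin m → Finset (B D)) (z : Z) :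
    evA D Z A (X (Sum.inr (Sum.inr z))) = X (Sum.inr z) := by
  rw [evA, aeval_X]
  rfl

lemma AFform_ps_compl (A : Finset (B D)) (i : D.I) (j : ℕ) :
    ps D Z Aᶜ i j = ps D Z Finset.univ i j - ps D Z A i j := by
  classical
  rw [ps, ps, ps, eq_sub_iff_add_eq]
  exact Finset.sum_compl_add_sum A _

lemma AFform_gA_le (A₀ : Finset (B D)) {f : S D Z}
    (hf : f ∈ gA D Z fun b => decide (b ∈ A₀)) :
    ∃ Q : PP D Z 1, evA D Z (fun _ => A₀) Q = f := by
  have h1 : gA D Z (fun b => decide (b ∈ A₀)) ≤ (evA D Z (fun _ : Fin 1 => A₀)).range := by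
    rw [gA, Algebra.adjoin_le_iff]
    rintro x (⟨⟨k, i, j⟩, rfl⟩ | ⟨z, rfl⟩)
    · cases k with
      | true =>
        have h2 : (Finset.univ.filter fun b => decide (b ∈ A₀) = true) = A₀ := by
          ext b
          simp only [decide_eq_true_eq, Finset.subset_univ, Finset.filter_mem_eq_of_subset]
        refine ⟨X (Sum.inl (0, i, j)), ?_⟩
        change evA D Z (fun _ : Fin 1 => A₀) (X (Sum.inl (0, i, j))) =
          ps D Z (Finset.univ.filter fun b => decide (b ∈ A₀) = true) i j
        rw [AFform_evA_inl, h2]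
      | false =>
        have h2 : (Finset.univ.filter fun b => decide (b ∈ A₀) = false) = A₀ᶜ := by
          ext b
          simp only [decide_eq_false_iff_not, Finset.mem_filter, Finset.mem_univ, true_and, Finset.mem_compl]
        refine ⟨X (Sum.inr (Sum.inl (i, j))) - X (Sum.inl (0, i, j)), ?_⟩
        change evA D Z (fun _ : Fin 1 => A₀)
          (X (Sum.inr (Sum.inl (i, j))) - X (Sum.inl (0, i, j))) =
          ps D Z (Finset.univ.filter fun b => decide (b ∈ A₀) = false) i j
        rw [map_sub, AFform_evA_inl, AFform_evA_tot, h2, AFform_ps_compl]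
    · exact ⟨X (Sum.inr (Sum.inr z)), AFform_evA_flavor D Z _ z⟩
  exact h1 hf

lemma AFform_sgn_ne (σ : W D) : (sgn D σ : S D Z) ≠ 0 := by
  intro h
  have h1 : (sgn D σ : S D Z) * (sgn D σ : S D Z) = 1 := by
    rw [← Int.cast_mul, sgn_sq, Int.cast_one]
  rw [h, mul_zero] at h1
  exact zero_ne_one h1

/-- Proof: if no `A` has type `n` take `Q = 0`. Otherwise fix `A₀` of type `n`. By `Dl_dvd`,
`φ A₀ = Dl A₀ * f`. If `mp σ A₀ = A₀`, then `act σ f = f` (`act_Dl`, `h.1`, `Dl_ne_zero`; the sign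
is `±1`). Apply `gen` with `P b = decide (b ∈ A₀)`: `f` is in the algebra generated by the
`ps A₀ i j`, `ps A₀ᶜ i j = ps univ i j - ps A₀ i j` and the flavors, which is contained in the range
of `evA fun _ => A₀`. So `f = evA (fun _ => A₀) Q`. For `A` of type `n` there is `σ` with
`mp σ A₀ = A` (`exists_mp` with `q = ∅`), and `sgn σ * φ A = act σ (φ A₀) =
act σ (Dl A₀) * act σ (evA (fun _ => A₀) Q) = sgn σ * Dl A * evA (fun _ => A) Q` (`act_evA`). -/
theorem AF_form {n : D.I → ℕ} {φ : Finset (B D) → S D Z} (h : φ ∈ AF D Z n) :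
    ∃ Q : PP D Z 1, ∀ A, typ D A = n → φ A = Dl D Z A * evA D Z (fun _ => A) Q := by
  classical
  by_cases hA₀ : ∃ A₀, typ D A₀ = n
  · obtain ⟨A₀, hA₀⟩ := hA₀
    obtain ⟨f, hf⟩ := Dl_dvd D Z h A₀
    have hinv : ∀ σ : W D, (∀ b, decide (perm D σ b ∈ A₀) = decide (b ∈ A₀)) →
        act D Z σ f = f := by
      intro σ hσ
      have h1 : mp D σ A₀ = A₀ := by
        ext b
        rw [mem_mp']
        have h2 := hσ ((perm D σ).symm b)
        rw [Equiv.apply_symm_apply, decide_eq_decide] at h2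
        exact h2.symm
      have h2 := h.1 σ A₀
      rw [h1, hf, map_mul, act_Dl, h1, mul_assoc] at h2
      exact mul_left_cancel₀ (Dl_ne_zero D Z A₀) (mul_left_cancel₀ (AFform_sgn_ne D Z σ) h2)
    obtain ⟨Q, hQ⟩ := AFform_gA_le D Z A₀ (gen D Z (fun b => decide (b ∈ A₀)) hinv)
    refine ⟨Q, fun A hA => ?_⟩
    obtain ⟨σ, hσ, -⟩ := exists_mp D (P := A₀) (q := ∅) (P' := A) (q' := ∅)
      (Finset.empty_subset _) (Finset.empty_subset _) (hA₀.trans hA.symm) rfl
    have h1 := h.1 σ A₀
    rw [hf, map_mul, act_Dl, ← hQ, act_evA, hσ, mul_assoc] at h1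
    exact (mul_left_cancel₀ (AFform_sgn_ne D Z σ) h1).symm
  · exact ⟨0, fun A hA => absurd ⟨A, hA⟩ hA₀⟩

open Classical in
/-- the converse (`act_Dl`, `act_evA`, `typ_mp`) -/
theorem AF_of (n : D.I → ℕ) (Q : PP D Z 1) :
    (fun A => if typ D A = n then Dl D Z A * evA D Z (fun _ => A) Q else 0) ∈ AF D Z n := by
  refine ⟨fun σ A => ?_, fun A hA => ?_⟩
  · simp only
    rw [typ_mp]
    by_cases hA : typ D A = n
    · rw [if_pos hA, if_pos hA, map_mul, act_Dl, act_evA, mul_assoc]
    · rw [if_neg hA, if_neg hA, map_zero, mul_zero]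
  · simp only
    rw [if_neg hA]

end Vale.Agent.P291.H.M
end
end

section

section

set_option autoImplicit false
set_option linter.unusedSectionVars false

/-! The products of slot spaces in terms of power sums. -/

namespace Vale.Agent.P291.H.M

open MvPolynomial Vale.Agent.P291.G

variable {D : QData} {Z : Type} (w : Wts D Z)

/-- Induction principle for finite products of submodules of a commutative algebra
(induction on `m`, `Finset.prod_range_succ`, `Submodule.mul_induction_on`; strengthen the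
statement by an additional factor if needed). -/
theorem prod_ind {R : Type} [CommRing R] [Algebra ℂ R] (m : ℕ) (M : ℕ → Submodule ℂ R)
    (P : R → Prop) (hadd : ∀ x y, P x → P y → P (x + y)) (hsmul : ∀ (c : ℂ) x, P x → P (c • x))
    (hpure : ∀ y : ℕ → R, (∀ j, j < m → y j ∈ M j) → P (∏ j ∈ Finset.range m, y j)) :
    ∀ x ∈ ∏ j ∈ Finset.range m, M j, P x := by
  induction m generalizing P with
  | zero =>
    intro x hx
    rw [Finset.range_zero, Finset.prod_empty, Submodule.mem_one] at hx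
    obtain ⟨c, rfl⟩ := hx
    rw [Algebra.algebraMap_eq_smul_one]
    refine hsmul c _ ?_
    have h1 := hpure (fun _ => 0) fun j hj => absurd hj (Nat.not_lt_zero j)
    rwa [Finset.range_zero, Finset.prod_empty] at h1
  | succ m ih =>
    intro x hx
    rw [Finset.prod_range_succ] at hx
    refine Submodule.mul_induction_on hx (fun a ha b hb => ?_) hadd
    refine ih (fun z => ∀ b ∈ M m, P (z * b)) ?_ ?_ ?_ a ha b hb
    · intro x y hx hy b hb
      rw [add_mul]
      exact hadd _ _ (hx b hb) (hy b hb)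
    · intro c x hx b hb
      rw [smul_mul_assoc]
      exact hsmul c _ (hx b hb)
    · intro y hy b hb
      have h1 := hpure (Function.update y m b) fun j hj => by
        by_cases hjm : j = m
        · subst hjm
          rwa [Function.update_self]
        · rw [Function.update_of_ne hjm]
          exact hy j (by omega)
      rw [Finset.prod_range_succ, Function.update_self] at h1
      have h2 : ∏ j ∈ Finset.range m, Function.update y m b j = ∏ j ∈ Finset.range m, y j := by
        refine Finset.prod_congr rfl fun j hj => ?_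
        rw [Function.update_of_ne (Finset.mem_range.1 hj).ne]
      rwa [h2] at h1

lemma UUform_prod_single {R G J : Type} [CommRing R] [AddCommMonoid G] (s : Finset J)
    (a : J → G) (b : J → R) :
    ∏ t ∈ s, AddMonoidAlgebra.single (a t) (b t) =
      AddMonoidAlgebra.single (∑ t ∈ s, a t) (∏ t ∈ s, b t) := by
  classical
  induction s using Finset.induction_on with
  | empty =>
    rw [Finset.prod_empty, Finset.sum_empty, Finset.prod_empty]
    rfl
  | insert t s ht ih =>
    rw [Finset.prod_insert ht, Finset.sum_insert ht, Finset.prod_insert ht, ih,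
      AddMonoidAlgebra.single_mul_single]

lemma UUform_XQ_smul (ε : ℕ → ℕ) {m : ℕ} (n : ℕ → D.I → ℕ) (c : ℂ) (Q : PP D Z m) :
    XQ w ε n (c • Q) = c • XQ w ε n Q := by
  classical
  rw [XQ, XQ, Finset.smul_sum]
  refine Finset.sum_congr rfl fun A _ => ?_
  rw [smul_ite, smul_zero, map_smul, smul_mul_assoc, AddMonoidAlgebra.smul_single]

lemma UUform_evA_rename {m : ℕ} (A : Fin m → Finset (B D)) (t : Fin m) (Q : PP D Z 1) :
    evA D Z A (rename (Sum.map (fun p : Fin 1 × D.I × ℕ => (t, p.2)) id) Q) =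
      evA D Z (fun _ => A t) Q := by
  rw [evA, evA, aeval_rename]
  congr 2
  funext p
  rcases p with p | p | p <;> rfl

lemma UUform_slot_prod (ε : ℕ → ℕ) (m : ℕ) (φ : ℕ → Finset (B D) → S D Z) :
    ∏ j ∈ Finset.range m, slot w (ε j) (φ j) =
      ∑ A : Fin m → Finset (B D), AddMonoidAlgebra.single (∑ t, ind D (A t))
        (∏ t : Fin m, (φ t (A t) * (e w (A t) * zs w (A t) ^ ε t))) := by
  classical
  have h1 : ∀ j, slot w (ε j) (φ j) = ∑ A, AddMonoidAlgebra.single (ind D A)
      (φ j A * (e w A * zs w A ^ ε j)) := fun j => rfl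
  rw [Finset.prod_range fun j => slot w (ε j) (φ j)]
  rw [Finset.prod_congr rfl fun t (_ : t ∈ (Finset.univ : Finset (Fin m))) => h1 t,
    Finset.prod_univ_sum, Fintype.piFinset_univ]
  exact Finset.sum_congr rfl fun A _ => UUform_prod_single _ _ _

/-- Proof: `prod_ind` with `P X = ∃ Q, X = XQ w ε n Q` (`XQ_add`, `XQ (C c * Q) = c • XQ Q`). A pure
product `∏ j ∈ range m, slot w (ε j) (φ j)` (the `U w ε n` are images of the `AF n` under `slot`)
is expanded by `Finset.prod_univ_sum` (`Finset.prod_range` first, to get a product over `Fin m`):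
it is `∑ A : Fin m → Finset (B D), single (∑ t, ind (A t)) (∏ t, φ t (A t) * (e * zs ^ ε))`. Use
`AF_form` and `Q = ∏ t, rename (Sum.map (fun p => (t, p.2)) id) (Q_t)`; the terms with
`typ (A t) ≠ n t` for some `t` vanish. -/
theorem exists_XQ (ε : ℕ → ℕ) (m : ℕ) (n : ℕ → D.I → ℕ)
    {X : AddMonoidAlgebra (S D Z) (B D → ℤ)} (hX : X ∈ UU w ε m n) :
    ∃ Q : PP D Z m, X = XQ w ε n Q := by
  classical
  refine prod_ind m (fun j => U w (ε j) (n j)) (fun X => ∃ Q : PP D Z m, X = XQ w ε n Q)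
    ?_ ?_ ?_ X hX
  · rintro _ _ ⟨Q, rfl⟩ ⟨Q', rfl⟩
    exact ⟨Q + Q', (XQ_add w ε n Q Q').symm⟩
  · rintro c _ ⟨Q, rfl⟩
    exact ⟨c • Q, (UUform_XQ_smul w ε n c Q).symm⟩
  · intro y hy
    have h1 : ∀ j, ∃ φ : Finset (B D) → S D Z, j < m → φ ∈ AF D Z (n j) ∧
        slot w (ε j) φ = y j := by
      intro j
      by_cases hj : j < m
      · obtain ⟨φ, hφ, h⟩ := hy j hj
        exact ⟨φ, fun _ => ⟨hφ, h⟩⟩
      · exact ⟨0, fun h => absurd h hj⟩
    choose φ hφ using h1
    have h2 : ∀ t : Fin m, ∃ Q : PP D Z 1, ∀ A, typ D A = n t →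
        φ t A = Dl D Z A * evA D Z (fun _ => A) Q := fun t => AF_form D Z (hφ t t.2).1
    choose Q hQ using h2
    refine ⟨∏ t : Fin m, rename (Sum.map (fun p : Fin 1 × D.I × ℕ => (t, p.2)) id) (Q t), ?_⟩
    rw [Finset.prod_congr rfl fun j hj => ((hφ j (Finset.mem_range.1 hj)).2).symm,
      UUform_slot_prod, XQ]
    refine Finset.sum_congr rfl fun A _ => ?_
    by_cases hA : ∀ t : Fin m, typ D (A t) = n t
    · rw [if_pos hA, map_prod, ← Finset.prod_mul_distrib]
      congr 1
      refine Finset.prod_congr rfl fun t _ => ?_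
      rw [UUform_evA_rename, hQ t (A t) (hA t)]
      ring
    · rw [if_neg hA]
      push Not at hA
      obtain ⟨t, ht⟩ := hA
      rw [Finset.prod_eq_zero (Finset.mem_univ t), AddMonoidAlgebra.single_zero]
      rw [(hφ t t.2).1.2 (A t) ht, zero_mul]

end Vale.Agent.P291.H.M
end
end

section

section

set_option autoImplicit false
set_option linter.unusedSectionVars false

/-! The diagonal coefficient. -/

namespace Vale.Agent.P291.H.M

open MvPolynomial Vale.Agent.P291.G

variable {D : QData} {Z : Type} (w : Wts D Z)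

/-- A tuple of subsets has `∑ t, ind (A t) = ind univ` iff it consists of the fibres of a unique
colouring. -/
theorem tuple_iff {m : ℕ} (A : Fin m → Finset (B D)) :
    ∑ t, ind D (A t) = ind D Finset.univ ↔ ∃ g : B D → Fin m, A = fb D g := by
  constructor
  · intro h
    have h1 : ∀ b : B D, ∃ t, (Finset.univ.filter fun t : Fin m => b ∈ A t) = {t} := by
      intro b
      have h2 := congrFun h b
      rw [Finset.sum_apply] at h2
      have h3 : ∀ t, ind D (A t) b = if b ∈ A t then 1 else 0 := fun t => rfl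
      simp only [h3] at h2
      have h4 : ind D Finset.univ b = 1 := if_pos (Finset.mem_univ _)
      rw [h4, Finset.sum_boole] at h2
      rw [← Finset.card_eq_one]
      exact_mod_cast h2
    choose g hg using h1
    refine ⟨g, ?_⟩
    funext t
    ext b
    rw [mem_fb]
    have h2 := Finset.ext_iff.1 (hg b) t
    rw [Finset.mem_filter, Finset.mem_singleton] at h2
    constructor
    · intro h3
      exact (h2.1 ⟨Finset.mem_univ _, h3⟩).symm
    · intro h3
      exact (h2.2 h3.symm).2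
  · rintro ⟨g, rfl⟩
    funext b
    rw [Finset.sum_apply]
    have h3 : ∀ t, ind D (fb D g t) b = if g b = t then 1 else 0 := by
      intro t
      rw [ind]
      exact if_congr (mem_fb D g t b) rfl rfl
    have h4 : ind D Finset.univ b = 1 := if_pos (Finset.mem_univ _)
    simp only [h3, h4]
    rw [Finset.sum_ite_eq, if_pos (Finset.mem_univ _)]

lemma fb_inj {m : ℕ} : Function.Injective (fb D : (B D → Fin m) → Fin m → Finset (B D)) := by
  intro g g' h
  funext b
  have h1 : b ∈ fb D g (g b) := (mem_fb D g (g b) b).2 rfl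
  rw [h, mem_fb] at h1
  exact h1.symm

open Classical in
theorem coeff_XQ (ε : ℕ → ℕ) {m : ℕ} (n : ℕ → D.I → ℕ) (Q : PP D Z m) :
    (XQ w ε n Q).coeff (ind D Finset.univ) =
      ∑ g : B D → Fin m, if ∀ t : Fin m, typ D (fb D g t) = n t then evA D Z (fb D g) Q *
        ∏ t : Fin m, (Dl D Z (fb D g t) * (e w (fb D g t) * zs w (fb D g t) ^ ε t)) else 0 := by
  have h1 : (XQ w ε n Q).coeff (ind D Finset.univ) =
      ∑ A : Fin m → Finset (B D), if A ∈ Finset.univ.image (fb D : (B D → Fin m) → _) then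
        (if ∀ t : Fin m, typ D (A t) = n t then evA D Z A Q *
          ∏ t : Fin m, (Dl D Z (A t) * (e w (A t) * zs w (A t) ^ ε t)) else 0) else 0 := by
    rw [XQ, AddMonoidAlgebra.coeff_sum, Finsupp.finsetSum_apply]
    refine Finset.sum_congr rfl fun A _ => ?_
    have h2 : A ∈ Finset.univ.image (fb D : (B D → Fin m) → _) ↔
        ∑ t, ind D (A t) = ind D Finset.univ := by
      rw [tuple_iff, Finset.mem_image]
      exact ⟨fun ⟨g, _, hg⟩ => ⟨g, hg.symm⟩, fun ⟨g, hg⟩ => ⟨g, Finset.mem_univ _, hg.symm⟩⟩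
    by_cases h3 : ∀ t : Fin m, typ D (A t) = n t
    · rw [if_pos h3, AddMonoidAlgebra.coeff_single, Finsupp.single_apply]
      by_cases h4 : ∑ t, ind D (A t) = ind D Finset.univ
      · rw [if_pos h4, if_pos (h2.2 h4), if_pos h3]
      · rw [if_neg h4, if_neg fun h5 => h4 (h2.1 h5)]
    · rw [if_neg h3]
      by_cases h4 : A ∈ Finset.univ.image (fb D : (B D → Fin m) → _)
      · rw [if_pos h4, if_neg h3]
        rfl
      · rw [if_neg h4]
        rfl
  rw [h1, ← Finset.sum_filter, Finset.filter_mem_eq_inter, Finset.univ_inter,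
    Finset.sum_image fun g _ g' _ h => fb_inj h]

end Vale.Agent.P291.H.M
end
end

section

section

set_option autoImplicit false
set_option linter.unusedSectionVars false

/-! The diagonal coefficient and `Δ`. -/

namespace Vale.Agent.P291.H.M

open MvPolynomial Vale.Agent.P291.G

variable {D : QData} {Z : Type} (w : Wts D Z)

theorem diag (ε : ℕ → ℕ) {m : ℕ} (n : ℕ → D.I → ℕ) (Q : PP D Z m) :
    (XQ w ε n Q).coeff (ind D Finset.univ) * ddT D Z = del D Z ^ m * ee w ε n Q := by
  classical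
  rw [coeff_XQ, ee, Finset.sum_mul, Finset.mul_sum]
  refine Finset.sum_congr rfl fun g _ => ?_
  by_cases h : ∀ t : Fin m, typ D (fb D g t) = n t
  · rw [if_pos h, if_pos h, Finset.prod_mul_distrib]
    have h1 := dd_Dl D Z g
    rw [WW]
    calc _ = evA D Z (fb D g) Q * (ddT D Z * ∏ t : Fin m, Dl D Z (fb D g t)) *
          ∏ t : Fin m, (e w (fb D g t) * zs w (fb D g t) ^ ε t) := by ring
      _ = _ := by rw [h1]; ring
  · rw [if_neg h, if_neg h, zero_mul, mul_zero]

end Vale.Agent.P291.H.M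
end
end

section

section

set_option autoImplicit false
set_option linter.unusedSectionVars false

/-! The weights of the representation `N`. -/

namespace Vale.Agent.P291.H

open MvPolynomial Vale.Agent.P291.G

variable (D : QData)

section wfaux

lemma wf_act_xx (σ : W D) (b : B D) :
    act D (Fin D.rk) σ (xx D (Fin D.rk) b) = xx D (Fin D.rk) (perm D σ b) := by
  rw [act, xx, rename_X]; rfl

lemma wf_act_YY (σ : W D) (j : Fin D.rk) : act D (Fin D.rk) σ (YY D j) = YY D j :=
  actP_YY D σ j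

lemma wf_act_lin (σ : W D) (m : Fin D.rk → ℤ) :
    act D (Fin D.rk) σ (lin (YY D) m) = lin (YY D) m := by
  have h := map_lin (act D (Fin D.rk) σ).toRingHom (YY D) m
  refine h.trans ?_
  congr 1
  funext j
  exact wf_act_YY D σ j

/-- evaluation at a point of the gauge torus -/
noncomputable def wfEv (c : B D) : S D (Fin D.rk) →ₐ[ℂ] ℂ :=
  aeval (Sum.elim (fun b => if b = c then 1 else 0) fun _ => 0)

lemma wfEv_xx (c b : B D) : wfEv D c (xx D (Fin D.rk) b) = if b = c then 1 else 0 := by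
  rw [wfEv, xx, aeval_X]; rfl

lemma wfEv_lin (c : B D) (m : Fin D.rk → ℤ) : wfEv D c (lin (YY D) m) = 0 := by
  have h := map_lin (wfEv D c).toRingHom (YY D) m
  refine h.trans ?_
  have h3 : ∀ j, wfEv D c (YY D j) = 0 := by
    intro j
    rw [wfEv, YY, aeval_X]; rfl
  simp [lin, h3]

lemma wf_ne1 (b c : B D) (h : b ≠ c) (m : Fin D.rk → ℤ) :
    xx D (Fin D.rk) c - xx D (Fin D.rk) b + lin (YY D) m ≠ 0 := by
  intro h0
  have h1 := congrArg (wfEv D c) h0
  rw [map_add, map_sub, wfEv_lin, wfEv_xx, wfEv_xx, if_pos rfl, if_neg h, map_zero] at h1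
  norm_num at h1

lemma wf_ne2 (b : B D) (m : Fin D.rk → ℤ) : lin (YY D) m - xx D (Fin D.rk) b ≠ 0 := by
  intro h0
  have h1 := congrArg (wfEv D b) h0
  rw [map_sub, wfEv_lin, wfEv_xx, if_pos rfl, map_zero] at h1
  norm_num at h1

end wfaux

/-- the weights of `N` -/
noncomputable def wF : Wts D (Fin D.rk) where
  h b c := ∏ a with D.src a = b.1 ∧ D.tgt a = c.1,
    (xx D (Fin D.rk) c - xx D (Fin D.rk) b + lin (YY D) (D.ta a))
  z b := ∏ k : Fin (D.w b.1), (lin (YY D) (D.tw b.1 k) - xx D (Fin D.rk) b)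
  h_act := by
    intro σ b c
    rw [map_prod]
    refine Finset.prod_congr rfl fun a _ => ?_
    rw [map_add, map_sub, wf_act_xx, wf_act_xx, wf_act_lin]
  z_act := by
    intro σ b
    rw [map_prod]
    refine Finset.prod_congr rfl fun k _ => ?_
    rw [map_sub, wf_act_xx, wf_act_lin]
    rfl
  h_ne := by
    intro b c hbc
    exact Finset.prod_ne_zero_iff.2 fun a _ => wf_ne1 D b c hbc _
  z_ne := by
    intro b
    exact Finset.prod_ne_zero_iff.2 fun k _ => wf_ne2 D b _

section wfaux2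

lemma wf_prod_fib {M : Type} [CommMonoid M] (i0 : D.I) (g : B D → M) :
    ∏ b : B D, (if i0 = b.1 then g b else 1) = ∏ r : Fin (D.v i0), g ⟨i0, r⟩ := by
  rw [Fintype.prod_sigma]
  have h : ∀ i : D.I, (∏ r : Fin (D.v i), (if i0 = i then g ⟨i, r⟩ else 1)) =
      if i0 = i then ∏ r : Fin (D.v i), g ⟨i, r⟩ else 1 := by
    intro i
    split_ifs
    · rfl
    · exact Finset.prod_const_one
  rw [Finset.prod_congr rfl fun i _ => h i, Finset.prod_ite_eq, if_pos (Finset.mem_univ _)]

/-- the first factor of `eul` -/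
noncomputable def wfE (l : B D → ℤ) : P D :=
  ∏ a, ∏ r, ∏ s, (XX D ⟨D.tgt a, s⟩ - XX D ⟨D.src a, r⟩ + lin (YY D) (D.ta a)) ^
      (l ⟨D.src a, r⟩ - l ⟨D.tgt a, s⟩).toNat

/-- the second factor of `eul` -/
noncomputable def wfZ (l : B D → ℤ) : P D :=
  ∏ i, ∏ r, ∏ k, (lin (YY D) (D.tw i k) - XX D ⟨i, r⟩) ^ (l ⟨i, r⟩).toNat

lemma wf_eul (l : B D → ℤ) : eul D (XX D) (YY D) l = wfE D l * wfZ D l := rfl

lemma wfE_eq (l : B D → ℤ) : wfE D l = ∏ b : B D, ∏ c : B D, ∏ a,
    if D.src a = b.1 ∧ D.tgt a = c.1 then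
      (XX D c - XX D b + lin (YY D) (D.ta a)) ^ (l b - l c).toNat else 1 := by
  have h1 : ∀ a, (∏ r, ∏ s, (XX D ⟨D.tgt a, s⟩ - XX D ⟨D.src a, r⟩ + lin (YY D) (D.ta a)) ^
      (l ⟨D.src a, r⟩ - l ⟨D.tgt a, s⟩).toNat) = ∏ b : B D, ∏ c : B D,
      if D.src a = b.1 ∧ D.tgt a = c.1 then
        (XX D c - XX D b + lin (YY D) (D.ta a)) ^ (l b - l c).toNat else 1 := by
    intro a
    rw [← wf_prod_fib D (D.src a) fun b => ∏ s,
      (XX D ⟨D.tgt a, s⟩ - XX D b + lin (YY D) (D.ta a)) ^ (l b - l ⟨D.tgt a, s⟩).toNat]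
    refine Finset.prod_congr rfl fun b _ => ?_
    by_cases hb : D.src a = b.1
    · rw [if_pos hb, ← wf_prod_fib D (D.tgt a) fun c =>
        (XX D c - XX D b + lin (YY D) (D.ta a)) ^ (l b - l c).toNat]
      refine Finset.prod_congr rfl fun c _ => ?_
      exact if_congr (by simp [hb]) rfl rfl
    · rw [if_neg hb]
      symm
      exact Finset.prod_eq_one fun c _ => if_neg fun h => hb h.1
  unfold wfE
  rw [Finset.prod_congr rfl fun a _ => h1 a, Finset.prod_comm]
  refine Finset.prod_congr rfl fun b _ => ?_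
  rw [Finset.prod_comm]

lemma wfE_ind (A : Finset (B D)) : wfE D (ind D A) = e (wF D) A := by
  rw [wfE_eq]
  have h1 : ∀ b c : B D, (∏ a, if D.src a = b.1 ∧ D.tgt a = c.1 then
      (XX D c - XX D b + lin (YY D) (D.ta a)) ^ (ind D A b - ind D A c).toNat else 1) =
      if b ∈ A then (if c ∈ Aᶜ then (wF D).h b c else 1) else 1 := by
    intro b c
    by_cases hb : b ∈ A
    · by_cases hc : c ∈ A
      · have hc' : c ∉ Aᶜ := by simpa using hc
        rw [if_pos hb, if_neg hc', ind, ind, if_pos hb, if_pos hc]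
        exact Finset.prod_eq_one fun a _ => by simp
      · have hc' : c ∈ Aᶜ := by simpa using hc
        rw [if_pos hb, if_pos hc', ind, ind, if_pos hb, if_neg hc]
        have h2 : ((1 : ℤ) - 0).toNat = 1 := rfl
        rw [h2]
        simp only [pow_one]
        exact (Finset.prod_filter _ _).symm
    · rw [if_neg hb, ind, if_neg hb]
      have h2 : ((0 : ℤ) - ind D A c).toNat = 0 := by
        unfold ind
        split_ifs <;> rfl
      rw [h2]
      exact Finset.prod_eq_one fun a _ => by simp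
  have h3 : ∀ b : B D, (∏ c : B D, if b ∈ A then (if c ∈ Aᶜ then (wF D).h b c else 1) else 1) =
      if b ∈ A then ∏ c ∈ Aᶜ, (wF D).h b c else 1 := by
    intro b
    split_ifs
    · rw [Finset.prod_ite_mem, Finset.univ_inter]
    · exact Finset.prod_const_one
  rw [Finset.prod_congr rfl fun b _ => Finset.prod_congr rfl fun c _ => h1 b c,
    Finset.prod_congr rfl fun b _ => h3 b, Finset.prod_ite_mem, Finset.univ_inter]
  rfl

lemma wfZ_ind (A : Finset (B D)) : wfZ D (ind D A) = zs (wF D) A := by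
  have h1 : wfZ D (ind D A) = ∏ b : B D, ∏ k : Fin (D.w b.1),
      (lin (YY D) (D.tw b.1 k) - XX D b) ^ (ind D A b).toNat := by
    rw [Fintype.prod_sigma]
    rfl
  have h2 : ∀ b : B D, (∏ k : Fin (D.w b.1),
      (lin (YY D) (D.tw b.1 k) - XX D b) ^ (ind D A b).toNat) =
      if b ∈ A then (wF D).z b else 1 := by
    intro b
    by_cases hb : b ∈ A
    · rw [if_pos hb, ind, if_pos hb]
      have h2 : (1 : ℤ).toNat = 1 := rfl
      rw [h2]
      simp only [pow_one]
      rfl
    · rw [if_neg hb, ind, if_neg hb]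
      exact Finset.prod_eq_one fun a _ => by simp
  rw [h1, Finset.prod_congr rfl fun b _ => h2 b, Finset.prod_ite_mem, Finset.univ_inter]
  rfl

end wfaux2

lemma eul_ind (A : Finset (B D)) : eul D (XX D) (YY D) (ind D A) = e (wF D) A * zs (wF D) A := by
  rw [wf_eul, wfE_ind, wfZ_ind]

lemma eul_neg_ind (A : Finset (B D)) : eul D (XX D) (YY D) (-ind D A) = e (wF D) Aᶜ := by
  rw [wf_eul, ← wfE_ind]
  have h1 : ∀ b, (-ind D A) b = ind D Aᶜ b - 1 := by
    intro b
    rw [Pi.neg_apply, ind, ind]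
    by_cases hb : b ∈ A
    · have : b ∉ Aᶜ := by simpa using hb
      rw [if_pos hb, if_neg this]; norm_num
    · have : b ∈ Aᶜ := by simpa using hb
      rw [if_neg hb, if_pos this]; norm_num
  have h2 : wfE D (-ind D A) = wfE D (ind D Aᶜ) := by
    unfold wfE
    simp only [h1, sub_sub_sub_cancel_right]
  have h3 : wfZ D (-ind D A) = 1 := by
    unfold wfZ
    refine Finset.prod_eq_one fun i _ => Finset.prod_eq_one fun r _ =>
      Finset.prod_eq_one fun k _ => ?_
    have h4 : ((-ind D A) ⟨i, r⟩).toNat = 0 := by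
      rw [Pi.neg_apply, ind]
      split_ifs <;> rfl
    rw [h4, pow_zero]
  rw [h2, h3, mul_one]

end Vale.Agent.P291.H
end
end

section

section

set_option autoImplicit false
set_option linter.unusedSectionVars false

/-! From the ideal `fixI` to products of slots. -/

namespace Vale.Agent.P291.H

open MvPolynomial Vale.Agent.P291.G

variable (D : QData)

namespace PadAux

/-! ### charges -/

/-- the charge of a cocharacter -/
def pchg (l : B D → ℤ) (i : D.I) : ℤ := ∑ r : Fin (D.v i), l ⟨i, r⟩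

lemma pchg_add (l l' : B D → ℤ) : pchg D (l + l') = pchg D l + pchg D l' := by
  funext i
  rw [Pi.add_apply, pchg, pchg, pchg, ← Finset.sum_add_distrib]
  rfl

lemma pchg_ind (A : Finset (B D)) : pchg D (ind D A) = fun i => ((typ D A i : ℕ) : ℤ) := by
  funext i
  rw [pchg, typ, Finset.card_filter]
  simp only [ind]
  push_cast
  rw [← Finset.sum_filter, ← Finset.sum_filter]
  simp only [Finset.sum_const, mul_one, nsmul_eq_mul]
  congr 1
  refine Finset.card_bij' (fun r _ => (⟨i, r⟩ : B D)) (fun b hb => by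
    have hb' := (Finset.mem_filter.1 hb).2
    exact hb' ▸ b.2) ?_ ?_ ?_ ?_
  · intro r hr
    simpa using hr
  · rintro ⟨j, r⟩ hb
    obtain ⟨h1, h2⟩ := Finset.mem_filter.1 hb
    simp only at h2
    subst h2
    simpa using h1
  · intro r hr
    rfl
  · rintro ⟨j, r⟩ hb
    obtain ⟨h1, h2⟩ := Finset.mem_filter.1 hb
    simp only at h2
    subst h2
    rfl

lemma pwt_chg (ν : D.I → ℤ) (l : B D → ℤ) : wt D ν l = ∑ i, ν i * pchg D l i := by
  rw [wt, Fintype.sum_sigma]
  refine Finset.sum_congr rfl fun i _ => ?_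
  rw [pchg, Finset.mul_sum]

/-- the algebra -/
abbrev MA : Type := AddMonoidAlgebra (S D (Fin D.rk)) (B D → ℤ)

/-- homogeneous elements -/
noncomputable def Mc (d : D.I → ℤ) : Submodule ℂ (MA D) :=
  Submodule.span ℂ {y | ∃ l s, pchg D l = d ∧ y = AddMonoidAlgebra.single l s}

lemma Mc_mul (d d' : D.I → ℤ) : Mc D d * Mc D d' ≤ Mc D (d + d') := by
  rw [Mc, Mc, Submodule.span_mul_span, Submodule.span_le]
  rintro z hz
  obtain ⟨a, ⟨l, s, hl, rfl⟩, b, ⟨l', s', hl', rfl⟩, rfl⟩ := Set.mem_mul.1 hz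
  refine Submodule.subset_span ⟨l + l', s * s', ?_, ?_⟩
  · rw [pchg_add, hl, hl']
  · rw [AddMonoidAlgebra.single_mul_single]

/-- the projection to a charge -/
noncomputable def prj (d : D.I → ℤ) : MA D →ₗ[ℂ] MA D where
  toFun Y := AddMonoidAlgebra.ofCoeff (Y.coeff.filter fun l => pchg D l = d)
  map_add' Y Z := by
    rw [AddMonoidAlgebra.coeff_add, Finsupp.filter_add, AddMonoidAlgebra.ofCoeff_add]
  map_smul' c Y := by
    rw [AddMonoidAlgebra.coeff_smul, Finsupp.filter_smul, RingHom.id_apply]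
    rfl

lemma prj_single_of {d : D.I → ℤ} {l : B D → ℤ} (h : pchg D l = d) (s : S D (Fin D.rk)) :
    prj D d (AddMonoidAlgebra.single l s) = AddMonoidAlgebra.single l s := by
  change AddMonoidAlgebra.ofCoeff (Finsupp.filter _ (Finsupp.single l s)) = _
  rw [Finsupp.filter_single_of_pos (fun l => pchg D l = d) h]
  rfl

lemma prj_single_ne {d : D.I → ℤ} {l : B D → ℤ} (h : pchg D l ≠ d) (s : S D (Fin D.rk)) :
    prj D d (AddMonoidAlgebra.single l s) = 0 := by
  change AddMonoidAlgebra.ofCoeff (Finsupp.filter _ (Finsupp.single l s)) = _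
  rw [Finsupp.filter_single_of_neg (fun l => pchg D l = d) h]
  rfl

lemma prj_Mc {d : D.I → ℤ} {y : MA D} (h : y ∈ Mc D d) : prj D d y = y := by
  induction h using Submodule.span_induction with
  | mem y hy => obtain ⟨l, s, hl, rfl⟩ := hy; exact prj_single_of D hl s
  | zero => rw [map_zero]
  | add a b _ _ ha hb => rw [map_add, ha, hb]
  | smul c a _ ha => rw [map_smul, ha]

lemma prj_Mc_ne {d d' : D.I → ℤ} (hd : d' ≠ d) {y : MA D} (h : y ∈ Mc D d') : prj D d y = 0 := by
  induction h using Submodule.span_induction with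
  | mem y hy => obtain ⟨l, s, hl, rfl⟩ := hy; exact prj_single_ne D (hl ▸ hd) s
  | zero => rw [map_zero]
  | add a b _ _ ha hb => rw [map_add, ha, hb, add_zero]
  | smul c a _ ha => rw [map_smul, ha, smul_zero]

lemma prj_eq_zero {d : D.I → ℤ} {y : MA D} (h : ∀ l, pchg D l = d → y.coeff l = 0) :
    prj D d y = 0 := by
  change AddMonoidAlgebra.ofCoeff (Finsupp.filter _ y.coeff) = _
  have : Finsupp.filter (fun l => pchg D l = d) y.coeff = 0 := by
    rw [Finsupp.filter_eq_zero_iff]
    exact h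
  rw [this]
  rfl

/-! ### products of slots -/

lemma U_le_Mc (ε : ℕ) (n : D.I → ℕ) : U (wF D) ε n ≤ Mc D (fun i => (n i : ℤ)) := by
  rintro y ⟨φ, hφ, rfl⟩
  change ∑ A, AddMonoidAlgebra.single (ind D A) (φ A * (e (wF D) A * zs (wF D) A ^ ε)) ∈ _
  refine Submodule.sum_mem _ fun A _ => ?_
  by_cases hA : typ D A = n
  · exact Submodule.subset_span ⟨_, _, by rw [pchg_ind, hA], rfl⟩
  · rw [hφ.2 A hA, zero_mul, AddMonoidAlgebra.single_zero]
    exact Submodule.zero_mem _

/-- product of the slot spaces of a multiset of types -/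
noncomputable def PA (ε : ℕ) (s : Multiset (D.I → ℕ)) : Submodule ℂ (MA D) :=
  (s.map (U (wF D) ε)).prod

lemma PA_add (ε : ℕ) (s t : Multiset (D.I → ℕ)) : PA D ε (s + t) = PA D ε s * PA D ε t := by
  rw [PA, Multiset.map_add, Multiset.prod_add, PA, PA]

lemma PA_le_Mc (ε : ℕ) (s : Multiset (D.I → ℕ)) : PA D ε s ≤ Mc D (fun i => ((s.sum i : ℕ) : ℤ)) := by
  induction s using Multiset.induction_on with
  | empty =>
    rw [PA, Multiset.map_zero, Multiset.prod_zero, Submodule.one_le]
    refine Submodule.subset_span ⟨0, 1, ?_, rfl⟩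
    funext i
    simp [pchg]
  | cons n s ih =>
    rw [PA, Multiset.map_cons, Multiset.prod_cons, Multiset.sum_cons]
    refine (mul_le_mul' (U_le_Mc D ε n) ih).trans ((Mc_mul D _ _).trans (le_of_eq ?_))
    congr 1

/-- pairs of multisets of types -/
abbrev MP : Type := Multiset (D.I → ℕ) × Multiset (D.I → ℕ)

/-- products of `N` plain and `N` other slots, with a condition on the types -/
noncomputable def VQ (Q : MP D → Prop) (N : ℕ) : Submodule ℂ (MA D) :=
  ⨆ p : MP D, ⨆ _ : Multiset.card p.1 = N ∧ Multiset.card p.2 = N ∧ Q p,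
    PA D 0 p.1 * PA D 1 p.2

/-- not all types are trivial -/
def NT (p : MP D) : Prop := ¬ ((∀ n ∈ p.1, n = D.v) ∧ ∀ n ∈ p.2, n = 0)

lemma VQ_mul {Q Q' Q'' : MP D → Prop} (h : ∀ p q, Q p → Q' q → Q'' (p + q)) (N N' : ℕ) :
    VQ D Q N * VQ D Q' N' ≤ VQ D Q'' (N + N') := by
  simp only [VQ, Submodule.iSup_mul, Submodule.mul_iSup, iSup_le_iff]
  rintro q ⟨h4, h5, h6⟩ p ⟨h1, h2, h3⟩
  refine le_iSup₂_of_le (p + q) ⟨?_, ?_, h p q h3 h6⟩ ?_
  · rw [Prod.fst_add, Multiset.card_add, h1, h4]
  · rw [Prod.snd_add, Multiset.card_add, h2, h5]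
  · rw [Prod.fst_add, Prod.snd_add, PA_add, PA_add]
    exact le_of_eq (mul_mul_mul_comm (G := Submodule ℂ (MA D)) _ _ _ _)

lemma VQ_mono {Q Q' : MP D → Prop} (h : ∀ p, Q p → Q' p) (N : ℕ) : VQ D Q N ≤ VQ D Q' N := by
  refine iSup₂_le fun p hp => ?_
  exact le_iSup₂_of_le p ⟨hp.1, hp.2.1, h p hp.2.2⟩ le_rfl

/-- all products -/
noncomputable abbrev VT (N : ℕ) : Submodule ℂ (MA D) := VQ D (fun _ => True) N

/-- nontrivial products -/
noncomputable abbrev VN (N : ℕ) : Submodule ℂ (MA D) := VQ D (NT D) N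

lemma VT_mul (N N' : ℕ) : VT D N * VT D N' ≤ VT D (N + N') := VQ_mul D (fun _ _ _ _ => trivial) N N'

lemma VT_VN (N N' : ℕ) : VT D N * VN D N' ≤ VN D (N + N') := by
  refine VQ_mul D (fun p q _ hq hpq => hq ⟨fun n hn => ?_, fun n hn => ?_⟩) N N'
  · exact hpq.1 n (by rw [Prod.fst_add]; exact Multiset.mem_add.2 (Or.inr hn))
  · exact hpq.2 n (by rw [Prod.snd_add]; exact Multiset.mem_add.2 (Or.inr hn))

lemma slot_mem_VT {n m : D.I → ℕ} {a b : MA D} (ha : a ∈ U (wF D) 0 n) (hb : b ∈ U (wF D) 1 m) :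
    a * b ∈ VT D 1 := by
  have h1 : PA D 0 {n} * PA D 1 {m} ≤ VT D 1 :=
    le_iSup₂_of_le (({n}, {m}) : MP D) ⟨rfl, rfl, trivial⟩ le_rfl
  refine h1 (Submodule.mul_mem_mul ?_ ?_)
  · rw [PA, Multiset.map_singleton, Multiset.prod_singleton]; exact ha
  · rw [PA, Multiset.map_singleton, Multiset.prod_singleton]; exact hb

/-- the projection of a nontrivial product is nontrivial -/
lemma prj_VN (d : D.I → ℤ) {N : ℕ} {y : MA D} (h : y ∈ VN D N) : prj D d y ∈ VN D N := by
  have h1 : (VN D N).map (prj D d) ≤ VN D N := by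
    simp only [VN, VQ, Submodule.map_iSup, iSup_le_iff]
    rintro p hp
    rintro z ⟨y, hy, rfl⟩
    have h2 : PA D 0 p.1 * PA D 1 p.2 ≤ Mc D ((fun i => ((p.1.sum i : ℕ) : ℤ)) +
        fun i => ((p.2.sum i : ℕ) : ℤ)) :=
      (mul_le_mul' (PA_le_Mc D 0 p.1) (PA_le_Mc D 1 p.2)).trans (Mc_mul D _ _)
    by_cases hd : ((fun i => ((p.1.sum i : ℕ) : ℤ)) + fun i => ((p.2.sum i : ℕ) : ℤ)) = d
    · rw [prj_Mc D (hd ▸ h2 hy)]
      exact (le_iSup₂_of_le (f := fun (p : MP D) (_ : Multiset.card p.1 = N ∧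
        Multiset.card p.2 = N ∧ NT D p) => PA D 0 p.1 * PA D 1 p.2) p hp le_rfl) hy
    · rw [prj_Mc_ne D hd (h2 hy)]
      exact Submodule.zero_mem _
  exact h1 ⟨y, h, rfl⟩

/-- decomposition of a product -/
lemma VT_decomp {N : ℕ} {y : MA D} (h : y ∈ VT D N) : ∃ y' ∈ VN D N, ∃ z ∈
    Mc D (fun i => ((N * D.v i : ℕ) : ℤ)), y = y' + z := by
  have h1 : VT D N ≤ VN D N ⊔ Mc D (fun i => ((N * D.v i : ℕ) : ℤ)) := by
    refine iSup₂_le fun p hp => ?_
    by_cases hn : NT D p
    · exact le_sup_of_le_left (le_iSup₂_of_le p ⟨hp.1, hp.2.1, hn⟩ le_rfl)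
    · refine le_sup_of_le_right ?_
      rw [NT, not_not] at hn
      refine (mul_le_mul' (PA_le_Mc D 0 p.1) (PA_le_Mc D 1 p.2)).trans
        ((Mc_mul D _ _).trans (le_of_eq ?_))
      congr 1
      funext i
      have e1 : p.1 = Multiset.replicate N D.v := Multiset.eq_replicate.2 ⟨hp.1, hn.1⟩
      have e2 : p.2 = Multiset.replicate N 0 := Multiset.eq_replicate.2 ⟨hp.2.1, hn.2⟩
      rw [Pi.add_apply, e1, e2, Multiset.sum_replicate, Multiset.sum_replicate]
      simp
  obtain ⟨y', hy', z, hz, rfl⟩ := Submodule.mem_sup.1 (h1 h)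
  exact ⟨y', hy', z, hz, rfl⟩

/-- a product without component of charge `N v` is nontrivial -/
lemma VN_of_VT {N : ℕ} {y : MA D} (h : y ∈ VT D N)
    (h0 : prj D (fun i => ((N * D.v i : ℕ) : ℤ)) y = 0) : y ∈ VN D N := by
  obtain ⟨y', hy', z, hz, rfl⟩ := VT_decomp D h
  rw [map_add, prj_Mc D hz] at h0
  have : y' + z = y' - prj D (fun i => ((N * D.v i : ℕ) : ℤ)) y' := by
    rw [sub_eq_add_neg, ← eq_neg_of_add_eq_zero_right h0]
  rw [this]
  exact Submodule.sub_mem _ hy' (prj_VN D _ hy')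

/-! ### from multisets to sequences -/

lemma prod_getD {M : Type*} [CommMonoid M] (g : (D.I → ℕ) → M) (l : List (D.I → ℕ)) :
    (l.map g).prod = ∏ j ∈ Finset.range l.length, g (l.getD j 0) := by
  induction l with
  | nil => simp
  | cons a l ih =>
    rw [List.map_cons, List.prod_cons, List.length_cons, Finset.prod_range_succ', ih, mul_comm]
    rfl

lemma sum_getD (l : List (D.I → ℕ)) : l.sum = ∑ j ∈ Finset.range l.length, l.getD j 0 := by
  induction l with
  | nil => simp
  | cons a l ih =>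
    rw [List.sum_cons, List.length_cons, Finset.sum_range_succ', ih, add_comm]
    rfl

lemma VN_seq {N : ℕ} {y : MA D} (h : y ∈ VN D N)
    (hy : prj D (fun i => ((N * D.v i : ℕ) : ℤ)) y = y) :
    y ∈ ⨆ n : ℕ → D.I → ℕ, ⨆ _ : seqOK (2 * N) N n, UU (wF D) (ep N) (2 * N) n := by
  rw [← hy]
  have h1 : (VN D N).map (prj D (fun i => ((N * D.v i : ℕ) : ℤ))) ≤
      ⨆ n : ℕ → D.I → ℕ, ⨆ _ : seqOK (2 * N) N n, UU (wF D) (ep N) (2 * N) n := by
    simp only [VN, VQ, Submodule.map_iSup]
    refine iSup₂_le ?_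
    rintro p ⟨hp1, hp2, hp3⟩
    have h2 : PA D 0 p.1 * PA D 1 p.2 ≤ Mc D ((fun i => ((p.1.sum i : ℕ) : ℤ)) +
        fun i => ((p.2.sum i : ℕ) : ℤ)) :=
      (mul_le_mul' (PA_le_Mc D 0 p.1) (PA_le_Mc D 1 p.2)).trans (Mc_mul D _ _)
    rintro z ⟨y, hy, rfl⟩
    by_cases hd : ((fun i => ((p.1.sum i : ℕ) : ℤ)) + fun i => ((p.2.sum i : ℕ) : ℤ)) =
        fun i => ((N * D.v i : ℕ) : ℤ)
    · rw [prj_Mc D (hd ▸ h2 hy)]
      obtain ⟨s, t⟩ := p
      obtain ⟨l1, rfl⟩ := Quot.exists_rep s
      obtain ⟨l2, rfl⟩ := Quot.exists_rep t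
      have e1 : l1.length = N := hp1
      have e2 : l2.length = N := hp2
      have e3 : (l1 ++ l2).length = 2 * N := by rw [List.length_append, e1, e2, two_mul]
      have g1 : ∀ j ∈ Finset.range N, (l1 ++ l2).getD j 0 = l1.getD j 0 := by
        intro j hj
        rw [Finset.mem_range] at hj
        rw [List.getD_append _ _ _ _ (by omega)]
      have g2 : ∀ j ∈ Finset.range N, (l1 ++ l2).getD (N + j) 0 = l2.getD j 0 := by
        intro j hj
        rw [List.getD_append_right _ _ _ _ (by omega)]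
        congr 1
        omega
      have hle : PA D 0 (Quot.mk _ l1) * PA D 1 (Quot.mk _ l2) ≤
          ⨆ n : ℕ → D.I → ℕ, ⨆ _ : seqOK (2 * N) N n, UU (wF D) (ep N) (2 * N) n := ?_
      exact hle hy
      refine le_iSup₂_of_le (fun j => (l1 ++ l2).getD j 0) ?_ ?_
      · refine ⟨fun j hj => List.getD_eq_default _ _ (by omega), ?_, ?_⟩
        · rw [← e3, ← sum_getD, List.sum_append]
          funext i
          have h3 := congrFun hd i
          rw [Pi.add_apply] at h3
          have h4 : (Multiset.sum (Quot.mk _ l1 : Multiset (D.I → ℕ))) = l1.sum :=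
            Multiset.sum_coe l1
          have h5 : (Multiset.sum (Quot.mk _ l2 : Multiset (D.I → ℕ))) = l2.sum :=
            Multiset.sum_coe l2
          simp only [h4, h5] at h3
          rw [Pi.add_apply, Pi.smul_apply, smul_eq_mul]
          exact_mod_cast h3
        · intro hT
          apply hp3
          refine ⟨fun n hn => ?_, fun n hn => ?_⟩
          · have hn' : n ∈ l1 := hn
            obtain ⟨j, hj, rfl⟩ := List.getElem_of_mem hn'
            have := congrFun hT j
            simp only [seqT] at this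
            rw [if_pos (by omega), g1 j (Finset.mem_range.2 (by omega)),
              List.getD_eq_getElem _ _ hj] at this
            exact this
          · have hn' : n ∈ l2 := hn
            obtain ⟨j, hj, rfl⟩ := List.getElem_of_mem hn'
            have := congrFun hT (N + j)
            simp only [seqT] at this
            rw [if_neg (by omega), g2 j (Finset.mem_range.2 (by omega)),
              List.getD_eq_getElem _ _ hj] at this
            exact this
      · rw [UU, two_mul, Finset.prod_range_add]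
        refine le_of_eq ?_
        congr 1
        · have h3 : PA D 0 (Quot.mk _ l1) = (l1.map (U (wF D) 0)).prod := by
            change (Multiset.map (U (wF D) 0) (l1 : Multiset (D.I → ℕ))).prod = _
            rw [Multiset.map_coe, Multiset.prod_coe]
          change PA D 0 (Quot.mk _ l1) = _
          rw [h3]
          refine (prod_getD D (U (wF D) 0) l1).trans ?_
          rw [e1]
          refine Finset.prod_congr rfl fun j hj => ?_
          rw [g1 j hj, ep, if_pos (Finset.mem_range.1 hj)]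
        · have h3 : PA D 1 (Quot.mk _ l2) = (l2.map (U (wF D) 1)).prod := by
            change (Multiset.map (U (wF D) 1) (l2 : Multiset (D.I → ℕ))).prod = _
            rw [Multiset.map_coe, Multiset.prod_coe]
          change PA D 1 (Quot.mk _ l2) = _
          rw [h3]
          refine (prod_getD D (U (wF D) 1) l2).trans ?_
          rw [e2]
          refine Finset.prod_congr rfl fun j hj => ?_
          rw [g2 j hj, ep, if_neg (by omega)]
    · rw [prj_Mc_ne D hd (h2 hy)]
      exact Submodule.zero_mem _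
  exact h1 ⟨y, h, rfl⟩

/-! ### the padding element -/

/-- `del² u^1` -/
noncomputable def Tt : MA D :=
  AddMonoidAlgebra.single (ind D Finset.univ) (del D (Fin D.rk) ^ 2)

lemma mp_univ (σ : W D) : mp D σ Finset.univ = Finset.univ := by
  ext b
  rw [mem_mp']
  simp

lemma mp_empty (σ : W D) : mp D σ ∅ = ∅ := by
  ext b
  rw [mem_mp']
  simp

lemma univ_mem_U {s : S D (Fin D.rk)} (hs : ∀ σ : W D, act D (Fin D.rk) σ s = s) :
    AddMonoidAlgebra.single (ind D Finset.univ) (del D (Fin D.rk) * s) ∈ U (wF D) 0 D.v := by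
  classical
  refine ⟨fun A => if A = Finset.univ then del D (Fin D.rk) * s else 0, ⟨fun σ A => ?_,
    fun A hA => ?_⟩, ?_⟩
  · by_cases h : A = Finset.univ
    · subst h
      simp only [mp_univ, if_true]
      rw [map_mul, act_del, hs, mul_assoc]
    · have h2 : mp D σ A ≠ Finset.univ := fun h3 => h (mp_inj D σ (h3.trans (mp_univ D σ).symm))
      simp only [if_neg h, if_neg h2, map_zero, mul_zero]
  · simp only
    rw [if_neg]
    rintro rfl
    exact hA (typ_univ D)
  · change ∑ A, AddMonoidAlgebra.single (ind D A) (_ * (e (wF D) A * zs (wF D) A ^ 0)) = _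
    rw [Finset.sum_eq_single Finset.univ]
    · simp only [if_true, e, Finset.compl_univ, Finset.prod_empty, Finset.prod_const_one, pow_zero,
        mul_one]
    · intro A _ hA
      rw [if_neg hA, zero_mul, AddMonoidAlgebra.single_zero]
    · intro h
      exact absurd (Finset.mem_univ _) h

lemma ind_empty : ind D ∅ = 0 := by
  funext b
  simp [ind]

lemma empty_mem_U :
    AddMonoidAlgebra.single (0 : B D → ℤ) (del D (Fin D.rk)) ∈ U (wF D) 1 0 := by
  classical
  refine ⟨fun A => if A = ∅ then del D (Fin D.rk) else 0, ⟨fun σ A => ?_,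
    fun A hA => ?_⟩, ?_⟩
  · by_cases h : A = ∅
    · subst h
      simp only [mp_empty, if_true]
      rw [act_del]
    · have h2 : mp D σ A ≠ ∅ := fun h3 => h (mp_inj D σ (h3.trans (mp_empty D σ).symm))
      simp only [if_neg h, if_neg h2, map_zero, mul_zero]
  · simp only
    rw [if_neg]
    rintro rfl
    exact hA (typ_empty D)
  · change ∑ A, AddMonoidAlgebra.single (ind D A) (_ * (e (wF D) A * zs (wF D) A ^ 1)) = _
    rw [Finset.sum_eq_single ∅]
    · simp only [if_true, e, zs, Finset.prod_empty, pow_one, mul_one, ind_empty]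
    · intro A _ hA
      rw [if_neg hA, zero_mul, AddMonoidAlgebra.single_zero]
    · intro h
      exact absurd (Finset.mem_univ _) h

lemma Tt_eq : Tt D = AddMonoidAlgebra.single (ind D Finset.univ) (del D (Fin D.rk) * 1) *
    AddMonoidAlgebra.single (0 : B D → ℤ) (del D (Fin D.rk)) := by
  rw [AddMonoidAlgebra.single_mul_single, add_zero, mul_one, ← sq, Tt]

lemma Tt_mem : Tt D ∈ VT D 1 := by
  rw [Tt_eq]
  exact slot_mem_VT D (univ_mem_U D fun σ => map_one _) (empty_mem_U D)

lemma one_mem_VT : (1 : MA D) ∈ VT D 0 := by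
  have h1 : PA D 0 0 * PA D 1 0 ≤ VT D 0 :=
    le_iSup₂_of_le ((0, 0) : MP D) ⟨rfl, rfl, trivial⟩ le_rfl
  refine h1 ?_
  rw [PA, PA, Multiset.map_zero, Multiset.map_zero, Multiset.prod_zero]
  have h3 : (1 : MA D) ∈ (1 : Submodule ℂ (MA D)) := Submodule.one_le.1 le_rfl
  have h2 := Submodule.mul_mem_mul h3 h3
  rwa [show (1 : MA D) * 1 = 1 from one_mul 1] at h2

lemma Tt_pow_mem (k : ℕ) : Tt D ^ k ∈ VT D k := by
  induction k with
  | zero => rw [pow_zero]; exact one_mem_VT D
  | succ k ih =>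
    rw [pow_succ]
    exact VT_mul D k 1 (Submodule.mul_mem_mul ih (Tt_mem D))

lemma Tt_pow (k : ℕ) : Tt D ^ k =
    AddMonoidAlgebra.single (k • ind D Finset.univ) (del D (Fin D.rk) ^ (2 * k)) := by
  rw [Tt, AddMonoidAlgebra.single_pow, ← pow_mul]

lemma pchg_nsmul_univ (k : ℕ) :
    pchg D (k • ind D Finset.univ) = fun i => ((k * D.v i : ℕ) : ℤ) := by
  funext i
  have h := congrFun (pchg_ind D Finset.univ) i
  rw [typ_univ] at h
  rw [pchg] at h ⊢
  simp only [Pi.smul_apply]
  rw [← Finset.smul_sum, h]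
  simp

section
variable {K L : Type} [Field K] [Algebra ℂ K] [CommRing L] [Algebra K L]
  (x : B D → K) (y : Fin D.rk → K) (u : Module.Basis (B D → ℤ) K L)
  (hxy : AlgebraicIndependent ℂ (Sum.elim x y)) (hu : ∀ l l', u (l + l') = u l * u l')
  (ν : D.I → ℤ)

include hu in
lemma pu_zero : u 0 = 1 := by
  have h : ∀ a : L, u 0 * a = a := by
    intro a
    have h1 : (LinearMap.mulLeft K (u 0)) = LinearMap.id := by
      apply u.ext
      intro l
      rw [LinearMap.mulLeft_apply, ← hu, zero_add, LinearMap.id_apply]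
    have h2 := congrArg (fun g => g a) h1
    exact h2
  rw [← mul_one (u 0), h 1]

/-- evaluation of the coefficients -/
noncomputable def Th : MA D →+* L :=
  AddMonoidAlgebra.liftNCRingHom ((algebraMap K L).comp (EV D x y).toRingHom)
    { toFun := fun l => u (Multiplicative.toAdd l)
      map_one' := pu_zero D u hu
      map_mul' := fun _ _ => hu _ _ }
    (fun _ _ => Commute.all _ _)

lemma Th_single (l : B D → ℤ) (s : S D (Fin D.rk)) :
    Th D x y u hu (AddMonoidAlgebra.single l s) = EV D x y s • u l := by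
  rw [Algebra.smul_def]
  exact AddMonoidAlgebra.liftNC_single _ _ _ _

lemma repr_Th (Y : MA D) (l : B D → ℤ) :
    u.repr (Th D x y u hu Y) l = EV D x y (Y.coeff l) := by
  classical
  induction Y using AddMonoidAlgebra.induction_linear with
  | zero => simp
  | add a b ha hb =>
    rw [map_add, map_add, Finsupp.add_apply, ha, hb, AddMonoidAlgebra.coeff_add, Finsupp.add_apply,
      map_add]
  | single l' s =>
    rw [Th_single, map_smul, Finsupp.smul_apply, Module.Basis.repr_self,
      AddMonoidAlgebra.coeff_single, Finsupp.single_apply, Finsupp.single_apply]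
    split_ifs
    · rw [smul_eq_mul, mul_one]
    · rw [smul_zero, map_zero]

include hxy in
lemma Th_inj : Function.Injective (Th D x y u hu) := by
  intro Y Z h
  apply AddMonoidAlgebra.coeff_injective
  ext1 l
  apply EV_inj D x y hxy
  rw [← repr_Th D x y u hu, ← repr_Th D x y u hu, h]

lemma Th_Tt : Th D x y u hu (Tt D) = (EV D x y (del D (Fin D.rk)) ^ 2) • u (ind D Finset.univ) := by
  rw [Tt, Th_single, map_pow]

lemma ind_comp (σ : W D) (A : Finset (B D)) : ind D A ∘ (perm D σ).symm = ind D (mp D σ A) := by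
  funext b
  simp only [Function.comp, ind, mem_mp']

lemma Th_slot (ε : ℕ) (A₀ : Finset (B D)) (h : S D (Fin D.rk)) :
    Th D x y u hu (slot (wF D) ε (orb D (Fin D.rk) A₀ h)) =
      ∑ τ : W D, ((sgn D τ : K) * EV D x y (act D (Fin D.rk) τ
        (h * (e (wF D) A₀ * zs (wF D) A₀ ^ ε)))) • u (ind D (mp D τ A₀)) := by
  classical
  change Th D x y u hu (∑ A, AddMonoidAlgebra.single (ind D A)
    (orb D (Fin D.rk) A₀ h A * (e (wF D) A * zs (wF D) A ^ ε))) = _
  rw [map_sum]
  have h1 : ∀ A : Finset (B D), Th D x y u hu (AddMonoidAlgebra.single (ind D A)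
      (orb D (Fin D.rk) A₀ h A * (e (wF D) A * zs (wF D) A ^ ε))) =
      ∑ τ : W D, if mp D τ A₀ = A then ((sgn D τ : K) * EV D x y (act D (Fin D.rk) τ
        (h * (e (wF D) A₀ * zs (wF D) A₀ ^ ε)))) • u (ind D (mp D τ A₀)) else 0 := by
    intro A
    rw [Th_single, orb, Finset.sum_mul, map_sum, Finset.sum_smul]
    refine Finset.sum_congr rfl fun τ _ => ?_
    split_ifs with hA
    · subst hA
      congr 1
      rw [map_mul (act D (Fin D.rk) τ), map_mul (act D (Fin D.rk) τ), map_pow, act_e, act_zs,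
        mul_assoc, map_mul, map_intCast]
    · rw [zero_mul, map_zero, zero_smul]
  rw [Finset.sum_congr rfl fun A _ => h1 A, Finset.sum_comm]
  refine Finset.sum_congr rfl fun τ _ => ?_
  rw [Finset.sum_ite_eq Finset.univ (mp D τ A₀), if_pos (Finset.mem_univ _)]

lemma Th_slot_pos (A₀ : Finset (B D)) (h : S D (Fin D.rk)) :
    Th D x y u hu (slot (wF D) 1 (orb D (Fin D.rk) A₀ h)) = TT D x y u (ind D A₀) h := by
  rw [Th_slot, TT]
  refine Finset.sum_congr rfl fun τ _ => ?_
  rw [ind_comp, eul_ind, pow_one]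
  rfl

lemma Th_slot_neg (A₀ : Finset (B D)) (h : S D (Fin D.rk)) :
    Th D x y u hu (slot (wF D) 0 (orb D (Fin D.rk) A₀ᶜ h)) =
      u (ind D Finset.univ) * TT D x y u (-ind D A₀) h := by
  rw [Th_slot, TT, Finset.mul_sum]
  refine Finset.sum_congr rfl fun τ _ => ?_
  rw [eul_neg_ind, pow_zero, mul_one, mul_smul_comm, ← hu]
  congr 2
  funext b
  have h1 := congrFun (ind_comp D τ A₀) b
  have h2 : (-ind D A₀ ∘ (perm D τ).symm) b = -((ind D A₀ ∘ (perm D τ).symm) b) := rfl
  have h3 : ((-ind D A₀) ∘ (perm D τ).symm) b = -((ind D A₀ ∘ (perm D τ).symm) b) := rfl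
  rw [Pi.add_apply, h3, h1, mp_compl]
  simp only [ind, Finset.mem_univ, if_true, Finset.mem_compl]
  split_ifs <;> simp_all

/-- `a`, multiplied with a power of `del² u^1`, comes from a product of slots -/
def GoodP (Q : MP D → Prop) (a : L) : Prop :=
  ∃ N, ∃ Y ∈ VQ D Q N, Th D x y u hu Y = Th D x y u hu (Tt D) ^ N * a

lemma lift_T (N k : ℕ) {Y : MA D} (hY : Y ∈ VT D N) : Tt D ^ k * Y ∈ VT D (k + N) :=
  VT_mul D k N (Submodule.mul_mem_mul (Tt_pow_mem D k) hY)

lemma lift_N (N k : ℕ) {Y : MA D} (hY : Y ∈ VN D N) : Tt D ^ k * Y ∈ VN D (k + N) :=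
  VT_VN D k N (Submodule.mul_mem_mul (Tt_pow_mem D k) hY)

lemma GoodP_add {Q : MP D → Prop} (hQ : ∀ (N k : ℕ) {Y : MA D}, Y ∈ VQ D Q N →
    Tt D ^ k * Y ∈ VQ D Q (k + N)) {a b : L} (ha : GoodP D x y u hu Q a)
    (hb : GoodP D x y u hu Q b) : GoodP D x y u hu Q (a + b) := by
  obtain ⟨N, Y, hY, hY'⟩ := ha
  obtain ⟨N', Y', hZ, hZ'⟩ := hb
  refine ⟨N + N', Tt D ^ N' * Y + Tt D ^ N * Y', Submodule.add_mem _ ?_ (hQ N' N hZ), ?_⟩
  · rw [add_comm N]; exact hQ N N' hY
  · rw [map_add, map_mul, map_mul, map_pow, map_pow, hY', hZ']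
    ring

lemma GoodP_neg {Q : MP D → Prop} {a : L} (ha : GoodP D x y u hu Q a) :
    GoodP D x y u hu Q (-a) := by
  obtain ⟨N, Y, hY, hY'⟩ := ha
  exact ⟨N, -Y, Submodule.neg_mem _ hY, by rw [map_neg, hY', mul_neg]⟩

lemma GoodP_zero {Q : MP D → Prop} : GoodP D x y u hu Q 0 :=
  ⟨0, 0, Submodule.zero_mem _, by rw [map_zero, mul_zero]⟩

lemma GoodP_mul {Q Q' : MP D → Prop} (h : ∀ p q, Q p → Q' q → Q' (p + q)) {a b : L}
    (ha : GoodP D x y u hu Q a) (hb : GoodP D x y u hu Q' b) : GoodP D x y u hu Q' (a * b) := by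
  obtain ⟨N, Y, hY, hY'⟩ := ha
  obtain ⟨N', Y', hZ, hZ'⟩ := hb
  refine ⟨N + N', Y * Y', VQ_mul D h N N' (Submodule.mul_mem_mul hY hZ), ?_⟩
  rw [map_mul, hY', hZ']
  ring

lemma algebraMap_eq (f : S D (Fin D.rk)) :
    algebraMap K L (EV D x y f) = Th D x y u hu (AddMonoidAlgebra.single 0 f) := by
  rw [Th_single, pu_zero D u hu, Algebra.algebraMap_eq_smul_one]

include hxy in
lemma good_mono_pos (A₀ : Finset (B D)) (f : P D) :
    GoodP D x y u hu (fun _ => True) (mono D x y u (ind D A₀) f) := by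
  have hl : ∀ b b', ind D A₀ b - ind D A₀ b' ≤ 1 := by
    intro b b'
    simp only [ind]
    split_ifs <;> norm_num
  obtain ⟨h, hh⟩ := mono_TT D x y u hxy (ind D A₀) hl f
  refine ⟨1, _, slot_mem_VT D (univ_mem_U D (s := 1) fun σ => map_one _)
    (n := D.v) (m := typ D A₀) ⟨_, orb_mem D (Fin D.rk) A₀ h, rfl⟩, ?_⟩
  rw [map_mul, Th_single, Th_slot_pos, hh, Th_Tt, pow_one, mul_one]
  have h1 : EV D x y (del D (Fin D.rk)) ≠ 0 := EV_Del_ne D x y hxy
  have h2 : EV D x y (Del D) = EV D x y (del D (Fin D.rk)) := rfl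
  rw [h2, smul_mul_smul_comm, smul_mul_assoc]
  congr 1
  field_simp

include hxy in
lemma good_mono_neg (A₀ : Finset (B D)) (f : P D) :
    GoodP D x y u hu (fun _ => True) (mono D x y u (-ind D A₀) f) := by
  have hl : ∀ b b', (-ind D A₀) b - (-ind D A₀) b' ≤ 1 := by
    intro b b'
    simp only [ind, Pi.neg_apply]
    split_ifs <;> norm_num
  obtain ⟨h, hh⟩ := mono_TT D x y u hxy (-ind D A₀) hl f
  refine ⟨1, _, slot_mem_VT D (n := typ D A₀ᶜ) (m := 0)
    ⟨_, orb_mem D (Fin D.rk) A₀ᶜ h, rfl⟩ (empty_mem_U D), ?_⟩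
  rw [map_mul, Th_single, Th_slot_neg, hh, Th_Tt, pow_one, pu_zero D u hu]
  have h1 : EV D x y (del D (Fin D.rk)) ≠ 0 := EV_Del_ne D x y hxy
  have h2 : EV D x y (Del D) = EV D x y (del D (Fin D.rk)) := rfl
  rw [h2, smul_mul_smul_comm, mul_smul_comm, mul_one]
  congr 1
  field_simp

include hxy in
lemma good_R {r : K} (hr : r ∈ R D x y) :
    GoodP D x y u hu (fun _ => True) (algebraMap K L r) := by
  obtain ⟨f, hf⟩ := hr
  have h1 : ∀ σ : W D, act D (Fin D.rk) σ f = f := by
    intro σ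
    apply EV_inj D x y hxy
    have e1 : EV D x y (act D (Fin D.rk) σ f) = r := by
      rw [← hf σ, pol_act]; rfl
    have e2 : EV D x y (act D (Fin D.rk) 1 f) = r := by
      rw [← hf 1, pol_act]; rfl
    rw [act_one] at e2
    rw [e1, e2]
  have h2 : r = EV D x y f := by
    rw [← hf 1, pol_act]
    congr 1
    exact act_one D (Fin D.rk) f
  refine ⟨1, _, slot_mem_VT D (univ_mem_U D h1) (empty_mem_U D), ?_⟩
  rw [h2, algebraMap_eq D x y u hu, pow_one, ← map_mul, Tt, AddMonoidAlgebra.single_mul_single,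
    AddMonoidAlgebra.single_mul_single]
  congr 2
  ring

include hxy in
lemma coulomb_good {a : L} (ha : a ∈ coulomb D x y u) :
    GoodP D x y u hu (fun _ => True) a := by
  induction ha using Subring.closure_induction with
  | mem a ha =>
    rcases ha with ⟨r, hr, rfl⟩ | ⟨l, f, hl, h⟩
    · exact good_R D x y u hxy hu hr
    · classical
      have h1 : l = ind D (Finset.univ.filter fun b => l b = 1) := by
        funext b
        rcases hl b with h | h <;> simp [ind, h]
      rw [h1] at h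
      rcases h with rfl | rfl
      · exact good_mono_pos D x y u hxy hu _ f
      · exact good_mono_neg D x y u hxy hu _ f
  | zero => exact GoodP_zero D x y u hu
  | one => exact ⟨0, 1, one_mem_VT D, by rw [map_one, pow_zero, one_mul]⟩
  | add a b _ _ ha hb => exact GoodP_add D x y u hu (fun N k {_} h => lift_T D N k h) ha hb
  | neg a _ ha => exact GoodP_neg D x y u hu ha
  | mul a b _ _ ha hb => exact GoodP_mul D x y u hu (fun _ _ _ _ => trivial) ha hb

include hu in
lemma span_shift {m : ℤ} {b : L} (hb : b ∈ Submodule.span K (u '' {l | wt D ν l = m}))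
    (l₀ : B D → ℤ) :
    u l₀ * b ∈ Submodule.span K (u '' {l | wt D ν l = wt D ν l₀ + m}) := by
  induction hb using Submodule.span_induction with
  | mem b hb =>
    obtain ⟨l, hl, rfl⟩ := hb
    rw [← hu]
    refine Submodule.subset_span ⟨l₀ + l, ?_, rfl⟩
    have hl' : wt D ν l = m := hl
    change wt D ν (l₀ + l) = _
    rw [← hl', wt, wt, wt, ← Finset.sum_add_distrib]
    exact Finset.sum_congr rfl fun b _ => by rw [Pi.add_apply, mul_add]
  | zero => rw [mul_zero]; exact Submodule.zero_mem _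
  | add a b _ _ ha hb => rw [mul_add]; exact Submodule.add_mem _ ha hb
  | smul c a _ ha => rw [mul_smul_comm]; exact Submodule.smul_mem _ _ ha

include hxy in
lemma coulomb_nt {b : L} (hb : b ∈ coulomb D x y u) {m : ℤ} (hm : m ≠ 0)
    (hbm : b ∈ Submodule.span K (u '' {l | wt D ν l = m})) : GoodP D x y u hu (NT D) b := by
  obtain ⟨N, Y, hY, hY'⟩ := coulomb_good D x y u hxy hu hb
  refine ⟨N, Y, VN_of_VT D hY (prj_eq_zero D fun l hl => ?_), hY'⟩
  apply EV_inj D x y hxy
  rw [← repr_Th D x y u hu, hY', ← map_pow, Tt_pow, Th_single, map_zero, smul_mul_assoc, map_smul,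
    Finsupp.smul_apply]
  have h1 := span_shift D u hu ν hbm (N • ind D Finset.univ)
  rw [Module.Basis.mem_span_image] at h1
  have h2 : u.repr (u (N • ind D Finset.univ) * b) l = 0 := by
    by_contra hne
    have h3 := h1 (Finsupp.mem_support_iff.2 hne)
    have h4 : wt D ν l = wt D ν (N • ind D Finset.univ) + m := h3
    rw [pwt_chg, pwt_chg, hl, pchg_nsmul_univ] at h4
    exact hm (by linarith)
  rw [h2, smul_zero]

include hxy in
lemma fixI_nt {c : L} (hc : c ∈ fixI D x y u ν) : GoodP D x y u hu (NT D) c := by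
  induction hc using AddSubgroup.closure_induction with
  | mem c hc =>
    obtain ⟨a, ha, b, hb, m, hm, hbm, rfl⟩ := hc
    refine GoodP_mul D x y u hu (fun p q _ hq hpq => hq ⟨fun n hn => ?_, fun n hn => ?_⟩)
      (coulomb_good D x y u hxy hu ha) (coulomb_nt D x y u hxy hu ν hb hm hbm)
    · exact hpq.1 n (by rw [Prod.fst_add]; exact Multiset.mem_add.2 (Or.inr hn))
    · exact hpq.2 n (by rw [Prod.snd_add]; exact Multiset.mem_add.2 (Or.inr hn))
  | zero => exact GoodP_zero D x y u hu
  | add a b _ _ ha hb => exact GoodP_add D x y u hu (fun N k {_} h => lift_N D N k h) ha hb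
  | neg a _ ha => exact GoodP_neg D x y u hu ha

end

end PadAux

section
variable {K L : Type} [Field K] [Algebra ℂ K] [CommRing L] [Algebra K L]
  (x : B D → K) (y : Fin D.rk → K) (u : Module.Basis (B D → ℤ) K L)
  (hxy : AlgebraicIndependent ℂ (Sum.elim x y)) (hu : ∀ l l', u (l + l') = u l * u l')
  (ν : D.I → ℤ)

open PadAux

include hxy hu in
/-- Every element of `fixI`, after multiplication with a power of `del` and of `u^1`, comes from a
sum of products of slots, not all of them trivial; an invariant polynomial has charge zero.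

Proof. Let `Θ : AddMonoidAlgebra (S D (Fin rk)) (B D → ℤ) → L`, `single l s ↦ EV s • u l`, an
injective ring homomorphism (`EV_inj`, `u` a basis, `hu`; `GMain.u_zero`, or
`AddMonoidAlgebra.liftNCRingHom`). Put `𝔸 = ⨆ n, U w 0 n`, `𝔹 = ⨆ n, U w 1 n`,
`𝔸' = ⨆ n ≠ v, U w 0 n`, `𝔹' = ⨆ n ≠ 0, U w 1 n`, `w = wF D`, `V N = 𝔸^N * 𝔹^N`,
`V' N = 𝔸' * 𝔸^(N-1) * 𝔹^N + 𝔸^N * 𝔹' * 𝔹^(N-1)` (`N ≥ 1`).
(1) For `l = ind A₀` (`Min`), `del • mono l f = Θ (slot 1 (orb A₀ h))` and
`del • mono (-l) f * u(1) = Θ (slot 0 (fun A => orb A₀ h Aᶜ))` for suitable `h` (`mono_TT`, `TT`,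
`eul_ind`, `eul_neg_ind`).
(2) `single 0 del ∈ U 1 0`, `single (ind univ) del ∈ U 0 v`, and `U ε n`, `N ≥ 1` products are stable
under multiplication by invariant polynomials. So for every `a ∈ coulomb` there is `N ≥ 1` with
`del^(2N) • u(N•1) * a ∈ Θ (V N)` (closure induction; `V N * V N' ≤ V (N+N')`, and
`del^2 u(1) V N ≤ V (N+1)`).
(3) `V N = V' N + (U 0 v)^N * (U 1 0)^N`, the last summand consists of elements
`single (N•1) s`. Every `U ε n` is homogeneous for the charge (`∑_r l ⟨i, r⟩`), and `V' N` is stable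
under the projection to any set of charges. If `b ∈ coulomb` is in the span of the `u l` with
`wt l = m ≠ 0` and `del^(2N) • u(N•1) * b = Θ Y`, `Y ∈ V N`, projecting `Y` to the charges `c` with
`ν·c = m + N ν·v` gives `Y ∈ V' N`.
(4) So every `c ∈ fixI` satisfies `del^(2N) • u(N•1) * c ∈ Θ (V' N)` for some `N ≥ 1`
(`V N * V' N' ≤ V' (N+N')`, `del^2 u(1) V' N ≤ V' (N+1)`).
(5) For `c = algebraMap (EV f)`: `single (N•1) (f * del^(2N)) ∈ V' N` by injectivity of `Θ`.
(6) `V' N` is the sum of the `UU w (ep N) (2N) n` over the `n` (`n j = 0` for `j ≥ 2N`) different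
from `seqT N`; project to charge `N • v`. -/
theorem pad {f : S D (Fin D.rk)} (hf : ∀ σ : W D, act D (Fin D.rk) σ f = f)
    (h : algebraMap K L (EV D x y f) ∈ fixI D x y u ν) :
    ∃ N : ℕ, 1 ≤ N ∧ AddMonoidAlgebra.single (N • ind D Finset.univ)
      (f * del D (Fin D.rk) ^ (2 * N)) ∈
        ⨆ n : ℕ → D.I → ℕ, ⨆ _ : seqOK (2 * N) N n, UU (wF D) (ep N) (2 * N) n := by
  obtain ⟨N, Y, hY, hY'⟩ := fixI_nt D x y u hxy hu ν h
  have h1 : Y = Tt D ^ N * AddMonoidAlgebra.single 0 f := by
    apply Th_inj D x y u hxy hu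
    rw [hY', map_mul, map_pow, algebraMap_eq D x y u hu]
  have h2 := lift_N D N 1 hY
  have h3 : Tt D ^ 1 * Y = AddMonoidAlgebra.single ((1 + N) • ind D Finset.univ)
      (f * del D (Fin D.rk) ^ (2 * (1 + N))) := by
    rw [h1, ← mul_assoc, ← pow_add, Tt_pow, AddMonoidAlgebra.single_mul_single, add_zero,
      mul_comm]
  rw [h3] at h2
  exact ⟨1 + N, by omega, VN_seq D h2 (prj_single_of D (pchg_nsmul_univ D (1 + N)) _)⟩

end

end Vale.Agent.P291.H
end
end
namespace AFast205980x10093a
theorem a0 {x1 : Vale.Agent.P291.T.QData} {x2 : Type} [x3 : CommRing x2] : MulHomClass (Vale.Agent.P291.H.PadAux.MA x1 →+* x2) (Vale.Agent.P291.H.PadAux.MA x1) x2 := inferInstance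
@[reducible] noncomputable def a1 {x1 : Vale.Agent.P291.T.QData} : Mul (Submodule ℂ (Vale.Agent.P291.H.PadAux.MA x1)) := inferInstance
theorem a2 {x1 : Vale.Agent.P291.T.QData} {x2 : Type} [x3 : CommRing x2] : NonUnitalRingHomClass (Vale.Agent.P291.H.PadAux.MA x1 →+* x2) (Vale.Agent.P291.H.PadAux.MA x1) x2 := inferInstance
end AFast205980x10093a
attribute [local instance] AFast205980x10093a.a0 AFast205980x10093a.a1 AFast205980x10093a.a2
namespace AFast205980x10093b
theorem a0 {x1 : Vale.Agent.P291.T.QData} {x2 : Type} [x3 : CommRing x2] : AddMonoidHomClass (Vale.Agent.P291.H.PadAux.MA x1 →+* x2) (Vale.Agent.P291.H.PadAux.MA x1) x2 := inferInstance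
theorem a1 {x1 : Vale.Agent.P291.T.QData} {x2 : Type} [x3 : CommRing x2] : AddHomClass (Vale.Agent.P291.H.PadAux.MA x1 →+* x2) (Vale.Agent.P291.H.PadAux.MA x1) x2 := inferInstance
end AFast205980x10093b
attribute [local instance] AFast205980x10093b.a0 AFast205980x10093b.a1

section

section

set_option autoImplicit false
set_option linter.unusedSectionVars false

/-! The numerators at `x b = x a + ħ`. -/

namespace Vale.Agent.P291.H

open MvPolynomial Vale.Agent.P291.G

variable (D : QData)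

/-- the substitution `x b ↦ x a + ħ` -/
noncomputable def sb (a b : B D) : S D (ZZ D) →ₐ[ℂ] S D (ZZ D) :=
  aeval (Sum.elim (fun c => if c = b then xq D a + hb D else xq D c) fun z => X (Sum.inr z))

lemma sb_xq (a b c : B D) : sb D a b (xq D c) = if c = b then xq D a + hb D else xq D c := by
  change sb D a b (X (Sum.inl c)) = _
  rw [sb, aeval_X]; rfl

lemma sb_inr (a b : B D) (z : ZZ D) : sb D a b (X (Sum.inr z)) = X (Sum.inr z) := by
  rw [sb, aeval_X]; rfl

lemma sb_hb (a b : B D) : sb D a b (hb D) = hb D := sb_inr D a b _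
lemma sb_tv (a b : B D) (t : D.A) : sb D a b (tv D t) = tv D t := sb_inr D a b _
lemma sb_zv (a b : B D) (i : D.I) (k : Fin (D.w i)) : sb D a b (zv D i k) = zv D i k :=
  sb_inr D a b _

lemma sb_xb (a b : B D) : sb D a b (xq D b) = xq D a + hb D := by rw [sb_xq, if_pos rfl]

lemma sb_xc {a b c : B D} (h : c ≠ b) : sb D a b (xq D c) = xq D c := by rw [sb_xq, if_neg h]

/-- its kernel is generated by `x b - x a - ħ` -/
lemma sb_eq_zero {a b : B D} (hab : a ≠ b) {f : S D (ZZ D)} (h : sb D a b f = 0) :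
    (xq D a - xq D b + hb D) ∣ f := by
  rw [← Ideal.mem_span_singleton]
  set I : Ideal (S D (ZZ D)) := Ideal.span {xq D a - xq D b + hb D} with hI
  have hb1 : (Ideal.Quotient.mkₐ ℂ I) (xq D a + hb D) = (Ideal.Quotient.mkₐ ℂ I) (xq D b) := by
    rw [Ideal.Quotient.mkₐ_eq_mk, Ideal.Quotient.eq]
    have : xq D a + hb D - xq D b = xq D a - xq D b + hb D := by ring
    rw [this]
    exact Ideal.mem_span_singleton_self _
  have h1 : (Ideal.Quotient.mkₐ ℂ I).comp (sb D a b) = Ideal.Quotient.mkₐ ℂ I := by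
    apply MvPolynomial.algHom_ext
    intro t
    rw [AlgHom.comp_apply]
    rcases t with c | z
    · have e1 := sb_xq D a b c
      rw [xq, xx] at e1
      rw [e1]
      split_ifs with h2
      · rw [hb1, h2]; rfl
      · rfl
    · rw [sb_inr]
  have h4 : (Ideal.Quotient.mkₐ ℂ I) (sb D a b f) = (Ideal.Quotient.mkₐ ℂ I) f :=
    DFunLike.congr_fun h1 f
  rw [h, map_zero, Ideal.Quotient.mkₐ_eq_mk] at h4
  exact Ideal.Quotient.eq_zero_iff_mem.1 h4.symm

/-- `x a - x b + ħ` is prime -/
lemma prime_hb (a b : B D) (hab : a ≠ b) : Prime (xq D a - xq D b + hb D) := by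
  classical
  apply Irreducible.prime
  have hc : coeff (Finsupp.single (Sum.inl a) 1) (xq D a - xq D b + hb D) = 1 := by
    rw [coeff_add, coeff_sub, xq, xq, xx, xx, hb, coeff_X, coeff_X, coeff_X, if_pos rfl, if_neg,
      if_neg]
    · ring
    · rw [Finsupp.single_left_inj Nat.one_ne_zero]
      simp
    · rw [Finsupp.single_left_inj Nat.one_ne_zero]
      intro h
      exact hab (Sum.inl_injective h).symm
  apply irreducible_of_totalDegree_eq_one
  · apply le_antisymm
    · refine (totalDegree_add _ _).trans (max_le ((totalDegree_sub _ _).trans ?_) ?_)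
      · simp [xq, xx]
      · simp [hb]
    · rw [← not_lt, Nat.lt_one_iff, totalDegree_eq_zero_iff]
      intro h0
      have := h0 (Finsupp.single (Sum.inl a) 1)
        (by rw [mem_support_iff, hc]; exact one_ne_zero) (Sum.inl a)
      simp at this
  · intro x hx
    have := hx (Finsupp.single (Sum.inl a) 1)
    rw [hc] at this
    exact isUnit_of_dvd_one this


/-- the common factor -/
noncomputable def cmf (N₀ : Finset (B D)) (a b : B D) : S D (ZZ D) :=
  (hq D a b (-hb D) * g0 D a b * (hq D b a 0 * g1 D b a)) * ∏ m ∈ N₀,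
    (hq D m a 0 * hq D a m (-hb D) * (g0 D m a * g1 D m a) * (g0 D a m * g1 D a m) *
      (g0 D m b * g1 D b m))

lemma BSub_prod_insert {ι M : Type} [DecidableEq ι] [CommMonoid M] (F : ι → ι → M) (a : ι)
    (N : Finset ι) (ha : a ∉ N) :
    ∏ p ∈ insert a N, ∏ q ∈ (insert a N).erase p, F p q =
      (∏ m ∈ N, F a m * F m a) * ∏ p ∈ N, ∏ q ∈ N.erase p, F p q := by
  have h1 : ∏ p ∈ N, ∏ q ∈ (insert a N).erase p, F p q =
      ∏ p ∈ N, (F p a * ∏ q ∈ N.erase p, F p q) := by
    refine Finset.prod_congr rfl fun p hp => ?_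
    have hpa : p ≠ a := by rintro rfl; exact ha hp
    rw [Finset.erase_insert_of_ne hpa.symm, Finset.prod_insert]
    intro h
    exact ha (Finset.mem_of_mem_erase h)
  rw [Finset.prod_insert ha, Finset.erase_insert ha, h1, Finset.prod_mul_distrib,
    Finset.prod_mul_distrib, mul_assoc]

lemma BSub_hq {a b m : B D} (hab : a ≠ b) (hv : a.1 = b.1) (hmb : m ≠ b) :
    sb D a b (hq D b m 0) = sb D a b (hq D a m (-hb D)) := by
  unfold hq
  rw [hv, map_prod, map_prod]
  refine Finset.prod_congr rfl fun t _ => ?_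
  simp only [map_add, map_sub, map_neg, map_zero, sb_xb, sb_xc D hmb, sb_xc D hab, sb_tv, sb_hb]
  ring

lemma BSub_hq' {a b m : B D} (hab : a ≠ b) (hv : a.1 = b.1) (hmb : m ≠ b) :
    sb D a b (hq D m b (-hb D)) = sb D a b (hq D m a 0) := by
  unfold hq
  rw [hv, map_prod, map_prod]
  refine Finset.prod_congr rfl fun t _ => ?_
  simp only [map_add, map_sub, map_neg, map_zero, sb_xb, sb_xc D hmb, sb_xc D hab, sb_tv, sb_hb]
  ring

lemma BSub_g0b {a b m : B D} (hab : a ≠ b) (hv : a.1 = b.1) (hmb : m ≠ b) :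
    sb D a b (g0 D b m) = sb D a b (g1 D a m) := by
  unfold g0 g1
  rw [hv]
  split_ifs
  · simp only [map_add, map_sub, sb_xb, sb_xc D hmb, sb_xc D hab, sb_hb]
    ring
  · rfl

lemma BSub_g1b {a b m : B D} (hab : a ≠ b) (hv : a.1 = b.1) (hmb : m ≠ b) :
    sb D a b (g1 D m b) = sb D a b (g0 D m a) := by
  unfold g0 g1
  rw [hv]
  split_ifs
  · simp only [map_add, map_sub, sb_xb, sb_xc D hmb, sb_xc D hab, sb_hb]
    ring
  · rfl

lemma BSub_pw {a b m : B D} (hab : a ≠ b) (hv : a.1 = b.1) (hmb : m ≠ b) (i : Bool) :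
    sb D a b (pw D b m true i * pw D m b i true * (pw D a m false i * pw D m a i false)) =
      sb D a b (hq D m a 0 * hq D a m (-hb D) * (g0 D m a * g1 D m a) * (g0 D a m * g1 D a m) *
        (g0 D m b * g1 D b m)) := by
  have e1 := BSub_hq D hab hv hmb
  have e2 := BSub_hq' D hab hv hmb
  have e3 := BSub_g0b D hab hv hmb
  have e4 := BSub_g1b D hab hv hmb
  cases i
  · simp only [pw, map_mul, e1, e2]
    ring
  · simp only [pw, map_mul, e3, e4]
    ring

lemma sb_ww {N₀ K₀ : Finset (B D)} {a b : B D} (hab : a ≠ b) (hv : a.1 = b.1) (ha : a ∉ N₀)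
    (hb' : b ∉ N₀) (hK : K₀ ⊆ N₀) :
    sb D a b (ww D (insert a (insert b N₀)) (insert b K₀)) =
      sb D a b (cmf D N₀ a b) * sb D a b (ww D N₀ K₀) := by
  have haK : a ∉ insert b K₀ := by
    rw [Finset.mem_insert]
    rintro (h | h)
    · exact hab h
    · exact ha (hK h)
  have hbK : b ∈ insert b K₀ := Finset.mem_insert_self _ _
  have haN : a ∉ insert b N₀ := by
    rw [Finset.mem_insert]
    rintro (h | h)
    · exact hab h
    · exact ha h
  have hmem : ∀ m ∈ N₀, (m ∈ insert b K₀ ↔ m ∈ K₀) := by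
    intro m hm
    rw [Finset.mem_insert]
    constructor
    · rintro (h | h)
      · exact absurd (h ▸ hm) hb'
      · exact h
    · exact Or.inr
  have e0 : ∏ p ∈ N₀, ∏ q ∈ N₀.erase p,
      pw D p q (decide (p ∈ insert b K₀)) (decide (q ∈ insert b K₀)) = ww D N₀ K₀ := by
    refine Finset.prod_congr rfl fun p hp => Finset.prod_congr rfl fun q hq' => ?_
    rw [decide_eq_decide.2 (hmem p hp),
      decide_eq_decide.2 (hmem q (Finset.mem_of_mem_erase hq'))]
  have e1 : decide (a ∈ insert b K₀) = false := decide_eq_false haK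
  have e2 : decide (b ∈ insert b K₀) = true := decide_eq_true hbK
  have e3 : ww D (insert a (insert b N₀)) (insert b K₀) =
      (hq D a b (-hb D) * g0 D a b * (hq D b a 0 * g1 D b a)) *
      (∏ m ∈ N₀, (pw D b m true (decide (m ∈ insert b K₀)) *
        pw D m b (decide (m ∈ insert b K₀)) true *
        (pw D a m false (decide (m ∈ insert b K₀)) *
          pw D m a (decide (m ∈ insert b K₀)) false))) * ww D N₀ K₀ := by
    have h := BSub_prod_insert (fun p q => pw D p q (decide (p ∈ insert b K₀))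
      (decide (q ∈ insert b K₀))) a (insert b N₀) haN
    have h' := BSub_prod_insert (fun p q => pw D p q (decide (p ∈ insert b K₀))
      (decide (q ∈ insert b K₀))) b N₀ hb'
    unfold ww at e0 ⊢
    have e6 : pw D a b false true = hq D a b (-hb D) * g0 D a b := rfl
    have e7 : pw D b a true false = hq D b a 0 * g1 D b a := rfl
    have e8 : (∏ m ∈ N₀, (pw D b m true (decide (m ∈ insert b K₀)) *
        pw D m b (decide (m ∈ insert b K₀)) true *
        (pw D a m false (decide (m ∈ insert b K₀)) *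
          pw D m a (decide (m ∈ insert b K₀)) false))) =
        (∏ m ∈ N₀, pw D b m true (decide (m ∈ insert b K₀)) *
        pw D m b (decide (m ∈ insert b K₀)) true) *
        ∏ m ∈ N₀, (pw D a m false (decide (m ∈ insert b K₀)) *
          pw D m a (decide (m ∈ insert b K₀)) false) := Finset.prod_mul_distrib
    rw [h, h', Finset.prod_insert hb', e0, e1, e2, e8, e6, e7]
    ring
  have e5 : sb D a b (∏ m ∈ N₀, (pw D b m true (decide (m ∈ insert b K₀)) *
        pw D m b (decide (m ∈ insert b K₀)) true *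
        (pw D a m false (decide (m ∈ insert b K₀)) *
          pw D m a (decide (m ∈ insert b K₀)) false))) =
      sb D a b (∏ m ∈ N₀, (hq D m a 0 * hq D a m (-hb D) * (g0 D m a * g1 D m a) *
        (g0 D a m * g1 D a m) * (g0 D m b * g1 D b m))) := by
    rw [map_prod, map_prod]
    refine Finset.prod_congr rfl fun m hm => ?_
    apply BSub_pw D hab hv
    rintro rfl
    exact hb' hm
  rw [e3, cmf]
  generalize hq D a b (-hb D) * g0 D a b * (hq D b a 0 * g1 D b a) = P
  rw [map_mul, map_mul, e5, map_mul]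

/-- the other weights vanish: the factor `g1 a b` -/
lemma sb_ww_zero {N K : Finset (B D)} {a b : B D} (hab : a ≠ b) (hv : a.1 = b.1) (ha : a ∈ N)
    (hb' : b ∈ N) (hK : ¬ (a ∉ K ∧ b ∈ K)) : sb D a b (ww D N K) = 0 := by
  have h1 : sb D a b (g1 D a b) = 0 := by
    rw [g1, if_pos hv]
    simp only [map_add, map_sub, sb_xb, sb_xc D hab, sb_hb]
    ring
  have h2 : sb D a b (pw D a b (decide (a ∈ K)) (decide (b ∈ K))) = 0 := by
    by_cases haK : a ∈ K
    · by_cases hbK : b ∈ K
      · simp [pw, haK, hbK, h1]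
      · simp [pw, haK, hbK, h1]
    · by_cases hbK : b ∈ K
      · exact absurd ⟨haK, hbK⟩ hK
      · simp [pw, haK, hbK, h1]
  unfold ww
  rw [map_prod]
  apply Finset.prod_eq_zero ha
  rw [map_prod]
  exact Finset.prod_eq_zero (Finset.mem_erase.2 ⟨hab.symm, hb'⟩) h2


lemma BSub_sh_xq (s : S D (ZZ D)) (A : Finset (B D)) (c : B D) :
    sh D s A (xq D c) = if c ∈ A then xq D c + s else xq D c := by
  change sh D s A (X (Sum.inl c)) = _
  rw [sh, aeval_X]; rfl

lemma BSub_sh_inr (s : S D (ZZ D)) (A : Finset (B D)) (z : ZZ D) :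
    sh D s A (X (Sum.inr z)) = X (Sum.inr z) := by
  rw [sh, aeval_X]; rfl

lemma BSub_act_inr (σ : W D) (z : ZZ D) :
    act D (ZZ D) σ (X (Sum.inr z)) = X (Sum.inr z) := by
  rw [act, rename_X]; rfl

/-- a Weyl group element which swaps `a` and `b` -/
lemma BSub_swap {a b : B D} (hab : a ≠ b) (hv : a.1 = b.1) :
    ∃ σ : W D, perm D σ = Equiv.swap a b := by
  obtain ⟨i, r⟩ := a
  obtain ⟨j, s⟩ := b
  simp only at hv
  subst hv
  exact ⟨tr D i r s, perm_tr D i r s⟩

lemma BSub_mp {a b : B D} {σ : W D} (hσ : perm D σ = Equiv.swap a b) {C : Finset (B D)}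
    (ha' : a ∉ C) (hb'' : b ∉ C) : mp D σ (insert a C) = insert b C := by
  have h0 : mp D σ C = C := by
    ext c
    rw [mem_mp', hσ, Equiv.symm_swap, Equiv.swap_apply_def]
    split_ifs with h1 h2
    · subst h1; exact ⟨fun h => absurd h hb'', fun h => absurd h ha'⟩
    · subst h2; exact ⟨fun h => absurd h ha', fun h => absurd h hb''⟩
    · rfl
  have h1 : mp D σ (insert a C) = insert (perm D σ a) (mp D σ C) := by
    unfold mp
    rw [Finset.map_insert]
    rfl
  rw [h1, h0, hσ, Equiv.swap_apply_left]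

/-- composite with the shifts: if `b ∈ A`, `a ∉ A` then at `x b = x a + ħ` the shifted polynomials
of an equivariant family at `C ∪ b` and `C ∪ a` agree -/
lemma sb_sh_neg {n : D.I → ℕ} {g : Finset (B D) → S D (ZZ D)} (hg : EF D n g)
    {A C : Finset (B D)} {a b : B D} (hab : a ≠ b) (hv : a.1 = b.1) (ha : a ∉ A) (hb' : b ∈ A)
    (ha' : a ∉ C) (hb'' : b ∉ C) :
    sb D a b (sh D (-hb D) A (g (insert b C))) = sb D a b (sh D (-hb D) A (g (insert a C))) := by
  obtain ⟨σ, hσ⟩ := BSub_swap D hab hv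
  rw [← BSub_mp D hσ ha' hb'', ← hg.1 σ (insert a C)]
  have h1 : ((sb D a b).comp (sh D (-hb D) A)).comp (act D (ZZ D) σ) =
      (sb D a b).comp (sh D (-hb D) A) := by
    apply MvPolynomial.algHom_ext
    intro t
    rw [AlgHom.comp_apply, AlgHom.comp_apply, AlgHom.comp_apply]
    rcases t with c | z
    · change sb D a b (sh D (-hb D) A (act D (ZZ D) σ (xq D c))) =
        sb D a b (sh D (-hb D) A (xq D c))
      rw [act_xx, hσ, Equiv.swap_apply_def]
      split_ifs with h1 h2
      · subst h1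
        rw [BSub_sh_xq, BSub_sh_xq, if_pos hb', if_neg ha, map_add, map_neg, sb_xb, sb_hb,
          sb_xc D hab]
        ring
      · subst h2
        rw [BSub_sh_xq, BSub_sh_xq, if_pos hb', if_neg ha, map_add, map_neg, sb_xb, sb_hb,
          sb_xc D hab]
        ring
      · rfl
    · rw [BSub_act_inr]
  exact DFunLike.congr_fun h1 (g (insert a C))

lemma sb_sh_pos {n : D.I → ℕ} {g : Finset (B D) → S D (ZZ D)} (hg : EF D n g)
    {A C : Finset (B D)} {a b : B D} (hab : a ≠ b) (hv : a.1 = b.1) (ha : a ∈ A) (hb' : b ∉ A)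
    (ha' : a ∉ C) (hb'' : b ∉ C) :
    sb D a b (sh D (hb D) A (g (insert a C))) = sb D a b (sh D (hb D) A (g (insert b C))) := by
  obtain ⟨σ, hσ⟩ := BSub_swap D hab hv
  rw [← BSub_mp D hσ ha' hb'', ← hg.1 σ (insert a C)]
  have h1 : ((sb D a b).comp (sh D (hb D) A)).comp (act D (ZZ D) σ) =
      (sb D a b).comp (sh D (hb D) A) := by
    apply MvPolynomial.algHom_ext
    intro t
    rw [AlgHom.comp_apply, AlgHom.comp_apply, AlgHom.comp_apply]
    rcases t with c | z
    · change sb D a b (sh D (hb D) A (act D (ZZ D) σ (xq D c))) =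
        sb D a b (sh D (hb D) A (xq D c))
      rw [act_xx, hσ, Equiv.swap_apply_def]
      split_ifs with h1 h2
      · subst h1
        rw [BSub_sh_xq, BSub_sh_xq, if_pos ha, if_neg hb', map_add, sb_xb, sb_hb,
          sb_xc D hab]
      · subst h2
        rw [BSub_sh_xq, BSub_sh_xq, if_pos ha, if_neg hb', map_add, sb_xb, sb_hb,
          sb_xc D hab]
      · rfl
    · rw [BSub_act_inr]
  exact (DFunLike.congr_fun h1 (g (insert a C))).symm

lemma BSub_zq {a b : B D} (hab : a ≠ b) (hv : a.1 = b.1) :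
    sb D a b (zq D a (-hb D)) = sb D a b (zq D b 0) := by
  obtain ⟨i, r⟩ := a
  obtain ⟨j, s⟩ := b
  simp only at hv
  subst hv
  unfold zq
  rw [map_prod, map_prod]
  refine Finset.prod_congr rfl fun k _ => ?_
  simp only [map_add, map_sub, map_neg, map_zero, sb_xb, sb_xc D hab, sb_hb, sb_zv]
  ring

/-- the sum over the subsets of `insert a (insert b N)` which contain `p` and not `q` -/
lemma BSub_sum {M ι : Type} [AddCommMonoid M] [DecidableEq ι] {a b : ι} {N : Finset ι}
    (hab : a ≠ b) (ha : a ∉ N) (hb' : b ∉ N) (F : Finset ι → M) (G : Finset ι → M)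
    (h0 : ∀ K ⊆ insert a (insert b N), ¬ (a ∉ K ∧ b ∈ K) → F K = 0)
    (h1 : ∀ K ⊆ N, F (insert b K) = G K) :
    ∑ K ∈ (insert a (insert b N)).powerset, F K = ∑ K ∈ N.powerset, G K := by
  have haN : a ∉ insert b N := by
    rw [Finset.mem_insert]
    rintro (h | h)
    · exact hab h
    · exact ha h
  rw [Finset.sum_powerset_insert haN, Finset.sum_powerset_insert hb']
  have e1 : ∑ K ∈ N.powerset, F K = 0 := by
    apply Finset.sum_eq_zero
    intro K hK
    rw [Finset.mem_powerset] at hK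
    apply h0
    · exact hK.trans ((Finset.subset_insert _ _).trans (Finset.subset_insert _ _))
    · rintro ⟨-, h⟩
      exact hb' (hK h)
  have e2 : ∑ K ∈ (insert b N).powerset, F (insert a K) = 0 := by
    apply Finset.sum_eq_zero
    intro K hK
    rw [Finset.mem_powerset] at hK
    apply h0
    · exact Finset.insert_subset_insert _ hK
    · rintro ⟨h, -⟩
      exact h (Finset.mem_insert_self _ _)
  rw [e1, e2, zero_add, add_zero]
  refine Finset.sum_congr rfl fun K hK => ?_
  rw [Finset.mem_powerset] at hK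
  exact h1 K hK

lemma BSub_term (ν : D.I → ℤ) (d : Dat D) {D1 D2 N : Finset (B D)} {a b : B D}
    (hab : a ≠ b) (hv : a.1 = b.1) (ha1 : a ∉ D1) (ha2 : a ∉ D2) (hb1 : b ∉ D1) (hb2 : b ∉ D2)
    (haN : a ∉ N) (hbN : b ∉ N) (hN : (D1 ∪ D2)ᶜ = insert a (insert b N))
    (hN' : (insert b D1 ∪ insert a D2)ᶜ = N) :
    ∑ K ∈ (D1 ∪ D2)ᶜ.powerset, sb D a b (Term D ν d D1 D2 K) =
      ∑ K ∈ ((insert b D1 ∪ insert a D2)ᶜ).powerset, sb D a b (zq D b 0 * cmf D N a b) *
        sb D a b (Term D ν d (insert b D1) (insert a D2) K) := by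
  have haM : a ∈ (D1 ∪ D2)ᶜ := by rw [hN]; simp
  have hbM : b ∈ (D1 ∪ D2)ᶜ := by rw [hN]; simp
  by_cases hs : ∑ i, ν i * d.n i < 0
  · rw [hN, hN']
    apply BSub_sum hab haN hbN
    · intro K hK hab'
      unfold Term
      rw [if_pos hs, map_mul, sb_ww_zero D hab hv haM hbM hab', mul_zero]
    · intro K hK
      have haK : a ∉ K := fun h => haN (hK h)
      have hbK : b ∉ K := fun h => hbN (hK h)
      unfold Term
      rw [if_pos hs, if_pos hs, hN, hN']
      have e1 : D1 ∪ insert b K = insert b D1 ∪ K := by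
        ext c; simp only [Finset.mem_union, Finset.mem_insert]; tauto
      have e2 : D2 ∪ insert b K = insert b (D2 ∪ K) := by
        ext c; simp only [Finset.mem_union, Finset.mem_insert]; tauto
      have e3 : insert a D2 ∪ K = insert a (D2 ∪ K) := by
        ext c; simp only [Finset.mem_union, Finset.mem_insert]; tauto
      have e4 := sb_sh_neg D d.hg (A := insert b D1 ∪ K) (C := D2 ∪ K) hab hv
        (by simp [hab, ha1, haK]) (by simp) (by simp [ha2, haK]) (by simp [hb2, hbK])
      rw [e1, e2, e3, Finset.prod_insert hbK]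
      simp only [map_mul]
      rw [e4, sb_ww D hab hv haN hbN hK]
      ring
  · have hswap : insert a (insert b N) = insert b (insert a N) := Finset.insert_comm _ _ _
    rw [hN, hN', hswap]
    apply BSub_sum hab.symm hbN haN
    · intro K hK hab'
      unfold Term
      rw [if_neg hs, map_mul, sb_ww_zero D hab hv haM hbM, mul_zero]
      rintro ⟨h1, h2⟩
      rw [Finset.mem_sdiff] at h1 h2
      apply hab'
      refine ⟨h2.2, ?_⟩
      by_contra h3
      exact h1 ⟨haM, h3⟩
    · intro K hK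
      have haK : a ∉ K := fun h => haN (hK h)
      have hbK : b ∉ K := fun h => hbN (hK h)
      unfold Term
      rw [if_neg hs, if_neg hs, hN, hN']
      have e1 : D2 ∪ insert a K = insert a D2 ∪ K := by
        ext c; simp only [Finset.mem_union, Finset.mem_insert]; tauto
      have e2 : D1 ∪ insert a K = insert a (D1 ∪ K) := by
        ext c; simp only [Finset.mem_union, Finset.mem_insert]; tauto
      have e3 : insert b D1 ∪ K = insert b (D1 ∪ K) := by
        ext c; simp only [Finset.mem_union, Finset.mem_insert]; tauto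
      have e4 := sb_sh_pos D d.hf (A := insert a D2 ∪ K) (C := D1 ∪ K) hab hv
        (by simp) (by simp [hab.symm, hb2, hbK]) (by simp [ha1, haK]) (by simp [hb1, hbK])
      have e5 : insert a (insert b N) \ insert a K = insert b (N \ K) := by
        ext c
        simp only [Finset.mem_sdiff, Finset.mem_insert, not_or]
        constructor
        · rintro ⟨h1 | h1 | h1, h2, h3⟩
          · exact absurd h1 h2
          · exact Or.inl h1
          · exact Or.inr ⟨h1, h3⟩
        · rintro (h1 | ⟨h1, h2⟩)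
          · subst h1
            exact ⟨Or.inr (Or.inl rfl), hab.symm, hbK⟩
          · exact ⟨Or.inr (Or.inr h1), fun h => haN (h ▸ h1), h2⟩
      rw [e1, e2, e3, e5, Finset.prod_insert haK]
      simp only [map_mul]
      rw [e4, sb_ww D hab hv haN hbN Finset.sdiff_subset, BSub_zq D hab hv]
      ring

/-- The numerator at `x b = x a + ħ` is a multiple of the numerator of `(D1 ∪ b, D2 ∪ a)`.
Terms with `E F` order: only `K = K₀ ∪ b`, `a ∉ K`; `F E` order: only `K = K₀ ∪ a`, `b ∉ K`
(`sb_ww_zero`, for `F E` applied to `N \ K`). They are the terms `K₀` of `(D1 ∪ b, D2 ∪ a)`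
times `sb (zq b 0) * sb (cmf N₀ a b)`, `N₀ = (D1 ∪ D2 ∪ {a, b})ᶜ`; note
`sb (zq b 0) = sb (zq a (-ħ))`. -/
theorem sb_Num (ν : D.I → ℤ) (L : List (Dat D)) {D1 D2 : Finset (B D)} {a b : B D}
    (hd : Disjoint D1 D2) (hab : a ≠ b)
    (hv : a.1 = b.1) (ha : a ∈ (D1 ∪ D2)ᶜ) (hb' : b ∈ (D1 ∪ D2)ᶜ) :
    sb D a b (Num D ν L D1 D2) =
      sb D a b (zq D b 0 * cmf D (insert b D1 ∪ insert a D2)ᶜ a b) *
        sb D a b (Num D ν L (insert b D1) (insert a D2)) := by
  rw [Finset.mem_compl, Finset.mem_union, not_or] at ha hb'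
  have h1 : (D1 ∪ D2)ᶜ = insert a (insert b (insert b D1 ∪ insert a D2)ᶜ) := by
    ext c
    simp only [Finset.mem_compl, Finset.mem_union, Finset.mem_insert, not_or]
    constructor
    · rintro ⟨h1, h2⟩
      by_cases h3 : c = a
      · exact Or.inl h3
      · by_cases h4 : c = b
        · exact Or.inr (Or.inl h4)
        · exact Or.inr (Or.inr ⟨⟨h4, h1⟩, h3, h2⟩)
    · rintro (h1 | h1 | h1)
      · subst h1; exact ha
      · subst h1; exact hb'
      · exact ⟨h1.1.2, h1.2.2⟩
  have h2 := fun d => BSub_term D ν d hab hv ha.1 ha.2 hb'.1 hb'.2 (by simp) (by simp) h1 rfl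
  unfold Num
  induction L with
  | nil => simp
  | cons d L ih =>
    rw [List.map_cons, List.sum_cons, List.map_cons, List.sum_cons, map_add, map_add, ih,
      map_sum, map_sum, h2 d, ← Finset.mul_sum]
    ring

end Vale.Agent.P291.H
end
end

section

section

set_option autoImplicit false
set_option linter.unusedSectionVars false

/-! Divisibility of the numerators. -/

namespace Vale.Agent.P291.H

open MvPolynomial Vale.Agent.P291.G

variable (D : QData)

lemma pw_dvd_ww {N K : Finset (B D)} {a b : B D} (hab : a ≠ b) (ha : a ∈ N) (hb' : b ∈ N) :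
    pw D a b (decide (a ∈ K)) (decide (b ∈ K)) ∣ ww D N K := by
  refine dvd_trans ?_ (Finset.dvd_prod_of_mem _ ha)
  exact Finset.dvd_prod_of_mem (fun q => pw D a q (decide (a ∈ K)) (decide (q ∈ K)))
    (Finset.mem_erase.2 ⟨hab.symm, hb'⟩)

/-- every weight is divisible by `x a - x b` -/
lemma dvd_ww {N K : Finset (B D)} {a b : B D} (hab : a ≠ b) (hv : a.1 = b.1) (ha : a ∈ N)
    (hb' : b ∈ N) : (xq D a - xq D b) ∣ ww D N K := by
  by_cases h1 : a ∈ K
  · by_cases h2 : b ∈ K
    · refine dvd_trans ?_ (pw_dvd_ww D (K := K) hab ha hb')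
      rw [decide_eq_true h1, decide_eq_true h2]
      show _ ∣ g0 D a b * g1 D a b
      rw [g0, if_pos hv]
      exact Dvd.intro _ rfl
    · refine dvd_trans ?_ (pw_dvd_ww D (K := K) hab.symm hb' ha)
      rw [decide_eq_true h1, decide_eq_false h2]
      show _ ∣ hq D b a (-hb D) * g0 D b a
      rw [g0, if_pos hv.symm]
      exact dvd_mul_of_dvd_right ⟨-1, by ring⟩ _
  · refine dvd_trans ?_ (pw_dvd_ww D (K := K) hab ha hb')
    by_cases h2 : b ∈ K
    · rw [decide_eq_false h1, decide_eq_true h2]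
      show _ ∣ hq D a b (-hb D) * g0 D a b
      rw [g0, if_pos hv]
      exact dvd_mul_of_dvd_right dvd_rfl _
    · rw [decide_eq_false h1, decide_eq_false h2]
      show _ ∣ g0 D a b * g1 D a b
      rw [g0, if_pos hv]
      exact Dvd.intro _ rfl

/-! ### relatively prime linear forms -/

/-- the linear forms `x a - x b`, `x a - x b + ħ` -/
noncomputable def lf (a b : B D) (k : Bool) : S D (ZZ D) :=
  xq D a - xq D b + (if k = true then hb D else 0)

lemma lf_false (a b : B D) : lf D a b false = xq D a - xq D b := by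
  rw [lf, if_neg Bool.false_ne_true, add_zero]

lemma lf_true (a b : B D) : lf D a b true = xq D a - xq D b + hb D := by
  rw [lf, if_pos rfl]

lemma lf_prime {a b : B D} (hab : a ≠ b) (k : Bool) : Prime (lf D a b k) := by
  classical
  cases k
  · rw [lf_false]
    exact (GUfd.irreducible_sub (fun h => hab (Sum.inl_injective h))).prime
  · rw [lf_true]
    exact prime_hb D a b hab

lemma eval_lf (pt : B D ⊕ ZZ D → ℂ) (a b : B D) (k : Bool) :
    eval pt (lf D a b k) = pt (Sum.inl a) - pt (Sum.inl b) +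
      (if k = true then pt (Sum.inr (Sum.inr (Sum.inl ()))) else 0) := by
  rw [lf, map_add, map_sub]
  have h1 : ∀ c : B D, eval pt (xq D c) = pt (Sum.inl c) := fun c => eval_X _
  have h2 : eval pt (hb D) = pt (Sum.inr (Sum.inr (Sum.inl ()))) := eval_X _
  rw [h1, h1]
  split_ifs
  · rw [h2]
  · rw [map_zero]

lemma lf_not_dvd {a b c d : B D} {k l : Bool} (hcd : c ≠ d)
    (h1 : ¬ (c = a ∧ d = b ∧ k = l)) (h2 : ¬ (c = b ∧ d = a ∧ k = false ∧ l = false)) :
    ¬ lf D a b k ∣ lf D c d l := by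
  rintro ⟨q, hq'⟩
  by_cases hc : c = a ∨ c = b
  · by_cases hd : d = a ∨ d = b
    · -- same pair
      by_cases hab : a = b
      · subst hab
        rcases hc with rfl | rfl <;> rcases hd with h | h <;> exact hcd h.symm
      let pt : B D ⊕ ZZ D → ℂ := Sum.elim
        (fun e => if e = a then (if k = true then -1 else 0) else 0) (fun _ => 1)
      have h3 := congrArg (eval pt) hq'
      rw [map_mul, eval_lf, eval_lf] at h3
      have pa : pt (Sum.inl a) = if k = true then -1 else 0 := by simp [pt]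
      have pb : pt (Sum.inl b) = 0 := by
        have : ¬ b = a := fun h => hab h.symm
        simp [pt, this]
      have ph : pt (Sum.inr (Sum.inr (Sum.inl ()))) = 1 := rfl
      rcases hc with rfl | rfl
      · rcases hd with rfl | rfl
        · exact hcd rfl
        · rw [pa, pb, ph] at h3
          cases k <;> cases l <;> simp at h3 h1
      · rcases hd with rfl | rfl
        · rw [pa, pb, ph] at h3
          cases k <;> cases l <;> simp at h3 h2
        · exact hcd rfl
    · let pt : B D ⊕ ZZ D → ℂ := Sum.elim (fun e => if e = d then 1 else 0) (fun _ => 0)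
      have h3 := congrArg (eval pt) hq'
      rw [map_mul, eval_lf, eval_lf] at h3
      have pa : pt (Sum.inl a) = 0 := by
        have : ¬ a = d := fun h => hd (Or.inl h.symm)
        simp [pt, this]
      have pb : pt (Sum.inl b) = 0 := by
        have : ¬ b = d := fun h => hd (Or.inr h.symm)
        simp [pt, this]
      have pc : pt (Sum.inl c) = 0 := by simp [pt, hcd]
      have pd : pt (Sum.inl d) = 1 := by simp [pt]
      have ph : pt (Sum.inr (Sum.inr (Sum.inl ()))) = 0 := rfl
      rw [pa, pb, pc, pd, ph] at h3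
      simp at h3
  · let pt : B D ⊕ ZZ D → ℂ := Sum.elim (fun e => if e = c then 1 else 0) (fun _ => 0)
    have h3 := congrArg (eval pt) hq'
    rw [map_mul, eval_lf, eval_lf] at h3
    have pa : pt (Sum.inl a) = 0 := by
      have : ¬ a = c := fun h => hc (Or.inl h.symm)
      simp [pt, this]
    have pb : pt (Sum.inl b) = 0 := by
      have : ¬ b = c := fun h => hc (Or.inr h.symm)
      simp [pt, this]
    have pc : pt (Sum.inl c) = 1 := by simp [pt]
    have pd : pt (Sum.inl d) = 0 := by simp [pt, hcd.symm]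
    have ph : pt (Sum.inr (Sum.inr (Sum.inl ()))) = 0 := rfl
    rw [pa, pb, pc, pd, ph] at h3
    simp at h3

lemma lf_relPrime {a b c d : B D} {k l : Bool} (hab : a ≠ b) (hcd : c ≠ d)
    (h1 : ¬ (c = a ∧ d = b ∧ k = l)) (h2 : ¬ (c = b ∧ d = a ∧ k = false ∧ l = false)) :
    IsRelPrime (lf D a b k) (lf D c d l) :=
  (lf_prime D hab k).irreducible.isRelPrime_iff_not_dvd.2 (lf_not_dvd D hcd h1 h2)

/-- all factors of a pair -/
noncomputable def TTq (a b : B D) : S D (ZZ D) := (g0 D a b * g1 D a b) * (g0 D b a * g1 D b a)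

lemma TT_pos {a b : B D} (hv : a.1 = b.1) :
    TTq D a b = (lf D a b false * lf D a b true) * (lf D b a false * lf D b a true) := by
  rw [TTq, g0, g1, g0, g1, if_pos hv, if_pos hv, if_pos hv.symm, if_pos hv.symm, lf_false, lf_true,
    lf_false, lf_true]

lemma TT_neg {a b : B D} (hv : a.1 ≠ b.1) : TTq D a b = 1 := by
  rw [TTq, g0, g1, g0, g1, if_neg hv, if_neg hv, if_neg (Ne.symm hv), if_neg (Ne.symm hv)]
  ring

lemma TT_relPrime {a b c d : B D} (hab : a ≠ b) (hcd : c ≠ d)
    (hne : ¬ ((c = a ∧ d = b) ∨ (c = b ∧ d = a))) : IsRelPrime (TTq D a b) (TTq D c d) := by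
  by_cases h1 : a.1 = b.1
  swap
  · rw [TT_neg D h1]; exact isRelPrime_one_left
  by_cases h2 : c.1 = d.1
  swap
  · rw [TT_neg D h2]; exact isRelPrime_one_right
  rw [TT_pos D h1, TT_pos D h2]
  have e1 : ∀ k l, IsRelPrime (lf D a b k) (lf D c d l) := fun k l =>
    lf_relPrime D hab hcd (fun h => hne (Or.inl ⟨h.1, h.2.1⟩)) (fun h => hne (Or.inr ⟨h.1, h.2.1⟩))
  have e2 : ∀ k l, IsRelPrime (lf D a b k) (lf D d c l) := fun k l =>
    lf_relPrime D hab hcd.symm (fun h => hne (Or.inr ⟨h.2.1, h.1⟩))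
      (fun h => hne (Or.inl ⟨h.2.1, h.1⟩))
  have e3 : ∀ k l, IsRelPrime (lf D b a k) (lf D c d l) := fun k l =>
    lf_relPrime D hab.symm hcd (fun h => hne (Or.inr ⟨h.1, h.2.1⟩))
      (fun h => hne (Or.inl ⟨h.1, h.2.1⟩))
  have e4 : ∀ k l, IsRelPrime (lf D b a k) (lf D d c l) := fun k l =>
    lf_relPrime D hab.symm hcd.symm (fun h => hne (Or.inl ⟨h.2.1, h.1⟩))
      (fun h => hne (Or.inr ⟨h.2.1, h.1⟩))
  have f1 : ∀ k, IsRelPrime (lf D a b k)
      ((lf D c d false * lf D c d true) * (lf D d c false * lf D d c true)) := fun k =>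
    ((e1 k _).mul_right (e1 k _)).mul_right ((e2 k _).mul_right (e2 k _))
  have f2 : ∀ k, IsRelPrime (lf D b a k)
      ((lf D c d false * lf D c d true) * (lf D d c false * lf D d c true)) := fun k =>
    ((e3 k _).mul_right (e3 k _)).mul_right ((e4 k _).mul_right (e4 k _))
  exact ((f1 _).mul_left (f1 _)).mul_left ((f2 _).mul_left (f2 _))

lemma TT_dvd {a b : B D} (hab : a ≠ b) {f : S D (ZZ D)}
    (h0 : a.1 = b.1 → (xq D a - xq D b) ^ 2 ∣ f)
    (h1 : a.1 = b.1 → (xq D a - xq D b + hb D) ∣ f)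
    (h2 : a.1 = b.1 → (xq D b - xq D a + hb D) ∣ f) : TTq D a b ∣ f := by
  by_cases hv : a.1 = b.1
  swap
  · rw [TT_neg D hv]; exact one_dvd _
  have e1 : IsRelPrime (lf D a b false) (lf D a b true) :=
    lf_relPrime D hab hab (by simp) (by simp)
  have e2 : IsRelPrime (lf D a b false) (lf D b a true) :=
    lf_relPrime D hab hab.symm (by simp) (by simp)
  have e3 : IsRelPrime (lf D a b true) (lf D b a true) :=
    lf_relPrime D hab hab.symm (fun h => hab h.1.symm) (by simp)
  have d0 : lf D a b false ^ 2 ∣ f := by rw [lf_false]; exact h0 hv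
  have d1 : lf D a b true ∣ f := by rw [lf_true]; exact h1 hv
  have d2 : lf D b a true ∣ f := by rw [lf_true]; exact h2 hv
  have h3 : lf D a b false ^ 2 * lf D a b true * lf D b a true ∣ f := by
    refine IsRelPrime.mul_dvd ?_ (IsRelPrime.mul_dvd ?_ d0 d1) d2
    · refine IsRelPrime.mul_left ?_ e3
      rw [sq]; exact e2.mul_left e2
    · rw [sq]; exact e1.mul_left e1
  have h4 : TTq D a b = -(lf D a b false ^ 2 * lf D a b true * lf D b a true) := by
    rw [TT_pos D hv, lf_false, lf_true, lf_false, lf_true]; ring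
  rw [h4]
  exact (neg_dvd (α := S D (ZZ D))).2 h3

/-- the product over ordered pairs as a product over unordered pairs -/
lemma Om_eq (N : Finset (B D)) (e : B D → ℕ) (he : Function.Injective e) :
    Om D N = ∏ p ∈ N.offDiag.filter (fun p => e p.1 < e p.2), TTq D p.1 p.2 := by
  have h1 : Om D N = ∏ p ∈ N.offDiag, g0 D p.1 p.2 * g1 D p.1 p.2 := by
    rw [Om, Finset.prod_sigma']
    refine Finset.prod_bij (fun x _ => (x.1, x.2)) ?_ ?_ ?_ ?_
    · rintro ⟨a, b⟩ h
      rw [Finset.mem_sigma, Finset.mem_erase] at h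
      exact Finset.mem_offDiag.2 ⟨h.1, h.2.2, h.2.1.symm⟩
    · rintro ⟨a, b⟩ _ ⟨c, d⟩ _ h
      simp only [Prod.mk.injEq] at h
      obtain ⟨rfl, rfl⟩ := h
      rfl
    · rintro ⟨a, b⟩ h
      rw [Finset.mem_offDiag] at h
      exact ⟨⟨a, b⟩, Finset.mem_sigma.2 ⟨h.1, Finset.mem_erase.2 ⟨h.2.2.symm, h.2.1⟩⟩, rfl⟩
    · rintro ⟨a, b⟩ _
      rfl
  have h2 := Finset.prod_filter_mul_prod_filter_not N.offDiag (fun p => e p.1 < e p.2)
    (fun p => g0 D p.1 p.2 * g1 D p.1 p.2)
  have h3 : ∏ p ∈ N.offDiag.filter (fun p => ¬ e p.1 < e p.2), g0 D p.1 p.2 * g1 D p.1 p.2 =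
      ∏ p ∈ N.offDiag.filter (fun p => e p.1 < e p.2), g0 D p.2 p.1 * g1 D p.2 p.1 := by
    refine Finset.prod_bij (fun x _ => (x.2, x.1)) ?_ ?_ ?_ ?_
    · rintro ⟨a, b⟩ h
      rw [Finset.mem_filter, Finset.mem_offDiag] at h
      rw [Finset.mem_filter, Finset.mem_offDiag]
      refine ⟨⟨h.1.2.1, h.1.1, h.1.2.2.symm⟩, ?_⟩
      exact lt_of_le_of_ne (not_lt.1 h.2) (fun h' => h.1.2.2 (he h').symm)
    · rintro ⟨a, b⟩ _ ⟨c, d⟩ _ h
      simp only [Prod.mk.injEq] at h
      obtain ⟨rfl, rfl⟩ := h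
      rfl
    · rintro ⟨a, b⟩ h
      rw [Finset.mem_filter, Finset.mem_offDiag] at h
      refine ⟨(b, a), ?_, rfl⟩
      rw [Finset.mem_filter, Finset.mem_offDiag]
      exact ⟨⟨h.1.2.1, h.1.1, h.1.2.2.symm⟩, not_lt.2 h.2.le⟩
    · rintro ⟨a, b⟩ _
      rfl
  rw [h1, ← h2, h3, ← Finset.prod_mul_distrib]
  rfl

/-- the criterion for divisibility by `Om N`: the factors `(x a - x b) (x b - x a)` (unordered
pairs) and `x a - x b + ħ` (ordered pairs) are pairwise relatively prime -/
lemma Om_dvd {N : Finset (B D)} {f : S D (ZZ D)}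
    (h0 : ∀ a ∈ N, ∀ b ∈ N, a ≠ b → a.1 = b.1 → (xq D a - xq D b) ^ 2 ∣ f)
    (h1 : ∀ a ∈ N, ∀ b ∈ N, a ≠ b → a.1 = b.1 → (xq D a - xq D b + hb D) ∣ f) :
    Om D N ∣ f := by
  set e : B D → ℕ := fun b => (Fintype.equivFin (B D) b : ℕ) with he
  have hei : Function.Injective e := fun a b h => (Fintype.equivFin (B D)).injective (Fin.ext h)
  rw [Om_eq D N e hei]
  refine Finset.prod_dvd_of_isRelPrime ?_ fun p hp => ?_
  · intro p hp q hq' hpq
    have hp2 := Finset.mem_filter.1 (Finset.mem_coe.1 hp)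
    have hq2 := Finset.mem_filter.1 (Finset.mem_coe.1 hq')
    rw [Finset.mem_offDiag] at hp2 hq2
    refine TT_relPrime D hp2.1.2.2 hq2.1.2.2 ?_
    rintro (⟨h3, h4⟩ | ⟨h3, h4⟩)
    · exact hpq (Prod.ext h3.symm h4.symm)
    · have h5 := hq2.2
      rw [h3, h4] at h5
      exact lt_asymm h5 hp2.2
  · rw [Finset.mem_filter, Finset.mem_offDiag] at hp
    obtain ⟨⟨ha, hb', hab⟩, _⟩ := hp
    exact TT_dvd D hab (h0 _ ha _ hb' hab) (h1 _ ha _ hb' hab)
      (fun hv => h1 _ hb' _ ha hab.symm hv.symm)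

lemma dvd_Num (ν : D.I → ℤ) (L : List (Dat D)) {D1 D2 : Finset (B D)} {a b : B D}
    (hab : a ≠ b) (hv : a.1 = b.1) (ha : a ∈ (D1 ∪ D2)ᶜ) (hb' : b ∈ (D1 ∪ D2)ᶜ) :
    (xq D a - xq D b) ∣ Num D ν L D1 D2 := by
  rw [Num]
  refine List.dvd_sum ?_
  intro t ht
  obtain ⟨d, _, rfl⟩ := List.mem_map.1 ht
  refine Finset.dvd_sum fun K _ => ?_
  rw [Term]
  split_ifs
  · exact dvd_mul_of_dvd_right (dvd_ww D hab hv ha hb') _
  · exact dvd_mul_of_dvd_right (dvd_ww D hab hv ha hb') _

lemma sq_dvd_Num (ν : D.I → ℤ) (L : List (Dat D)) {D1 D2 : Finset (B D)} {a b : B D}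
    (hab : a ≠ b) (hv : a.1 = b.1) (ha : a ∈ (D1 ∪ D2)ᶜ) (hb' : b ∈ (D1 ∪ D2)ᶜ) :
    (xq D a - xq D b) ^ 2 ∣ Num D ν L D1 D2 := by
  obtain ⟨q, hq'⟩ := dvd_Num D ν L hab hv ha hb'
  obtain ⟨i, r⟩ := a
  obtain ⟨j, s⟩ := b
  obtain rfl : i = j := hv
  rw [Finset.mem_compl, Finset.mem_union, not_or] at ha hb'
  have h1 := act_Num D ν L (tr D i r s) D1 D2
  rw [mp_tr D (iff_of_false ha.1 hb'.1), mp_tr D (iff_of_false ha.2 hb'.2), hq', map_mul, map_sub,
    act_xx, act_xx,
    perm_tr, Equiv.swap_apply_left, Equiv.swap_apply_right] at h1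
  have hne : xq D ⟨i, r⟩ - xq D ⟨i, s⟩ ≠ 0 := by
    have := (lf_prime D hab false).ne_zero
    rwa [lf_false] at this
  have h2 : act D (ZZ D) (tr D i r s) q = -q := by
    apply mul_left_cancel₀ hne
    have h3 : (xq D ⟨i, r⟩ - xq D ⟨i, s⟩) * act D (ZZ D) (tr D i r s) q =
        -((xx D (ZZ D) ⟨i, s⟩ - xx D (ZZ D) ⟨i, r⟩) * act D (ZZ D) (tr D i r s) q) := by
      ring
    rw [h3, h1]
    ring
  have h4 : (xq D ⟨i, r⟩ - xq D ⟨i, s⟩) ∣ q :=
    dvd_of_tr D (ZZ D) i (fun h => hab (by rw [h])) h2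
  rw [hq', sq]
  exact mul_dvd_mul_left _ h4

/-- DIVISIBILITY. If all numerators of the next level vanish then `Om` divides the numerator.
By `dvd_ww`, `x a - x b` divides the numerator; it is invariant under the transposition of `a, b`
(`act_Num`), so the quotient is alternating and divisible by `x a - x b` once more. The factors
`x a - x b + ħ` by `sb_Num`, `sb_eq_zero`. -/
theorem Om_dvd_Num (ν : D.I → ℤ) (L : List (Dat D)) {D1 D2 : Finset (B D)}
    (hd : Disjoint D1 D2)
    (H : ∀ a ∈ (D1 ∪ D2)ᶜ, ∀ b ∈ (D1 ∪ D2)ᶜ, a ≠ b → a.1 = b.1 →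
      Num D ν L (insert b D1) (insert a D2) = 0) :
    Om D (D1 ∪ D2)ᶜ ∣ Num D ν L D1 D2 := by
  refine Om_dvd D (fun a ha b hb' hab hv => sq_dvd_Num D ν L hab hv ha hb')
    (fun a ha b hb' hab hv => ?_)
  refine sb_eq_zero D hab ?_
  rw [sb_Num D ν L hd hab hv ha hb', H a ha b hb' hab hv, map_zero, mul_zero]

end Vale.Agent.P291.H
end
end

section

section

set_option autoImplicit false

namespace Vale.Agent.P291.G

open MvPolynomial

variable (D : QData)

/-- flavor variables: one for every arrow, one for every framing vector, `ħ`, coordinates of `F` -/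
abbrev Zmax : Type := (D.A ⊕ (Σ i : D.I, Fin (D.w i))) ⊕ (Unit ⊕ Fin D.rk)

/-- `H_{G × F_max × ℂ^*_ħ × F}(pt)` before taking `W`-invariants -/
abbrev Pmax : Type := MvPolynomial (B D ⊕ Zmax D) ℂ

/-- gauge variable -/
noncomputable def gx (b : B D) : Pmax D := X (Sum.inl b)
/-- parameter of an arrow -/
noncomputable def ga (a : D.A) : Pmax D := X (Sum.inr (Sum.inl (Sum.inl a)))
/-- parameter of a framing vector -/
noncomputable def gw (i : D.I) (k : Fin (D.w i)) : Pmax D :=
  X (Sum.inr (Sum.inl (Sum.inr ⟨i, k⟩)))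
/-- weight of the dilation of `N^*` -/
noncomputable def gh : Pmax D := X (Sum.inr (Sum.inr (Sum.inl ())))

/-- factor of the weight `χ` of `N` and of the weight `ħ - χ` of `N^*`, `c = ⟨χ, l⟩` -/
noncomputable def fac (χ : Pmax D) (c : ℤ) : Pmax D :=
  if c < 0 then χ else if 0 < c then gh D - χ else 1

/-- class of the locus in `T^*N` contracted by the cocharacter `l` -/
noncomputable def unst (l : B D → ℤ) : Pmax D :=
  (∏ a, ∏ r, ∏ s, fac D (gx D ⟨D.tgt a, s⟩ - gx D ⟨D.src a, r⟩ + ga D a)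
      (l ⟨D.tgt a, s⟩ - l ⟨D.src a, r⟩)) *
    ∏ i, ∏ r, ∏ k, fac D (gw D i k - gx D ⟨i, r⟩) (-l ⟨i, r⟩)

/-- product of the weights `α` and `ħ + α` over the roots of `G` -/
noncomputable def disc : Pmax D :=
  ∏ i, ∏ r : Fin (D.v i), ∏ s ∈ Finset.univ.erase r,
    (gx D ⟨i, r⟩ - gx D ⟨i, s⟩) * (gx D ⟨i, r⟩ - gx D ⟨i, s⟩ + gh D)

section
variable {K L : Type} [Field K] [Algebra ℂ K] [CommRing L] [Algebra K L]
  (x : B D → K) (y : Fin D.rk → K) (u : (B D → ℤ) → L)

/-- specialization to `F` and `ħ = 0` -/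
noncomputable def spc : Pmax D →ₐ[ℂ] K :=
  aeval (Sum.elim x (Sum.elim (Sum.elim (fun a => lin y (D.ta a)) fun p => lin y (D.tw p.1 p.2))
    (Sum.elim (fun _ => 0) y)))

/-- the kernel of the Kirwan map, by the theorem of Hausel and Proudfoot -/
noncomputable def kerH (ν : D.I → ℤ) : Set K :=
  {z | ∃ g : Pmax D, (∀ σ : W D, rename (Sum.map (perm D σ) id) g = g) ∧
    g * disc D ∈ Ideal.span {p | ∃ l, wt D ν l < 0 ∧ p = unst D l} ∧ spc D x y g = z}

/-- sums of products of a positive and a negative minuscule operator of opposite charges -/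
noncomputable def quad : AddSubgroup L :=
  AddSubgroup.closure {c | ∃ l f g, Min D l ∧ l ≠ 0 ∧ c = mono D x y u l f * mono D x y u (-l) g}

end

end Vale.Agent.P291.G
end
end

section

section

set_option autoImplicit false
set_option linter.unusedSectionVars false

/-! The substitution `th`. -/

namespace Vale.Agent.P291.H.M

open MvPolynomial Vale.Agent.P291.G

variable {D : QData} {Z : Type}

/-- on fibres the sum of the power sums is the power sum of all marks -/
theorem th_fb {m : ℕ} (g : B D → Fin m) (Q : PP D Z m) :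
    evA D Z (fb D g) (th D Z m Q) = evA D Z (fb D g) Q := by
  have h : (evA D Z (fb D g)).comp (th D Z m) = evA D Z (fb D g) := by
    refine MvPolynomial.algHom_ext fun v => ?_
    rcases v with p | p | z
    · simp [evA, th]
    · rw [AlgHom.comp_apply, th, aeval_X]
      simp only [Sum.elim_inr, Sum.elim_inl, map_sum]
      simp only [evA, aeval_X, Sum.elim_inr, Sum.elim_inl, ps, fb]
      exact Finset.sum_fiberwise _ _ _
    · simp [evA, th]
  exact DFunLike.congr_fun h Q

theorem theta_sub {C : ℕ → Finset (B D)} (hC : ∀ j, C (j + 1) ⊆ C j) (j : ℕ) : C j ⊆ C 0 := by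
  induction j with
  | zero => exact Finset.Subset.refl _
  | succ k ih => exact (hC k).trans ih

theorem theta_kp_xx (ι : B D → B D) (b : B D) : kp D Z ι (xx D Z b) = xx D Z (ι b) := by
  simp [kp, xx]

theorem theta_kp_ps (ι : B D → B D) (A : Finset (B D)) (i : D.I) (j : ℕ) :
    kp D Z ι (ps D Z A i j) = ∑ b ∈ A, if b.1 = i then xx D Z (ι b) ^ j else 0 := by
  rw [ps, map_sum]
  refine Finset.sum_congr rfl fun b _ => ?_
  split_ifs
  · rw [map_pow, theta_kp_xx]
  · rw [map_zero]

theorem theta_sum {m : ℕ} {C : ℕ → Finset (B D)} {ι : B D → B D}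
    {g₀ : B D → Fin m} (hio : Io C ι g₀) (F : B D → S D Z) :
    ∑ b, F (ι b) = ∑ t : Fin m, ∑ a ∈ C t, F a := by
  rw [← Finset.sum_fiberwise (s := Finset.univ) (g := g₀)]
  refine Finset.sum_congr rfl fun t _ => ?_
  refine Finset.sum_bij (fun b _ => ι b) ?_ ?_ ?_ ?_
  · intro b hb
    have h1 := hio.mem b
    rw [(Finset.mem_filter.mp hb).2] at h1
    exact h1
  · intro b hb b' hb' h
    exact hio.inj b b' h (((Finset.mem_filter.mp hb).2).trans ((Finset.mem_filter.mp hb').2).symm)
  · intro a ha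
    obtain ⟨b, h1, h2⟩ := hio.surj a t ha
    exact ⟨b, Finset.mem_filter.mpr ⟨Finset.mem_univ _, h2⟩, h1⟩
  · intro b _
    rfl

/-- both sides are algebra homomorphisms; `kp ι (ps (C t) i j) = ps (C t) i j` as `C t ⊆ C 0`, and
`kp ι (ps univ i j) = ∑ b, if b.1 = i then xx (ι b) ^ j = ∑ t, ps (C t) i j` by the bijection
`b ↦ (ι b, g₀ b)` -/
theorem th_C {m : ℕ} {C : ℕ → Finset (B D)} (hC : ∀ j, C (j + 1) ⊆ C j) {ι : B D → B D}
    {g₀ : B D → Fin m} (hio : Io C ι g₀) (Q : PP D Z m) :
    kp D Z ι (evA D Z (fun t : Fin m => C t) Q) =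
      evA D Z (fun t : Fin m => C t) (th D Z m Q) := by
  have h : (kp D Z ι).comp (evA D Z (fun t : Fin m => C t)) =
      (evA D Z (fun t : Fin m => C t)).comp (th D Z m) := by
    refine MvPolynomial.algHom_ext fun v => ?_
    rcases v with ⟨t, i, j⟩ | ⟨i, j⟩ | z
    · rw [AlgHom.comp_apply, AlgHom.comp_apply, th, aeval_X, evA, aeval_X]
      simp only [Sum.elim_inl]
      rw [aeval_X]
      simp only [Sum.elim_inl]
      rw [theta_kp_ps, ps]
      refine Finset.sum_congr rfl fun b hb => ?_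
      rw [hio.fix b (theta_sub hC _ hb)]
    · rw [AlgHom.comp_apply, AlgHom.comp_apply, th, aeval_X, evA, aeval_X]
      simp only [Sum.elim_inr, Sum.elim_inl, map_sum]
      simp only [aeval_X, Sum.elim_inl]
      rw [theta_kp_ps]
      have h1 : ∀ b : B D, (if b.1 = i then xx D Z (ι b) ^ j else 0) =
          (fun a : B D => if a.1 = i then xx D Z a ^ j else 0) (ι b) := by
        intro b
        simp only [hio.col b]
      rw [Finset.sum_congr rfl fun b _ => h1 b]
      exact theta_sum hio (fun a : B D => if a.1 = i then xx D Z a ^ j else 0)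
    · simp [evA, th, kp]
  exact DFunLike.congr_fun h Q

end Vale.Agent.P291.H.M
end
end

section

section

set_option autoImplicit false
set_option linter.unusedSectionVars false

/-! The weights of `N` with all flavors. -/

namespace Vale.Agent.P291.H.M

open MvPolynomial Vale.Agent.P291.G

variable (D : QData)

/-- evaluation: gauge variables `↦ 0`, labels `↦ 1` -/
noncomputable def wX_ev : S D (ZZ D) →ₐ[ℂ] ℂ :=
  aeval (Sum.elim (fun _ => 0) (Sum.elim (fun _ => 1) fun _ => 0))

lemma wX_ev_xq (b : B D) : wX_ev D (xq D b) = 0 := by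
  rw [wX_ev, xq, xx, aeval_X]; rfl

lemma wX_ev_tv (a : D.A) : wX_ev D (tv D a) = 1 := by
  rw [wX_ev, tv, aeval_X]; rfl

lemma wX_ev_zv (i : D.I) (k : Fin (D.w i)) : wX_ev D (zv D i k) = 1 := by
  rw [wX_ev, zv, aeval_X]; rfl

lemma wX_ev_hq (b c : B D) : wX_ev D (hq D b c 0) = 1 := by
  rw [hq, map_prod]
  refine Finset.prod_eq_one fun a _ => ?_
  rw [map_add, map_add, map_sub, wX_ev_xq, wX_ev_xq, wX_ev_tv, map_zero]
  norm_num

lemma wX_ev_zq (b : B D) : wX_ev D (zq D b 0) = 1 := by
  rw [zq, map_prod]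
  refine Finset.prod_eq_one fun k _ => ?_
  rw [map_add, map_sub, wX_ev_xq, wX_ev_zv, map_zero]
  norm_num

lemma wX_ev_kp (ι : B D → B D) (f : S D (ZZ D)) : wX_ev D (kp D (ZZ D) ι f) = wX_ev D f := by
  have h : (wX_ev D).comp (kp D (ZZ D) ι) = wX_ev D := by
    refine MvPolynomial.algHom_ext fun i => ?_
    rw [AlgHom.comp_apply, kp, rename_X, wX_ev, aeval_X, aeval_X]
    rcases i with b | z <;> rfl
  exact DFunLike.congr_fun h f

lemma hq_ne {b c : B D} (_h : b ≠ c) : hq D b c 0 ≠ 0 := by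
  intro h0
  have h1 := wX_ev_hq D b c
  rw [h0, map_zero] at h1
  exact zero_ne_one h1

lemma zq_ne (b : B D) : zq D b 0 ≠ 0 := by
  intro h0
  have h1 := wX_ev_zq D b
  rw [h0, map_zero] at h1
  exact zero_ne_one h1

/-- the weights of `N` for the maximal flavor torus -/
noncomputable def wX : Wts D (ZZ D) where
  h b c := hq D b c 0
  z b := zq D b 0
  h_act := fun σ b c => act_hq D σ b c (map_zero _)
  z_act := fun σ b => act_zq D σ b (map_zero _)
  h_ne := fun _ _ h => hq_ne D h
  z_ne := fun b => zq_ne D b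

/-- the labels -/
noncomputable def lab_wX : Vale.Agent.P291.J.Lab (wX D) where
  ta := tv D
  tz := zv D
  hta := fun C _ => Vale.Agent.P291.J.tr_inr D (ZZ D) C _
  htz := fun C _ _ => Vale.Agent.P291.J.tr_inr D (ZZ D) C _
  hh := by
    intro b c
    change hq D b c 0 = _
    rw [hq]
    refine Finset.prod_congr rfl fun a _ => ?_
    exact add_zero _
  hz := by
    intro b
    change zq D b 0 = _
    rw [zq]
    refine Finset.prod_congr rfl fun k _ => ?_
    exact add_zero _

/-- `kp ι (x c - x b + t a) = x (ι c) - x (ι b) + t a ≠ 0` -/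
theorem nv_wX : NV (wX D) where
  h_ne := by
    intro ι _ b c _ h0
    have h1 := wX_ev_kp D ι (hq D b c 0)
    rw [wX_ev_hq] at h1
    change kp D (ZZ D) ι (hq D b c 0) = 0 at h0
    rw [h0, map_zero] at h1
    exact zero_ne_one h1
  z_ne := by
    intro ι _ b h0
    have h1 := wX_ev_kp D ι (zq D b 0)
    rw [wX_ev_zq] at h1
    change kp D (ZZ D) ι (zq D b 0) = 0 at h0
    rw [h0, map_zero] at h1
    exact zero_ne_one h1

end Vale.Agent.P291.H.M
end
end

section

section

set_option autoImplicit false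
set_option linter.unusedSectionVars false

/-! The product of the differences. -/

namespace Vale.Agent.P291.K

open MvPolynomial

variable {M A I : Type} [CommRing A] [IsDomain A] [Algebra ℚ A] [DecidableEq M] [Fintype M]
  (col : M → I)

/-- `pp` splits -/
lemma pp_mul (s : A) (p q : M → M → Prop) (h : ∀ a b, ¬ (p a b ∧ q a b)) :
    pp col s p * pp col s q = pp col s fun a b => p a b ∨ q a b := by
  classical
  unfold pp
  rw [← Finset.prod_mul_distrib]
  refine Finset.prod_congr rfl fun a _ => ?_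
  rw [← Finset.prod_mul_distrib]
  refine Finset.prod_congr rfl fun b _ => ?_
  have h1 := h a b
  by_cases h2 : a ≠ b ∧ col a = col b
  · by_cases hp : p a b
    · have hq : ¬ q a b := fun hq => h1 ⟨hp, hq⟩
      rw [if_pos ⟨h2.1, h2.2, hp⟩, if_neg fun h3 => hq h3.2.2, if_pos ⟨h2.1, h2.2, Or.inl hp⟩,
        mul_one]
    · by_cases hq : q a b
      · rw [if_neg fun h3 => hp h3.2.2, if_pos ⟨h2.1, h2.2, hq⟩,
          if_pos ⟨h2.1, h2.2, Or.inr hq⟩, one_mul]
      · rw [if_neg fun h3 => hp h3.2.2, if_neg fun h3 => hq h3.2.2,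
          if_neg fun h3 => h3.2.2.elim hp hq, one_mul]
  · rw [if_neg fun h3 => h2 ⟨h3.1, h3.2.1⟩, if_neg fun h3 => h2 ⟨h3.1, h3.2.1⟩,
      if_neg fun h3 => h2 ⟨h3.1, h3.2.1⟩, one_mul]

/-- `pp` only depends on the pairs of different marks -/
lemma vdm_congr (s : A) (p q : M → M → Prop) (h : ∀ a b, a ≠ b → (p a b ↔ q a b)) :
    pp col s p = pp col s q := by
  classical
  unfold pp
  refine Finset.prod_congr rfl fun a _ => Finset.prod_congr rfl fun b _ => ?_
  by_cases hab : a = b
  · rw [if_neg fun h3 => h3.1 hab, if_neg fun h3 => h3.1 hab]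
  · simp only [h a b hab]

/-- permutations of the marks which respect the colours permute the factors -/
lemma rename_pp (π : Equiv.Perm M) (hπ : ∀ a, col (π a) = col a) (s : A) (p : M → M → Prop)
    (hp : ∀ a b, p (π a) (π b) ↔ p a b) : rename π (pp col s p) = pp col s p := by
  classical
  unfold pp
  rw [map_prod]
  conv_rhs => rw [← Equiv.prod_comp π]
  refine Finset.prod_congr rfl fun a _ => ?_
  rw [map_prod]
  conv_rhs => rw [← Equiv.prod_comp π]
  refine Finset.prod_congr rfl fun b _ => ?_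
  by_cases h : a ≠ b ∧ col a = col b ∧ p a b
  · rw [if_pos h, if_pos ⟨fun h1 => h.1 (π.injective h1), by rw [hπ, hπ]; exact h.2.1,
      (hp a b).2 h.2.2⟩, map_add, map_sub, rename_X, rename_X, rename_C]
  · rw [if_neg h, if_neg, map_one]
    rintro ⟨h1, h2, h3⟩
    rw [hπ, hπ] at h2
    exact h ⟨fun h4 => h1 (by rw [h4]), h2, (hp a b).1 h3⟩

/-- the product over the reversed pairs -/
lemma vdm_rev (p : M → M → Prop) : ∃ e : ℤ, e * e = 1 ∧
    pp col (0 : A) (fun a b => p b a) = (e : MvPolynomial M A) * pp col 0 p := by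
  classical
  refine ⟨∏ a, ∏ b, if a ≠ b ∧ col a = col b ∧ p a b then -1 else 1, ?_, ?_⟩
  · rw [← Finset.prod_mul_distrib]
    refine Finset.prod_eq_one fun a _ => ?_
    rw [← Finset.prod_mul_distrib]
    refine Finset.prod_eq_one fun b _ => ?_
    split_ifs <;> norm_num
  · unfold pp
    rw [Finset.prod_comm]
    push_cast
    rw [← Finset.prod_mul_distrib]
    refine Finset.prod_congr rfl fun a _ => ?_
    rw [← Finset.prod_mul_distrib]
    refine Finset.prod_congr rfl fun b _ => ?_
    by_cases h : a ≠ b ∧ col a = col b ∧ p a b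
    · rw [if_pos h, if_pos h, if_pos ⟨h.1.symm, h.2.1.symm, h.2.2⟩, C_0]
      ring
    · rw [if_neg h, if_neg h, if_neg fun h1 => h ⟨h1.1.symm, h1.2.1.symm, h1.2.2⟩, one_mul]

/-- the square of the product over the ordered pairs `σ a < σ b` is, up to sign, the product over
all ordered pairs -/
lemma pp_sq (σ : M → ℕ) (hσ : Function.Injective σ) : ∃ e : ℤ, e * e = 1 ∧
    pp col (0 : A) (fun a b => σ a < σ b) * pp col 0 (fun a b => σ a < σ b) =
      (e : MvPolynomial M A) * pp col 0 fun _ _ => True := by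
  obtain ⟨e, he, h⟩ := vdm_rev (A := A) col fun a b => σ a < σ b
  refine ⟨e, he, ?_⟩
  have h1 : pp col (0 : A) (fun _ _ => True) =
      pp col 0 fun a b => σ a < σ b ∨ σ b < σ a := by
    refine vdm_congr col 0 _ _ fun a b hab => ?_
    have h2 : σ a ≠ σ b := fun h3 => hab (hσ h3)
    exact ⟨fun _ => lt_or_gt_of_ne h2, fun _ => trivial⟩
  rw [h1, ← pp_mul col 0 (fun a b => σ a < σ b) (fun a b => σ b < σ a)
    fun a b h2 => lt_asymm h2.1 h2.2, h]
  have he' : (e : MvPolynomial M A) * (e : MvPolynomial M A) = 1 := by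
    rw [← Int.cast_mul, he, Int.cast_one]
  linear_combination (-(pp col (0 : A) (fun a b => σ a < σ b) *
    pp col 0 (fun a b => σ a < σ b))) * he'

/-- one factor -/
lemma vdm_single {a b : M} (hab : a ≠ b) (hc : col a = col b) :
    pp col (0 : A) (fun c d => c = a ∧ d = b) = X a - X b := by
  classical
  unfold pp
  rw [Finset.prod_eq_single a, Finset.prod_eq_single b]
  · rw [if_pos ⟨hab, hc, rfl, rfl⟩, map_zero, add_zero]
  · intro d _ hd
    rw [if_neg fun h => hd h.2.2.2]
  · intro h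
    exact absurd (Finset.mem_univ b) h
  · intro c _ hca
    refine Finset.prod_eq_one fun d _ => ?_
    rw [if_neg fun h => hca h.2.2.1]
  · intro h
    exact absurd (Finset.mem_univ a) h

/-- the case `σ a < σ b` -/
lemma vdm_sw (σ : M → ℕ) (hσ : Function.Injective σ) {a b : M} (hab : σ a < σ b)
    (hc : col a = col b) :
    sw a b (pp col (0 : A) fun a b => σ a < σ b) = -pp col 0 fun a b => σ a < σ b := by
  classical
  have hne : a ≠ b := fun h => by
    rw [h] at hab
    exact lt_irrefl _ hab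
  have hchar : CharZero A := algebraRat.charZero A
  set P : MvPolynomial M A := pp col (0 : A) fun a b => σ a < σ b with hP
  obtain ⟨e, he, h1⟩ := pp_sq (A := A) col σ hσ
  rw [← hP] at h1
  have hinv : sw a b (pp col (0 : A) fun _ _ => True) = pp col 0 fun _ _ => True := by
    refine rename_pp col (Equiv.swap a b) (fun c => ?_) 0 _ fun _ _ => Iff.rfl
    by_cases h2 : c = a
    · rw [h2, Equiv.swap_apply_left, hc]
    · by_cases h3 : c = b
      · rw [h3, Equiv.swap_apply_right, hc]
      · rw [Equiv.swap_apply_of_ne_of_ne h2 h3]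
  have hsq : sw a b P * sw a b P = P * P := by
    rw [← map_mul, h1, map_mul, map_intCast, hinv]
  rcases mul_self_eq_mul_self_iff.1 hsq with h2 | h2
  · exfalso
    set Q : MvPolynomial M A := pp col (0 : A) (fun c d => σ c < σ d ∧ ¬ (c = a ∧ d = b)) with hQ
    have hPQ : P = (X a - X b) * Q := by
      rw [hP, hQ, ← vdm_single (A := A) col hne hc, pp_mul]
      · refine vdm_congr col 0 _ _ fun c d _ => ?_
        constructor
        · intro h3
          by_cases h4 : c = a ∧ d = b
          · exact Or.inl h4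
          · exact Or.inr ⟨h3, h4⟩
        · rintro (⟨rfl, rfl⟩ | h3)
          · exact hab
          · exact h3.1
      · intro c d h3
        exact h3.2.2 h3.1
    have hX : (X a - X b : MvPolynomial M A) ≠ 0 :=
      sub_ne_zero.2 fun h3 => hne (X_injective h3)
    have hswX : sw a b (X a - X b : MvPolynomial M A) = -(X a - X b) := by
      unfold sw
      rw [map_sub, rename_X, rename_X, Equiv.swap_apply_left, Equiv.swap_apply_right, neg_sub]
    have h3 : sw a b Q = -Q := by
      rw [hPQ, map_mul, hswX] at h2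
      have h4 : (X a - X b : MvPolynomial M A) * (sw a b Q + Q) = 0 := by
        linear_combination -h2
      exact eq_neg_of_add_eq_zero_left ((mul_eq_zero.1 h4).resolve_left hX)
    set f : M → M := fun c => if c = a then b else c with hf
    have hfa : f a = b := if_pos rfl
    have hfo : ∀ c, c ≠ a → f c = c := fun c hca => if_neg hca
    have hfs : f ∘ Equiv.swap a b = f := by
      funext c
      rw [Function.comp_apply]
      by_cases h4 : c = a
      · rw [h4, Equiv.swap_apply_left, hfa, hfo b hne.symm]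
      · by_cases h5 : c = b
        · rw [h5, Equiv.swap_apply_right, hfa, hfo b hne.symm]
        · rw [Equiv.swap_apply_of_ne_of_ne h4 h5]
    have h4 : rename f Q = -rename f Q := by
      have h5 := congrArg (rename f) h3
      unfold sw at h5
      rw [rename_rename, hfs, map_neg] at h5
      exact h5
    have h5 : rename f Q = 0 := self_eq_neg.1 h4
    refine absurd h5 ?_
    rw [hQ, pp, map_prod]
    refine Finset.prod_ne_zero_iff.2 fun c _ => ?_
    rw [map_prod]
    refine Finset.prod_ne_zero_iff.2 fun d _ => ?_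
    split_ifs with h6
    · obtain ⟨h7, -, h8, h9⟩ := h6
      rw [map_zero, add_zero, map_sub, rename_X, rename_X]
      refine sub_ne_zero.2 fun h10 => ?_
      have h11 : f c = f d := X_injective h10
      by_cases h12 : c = a
      · by_cases h13 : d = a
        · exact h7 (by rw [h12, h13])
        · rw [h12, hfa, hfo d h13] at h11
          exact h9 ⟨h12, h11.symm⟩
      · by_cases h13 : d = a
        · rw [h13, hfa, hfo c h12] at h11
          rw [h11, h13] at h8
          exact lt_asymm hab h8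
        · rw [hfo c h12, hfo d h13] at h11
          exact h7 h11
    · rw [map_one]
      exact one_ne_zero
  · exact h2

/-- the product over the pairs `σ a < σ b` is alternating (its square is invariant by `pp_sq` and
`rename_pp`, so it is invariant or changes sign; it is not invariant: divide by `x a - x b` and put
`x a = x b`) -/
lemma sw_vdm (σ : M → ℕ) (hσ : Function.Injective σ) {a b : M} (hab : a ≠ b)
    (hc : col a = col b) :
    sw a b (pp col (0 : A) fun a b => σ a < σ b) = -pp col 0 fun a b => σ a < σ b := by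
  rcases lt_or_gt_of_ne (fun h : σ a = σ b => hab (hσ h)) with h | h
  · exact vdm_sw col σ hσ h hc
  · have h1 := vdm_sw (A := A) col σ hσ h hc.symm
    rw [sw, Equiv.swap_comm] at h1
    exact h1

end Vale.Agent.P291.K
end
end

section

section

set_option autoImplicit false
set_option linter.unusedSectionVars false

/-! The mesh relations. -/

namespace Vale.Agent.P291.K

open MvPolynomial

section
variable {M A I : Type} [CommRing A] [IsDomain A] [Algebra ℚ A] [DecidableEq M] [Fintype M]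
  [DecidableEq I]
  (col : M → I) (L : I → I → Multiset A) (Z : I → Multiset A) (h : A)

/-- relation of rank `r` -/
noncomputable def PC {α : Type} [LinearOrder α] (r : M → α) (b : M) : MvPolynomial M A :=
  Pr (fun b c => L (col b) (col c)) (fun b => Z (col b)) (up r) b

/-- weight of the pair `b → c` -/
noncomputable def DC (b c : M) : MvPolynomial M A := Dw (fun b c => L (col b) (col c)) b c

/-- the marks after the `k`-th one -/
def Rs (σ : M → ℕ) (k : ℕ) : Finset M := Finset.univ.filter fun c => k < σ c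

/-- product of the weights `d → u` of the marks `d ∈ R` and of the shifted framing weight, as a
polynomial in the position of `u` (of colour `i`) -/
noncomputable def HH (R : Finset M) (i : I) : Polynomial (MvPolynomial M A) :=
  (∏ d ∈ R, ((L (col d) i).map fun l =>
    Polynomial.C (X d) - Polynomial.X + Polynomial.C (C l)).prod) *
  ((Z i).map fun z => Polynomial.X - Polynomial.C (C h) - Polynomial.C (C z)).prod

/-- shifted framing weight -/
noncomputable def Zs (u : M) : MvPolynomial M A :=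
  ((Z (col u)).map fun z => X u - C h - C z).prod

/-- the marks of larger rank at the stage `k` -/
lemma mem_up_rk (σ : M → ℕ) (hσ : Function.Injective σ) (r : M → ℚ) (k : ℕ) (b c : M) :
    c ∈ up (rk σ r k) b ↔ (σ b < k ∧ σ b < σ c) ∨ (k ≤ σ b ∧ k ≤ σ c ∧ r b < r c) := by
  have hbc : σ b = σ c → ¬ r b < r c := by
    intro h
    rw [hσ h]
    exact lt_irrefl _
  have key : c ∈ up (rk σ r k) b ↔
      (min (σ b) k < min (σ c) k ∨ (min (σ b) k = min (σ c) k ∧ r b < r c)) := by
    unfold up rk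
    simp only [Finset.mem_filter, Finset.mem_univ, true_and, Prod.Lex.toLex_lt_toLex]
  rw [key]
  constructor
  · rintro (h1 | ⟨h1, h2⟩)
    · left
      omega
    · by_cases hb : σ b < k
      · exfalso
        exact hbc (by omega) h2
      · right
        exact ⟨by omega, by omega, h2⟩
  · rintro (⟨h1, h2⟩ | ⟨h1, h2, h3⟩)
    · left
      omega
    · right
      exact ⟨by omega, h3⟩

end

end Vale.Agent.P291.K
end
end

section

section

set_option autoImplicit false
set_option linter.unusedSectionVars false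

/-! The mesh relations. -/

namespace Vale.Agent.P291.K

open MvPolynomial

section
variable {M A I : Type} [CommRing A] [IsDomain A] [Algebra ℚ A] [DecidableEq M] [Fintype M]
  [DecidableEq I]
  (col : M → I) (L : I → I → Multiset A) (Z : I → Multiset A) (h : A)

lemma HH_eval_u (R : Finset M) (u : M) :
    (HH col L Z h R (col u)).eval (X u) = (∏ d ∈ R, DC col L d u) * Zs col Z h u := by
  unfold HH DC Dw Zs
  rw [Polynomial.eval_mul, Polynomial.eval_prod]
  congr 1
  · refine Finset.prod_congr rfl fun d _ => ?_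
    rw [Polynomial.eval_multiset_prod, Multiset.map_map]
    congr 1
    refine Multiset.map_congr rfl fun l _ => ?_
    simp
  · rw [Polynomial.eval_multiset_prod, Multiset.map_map]
    congr 1
    refine Multiset.map_congr rfl fun z _ => ?_
    simp

/-- reversal of one weight: the weight of `d → u` at the position `x a + h` is a sign times the
weight of `a → d` -/
lemma Mesh_rev (hL : ∀ i j, L j i = (L i j).map fun l => h - l) {u a : M} (hc : col a = col u)
    (d : M) :
    DC col L a d ∣ (((L (col d) (col u)).map fun l =>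
      Polynomial.C (X d) - Polynomial.X + Polynomial.C (C l)).prod : Polynomial
        (MvPolynomial M A)).eval (X a + C h) := by
  have h1 : (((L (col d) (col u)).map fun l =>
      Polynomial.C (X d) - Polynomial.X + Polynomial.C (C l)).prod : Polynomial
        (MvPolynomial M A)).eval (X a + C h) =
      ((L (col a) (col d)).map fun l => -(X a - X d + C l : MvPolynomial M A)).prod := by
    rw [Polynomial.eval_multiset_prod, Multiset.map_map, ← hc, hL (col a) (col d),
      Multiset.map_map]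
    congr 1
    refine Multiset.map_congr rfl fun l _ => ?_
    simp
    ring
  have h2 : (fun l => -(X a - X d + C l : MvPolynomial M A)) =
      fun l => (-1) * (X a - X d + C l : MvPolynomial M A) := by
    funext l
    ring
  rw [h1, h2, Multiset.prod_map_mul]
  exact Dvd.intro_left _ rfl

/-- the framing weight at `x a + h` -/
lemma Mesh_frame {u a : M} (hc : col a = col u) :
    (((Z (col u)).map fun z => Polynomial.X - Polynomial.C (C h) - Polynomial.C (C z)).prod :
      Polynomial (MvPolynomial M A)).eval (X a + C h) = Zw (fun b => Z (col b)) a := by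
  unfold Zw
  rw [Polynomial.eval_multiset_prod, Multiset.map_map]
  simp only [hc]
  congr 1
  refine Multiset.map_congr rfl fun z _ => ?_
  simp

/-- the mesh relation: `D d u` at `x u = x a + h` is `± D a d`, and it is a constant for `d = a` -/
theorem mesh (hL : ∀ i j, L j i = (L i j).map fun l => h - l) (σ : M → ℕ)
    (hσ : Function.Injective σ) (r : M → ℚ) {k : ℕ} {u : M} (hu : σ u = k) {a : M}
    (ha : a ∈ Rs σ k) (hc : col a = col u) :
    PC col L Z (rk σ r k) a ∣ DC col L a u * (HH col L Z h (Rs σ k) (col u)).eval (X a + C h) := by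
  have hak : k < σ a := by
    simpa [Rs] using ha
  have hu' : u ∉ Rs σ k := by
    simp [Rs, hu]
  have hsub : up (rk σ r k) a ⊆ insert u (Rs σ k) := by
    intro c hcu
    rw [mem_up_rk σ hσ] at hcu
    rw [Finset.mem_insert]
    rcases hcu with ⟨h1, _⟩ | ⟨_, h2, _⟩
    · omega
    · rcases Nat.lt_or_ge k (σ c) with h3 | h3
      · right
        simpa [Rs] using h3
      · left
        exact hσ (by omega)
  have h1 : (∏ c ∈ up (rk σ r k) a, DC col L a c) ∣
      DC col L a u * ∏ d ∈ Rs σ k, DC col L a d := by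
    rw [← Finset.prod_insert hu']
    exact Finset.prod_dvd_prod_of_subset _ _ _ hsub
  have h2 : (∏ d ∈ Rs σ k, DC col L a d) ∣ (∏ d ∈ Rs σ k, ((L (col d) (col u)).map fun l =>
      Polynomial.C (X d) - Polynomial.X + Polynomial.C (C l)).prod : Polynomial
        (MvPolynomial M A)).eval (X a + C h) := by
    rw [Polynomial.eval_prod]
    exact Finset.prod_dvd_prod_of_dvd _ _ fun d _ => Mesh_rev col L h hL hc d
  unfold PC Pr HH
  rw [Polynomial.eval_mul, Mesh_frame col Z h hc, ← mul_assoc, mul_comm]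
  exact mul_dvd_mul (h1.trans (mul_dvd_mul dvd_rfl h2)) dvd_rfl

/-- the Vandermonde product of a subset of one colour divides the full one -/
lemma vdm_dvd (σ : M → ℕ) (s : Finset M) (hs : ∀ a ∈ s, ∀ b ∈ s, col a = col b) :
    (∏ a ∈ s, ∏ b ∈ s.filter (fun b => σ a < σ b), (X a - X b : MvPolynomial M A)) ∣
      pp col 0 fun a b => σ a < σ b := by
  classical
  unfold pp
  refine dvd_trans ?_ (Finset.prod_dvd_prod_of_subset s Finset.univ _ (Finset.subset_univ _))
  refine Finset.prod_dvd_prod_of_dvd _ _ fun a ha => ?_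
  refine dvd_trans ?_ (Finset.prod_dvd_prod_of_subset (s.filter fun b => σ a < σ b)
    Finset.univ _ (Finset.subset_univ _))
  refine Finset.prod_dvd_prod_of_dvd _ _ fun b hb => ?_
  rw [Finset.mem_filter] at hb
  have hab : a ≠ b := by
    rintro rfl
    exact lt_irrefl _ hb.2
  rw [if_pos ⟨hab, hs a ha b hb.1, hb.2⟩]
  simp

end

end Vale.Agent.P291.K
end
end

section

section

set_option autoImplicit false
set_option linter.unusedSectionVars false

/-! Products of classes of opposite charges vanish on the fixed scheme. -/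

namespace Vale.Agent.P291.G

open MvPolynomial Matrix Vale.Agent.P291.GDet Vale.Agent.P291.GVdm Vale.Agent.P291.GChain

variable (D : QData)

lemma colM_X {A : Type} [CommRing A] {f : Polynomial A} {d : ℕ} (hf : f.Monic)
    (hd : f.natDegree = d) : colM f d (fun c => Polynomial.X ^ (c : ℕ)) = 1 := by
  nontriviality A
  ext r c
  rw [colM, Matrix.of_apply, (Polynomial.modByMonic_eq_self_iff hf).2, Polynomial.coeff_X_pow,
    Matrix.one_apply]
  · simp only [Fin.ext_iff]
  · rw [Polynomial.degree_X_pow, Polynomial.degree_eq_natDegree hf.ne_zero, hd]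
    exact_mod_cast c.2

lemma colM_surj {A : Type} [CommRing A] {f : Polynomial A} {d : ℕ} (hf : f.Monic)
    (hd : f.natDegree = d) (M : Matrix (Fin d) (Fin d) A) : ∃ φ, colM f d φ = M := by
  nontriviality A
  refine ⟨fun c => ∑ k : Fin d, Polynomial.C (M k c) * Polynomial.X ^ (k : ℕ), ?_⟩
  ext r c
  rw [colM, Matrix.of_apply, (Polynomial.modByMonic_eq_self_iff hf).2, Polynomial.finsetSum_coeff]
  · rw [Finset.sum_eq_single r]
    · rw [Polynomial.coeff_C_mul, Polynomial.coeff_X_pow, if_pos rfl, mul_one]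
    · intro k _ hk
      rw [Polynomial.coeff_C_mul, Polynomial.coeff_X_pow, if_neg, mul_zero]
      exact fun h => hk (Fin.ext h.symm)
    · intro h; exact absurd (Finset.mem_univ _) h
  · rw [Polynomial.degree_eq_natDegree hf.ne_zero, hd]
    refine (Polynomial.degree_sum_le _ _).trans_lt ?_
    rw [Finset.sup_lt_iff (by exact_mod_cast WithBot.bot_lt_coe d)]
    intro k _
    refine (Polynomial.degree_C_mul_X_pow_le _ _).trans_lt ?_
    exact_mod_cast k.2

section
variable {K L : Type} [Field K] [Algebra ℂ K] [CommRing L] [Algebra K L]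
  (x : B D → K) (y : Fin D.rk → K) (u : (B D → ℤ) → L)
  (hxy : AlgebraicIndependent ℂ (Sum.elim x y)) (hD : ∀ a, D.v (D.tgt a) ≤ 1)

/-- polynomial of the positive side -/
noncomputable def gE (l : B D → ℤ) (i : D.I) : Polynomial (Ainv D) :=
  gpol D.src D.tgt (fra D) (la D hD) i (mOf D l)

/-- polynomial of the negative side -/
noncomputable def gF (l : B D → ℤ) (i : D.I) : Polynomial (Ainv D) :=
  gpol D.src D.tgt 1 (la D hD) i fun i => D.v i - mOf D l i

/-- positive determinant -/
noncomputable def EE (l : B D → ℤ) (φ : B D → Polynomial (Ainv D)) (i : D.I) : Ainv D :=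
  (mixCols (cols D l i) (MM (chA D i) (D.v i) (gE D hD l i) * Xm D φ i) (Xm D φ i)).det

/-- negative determinant -/
noncomputable def FF (l : B D → ℤ) (φ : B D → Polynomial (Ainv D)) (i : D.I) : Ainv D :=
  (mixCols (cols D l i) (Xm D φ i) (MM (chA D i) (D.v i) (gF D hD l i) * Xm D φ i)).det

include hxy

lemma Md_gen (i : D.I) (g : Polynomial (Ainv D)) :
    Md (yL D x i) (fun r => algebraMap K L (Polynomial.eval₂ (ιK D x y) (x ⟨i, r⟩) g)) =
      (MM (chA D i) (D.v i) g).map (ιL D x y (L := L)) := by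
  rw [← Md_eval (ιL D x y) (chA_monic D i) (chA_deg D i) (vL_unit D x y hxy i)
    (fun r => eval_chL D x y i r)]
  congr 1
  funext r
  rw [yL, eval_ιL]

lemma Md_gen_one (i : D.I) : Md (yL D x i (L := L)) (fun _ => 1) = 1 :=
  Md_one (vL_unit D x y hxy i)

lemma DDi_E_one (l : B D → ℤ) (φ : B D → Polynomial (Ainv D)) (i : D.I) :
    DDi D x y l (bE D x y (fun _ => (1 : L)) hD l) (fun _ => 1) φ i =
      ιL D x y (EE D hD l φ i) := by
  rw [DDi, EE, RingHom.map_det]
  congr 1
  rw [Md_gen_one D x y hxy i, Matrix.one_mul]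
  have h1 : (fun r => bE D x y (fun _ => (1 : L)) hD l ⟨i, r⟩) =
      fun r => algebraMap K L (Polynomial.eval₂ (ιK D x y) (x ⟨i, r⟩) (gE D hD l i)) := by
    funext r
    rw [bE, mul_one]; rfl
  rw [h1, Md_gen D x y hxy i, RingHom.mapMatrix_apply, map_mixCols, Matrix.map_mul]

lemma DDi_F_one (l : B D → ℤ) (φ : B D → Polynomial (Ainv D)) (i : D.I) :
    DDi D x y l (fun _ => (1 : L)) (bF D x y hD l) φ i =
      ιL D x y (FF D hD l φ i) := by
  rw [DDi, FF, RingHom.map_det]
  congr 1
  rw [Md_gen_one D x y hxy i, Matrix.one_mul]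
  have h1 : (fun r => bF D x y hD l ⟨i, r⟩ (L := L)) =
      fun r => algebraMap K L (Polynomial.eval₂ (ιK D x y) (x ⟨i, r⟩) (gF D hD l i)) := rfl
  rw [h1, Md_gen D x y hxy i, RingHom.mapMatrix_apply, map_mixCols, Matrix.map_mul]

end

end Vale.Agent.P291.G
end
end

section

section

set_option autoImplicit false
set_option linter.unusedSectionVars false

/-! Products of classes of opposite charges vanish on the fixed scheme: the computation. -/

namespace Vale.Agent.P291.G

open MvPolynomial Matrix Vale.Agent.P291.GDet Vale.Agent.P291.GVdm Vale.Agent.P291.GChain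

variable (D : QData)

section
variable {K L : Type} [Field K] [Algebra ℂ K] [CommRing L] [Algebra K L]
  (x : B D → K) (y : Fin D.rk → K) (u : (B D → ℤ) → L) (ν : D.I → ℤ)

lemma R_of_inv (r : Ainv D) : ιK D x y r ∈ R D x y := by
  refine ⟨(r : P D), fun σ => ?_⟩
  rw [pol_act, (mem_Ainv D).1 r.2 σ, ιK_apply]

lemma ιL_mem (r : Ainv D) : ιL D x y r ∈ coulomb D x y u :=
  Subring.subset_closure (Or.inl ⟨_, R_of_inv D x y r, rfl⟩)

lemma mono_mem_coulomb {l : B D → ℤ} (hl : Min D l) (f : P D) :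
    mono D x y u l f ∈ coulomb D x y u :=
  Subring.subset_closure (Or.inr ⟨l, f, hl, Or.inl rfl⟩)

lemma mono_neg_mem_coulomb {l : B D → ℤ} (hl : Min D l) (f : P D) :
    mono D x y u (-l) f ∈ coulomb D x y u :=
  Subring.subset_closure (Or.inr ⟨l, f, hl, Or.inr rfl⟩)

lemma wt_comp (l : B D → ℤ) (σ : W D) : wt D ν (l ∘ (perm D σ).symm) = wt D ν l := by
  rw [wt, wt, ← Equiv.sum_comp (perm D σ)]
  refine Finset.sum_congr rfl fun b _ => ?_
  rw [Function.comp, Equiv.symm_apply_apply, perm_fst]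

lemma mono_mem_span (l : B D → ℤ) (f : P D) :
    mono D x y u l f ∈ Submodule.span K (u '' {l' | wt D ν l' = wt D ν l}) := by
  rw [mono]
  refine Submodule.sum_mem _ fun σ _ => Submodule.smul_mem _ _ (Submodule.subset_span ?_)
  exact ⟨_, wt_comp D ν l σ, rfl⟩

lemma mono_mem_fixI {l : B D → ℤ} (hl : Min D l) (h0 : wt D ν l ≠ 0) (f : P D) :
    mono D x y u l f ∈ fixI D x y u ν :=
  AddSubgroup.subset_closure ⟨1, Subring.one_mem _, _, mono_mem_coulomb D x y u hl f, _, h0,
    mono_mem_span D x y u ν l f, (one_mul _).symm⟩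

lemma wt_neg (l : B D → ℤ) : wt D ν (-l) = -wt D ν l := by
  rw [wt, wt, ← Finset.sum_neg_distrib]
  exact Finset.sum_congr rfl fun b _ => by rw [Pi.neg_apply]; ring

lemma mono_neg_mem_fixI {l : B D → ℤ} (hl : Min D l) (h0 : wt D ν l ≠ 0) (f : P D) :
    mono D x y u (-l) f ∈ fixI D x y u ν :=
  AddSubgroup.subset_closure ⟨1, Subring.one_mem _, _, mono_neg_mem_coulomb D x y u hl f, _,
    (by rw [wt_neg]; exact neg_ne_zero.2 h0 : wt D ν (-l) ≠ 0),
    mono_mem_span D x y u ν (-l) f, (one_mul _).symm⟩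

lemma fixI_mul {a c : L} (ha : a ∈ coulomb D x y u) (hc : c ∈ fixI D x y u ν) :
    a * c ∈ fixI D x y u ν := by
  induction hc using AddSubgroup.closure_induction with
  | mem c hc =>
    obtain ⟨a', ha', b, hb, m, hm, hbm, rfl⟩ := hc
    rw [← mul_assoc]
    exact AddSubgroup.subset_closure ⟨a * a', Subring.mul_mem _ ha ha', b, hb, m, hm, hbm, rfl⟩
  | zero => rw [mul_zero]; exact AddSubgroup.zero_mem _
  | add c c' _ _ h h' => rw [mul_add]; exact AddSubgroup.add_mem _ h h'
  | neg c _ h => rw [mul_neg]; exact AddSubgroup.neg_mem _ h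

/-- the ideal of the Coulomb branch ring -/
noncomputable def JI : Ideal (coulomb D x y u) where
  carrier := {a | (a : L) ∈ fixI D x y u ν}
  add_mem' := by
    intro a b ha hb
    change (a : L) + (b : L) ∈ fixI D x y u ν
    exact AddSubgroup.add_mem _ ha hb
  zero_mem' := by
    change (0 : L) ∈ fixI D x y u ν
    exact AddSubgroup.zero_mem _
  smul_mem' := fun c a ha => fixI_mul D x y u ν c.2 ha

lemma mem_JI (a : coulomb D x y u) : a ∈ JI D x y u ν ↔ (a : L) ∈ fixI D x y u ν := Iff.rfl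

/-- invariants in the Coulomb branch ring -/
noncomputable def jA : Ainv D →+* coulomb D x y u :=
  (ιL D x y).codRestrict (coulomb D x y u) fun r => ιL_mem D x y u r

lemma jA_coe (r : Ainv D) : ((jA D x y u r : coulomb D x y u) : L) = ιL D x y r := rfl

variable (hxy : AlgebraicIndependent ℂ (Sum.elim x y)) (hD : ∀ a, D.v (D.tgt a) ≤ 1)
  (hu : ∀ l l', u (l + l') = u l * u l') (hu0 : u 0 = 1)
include hxy hu hu0

omit hxy hu hu0 in
lemma min_dl (b : B D) : Min D (dl D b) := by
  intro b'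
  by_cases h : b' = b
  · subst h; right; exact Pi.single_eq_same _ _
  · left; exact Pi.single_eq_of_ne h _

omit hxy hu hu0 in
lemma mOf_dl_ne (i j : D.I) (k : Fin (D.v i)) (h : j ≠ i) : mOf D (dl D ⟨i, k⟩) j = 0 := by
  rw [mOf, Finset.card_eq_zero, Finset.filter_eq_empty_iff]
  intro r _
  rw [dl, Pi.single_eq_of_ne]
  · exact zero_ne_one
  · intro h'; rw [Sigma.mk.injEq] at h'; exact h h'.1

omit hxy hu hu0 in
lemma cols_dl_ne (i j : D.I) (k : Fin (D.v i)) (h : j ≠ i) : cols D (dl D ⟨i, k⟩) j = ∅ :=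
  Finset.card_eq_zero.1 (mOf_dl_ne D i j k h)

omit hxy hu hu0 in
lemma cols_dl_self (i : D.I) (k : Fin (D.v i)) : cols D (dl D ⟨i, k⟩) i = {k} := by
  ext r
  rw [cols, Finset.mem_filter, Finset.mem_singleton, dl]
  by_cases h : r = k
  · subst h; simp only [Finset.mem_univ, Pi.single_eq_same, and_self]
  · rw [Pi.single_eq_of_ne]
    · simp only [Finset.mem_univ, zero_ne_one, and_false, h]
    · intro h'; rw [Sigma.mk.injEq] at h'; exact h (eq_of_heq h'.2)

/-- columns used to extract the entry `k, c` -/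
noncomputable def φX (i : D.I) (k c : Fin (D.v i)) (b : B D) : Polynomial (Ainv D) :=
  if b = ⟨i, k⟩ then Polynomial.X ^ (c : ℕ) else Polynomial.X ^ (b.2 : ℕ)

omit hxy hu hu0 in
lemma Xm_φX_ne (i j : D.I) (k c : Fin (D.v i)) (h : j ≠ i) : Xm D (φX D i k c) j = 1 := by
  rw [Xm, ← colM_X (chA_monic D j) (chA_deg D j)]
  congr 1
  funext r
  rw [φX, if_neg]
  intro h'; rw [Sigma.mk.injEq] at h'; exact h h'.1

omit hxy hu hu0 in
/-- extraction of an entry -/
lemma det_extract {A : Type} [CommRing A] {n : Type} [Fintype n] [DecidableEq n] (M X : Matrix n n A)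
    (k c : n) (hX : ∀ r, ∀ j, j ≠ k → X r j = if r = j then 1 else 0)
    (hk : ∀ r, X r k = if r = c then 1 else 0) : (mixCols {k} (M * X) X).det = M k c := by
  have h1 : mixCols {k} (M * X) X = (1 : Matrix n n A).updateCol k (fun r => M r c) := by
    ext r j
    rw [mixCols_apply, updateCol_apply]
    by_cases h : j = k
    · subst h
      simp only [Finset.mem_singleton, if_true]
      rw [Matrix.mul_apply, Finset.sum_eq_single c]
      · rw [hk, if_pos rfl, mul_one]
      · intro r' _ hr'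
        rw [hk, if_neg hr', mul_zero]
      · intro h; exact absurd (Finset.mem_univ _) h
    · rw [if_neg (by simpa using h), if_neg h, hX r j h, Matrix.one_apply]
  rw [h1]
  rw [← cramer_apply, cramer_one]
  rfl

omit hxy hu hu0 in
lemma gpol_dl (i : D.I) (hi : ∀ a, D.tgt a ≠ i) (k : Fin (D.v i)) :
    gpol D.src D.tgt (fra D) (la D hD) i (mOf D (dl D ⟨i, k⟩)) =
      fra D i * ∏ a with D.src a = i, la D hD a := by
  rw [gpol]
  congr 1
  refine Finset.prod_congr ?_ fun _ _ => rfl
  ext a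
  simp only [Finset.mem_filter, Finset.mem_univ, true_and, and_iff_left_iff_imp]
  intro _
  exact mOf_dl_ne D i _ k (hi a)

lemma entry_E (i : D.I) (hi : ∀ a, D.tgt a ≠ i) (k c : Fin (D.v i)) :
    ∃ f : P D, Md (yL D x i) (fun r => algebraMap K L (Polynomial.eval₂ (ιK D x y) (x ⟨i, r⟩)
      (fra D i * ∏ a with D.src a = i, la D hD a)) * u (dl D ⟨i, r⟩)) k c =
      mono D x y u (dl D ⟨i, k⟩) f := by
  have hl := min_dl D ⟨i, k⟩
  obtain ⟨f, hf⟩ := DD_mono D x y u hxy (dl D ⟨i, k⟩) (dl D ⟨i, k⟩) (min_sub D hl)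
    (bE D x y u hD (dl D ⟨i, k⟩)) (fun _ => 1) (hβE D x y u hu hu0 hD hl) 1 (φX D i k c)
  refine ⟨f, ?_⟩
  rw [← hf, map_one, one_mul, Finset.prod_eq_single i]
  · rw [DDi, Md_gen_one D x y hxy i, Matrix.one_mul, cols_dl_self]
    have h1 : (fun r => bE D x y u hD (dl D ⟨i, k⟩) ⟨i, r⟩) =
        fun r => algebraMap K L (Polynomial.eval₂ (ιK D x y) (x ⟨i, r⟩)
          (fra D i * ∏ a with D.src a = i, la D hD a)) * u (dl D ⟨i, r⟩) := by
      funext r
      rw [bE, gpol_dl D hD i hi k]
    rw [h1, det_extract _ _ k c]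
    · intro r j hj
      have h2 : φX D i k c ⟨i, j⟩ = Polynomial.X ^ (j : ℕ) := by
        rw [φX, if_neg]
        intro h'; rw [Sigma.mk.injEq] at h'; exact hj (eq_of_heq h'.2)
      have h3 := congrFun (congrFun (colM_X (chA_monic D i) (chA_deg D i)) r) j
      rw [colM, Matrix.of_apply] at h3
      rw [Matrix.map_apply, Xm, colM, Matrix.of_apply, h2, h3, Matrix.one_apply]
      split_ifs <;> simp
    · intro r
      have h2 : φX D i k c ⟨i, k⟩ = Polynomial.X ^ (c : ℕ) := by
        rw [φX, if_pos rfl]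
      have h3 := congrFun (congrFun (colM_X (chA_monic D i) (chA_deg D i)) r) c
      rw [colM, Matrix.of_apply] at h3
      rw [Matrix.map_apply, Xm, colM, Matrix.of_apply, h2, h3, Matrix.one_apply]
      split_ifs <;> simp
  · intro j _ hj
    rw [DDi, Md_gen_one D x y hxy j, Matrix.one_mul, cols_dl_ne D i j k hj, Xm_φX_ne D i j k c hj]
    have : mixCols ∅ (Md (yL D x j) (fun r => bE D x y u hD (dl D ⟨i, k⟩) ⟨j, r⟩) *
        (1 : Matrix (Fin (D.v j)) (Fin (D.v j)) (Ainv D)).map (ιL D x y (L := L)))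
        ((1 : Matrix (Fin (D.v j)) (Fin (D.v j)) (Ainv D)).map (ιL D x y (L := L))) = 1 := by
      ext r c'
      rw [mixCols_apply, if_neg (Finset.notMem_empty _), Matrix.map_one _ (map_zero _) (map_one _)]
    rw [this, det_one]
  · intro h; exact absurd (Finset.mem_univ _) h

include hD in
lemma entry_F (i : D.I) (hi : ∀ a, D.tgt a ≠ i) (k c : Fin (D.v i)) :
    ∃ f : P D, Md (yL D x i) (fun r => u (-dl D ⟨i, r⟩)) k c =
      mono D x y u (-dl D ⟨i, k⟩) f := by
  have hl := min_dl D ⟨i, k⟩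
  obtain ⟨f, hf⟩ := DD_mono D x y u hxy (dl D ⟨i, k⟩) (-dl D ⟨i, k⟩) (min_sub_neg D hl)
    (fun b => u (-dl D b)) (bF D x y hD (dl D ⟨i, k⟩)) (hβF D x y u hu hu0 hD hl) 1 (φX D i k c)
  refine ⟨f, ?_⟩
  have hg : ∀ j, gpol D.src D.tgt 1 (la D hD) j
      (fun i_1 => D.v i_1 - mOf D (dl D ⟨i, k⟩) i_1) = 1 := by
    intro j
    rw [gpol, Pi.one_apply, one_mul]
    refine Finset.prod_eq_one fun a ha => ?_
    rw [Finset.mem_filter] at ha
    apply la_one
    have h9 := ha.2.2
    rw [mOf_dl_ne D i _ k (hi a)] at h9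
    omega
  have h0 : ∀ j, (fun r => bF D x y hD (dl D ⟨i, k⟩) ⟨j, r⟩ (L := L)) = fun _ => 1 := by
    intro j
    funext r
    rw [bF, hg, Polynomial.eval₂_one, map_one]
  rw [← hf, map_one, one_mul, Finset.prod_eq_single i]
  · rw [DDi, h0, Md_gen_one D x y hxy i, Matrix.one_mul, cols_dl_self]
    rw [det_extract _ _ k c]
    · intro r j hj
      have h2 : φX D i k c ⟨i, j⟩ = Polynomial.X ^ (j : ℕ) := by
        rw [φX, if_neg]
        intro h'; rw [Sigma.mk.injEq] at h'; exact hj (eq_of_heq h'.2)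
      have h3 := congrFun (congrFun (colM_X (chA_monic D i) (chA_deg D i)) r) j
      rw [colM, Matrix.of_apply] at h3
      rw [Matrix.map_apply, Xm, colM, Matrix.of_apply, h2, h3, Matrix.one_apply]
      split_ifs <;> simp
    · intro r
      have h2 : φX D i k c ⟨i, k⟩ = Polynomial.X ^ (c : ℕ) := by
        rw [φX, if_pos rfl]
      have h3 := congrFun (congrFun (colM_X (chA_monic D i) (chA_deg D i)) r) c
      rw [colM, Matrix.of_apply] at h3
      rw [Matrix.map_apply, Xm, colM, Matrix.of_apply, h2, h3, Matrix.one_apply]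
      split_ifs <;> simp
  · intro j _ hj
    rw [DDi, h0, Md_gen_one D x y hxy j, Matrix.one_mul, cols_dl_ne D i j k hj,
      Xm_φX_ne D i j k c hj]
    have : mixCols ∅ (Md (yL D x j) (fun r => u (-dl D ⟨j, r⟩)) *
        (1 : Matrix (Fin (D.v j)) (Fin (D.v j)) (Ainv D)).map (ιL D x y (L := L)))
        ((1 : Matrix (Fin (D.v j)) (Fin (D.v j)) (Ainv D)).map (ιL D x y (L := L))) = 1 := by
      ext r c'
      rw [mixCols_apply, if_neg (Finset.notMem_empty _), Matrix.map_one _ (map_zero _) (map_one _)]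
    rw [this, det_one]
  · intro h; exact absurd (Finset.mem_univ _) h

end

end Vale.Agent.P291.G
end
end

section

section

set_option autoImplicit false
set_option linter.unusedSectionVars false

/-! Products of classes of opposite charges vanish on the fixed scheme: conclusion. -/

namespace Vale.Agent.P291.G

open MvPolynomial Matrix Vale.Agent.P291.GDet Vale.Agent.P291.GVdm Vale.Agent.P291.GChain

variable (D : QData)

section
variable {K L : Type} [Field K] [Algebra ℂ K] [CommRing L] [Algebra K L]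
  (x : B D → K) (y : Fin D.rk → K) (u : (B D → ℤ) → L) (ν : D.I → ℤ)
  (hxy : AlgebraicIndependent ℂ (Sum.elim x y)) (hD : ∀ a, D.v (D.tgt a) ≤ 1)
  (hu : ∀ l l', u (l + l') = u l * u l') (hu0 : u 0 = 1)
  (hν : ∀ l, Min D l → l ≠ 0 → wt D ν l ≠ 0)

lemma dl_ne_zero (b : B D) : dl D b ≠ 0 := by
  intro h
  have := congrFun h b
  rw [dl, Pi.single_eq_same] at this
  exact one_ne_zero this

/-- exchange of the columns in `l` -/
noncomputable def exch (l : B D → ℤ) (φ ψ : B D → Polynomial (Ainv D)) (b : B D) :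
    Polynomial (Ainv D) := if l b = 1 then ψ b else φ b

lemma gEF {l : B D → ℤ} (i : D.I) :
    gE D hD l i * gF D hD l i = fra D i * ∏ a with D.src a = i, la D hD a := by
  rw [gE, gF, gpol, gpol, Pi.one_apply, one_mul, mul_assoc]
  congr 1
  rw [Finset.prod_filter, Finset.prod_filter, Finset.prod_filter, ← Finset.prod_mul_distrib]
  refine Finset.prod_congr rfl fun a _ => ?_
  by_cases h12 : D.src a = i
  · have h15 := mOf_le D l (D.tgt a)
    have h14 := hD a
    rcases Nat.eq_zero_or_pos (D.v (D.tgt a)) with h16 | h16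
    · rw [la_one D hD a h16]; simp only [ite_self, mul_one]
    · by_cases h17 : mOf D l (D.tgt a) = 0
      · have h18 : ¬ (D.v (D.tgt a) - mOf D l (D.tgt a) = 0) := by omega
        rw [if_pos ⟨h12, h17⟩, if_neg (fun h => h18 h.2), if_pos h12, mul_one]
      · have h18 : (D.v (D.tgt a) - mOf D l (D.tgt a) = 0) := by omega
        rw [if_neg (fun h => h17 h.2), if_pos ⟨h12, h18⟩, if_pos h12, one_mul]
  · rw [if_neg (fun h => h12 h.1), if_neg (fun h => h12 h.1), if_neg h12, mul_one]

lemma Xm_exch_col (l : B D → ℤ) (φ ψ : B D → Polynomial (Ainv D)) (i : D.I) (r c : Fin (D.v i)) :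
    Xm D (exch D l φ ψ) i r c = if c ∈ cols D l i then Xm D ψ i r c else Xm D φ i r c := by
  rw [Xm, Xm, Xm, colM, colM, colM, Matrix.of_apply, Matrix.of_apply, Matrix.of_apply, exch]
  by_cases h : l ⟨i, c⟩ = 1
  · have : c ∈ cols D l i := by simp only [cols, Finset.mem_filter, Finset.mem_univ, h, and_self]
    rw [if_pos h, if_pos this]
  · have : c ∉ cols D l i := by simp only [cols, Finset.mem_filter, Finset.mem_univ, h, and_false, not_false_eq_true]
    rw [if_neg h, if_neg this]

lemma mul_col_congr {A : Type} [CommRing A] {n : Type} [Fintype n] (M X Y : Matrix n n A) (r c : n)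
    (h : ∀ k, X k c = Y k c) : (M * X) r c = (M * Y) r c := by
  rw [Matrix.mul_apply, Matrix.mul_apply]
  exact Finset.sum_congr rfl fun k _ => by rw [h]

lemma EE_exch (l : B D → ℤ) (φ ψ : B D → Polynomial (Ainv D)) (i : D.I) :
    (mixCols (cols D l i) (MM (chA D i) (D.v i) (gE D hD l i) * Xm D (exch D l ψ φ) i)
      (Xm D (exch D l φ ψ) i)).det = EE D hD l φ i := by
  rw [EE]
  refine congrArg Matrix.det (Matrix.ext fun r c => ?_)
  rw [mixCols_apply, mixCols_apply]
  split_ifs with h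
  · exact mul_col_congr _ _ _ _ _ fun k => by rw [Xm_exch_col, if_pos h]
  · rw [Xm_exch_col, if_neg h]

lemma FF_exch (l : B D → ℤ) (φ ψ : B D → Polynomial (Ainv D)) (i : D.I) :
    (mixCols (cols D l i) (Xm D (exch D l φ ψ) i)
      (MM (chA D i) (D.v i) (gF D hD l i) * Xm D (exch D l ψ φ) i)).det = FF D hD l ψ i := by
  rw [FF]
  refine congrArg Matrix.det (Matrix.ext fun r c => ?_)
  rw [mixCols_apply, mixCols_apply]
  split_ifs with h
  · rw [Xm_exch_col, if_pos h]
  · exact mul_col_congr _ _ _ _ _ fun k => by rw [Xm_exch_col, if_neg h]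

include hxy hu hu0 hν hD

/-- the computation at a vertex of dimension at least two -/
lemma vertex_big (i : D.I) (hi : ∀ a, D.tgt a ≠ i) {l : B D → ℤ} (φ ψ : B D → Polynomial (Ainv D)) :
    ∃ z ε : coulomb D x y u, ε * ε = 1 ∧
      (z : L) = DDi D x y l (bE D x y u hD l) (fun _ => 1) (exch D l φ ψ) i *
        DDi D x y l (fun b => u (-dl D b)) (bF D x y hD l) (exch D l ψ φ) i ∧
      z - ε * jA D x y u (EE D hD l φ i * FF D hD l ψ i) ∈ JI D x y u ν := by
  classical
  choose fE hfE using fun k c => entry_E D x y u hxy hD hu hu0 i hi k c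
  choose fF hfF using fun k c => entry_F D x y u hxy hD hu hu0 i hi k c
  let Mb : Matrix (Fin (D.v i)) (Fin (D.v i)) (coulomb D x y u) :=
    Matrix.of fun k c => ⟨mono D x y u (dl D ⟨i, k⟩) (fE k c),
      mono_mem_coulomb D x y u (min_dl D _) _⟩
  let Mc : Matrix (Fin (D.v i)) (Fin (D.v i)) (coulomb D x y u) :=
    Matrix.of fun k c => ⟨mono D x y u (-dl D ⟨i, k⟩) (fF k c),
      mono_neg_mem_coulomb D x y u (min_dl D _) _⟩
  have hwt : ∀ b, wt D ν (dl D b) ≠ 0 := fun b => hν _ (min_dl D b) (dl_ne_zero D b)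
  have hMb : Mb.map (coulomb D x y u).subtype = Md (yL D x i) (fun r => algebraMap K L
      (Polynomial.eval₂ (ιK D x y) (x ⟨i, r⟩)
      (fra D i * ∏ a with D.src a = i, la D hD a)) * u (dl D ⟨i, r⟩)) := by
    ext k c; exact (hfE k c).symm
  have hMc : Mc.map (coulomb D x y u).subtype = Md (yL D x i) (fun r => u (-dl D ⟨i, r⟩)) := by
    ext k c; exact (hfF k c).symm
  have hMM : ∀ M : Matrix (Fin (D.v i)) (Fin (D.v i)) (Ainv D),
      (M.map (jA D x y u)).map (coulomb D x y u).subtype = M.map (ιL D x y (L := L)) := by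
    intro M; ext k c; rfl
  have hV := vL_unit D x y hxy i (L := L)
  obtain ⟨z, ε, hε, hz, hJ⟩ := block_identity (coulomb D x y u).subtype (JI D x y u ν) (cols D l i)
    Mb Mc ((MM (chA D i) (D.v i) (gF D hD l i)).map (jA D x y u))
    ((MM (chA D i) (D.v i) (gE D hD l i)).map (jA D x y u))
    ((Xm D (exch D l ψ φ) i).map (jA D x y u)) ((Xm D (exch D l φ ψ) i).map (jA D x y u))
    (Md (yL D x i) (fun r => bE D x y u hD l ⟨i, r⟩))
    (fun r c => mono_mem_fixI D x y u ν (min_dl D _) (hwt _) _)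
    (fun r c => mono_neg_mem_fixI D x y u ν (min_dl D _) (hwt _) _) (by
      rw [hMc, hMM, Md_mul hV, ← Md_gen D x y hxy i]
      congr 1
      funext r
      rw [bE, mul_assoc, ← hu, add_neg_cancel, hu0, mul_one]
      rfl) (by
      rw [hMb, hMM, ← Md_gen D x y hxy i, Md_mul hV]
      congr 1
      funext r
      rw [← gEF D hD (l := l), Polynomial.eval₂_mul, map_mul, bE]
      rw [show gpol D.src D.tgt (fra D) (la D hD) (⟨i, r⟩ : B D).1 (mOf D l) = gE D hD l i from rfl]
      ring)
  refine ⟨z, ε, hε, ?_, ?_⟩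
  · change (coulomb D x y u).subtype z = _
    rw [hz, DDi, DDi, hMM, Md_gen_one D x y hxy i, Matrix.one_mul]
    congr 2
    rw [Matrix.map_mul, hMc, hMM, Matrix.map_mul, hMM, hMM]
    have : Md (yL D x i) (fun r => bF D x y hD l ⟨i, r⟩) =
        (MM (chA D i) (D.v i) (gF D hD l i)).map (ιL D x y (L := L)) := by
      rw [← Md_gen D x y hxy i]; rfl
    rw [this]
  · convert hJ using 3
    rw [← EE_exch D hD l φ ψ i, ← FF_exch D hD l φ ψ i, map_mul, RingHom.map_det, RingHom.map_det,
      RingHom.mapMatrix_apply, RingHom.mapMatrix_apply, map_mixCols, map_mixCols, Matrix.map_mul,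
      Matrix.map_mul]

omit hν in
/-- the computation at a vertex of dimension at most one -/
lemma vertex_small (i : D.I) (hi : D.v i ≤ 1) {l : B D → ℤ} (φ ψ : B D → Polynomial (Ainv D)) :
    ιL D x y (EE D hD l φ i * FF D hD l ψ i) =
      DDi D x y l (bE D x y u hD l) (fun _ => 1) (exch D l φ ψ) i *
        DDi D x y l (fun b => u (-dl D b)) (bF D x y hD l) (exch D l ψ φ) i := by
  have hV := vL_unit D x y hxy i (L := L)
  have hsub : Subsingleton (Fin (D.v i)) := ⟨fun a b => Fin.ext (by have := a.2; have := b.2; omega)⟩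
  have hmix : ∀ {A : Type} [CommRing A] (M N : Matrix (Fin (D.v i)) (Fin (D.v i)) A),
      mixCols Finset.univ M N = M := by
    intro A _ M N; ext r c; rw [mixCols_apply, if_pos (Finset.mem_univ _)]
  have hmix0 : ∀ {A : Type} [CommRing A] (M N : Matrix (Fin (D.v i)) (Fin (D.v i)) A),
      mixCols ∅ M N = N := by
    intro A _ M N; ext r c; rw [mixCols_apply, if_neg (Finset.notMem_empty _)]
  have hcase : cols D l i = ∅ ∨ cols D l i = Finset.univ := by
    rcases Finset.eq_empty_or_nonempty (cols D l i) with h | ⟨c, hc⟩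
    · exact Or.inl h
    · right
      ext c'
      rw [Subsingleton.elim c' c]
      simp only [hc, Finset.mem_univ]
  have hbF : Md (yL D x i) (fun r => bF D x y hD l ⟨i, r⟩) =
        (MM (chA D i) (D.v i) (gF D hD l i)).map (ιL D x y (L := L)) := by
      rw [← Md_gen D x y hxy i]; rfl
  have hbE : Md (yL D x i) (fun r => bE D x y u hD l ⟨i, r⟩) * Md (yL D x i)
      (fun r => u (-dl D ⟨i, r⟩)) = (MM (chA D i) (D.v i) (gE D hD l i)).map (ιL D x y (L := L)) := by
    rw [Md_mul hV, ← Md_gen D x y hxy i]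
    congr 1
    funext r
    rw [bE, mul_assoc, ← hu, add_neg_cancel, hu0, mul_one]
    rfl
  have hX : ∀ M : Matrix (Fin (D.v i)) (Fin (D.v i)) (Ainv D),
      (M.map (ιL D x y (L := L))).det = ιL D x y M.det := by
    intro M; rw [RingHom.map_det]; rfl
  rcases hcase with h | h
  · have e1 : Xm D (exch D l φ ψ) i = Xm D φ i := by
      ext r c; rw [Xm_exch_col, h, if_neg (Finset.notMem_empty _)]
    have e2 : Xm D (exch D l ψ φ) i = Xm D ψ i := by
      ext r c; rw [Xm_exch_col, h, if_neg (Finset.notMem_empty _)]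
    rw [DDi, DDi, EE, FF, e1, e2, h, hmix0, hmix0, hmix0, hmix0, Md_gen_one D x y hxy i,
      Matrix.one_mul, hbF, ← Matrix.map_mul, hX, hX, map_mul]
  · have e1 : Xm D (exch D l φ ψ) i = Xm D ψ i := by
      ext r c; rw [Xm_exch_col, h, if_pos (Finset.mem_univ _)]
    have e2 : Xm D (exch D l ψ φ) i = Xm D φ i := by
      ext r c; rw [Xm_exch_col, h, if_pos (Finset.mem_univ _)]
    rw [DDi, DDi, EE, FF, e1, e2, h, hmix, hmix, hmix, hmix, det_mul, det_mul, det_mul, map_mul,
      map_mul, ← hX, ← hX, ← hX, ← hbE, det_mul]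
    ring

/-- main computation -/
lemma EE_FF_mem {l : B D → ℤ} (hl : Min D l) (hl0 : l ≠ 0) (κ κ' : Ainv D)
    (φ ψ : B D → Polynomial (Ainv D)) :
    ιL D x y ((κ * ∏ i, EE D hD l φ i) * (κ' * ∏ i, FF D hD l ψ i)) ∈ fixI D x y u ν := by
  have hv : ∀ i, ∃ z ε : coulomb D x y u, ε * ε = 1 ∧
      (z : L) = DDi D x y l (bE D x y u hD l) (fun _ => 1) (exch D l φ ψ) i *
        DDi D x y l (fun b => u (-dl D b)) (bF D x y hD l) (exch D l ψ φ) i ∧
      z - ε * jA D x y u (EE D hD l φ i * FF D hD l ψ i) ∈ JI D x y u ν := by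
    intro i
    by_cases hi : ∃ a, D.tgt a = i
    · obtain ⟨a, ha⟩ := hi
      refine ⟨jA D x y u (EE D hD l φ i * FF D hD l ψ i), 1, one_mul _, ?_, ?_⟩
      · rw [jA_coe]
        exact vertex_small D x y u hxy hD hu hu0 i (ha ▸ hD a) φ ψ
      · rw [one_mul, sub_self]; exact Ideal.zero_mem _
    · push Not at hi
      exact vertex_big D x y u ν hxy hD hu hu0 hν i hi φ ψ
  choose z ε hε hz hJ using hv
  obtain ⟨f, hf⟩ := DD_mono D x y u hxy l l (min_sub D hl)
    (bE D x y u hD l) (fun _ => 1) (hβE D x y u hu hu0 hD hl) 1 (exch D l φ ψ)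
  obtain ⟨g, hg⟩ := DD_mono D x y u hxy l (-l) (min_sub_neg D hl)
    (fun b => u (-dl D b)) (bF D x y hD l) (hβF D x y u hu hu0 hD hl) 1 (exch D l ψ φ)
  rw [map_one, one_mul] at hf hg
  -- the product of the `z i` lies in the ideal
  have h1 : ((∏ i, z i : coulomb D x y u) : L) = mono D x y u l f * mono D x y u (-l) g := by
    rw [← hf, ← hg, ← Finset.prod_mul_distrib]
    have : ((∏ i, z i : coulomb D x y u) : L) = ∏ i, (z i : L) :=
      map_prod (coulomb D x y u).subtype _ _
    rw [this]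
    exact Finset.prod_congr rfl fun i _ => hz i
  have h2 : (∏ i, z i) ∈ JI D x y u ν := by
    rw [mem_JI, h1]
    exact fixI_mul D x y u ν (mono_mem_coulomb D x y u hl f)
      (mono_neg_mem_fixI D x y u ν hl (hν l hl hl0) g)
  have h3 : (∏ i, z i) - ∏ i, (ε i * jA D x y u (EE D hD l φ i * FF D hD l ψ i)) ∈ JI D x y u ν := by
    rw [← Ideal.Quotient.eq, map_prod, map_prod]
    exact Finset.prod_congr rfl fun i _ => Ideal.Quotient.eq.2 (hJ i)
  have h4 : (∏ i, (ε i * jA D x y u (EE D hD l φ i * FF D hD l ψ i))) ∈ JI D x y u ν := by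
    have := Ideal.sub_mem _ h2 h3
    rwa [sub_sub_cancel] at this
  have h5 : jA D x y u ((κ * ∏ i, EE D hD l φ i) * (κ' * ∏ i, FF D hD l ψ i)) =
      (jA D x y u (κ * κ') * ∏ i, ε i) *
        ∏ i, (ε i * jA D x y u (EE D hD l φ i * FF D hD l ψ i)) := by
    have h6 : (∏ i, ε i) * ∏ i, ε i = 1 := by
      rw [← Finset.prod_mul_distrib]; exact Finset.prod_eq_one fun i _ => hε i
    have h7 : jA D x y u (∏ i, (EE D hD l φ i * FF D hD l ψ i)) =
        ∏ i, jA D x y u (EE D hD l φ i * FF D hD l ψ i) := map_prod _ _ _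
    have h8 : (κ * ∏ i, EE D hD l φ i) * (κ' * ∏ i, FF D hD l ψ i) =
        (κ * κ') * ∏ i, (EE D hD l φ i * FF D hD l ψ i) := by
      rw [Finset.prod_mul_distrib]; ring
    rw [h8, map_mul, h7, Finset.prod_mul_distrib]
    linear_combination (-jA D x y u (κ * κ') *
      ∏ i, jA D x y u (EE D hD l φ i * FF D hD l ψ i)) * h6
  have h9 := Ideal.mul_mem_left _ (jA D x y u (κ * κ') * ∏ i, ε i) h4
  rw [← h5] at h9
  exact h9

end

end Vale.Agent.P291.G
end
end

section

section

set_option autoImplicit false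
set_option linter.unusedSectionVars false

/-! From the cut ideal to the colourings (the theorem is `Vale.Agent.P291.J.partI`). -/

namespace Vale.Agent.P291.H.M

open MvPolynomial Vale.Agent.P291.G

variable {D : QData} {Z : Type} (w : Wts D Z)

lemma Rnc_eq {m : ℕ} (g : B D → Fin m) :
    Vale.Agent.P291.J.Rnc (fun b => (g b : ℕ)) = RR D Z g := by
  classical
  rw [J.Rnc, RR, dd, Fintype.prod_prod_type]
  refine Finset.prod_congr rfl fun b _ => Finset.prod_congr rfl fun c _ => ?_
  by_cases h : (b ≠ c ∧ b.1 = c.1) ∧ (g b : ℕ) = g c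
  · exact (if_pos h).trans (if_pos ⟨h.1.1, h.1.2, Fin.ext h.2⟩).symm
  · exact (if_neg h).trans (if_neg fun h' => h ⟨⟨h'.1, h'.2.1⟩, by rw [h'.2.2]⟩).symm

lemma Delta_eq : Vale.Agent.P291.J.Delta D Z = ddT D Z := by
  classical
  rw [J.Delta, ddT, dd, Fintype.prod_prod_type]
  refine Finset.prod_congr rfl fun b _ => Finset.prod_congr rfl fun c _ => ?_
  by_cases h : b ≠ c ∧ b.1 = c.1
  · exact (if_pos h).trans (if_pos ⟨h.1, h.2, trivial⟩).symm
  · exact (if_neg h).trans (if_neg fun h' => h ⟨h'.1, h'.2.1⟩).symm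

/-- `WW w (ep 1) g` is the product of the `h b c` with `g b ≠ g c` and of the `z b` with
`g b ≠ 0` -/
lemma Wg_eq {m : ℕ} (g : B D → Fin m) :
    Vale.Agent.P291.J.Wg w (fun b => (g b : ℕ)) = WW w (ep 1) g := by
  classical
  rw [J.Wg, WW, Finset.prod_mul_distrib]
  congr 1
  · have h1 : ∀ t : Fin m, e w (fb D g t) = ∏ b : B D, if g b = t then
        (∏ c : B D, if g b ≠ g c then w.h b c else 1) else 1 := by
      intro t
      rw [e, fb, Finset.prod_filter]
      refine Finset.prod_congr rfl fun b _ => ?_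
      split_ifs with hb
      · have h3 : (Finset.univ.filter fun b : B D => g b = t)ᶜ =
            Finset.univ.filter fun c : B D => g b ≠ g c := by
          ext c
          simp only [← hb, eq_comm, Finset.compl_filter, Finset.mem_filter, Finset.mem_univ, true_and, ne_eq]
        rw [h3, Finset.prod_filter]
      · rfl
    rw [Finset.prod_congr rfl fun t _ => h1 t, Finset.prod_comm, Fintype.prod_prod_type]
    refine Finset.prod_congr rfl fun b _ => ?_
    rw [Finset.prod_ite_eq, if_pos (Finset.mem_univ _)]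
    refine Finset.prod_congr rfl fun c _ => ?_
    exact if_congr (not_congr Fin.val_inj) rfl rfl
  · have h1 : ∀ t : Fin m, zs w (fb D g t) ^ ep 1 t = ∏ b : B D, if g b = t then
        (if (g b : ℕ) ≠ 0 then w.z b else 1) else 1 := by
      intro t
      rw [zs, fb, Finset.prod_filter, ← Finset.prod_pow]
      refine Finset.prod_congr rfl fun b _ => ?_
      by_cases hb : g b = t
      · rw [if_pos hb, if_pos hb, ep, hb]
        by_cases ht : (t : ℕ) = 0
        · rw [if_pos (by omega), pow_zero, if_neg (by omega)]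
        · rw [if_neg (by omega), pow_one, if_pos (by omega)]
      · rw [if_neg hb, if_neg hb, one_pow]
    rw [Finset.prod_congr rfl fun t _ => h1 t, Finset.prod_comm]
    refine Finset.prod_congr rfl fun b _ => ?_
    rw [Finset.prod_ite_eq, if_pos (Finset.mem_univ _)]

theorem partI (L : Vale.Agent.P291.J.Lab w) {m : ℕ} (hm : Fintype.card (B D) + 1 ≤ m)
    {r : S D Z} (h : r * ddT D Z ∈ cutI w) :
    r * ddT D Z ∈ Ideal.span {p | ∃ g : B D → Fin m, (∃ b, (g b : ℕ) ≠ 0) ∧
      p = RR D Z g * WW w (ep 1) g} := by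
  rw [← Delta_eq] at h ⊢
  obtain ⟨s, hs⟩ := Vale.Agent.P291.J.partI w L (m := m) (by omega) h
  rw [hs]
  refine Ideal.sum_mem _ fun g hg => Ideal.mul_mem_left _ _ (Ideal.subset_span
    ⟨g, (Finset.mem_filter.1 hg).2, ?_⟩)
  rw [Rnc_eq, Wg_eq]

end Vale.Agent.P291.H.M
end
end

section

section

set_option autoImplicit false
set_option linter.unusedSectionVars false

/-! From the cluster expansion to an element of the slot spaces (the theorem is
`Vale.Agent.P291.J.exists_X`). -/

namespace Vale.Agent.P291.H.M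

open MvPolynomial Vale.Agent.P291.G

variable {D : QData} {Z : Type} (w : Wts D Z)

theorem exists_X {m : ℕ} (hm : 1 ≤ m) {r : S D Z} (hr : ∀ σ, act D Z σ r = r)
    (h : r * ddT D Z ∈ Ideal.span {p | ∃ g : B D → Fin m, (∃ b, (g b : ℕ) ≠ 0) ∧
      p = RR D Z g * WW w (ep 1) g}) :
    ∃ X ∈ UN w m, X.coeff (ind D Finset.univ) = r * del D Z ^ m := by
  classical
  have h1 : {p | ∃ g : B D → Fin m, (∃ b, (g b : ℕ) ≠ 0) ∧ p = RR D Z g * WW w (ep 1) g} =
      (fun g : B D → Fin m => RR D Z g * WW w (ep 1) g) ''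
        (Finset.univ.filter (fun g : B D → Fin m => ∃ b, (g b : ℕ) ≠ 0) :
          Finset (B D → Fin m)) := by
    ext p
    rw [Set.mem_image]
    constructor
    · rintro ⟨g, hg, rfl⟩
      exact ⟨g, Finset.mem_coe.2 (Finset.mem_filter.2 ⟨Finset.mem_univ _, hg⟩), rfl⟩
    · rintro ⟨g, hg, rfl⟩
      exact ⟨g, (Finset.mem_filter.1 (Finset.mem_coe.1 hg)).2, rfl⟩
  rw [h1] at h
  obtain ⟨s, hs⟩ := (Submodule.mem_span_image_finset_iff_exists_fun' (S D Z)).1 h
  refine Vale.Agent.P291.J.exists_X w hm hr (s := s) ?_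
  rw [Delta_eq, ← hs]
  refine Finset.sum_congr rfl fun g _ => ?_
  rw [Rnc_eq, Wg_eq, smul_eq_mul]

end Vale.Agent.P291.H.M
end
end

section

section

set_option autoImplicit false
set_option linter.unusedSectionVars false

/-! Part I without framing. -/

namespace Vale.Agent.P291.H.N

open MvPolynomial Vale.Agent.P291.G Vale.Agent.P291.H.M

variable {D : QData} {Z : Type} (w : Wts D Z)

variable (D Z) in
/-- differences of the pairs of marks at the same vertex -/
noncomputable def TU (b c : B D) : S D Z := J.TH D Z (some b) (some c)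

lemma some_mem_image {C : Set (B D)} {b : B D} :
    (some b : Option (B D)) ∈ (some '' C : Set (Option (B D))) ↔ b ∈ C := by
  simp only [Set.mem_image, Option.some.injEq, exists_eq_right]

/-- the translations -/
noncomputable def transU (L : Vale.Agent.P291.J.Lab w) (b₀ : B D) :
    Vale.Agent.P291.J.Trans w.h (TU D Z) b₀ where
  τ C := (J.tr D Z (some '' C) : S D Z →+* Polynomial (S D Z))
  τ0 C s := J.tr_coeff_zero D Z _ s
  τD C a b _ hab := by
    change J.tr D Z (some '' C) (w.h a b) = Polynomial.C (w.h a b)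
    rw [L.hh, map_prod, map_prod]
    refine Finset.prod_congr rfl fun k _ => ?_
    rw [map_add, map_sub, map_add, map_sub, L.hta]
    by_cases ha : a ∈ C
    · rw [J.tr_xx_of D Z (some_mem_image.2 ha), J.tr_xx_of D Z (some_mem_image.2 (hab.1 ha))]
      ring
    · rw [J.tr_xx_not D Z fun h => ha (some_mem_image.1 h),
        J.tr_xx_not D Z fun h => ha (hab.2 (some_mem_image.1 h))]
  τθ C a b _ hab := by
    change J.tr D Z (some '' C) (J.TH D Z (some a) (some b)) =
      Polynomial.C (J.TH D Z (some a) (some b))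
    rw [J.TH]
    split_ifs
    · rw [map_sub, map_sub]
      by_cases ha : a ∈ C
      · rw [J.tr_xx_of D Z (some_mem_image.2 ha), J.tr_xx_of D Z (some_mem_image.2 (hab.1 ha))]
        ring
      · rw [J.tr_xx_not D Z fun h => ha (some_mem_image.1 h),
          J.tr_xx_not D Z fun h => ha (hab.2 (some_mem_image.1 h))]
    · rw [map_one, map_one]
  τu C a b _ hab := by
    change IsUnit (J.tr D Z (some '' C) (w.h a b)).leadingCoeff
    rw [L.hh, map_prod]
    refine J.lc_prod _ _ fun k _ => ?_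
    rw [map_add, map_sub, L.hta]
    by_cases ha : a ∈ C
    · have hb : b ∉ C := fun h => hab ⟨fun _ => h, fun _ => ha⟩
      rw [J.tr_xx_of D Z (some_mem_image.2 ha),
        J.tr_xx_not D Z fun h => hb (some_mem_image.1 h)]
      exact J.lc_sub _ _ _
    · have hb : b ∈ C := by
        by_contra h
        exact hab ⟨fun h1 => absurd h1 ha, fun h1 => absurd h1 h⟩
      rw [J.tr_xx_not D Z fun h => ha (some_mem_image.1 h),
        J.tr_xx_of D Z (some_mem_image.2 hb)]
      exact J.lc_add _ _ _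

/-- `WW w e0 g` is the product of the `h b c` with `g b ≠ g c` -/
lemma WWe0_eq {m : ℕ} (g : B D → Fin m) :
    WW w e0 g = ∏ p : B D × B D, if g p.1 ≠ g p.2 then w.h p.1 p.2 else 1 := by
  classical
  have h1 : ∀ t : Fin m, e w (fb D g t) * zs w (fb D g t) ^ e0 t = ∏ b : B D, if g b = t then
      (∏ c : B D, if g b ≠ g c then w.h b c else 1) else 1 := by
    intro t
    rw [e0, pow_zero, mul_one, e, fb, Finset.prod_filter]
    refine Finset.prod_congr rfl fun b _ => ?_
    split_ifs with hb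
    · have h3 : (Finset.univ.filter fun b : B D => g b = t)ᶜ =
          Finset.univ.filter fun c : B D => g b ≠ g c := by
        ext c
        simp only [← hb, eq_comm, Finset.compl_filter, Finset.mem_filter, Finset.mem_univ, true_and, ne_eq]
      rw [h3, Finset.prod_filter]
    · rfl
  rw [WW, Finset.prod_congr rfl fun t _ => h1 t, Finset.prod_comm, Fintype.prod_prod_type]
  refine Finset.prod_congr rfl fun b _ => ?_
  rw [Finset.prod_ite_eq, if_pos (Finset.mem_univ _)]

lemma mmU_eq {m : ℕ} (r : Setoid (B D)) (g : B D → Fin m) (hg : ∀ a b, r a b ↔ g a = g b) :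
    J.mm w.h r = WW w e0 g := by
  classical
  rw [WWe0_eq, J.mm]
  refine Finset.prod_congr rfl fun p _ => ?_
  by_cases h1 : g p.1 = g p.2
  · rw [if_pos ((hg _ _).2 h1), if_neg fun h2 => h2 h1]
  · rw [if_neg fun h2 => h1 ((hg _ _).1 h2), if_pos h1]

lemma thU_eq {m : ℕ} (r : Setoid (B D)) (g : B D → Fin m) (hg : ∀ a b, r a b ↔ g a = g b) :
    J.th (TU D Z) r = RR D Z g := by
  classical
  rw [J.th, RR, dd, Fintype.prod_prod_type]
  refine Finset.prod_congr rfl fun b _ => Finset.prod_congr rfl fun c _ => ?_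
  dsimp only
  by_cases h1 : g b = g c
  · rw [if_pos ((hg _ _).2 h1), TU, J.TH]
    by_cases h : b ≠ c ∧ b.1 = c.1
    · exact (if_pos h).trans (if_pos ⟨h.1, h.2, h1⟩).symm
    · exact (if_neg h).trans (if_neg fun h' => h ⟨h'.1, h'.2.1⟩).symm
  · rw [if_neg fun h2 => h1 ((hg _ _).1 h2), if_neg fun h2 => h1 h2.2.2]

lemma thU_top : J.th (TU D Z) ⊤ = ddT D Z := by
  classical
  rw [J.th, ddT, dd, Fintype.prod_prod_type]
  refine Finset.prod_congr rfl fun b _ => Finset.prod_congr rfl fun c _ => ?_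
  dsimp only
  rw [if_pos (by rw [Setoid.top_def]; trivial), TU, J.TH]
  by_cases h : b ≠ c ∧ b.1 = c.1
  · exact (if_pos h).trans (if_pos ⟨h.1, h.2, trivial⟩).symm
  · exact (if_neg h).trans (if_neg fun h' => h ⟨h'.1, h'.2.1⟩).symm

lemma mmU_top : J.mm w.h ⊤ = 1 := by
  classical
  rw [J.mm]
  refine Finset.prod_eq_one fun p _ => ?_
  rw [if_pos (by rw [Setoid.top_def]; trivial)]

lemma mmU_cut (N : Finset (B D)) :
    J.mm w.h (Setoid.ker fun b : B D => b ∈ N) = e w N * e w Nᶜ := by
  classical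
  rw [J.mm, e, e, compl_compl, Fintype.prod_prod_type, ← Finset.prod_mul_prod_compl N]
  congr 1
  · refine Finset.prod_congr rfl fun b hb => ?_
    rw [← Finset.prod_subset (Finset.subset_univ Nᶜ)]
    · refine Finset.prod_congr rfl fun c hc => ?_
      rw [Finset.mem_compl] at hc
      dsimp only
      rw [if_neg]
      rw [Setoid.ker_def]
      simp [hb, hc]
    · intro c _ hc
      rw [Finset.mem_compl, not_not] at hc
      dsimp only
      rw [if_pos]
      rw [Setoid.ker_def]
      simp [hb, hc]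
  · refine Finset.prod_congr rfl fun b hb => ?_
    rw [Finset.mem_compl] at hb
    rw [← Finset.prod_subset (Finset.subset_univ N)]
    · refine Finset.prod_congr rfl fun c hc => ?_
      dsimp only
      rw [if_neg]
      rw [Setoid.ker_def]
      simp [hb, hc]
    · intro c _ hc
      dsimp only
      rw [if_pos]
      rw [Setoid.ker_def]
      simp [hb, hc]

/-- a partition comes from a colouring -/
lemma exists_colouringU (r : Setoid (B D)) {m : ℕ} (hm : Fintype.card (B D) ≤ m) :
    ∃ g : B D → Fin m, ∀ a b, r a b ↔ g a = g b := by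
  classical
  have hfin : Fintype (Quotient r) := Fintype.ofFinite _
  have hcard : Fintype.card (Quotient r) ≤ Fintype.card (Fin m) := by
    have h := J.nb_le_card r
    rw [J.nb, Nat.card_eq_fintype_card] at h
    rw [Fintype.card_fin]
    omega
  obtain ⟨f⟩ := Function.Embedding.nonempty_of_card_le hcard
  exact ⟨fun b => f (Quotient.mk r b), fun a b =>
    ⟨fun hab => congrArg f (Quotient.sound hab), fun hab => Quotient.exact (f.injective hab)⟩⟩

/-- Proof: if `B D` is empty, `cutU w = ⊥`. Otherwise choose `b₀ : B D` and apply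
`Vale.Agent.P291.J.cluster` (J/Cluster.lean) with `Y = B D`, `pt = b₀`, `D = w.h`,
`θ b c = if b ≠ c ∧ b.1 = c.1 then xx b - xx c else 1`, `l = 2` (adapt `J.trans`, `J.mm_eq`,
`J.th_eq`, `J.exists_colouring`, `J.partI` of J/PartI.lean: a partition of `B D` into at least two
classes is the kernel of a nonconstant colouring `g : B D → Fin m`; `mm w.h r = WW w e0 g` (cf.
`Wg_eq` in M/PartI.lean), `th θ r = RR D Z g` (cf. `Rnc_eq`), `ddT` = the case of a constant
colouring (cf. `Delta_eq`)). -/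
theorem partU (L : Vale.Agent.P291.J.Lab w) {m : ℕ} (hm : Fintype.card (B D) ≤ m) {u : S D Z}
    (h : u * ddT D Z ∈ cutU w) :
    u * ddT D Z ∈ Ideal.span {p | ∃ g : B D → Fin m, (∃ b c, g b ≠ g c) ∧
      p = RR D Z g * WW w e0 g} := by
  classical
  rcases isEmpty_or_nonempty (B D) with hB | hB
  · have h0 : cutU w = ⊥ := by
      rw [eq_bot_iff]
      refine Ideal.span_le.2 ?_
      rintro _ ⟨N, ⟨b, _⟩, _⟩
      exact hB.elim b
    rw [h0, Ideal.mem_bot] at h
    rw [h]
    exact Ideal.zero_mem _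
  · obtain ⟨b₀⟩ := hB
    have h1 : u * ddT D Z ∈ J.WW w.h (TU D Z) 0 := by
      refine Ideal.mul_mem_left _ _ (Ideal.subset_span ⟨⊤, Nat.zero_le _, ?_⟩)
      rw [mmU_top, thU_top, one_mul]
    have h2 : u * ddT D Z ∈ J.KK w.h 2 := by
      have h3 : cutU w ≤ J.KK w.h 2 := by
        refine Ideal.span_le.2 ?_
        rintro _ ⟨N, hN, hN', rfl⟩
        refine Ideal.subset_span ⟨Setoid.ker fun b : B D => b ∈ N, ?_, (mmU_cut w N).symm⟩
        obtain ⟨b, hb⟩ := hN
        obtain ⟨c, hc⟩ : ∃ c, c ∉ N := by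
          by_contra hc
          push Not at hc
          exact hN' (Finset.eq_univ_iff_forall.2 hc)
        rw [J.nb]
        have h3 : Nontrivial (Quotient (Setoid.ker fun b : B D => b ∈ N)) := by
          refine ⟨⟨Quotient.mk _ b, Quotient.mk _ c, fun h4 => ?_⟩⟩
          have h5 : (b ∈ N) = (c ∈ N) := Quotient.exact h4
          exact hc (h5 ▸ hb)
        exact Finite.one_lt_card
      exact h3 h
    have h3 := J.cluster (transU w L b₀) 2 h1 h2
    refine (?_ : J.WW w.h (TU D Z) 2 ≤ _) h3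
    refine Ideal.span_le.2 ?_
    rintro _ ⟨r, hr, rfl⟩
    obtain ⟨g, hg⟩ := exists_colouringU r hm
    refine Ideal.subset_span ⟨g, ?_, ?_⟩
    · by_contra h4
      push Not at h4
      have h6 : Subsingleton (Quotient r) := by
        refine ⟨fun x y => ?_⟩
        obtain ⟨a, rfl⟩ := Quotient.mk_surjective x
        obtain ⟨b, rfl⟩ := Quotient.mk_surjective y
        exact Quotient.sound ((hg a b).2 (h4 a b))
      rw [J.nb] at hr
      have h7 : Nat.card (Quotient r) ≤ 1 := Finite.card_le_one_iff_subsingleton.2 h6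
      omega
    · rw [mmU_eq w r g hg, thU_eq r g hg, mul_comm]

end Vale.Agent.P291.H.N
end
end

section

section

set_option autoImplicit false
set_option linter.unusedSectionVars false

/-! Factorization of the coefficients of products of slots: the part which only depends on the
variables in the support `C` of the exponent, and a common factor. -/

namespace Vale.Agent.P291.H.N

open MvPolynomial Vale.Agent.P291.G Vale.Agent.P291.H.M

section
variable (D : QData) (Z : Type)

/-- product of the differences of the ordered pairs in `C` -/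
noncomputable def PiC (C : Finset (B D)) : S D Z :=
  ∏ b ∈ C, ∏ c ∈ C, if b ≠ c ∧ b.1 = c.1 then xx D Z b - xx D Z c else 1

/-- the part of `PiC` complementary to `cr A (C \ A)` -/
noncomputable def qC (C A : Finset (B D)) : S D Z :=
  ∏ b ∈ C, ∏ c ∈ C, if (b ≠ c ∧ b.1 = c.1) ∧ ¬ (b ∈ A ∧ c ∉ A) then xx D Z b - xx D Z c else 1

/-- common factor of the products of the `cr (A t) Cᶜ`, `∑ t, ind (A t) = l` -/
noncomputable def OmC (C : Finset (B D)) (l : B D → ℤ) : S D Z :=
  ∏ b ∈ C, (∏ c ∈ Cᶜ, if b.1 = c.1 then xx D Z b - xx D Z c else 1) ^ (l b).toNat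

end

section
variable {D : QData} {Z : Type} (w : Wts D Z)

/-- inner part of `e` -/
noncomputable def eC (C A : Finset (B D)) : S D Z := ∏ b ∈ A, ∏ c ∈ C \ A, w.h b c

/-- common factor of the outer parts of the `e (A t)`, `∑ t, ind (A t) = l` -/
noncomputable def HC (C : Finset (B D)) (l : B D → ℤ) : S D Z :=
  ∏ b ∈ C, (∏ c ∈ Cᶜ, w.h b c) ^ (l b).toNat

/-- inner part of the weight of a tuple of subsets of `C` -/
noncomputable def LC (C : Finset (B D)) (ε : ℕ → ℕ) {m : ℕ} (A : Fin m → Finset (B D)) : S D Z :=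
  ∏ t : Fin m, (qC D Z C (A t) * (eC w C (A t) * zs w (A t) ^ ε t))

lemma PiC_ne_zero (C : Finset (B D)) : PiC D Z C ≠ 0 := by
  rw [PiC, Finset.prod_ne_zero_iff]
  intro b _
  rw [Finset.prod_ne_zero_iff]
  intro c _
  split_ifs with h
  · exact vdm_sub_ne D Z h.1
  · exact one_ne_zero

lemma OmC_ne_zero (C : Finset (B D)) (l : B D → ℤ) : OmC D Z C l ≠ 0 := by
  rw [OmC, Finset.prod_ne_zero_iff]
  intro b hb'
  refine pow_ne_zero _ ?_
  rw [Finset.prod_ne_zero_iff]
  intro c hc
  split_ifs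
  · refine vdm_sub_ne D Z ?_
    rintro rfl
    exact Finset.mem_compl.1 hc hb'
  · exact one_ne_zero

lemma HC_ne_zero (C : Finset (B D)) (l : B D → ℤ) : HC w C l ≠ 0 := by
  rw [HC, Finset.prod_ne_zero_iff]
  intro b hb'
  refine pow_ne_zero _ ?_
  rw [Finset.prod_ne_zero_iff]
  intro c hc
  refine w.h_ne b c ?_
  rintro rfl
  exact Finset.mem_compl.1 hc hb'

/-- `del = cr A Aᶜ * Dl A` (`Dl_spec`), `cr A Aᶜ = cr A (C \ A) * cr A Cᶜ`,
`PiC C = cr A (C \ A) * qC C A` -/
lemma loc_Dl {C A : Finset (B D)} (h : A ⊆ C) :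
    Dl D Z A * (cr D Z A Cᶜ * PiC D Z C) = del D Z * qC D Z C A := by
  classical
  have h1 : cr D Z A Aᶜ = cr D Z A (C \ A) * cr D Z A Cᶜ := by
    rw [cr, cr, cr, ← Finset.prod_mul_distrib]
    refine Finset.prod_congr rfl fun b _ => ?_
    rw [← Finset.prod_union]
    · congr 1
      ext c
      simp only [Finset.mem_compl, Finset.mem_union, Finset.mem_sdiff]
      have := @h c
      (clear * - this; tauto)
    · rw [Finset.disjoint_left]
      intro c h2 h3
      exact Finset.mem_compl.1 h3 (Finset.mem_sdiff.1 h2).1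
  have h2 : PiC D Z C = cr D Z A (C \ A) * qC D Z C A := by
    have h3 : cr D Z A (C \ A) = ∏ b ∈ C, ∏ c ∈ C,
        if (b ≠ c ∧ b.1 = c.1) ∧ (b ∈ A ∧ c ∉ A) then xx D Z b - xx D Z c else 1 := by
      rw [cr, ← Finset.prod_subset h]
      · refine Finset.prod_congr rfl fun b hb' => ?_
        rw [← Finset.prod_subset (Finset.sdiff_subset (s := C) (t := A))]
        · refine Finset.prod_congr rfl fun c hc => ?_
          have hc' := (Finset.mem_sdiff.1 hc).2
          have hne : b ≠ c := fun h4 => hc' (h4 ▸ hb')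
          by_cases h5 : b.1 = c.1 <;> simp [h5, hne, hb', hc']
        · intro c hc hc'
          rw [if_neg]
          rintro ⟨-, -, h5⟩
          exact hc' (Finset.mem_sdiff.2 ⟨hc, h5⟩)
      · intro b _ hb'
        refine Finset.prod_eq_one fun c _ => ?_
        rw [if_neg]
        rintro ⟨-, h5, -⟩
        exact hb' h5
    rw [h3, PiC, qC, ← Finset.prod_mul_distrib]
    refine Finset.prod_congr rfl fun b _ => ?_
    rw [← Finset.prod_mul_distrib]
    refine Finset.prod_congr rfl fun c _ => ?_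
    by_cases h5 : b ≠ c ∧ b.1 = c.1 <;> by_cases h6 : b ∈ A ∧ c ∉ A
    · rw [if_pos h5, if_pos ⟨h5, h6⟩, if_neg fun h7 => h7.2 h6, mul_one]
    · rw [if_pos h5, if_neg fun h7 => h6 h7.2, if_pos ⟨h5, h6⟩, one_mul]
    · rw [if_neg h5, if_neg fun h7 => h5 h7.1, if_neg fun h7 => h5 h7.1, one_mul]
    · rw [if_neg h5, if_neg fun h7 => h5 h7.1, if_neg fun h7 => h5 h7.1, one_mul]
  rw [Dl_spec D Z A, h1, h2]
  ring

lemma loc_e {C A : Finset (B D)} (h : A ⊆ C) :
    e w A = eC w C A * ∏ b ∈ A, ∏ c ∈ Cᶜ, w.h b c := by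
  classical
  rw [e, eC, ← Finset.prod_mul_distrib]
  refine Finset.prod_congr rfl fun b _ => ?_
  rw [← Finset.prod_union]
  · congr 1
    ext c
    simp only [Finset.mem_compl, Finset.mem_union, Finset.mem_sdiff]
    have := @h c
    (clear * - this; tauto)
  · rw [Finset.disjoint_left]
    intro c h2 h3
    exact Finset.mem_compl.1 h3 (Finset.mem_sdiff.1 h2).1

/-- `l b = ∑ t, ind (A t) b` is the number of `t` with `b ∈ A t` -/
lemma loc_prod {M : Type} [CommMonoid M] {C : Finset (B D)} {m : ℕ} {A : Fin m → Finset (B D)}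
    (hA : ∀ t, A t ⊆ C) {l : B D → ℤ} (hl : ∑ t, ind D (A t) = l) (F : B D → M) :
    ∏ t : Fin m, ∏ b ∈ A t, F b = ∏ b ∈ C, F b ^ (l b).toNat := by
  classical
  have h1 : ∀ t : Fin m, ∏ b ∈ A t, F b = ∏ b ∈ C, F b ^ (if b ∈ A t then 1 else 0) := by
    intro t
    rw [← Finset.prod_subset (hA t)]
    · refine Finset.prod_congr rfl fun b hb' => ?_
      rw [if_pos hb', pow_one]
    · intro b _ hb'
      rw [if_neg hb', pow_zero]
  rw [Finset.prod_congr rfl fun t _ => h1 t, Finset.prod_comm]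
  refine Finset.prod_congr rfl fun b _ => ?_
  rw [Finset.prod_pow_eq_pow_sum]
  congr 1
  have h2 : l b = ((∑ t : Fin m, if b ∈ A t then 1 else 0 : ℕ) : ℤ) := by
    rw [← hl, Finset.sum_apply]
    push_cast
    rfl
  rw [h2, Int.toNat_natCast]

/-- from `loc_Dl`, `loc_e`, `loc_prod` -/
theorem loc_main (ε : ℕ → ℕ) {C : Finset (B D)} {m : ℕ} {A : Fin m → Finset (B D)}
    (hA : ∀ t, A t ⊆ C) {l : B D → ℤ} (hl : ∑ t, ind D (A t) = l) :
    (∏ t : Fin m, (Dl D Z (A t) * (e w (A t) * zs w (A t) ^ ε t))) *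
      (OmC D Z C l * PiC D Z C ^ m) = (del D Z ^ m * HC w C l) * LC w C ε A := by
  have h1 : OmC D Z C l = ∏ t : Fin m, cr D Z (A t) Cᶜ := by
    rw [OmC, ← loc_prod hA hl]
    rfl
  have h2 : HC w C l = ∏ t : Fin m, ∏ b ∈ A t, ∏ c ∈ Cᶜ, w.h b c := by
    rw [HC, ← loc_prod hA hl]
  have h3 : ∀ x : S D Z, x ^ m = ∏ _t : Fin m, x := by
    intro x
    rw [Finset.prod_const, Finset.card_univ, Fintype.card_fin]
  rw [h1, h2, LC, h3 (PiC D Z C), h3 (del D Z), ← Finset.prod_mul_distrib,
    ← Finset.prod_mul_distrib, ← Finset.prod_mul_distrib, ← Finset.prod_mul_distrib]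
  refine Finset.prod_congr rfl fun t _ => ?_
  have h4 := loc_Dl (D := D) (Z := Z) (hA t)
  have h5 := loc_e w (hA t)
  rw [h5]
  linear_combination (eC w C (A t) * (∏ b ∈ A t, ∏ c ∈ Cᶜ, w.h b c) * zs w (A t) ^ ε t) * h4

/-- for `l = ind C` -/
lemma OmC_ind (C : Finset (B D)) : OmC D Z C (ind D C) = cr D Z C Cᶜ := by
  rw [OmC, cr]
  refine Finset.prod_congr rfl fun b hb' => ?_
  have h1 : ind D C b = 1 := if_pos hb'
  rw [h1, Int.toNat_one, pow_one]

lemma HC_ind (C : Finset (B D)) : HC w C (ind D C) = e w C := by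
  rw [HC, e]
  refine Finset.prod_congr rfl fun b hb' => ?_
  have h1 : ind D C b = 1 := if_pos hb'
  rw [h1, Int.toNat_one, pow_one]

open Classical in
/-- coefficients of `XQ` (`AddMonoidAlgebra.coeff_single`) -/
lemma coeff_XQ_gen (ε : ℕ → ℕ) {m : ℕ} (n : ℕ → D.I → ℕ) (Q : PP D Z m) (l : B D → ℤ) :
    (XQ w ε n Q).coeff l = ∑ A : Fin m → Finset (B D),
      if (∀ t : Fin m, typ D (A t) = n t) ∧ ∑ t, ind D (A t) = l then
        evA D Z A Q * ∏ t : Fin m, (Dl D Z (A t) * (e w (A t) * zs w (A t) ^ ε t)) else 0 := by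
  rw [XQ, AddMonoidAlgebra.coeff_sum, Finsupp.finsetSum_apply]
  refine Finset.sum_congr rfl fun A _ => ?_
  by_cases h3 : ∀ t : Fin m, typ D (A t) = n t
  · rw [if_pos h3, AddMonoidAlgebra.coeff_single, Finsupp.single_apply]
    by_cases h4 : ∑ t, ind D (A t) = l
    · rw [if_pos h4, if_pos ⟨h3, h4⟩]
    · rw [if_neg h4, if_neg fun h5 => h4 h5.2]
  · rw [if_neg h3, if_neg fun h5 => h3 h5.1]
    rfl

end

end Vale.Agent.P291.H.N
end
end

section

section

set_option autoImplicit false

/-! Newton interpolation. -/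

namespace Vale.Agent.P291.K

/-- Newton interpolation at the nodes `x a`, `a ∈ s`.  Induction on `s`
(`Finset.induction_on_max_value σ` or similar): `H = H(x a) + (y - x a) H₁` and
`(x b - x a) H₁(x b) = H(x b) - H(x a)`. -/
theorem newton {R ι : Type} [CommRing R] [DecidableEq ι] (x : ι → R) (σ : ι → ℕ)
    (hσ : Function.Injective σ) (y : R) (s : Finset ι) : ∀ H : Polynomial R, ∃ Q : R,
    (∏ a ∈ s, ∏ b ∈ s.filter (fun b => σ a < σ b), (x a - x b)) *
      (H.eval y - Q * ∏ a ∈ s, (y - x a)) ∈ Ideal.span ((fun a => H.eval (x a)) '' s) := by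
  induction s using Finset.induction_on_max_value σ with
  | empty =>
    intro H
    refine ⟨H.eval y, ?_⟩
    simp only [Finset.coe_empty, Set.image_empty, Submodule.span_empty, Finset.filter_empty, Finset.prod_empty, Finset.prod_const_one, mul_one, sub_self, mul_zero, zero_mem]
  | insert m s hm hmax ih =>
    intro H
    -- division by `X - x m`
    set H₁ : Polynomial R := H /ₘ (Polynomial.X - Polynomial.C (x m)) with hH₁
    have hdiv : ∀ z : R, H.eval z = H.eval (x m) + (z - x m) * H₁.eval z := by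
      intro z
      have h1 := congrArg (Polynomial.eval z)
        (Polynomial.modByMonic_add_div H (Polynomial.X - Polynomial.C (x m)))
      rw [Polynomial.modByMonic_X_sub_C_eq_C_eval, Polynomial.eval_add, Polynomial.eval_mul,
        Polynomial.eval_C, Polynomial.eval_sub, Polynomial.eval_X, Polynomial.eval_C] at h1
      exact h1.symm
    obtain ⟨Q, hQ⟩ := ih H₁
    refine ⟨Q, ?_⟩
    set I := Ideal.span ((fun a => H.eval (x a)) '' ((insert m s : Finset ι) : Set ι)) with hI
    have hmI : H.eval (x m) ∈ I :=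
      Ideal.subset_span ⟨m, Finset.mem_coe.2 (Finset.mem_insert_self m s), rfl⟩
    have hbI : ∀ b ∈ s, (x b - x m) * H₁.eval (x b) ∈ I := by
      intro b hb
      have h1 : (x b - x m) * H₁.eval (x b) = H.eval (x b) - H.eval (x m) := by
        rw [hdiv (x b)]
        ring
      rw [h1]
      exact I.sub_mem
        (Ideal.subset_span ⟨b, Finset.mem_coe.2 (Finset.mem_insert_of_mem hb), rfl⟩) hmI
    -- the product of the new differences kills the values of `H₁` modulo `I`
    have hE : ∀ u ∈ Ideal.span ((fun a => H₁.eval (x a)) '' (s : Set ι)),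
        (∏ a ∈ s, (x a - x m)) * u ∈ I := by
      intro u hu
      induction hu using Submodule.span_induction with
      | mem u hu =>
        obtain ⟨b, hb, rfl⟩ := hu
        have hb' : b ∈ s := Finset.mem_coe.1 hb
        rw [← Finset.mul_prod_erase s (fun a => x a - x m) hb']
        have h1 : (x b - x m) * (∏ a ∈ s.erase b, (x a - x m)) * (fun a => H₁.eval (x a)) b =
            (∏ a ∈ s.erase b, (x a - x m)) * ((x b - x m) * H₁.eval (x b)) := by
          ring
        rw [h1]
        exact I.mul_mem_left _ (hbI b hb')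
      | zero =>
        rw [mul_zero]
        exact I.zero_mem
      | add u v _ _ hu hv =>
        rw [mul_add]
        exact I.add_mem hu hv
      | smul r u _ hu =>
        rw [smul_eq_mul, mul_left_comm]
        exact I.mul_mem_left _ hu
    have hσm : ∀ a ∈ s, σ a < σ m := fun a ha =>
      lt_of_le_of_ne (hmax a ha) fun h => hm (hσ h ▸ ha)
    have hprod : (∏ a ∈ insert m s, ∏ b ∈ (insert m s).filter (fun b => σ a < σ b),
        (x a - x b)) = (∏ a ∈ s, ∏ b ∈ s.filter (fun b => σ a < σ b), (x a - x b)) *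
        ∏ a ∈ s, (x a - x m) := by
      rw [Finset.prod_insert hm]
      have h1 : (insert m s).filter (fun b => σ m < σ b) = ∅ := by
        rw [Finset.filter_eq_empty_iff]
        intro b hb
        rcases Finset.mem_insert.1 hb with rfl | hb
        · exact lt_irrefl _
        · exact not_lt.2 (hmax b hb)
      rw [h1, Finset.prod_empty, one_mul, ← Finset.prod_mul_distrib]
      refine Finset.prod_congr rfl fun a ha => ?_
      rw [Finset.filter_insert, if_pos (hσm a ha), Finset.prod_insert, mul_comm]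
      exact fun h => hm (Finset.mem_filter.1 h).1
    rw [hprod, Finset.prod_insert hm, hdiv y]
    have h2 := I.mul_mem_left (y - x m) (hE _ hQ)
    have h3 := I.mul_mem_left ((∏ a ∈ s, ∏ b ∈ s.filter (fun b => σ a < σ b), (x a - x b)) *
        ∏ a ∈ s, (x a - x m)) hmI
    have h4 := I.add_mem h2 h3
    convert h4 using 1
    ring

end Vale.Agent.P291.K
end
end
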