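import Vale.Agent.P291.MathlibUsed
import Vale.Agent.P291.Bdl.B1
import Vale.Agent.P291.T.QF
import Vale.Agent.P291.T.QE

set_option linter.all false

section

section

set_option autoImplicit false
set_option linter.unusedSectionVars false

/-! Coefficients of products of slots at chains; the measure. -/

namespace Vale.Agent.P291.H

open MvPolynomial Vale.Agent.P291.G

variable {D : QData} {Z : Type} (w : Wts D Z)

lemma map_fst_Gr (ε : ℕ) (n : D.I → ℕ) (C : Finset (B D)) :
    (Gr w ε n C).map (AlgHom.fst ℂ (AddMonoidAlgebra (S D Z) (B D → ℤ)) (S D Z)).toLinearMap =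
      U w ε n := by
  rw [Gr, U, ← Submodule.map_comp]
  rfl

lemma map_fst_prod (ε : ℕ → ℕ) (m : ℕ) (n : ℕ → D.I → ℕ) (C : ℕ → Finset (B D)) :
    (∏ j ∈ Finset.range m, Gr w (ε j) (n j) (C j)).map
      (AlgHom.fst ℂ (AddMonoidAlgebra (S D Z) (B D → ℤ)) (S D Z)).toLinearMap =
      UU w ε m n := by
  have h := map_prod (Submodule.mapHom
    (AlgHom.fst ℂ (AddMonoidAlgebra (S D Z) (B D → ℤ)) (S D Z)))
    (fun j => Gr w (ε j) (n j) (C j)) (Finset.range m)
  rw [Submodule.mapHom_apply] at h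
  rw [h, UU]
  refine Finset.prod_congr rfl fun j _ => ?_
  rw [Submodule.mapHom_apply]
  exact map_fst_Gr w (ε j) (n j) (C j)

/-- elements of `UU` have a partner in the product of the graphs -/
lemma exists_graph (ε : ℕ → ℕ) (m : ℕ) (n : ℕ → D.I → ℕ) (C : ℕ → Finset (B D))
    {Y : AddMonoidAlgebra (S D Z) (B D → ℤ)} (hY : Y ∈ UU w ε m n) :
    ∃ p : S D Z, (Y, p) ∈ ∏ j ∈ Finset.range m, Gr w (ε j) (n j) (C j) := by
  rw [← map_fst_prod w ε m n C, Submodule.mem_map] at hY
  obtain ⟨⟨Y', p⟩, h1, h2⟩ := hY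
  obtain rfl : Y' = Y := h2
  exact ⟨p, h1⟩

/-- the first component of the product of the graphs -/
lemma graph_fst (ε : ℕ → ℕ) (m : ℕ) (n : ℕ → D.I → ℕ) (C : ℕ → Finset (B D))
    {Y : AddMonoidAlgebra (S D Z) (B D → ℤ)} {p : S D Z}
    (h : (Y, p) ∈ ∏ j ∈ Finset.range m, Gr w (ε j) (n j) (C j)) : Y ∈ UU w ε m n := by
  rw [← map_fst_prod w ε m n C, Submodule.mem_map]
  exact ⟨(Y, p), h, rfl⟩

/-- coefficient of the product with a slot -/
lemma coeff_mul_slot (ε : ℕ) (φ : Finset (B D) → S D Z)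
    (Y : AddMonoidAlgebra (S D Z) (B D → ℤ)) (l : B D → ℤ) :
    (Y * slot w ε φ).coeff l =
      ∑ A, Y.coeff (l - ind D A) * (φ A * (e w A * zs w A ^ ε)) := by
  have h1 : slot w ε φ = ∑ A, AddMonoidAlgebra.single (ind D A) (φ A * (e w A * zs w A ^ ε)) := rfl
  rw [h1, Finset.mul_sum, AddMonoidAlgebra.coeff_sum, Finsupp.finsetSum_apply]
  refine Finset.sum_congr rfl fun A _ => ?_
  rw [AddMonoidAlgebra.coeff_mul_single_apply, sub_eq_add_neg]

/-- support of the elements of `UU` -/
lemma coeff_ne (ε : ℕ → ℕ) (m : ℕ) (n : ℕ → D.I → ℕ)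
    {Y : AddMonoidAlgebra (S D Z) (B D → ℤ)} (hY : Y ∈ UU w ε m n) {l : B D → ℤ}
    (h : Y.coeff l ≠ 0) : ∃ A : ℕ → Finset (B D), (∀ j, j < m → typ D (A j) = n j) ∧
      l = ∑ j ∈ Finset.range m, ind D (A j) := by
  induction m generalizing Y l with
  | zero =>
    rw [UU, Finset.range_zero, Finset.prod_empty, Submodule.mem_one] at hY
    obtain ⟨c, rfl⟩ := hY
    refine ⟨fun _ => ∅, fun j hj => absurd hj (Nat.not_lt_zero j), ?_⟩
    rw [Finset.range_zero, Finset.sum_empty]
    by_contra hl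
    apply h
    rw [Algebra.algebraMap_eq_smul_one, AddMonoidAlgebra.coeff_smul_apply,
      AddMonoidAlgebra.one_def, AddMonoidAlgebra.coeff_single,
      Finsupp.single_eq_of_ne hl, smul_zero]
  | succ m ih =>
    rw [UU, Finset.prod_range_succ] at hY
    revert h
    refine Submodule.mul_induction_on hY ?_ ?_
    · rintro Y1 hY1 _ ⟨φ, hφ, rfl⟩ h
      rw [coeff_mul_slot] at h
      obtain ⟨A, _, hA⟩ := Finset.exists_ne_zero_of_sum_ne_zero h
      have h1 : Y1.coeff (l - ind D A) ≠ 0 := left_ne_zero_of_mul hA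
      have h2 : φ A ≠ 0 := left_ne_zero_of_mul (right_ne_zero_of_mul hA)
      have h3 : typ D A = n m := by
        by_contra h3
        exact h2 (hφ.2 A h3)
      obtain ⟨A', hA', hl⟩ := ih hY1 h1
      refine ⟨fun j => if j = m then A else A' j, fun j hj => ?_, ?_⟩
      · by_cases hjm : j = m
        · simp only [hjm, if_true, h3]
        · simp only [hjm, if_false]
          exact hA' j (by omega)
      · rw [Finset.sum_range_succ]
        simp only [if_true]
        have h4 : ∑ j ∈ Finset.range m, ind D (if j = m then A else A' j) =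
            ∑ j ∈ Finset.range m, ind D (A' j) := by
          refine Finset.sum_congr rfl fun j hj => ?_
          rw [if_neg (Finset.mem_range.1 hj).ne]
        rw [h4, ← hl, sub_add_cancel]
    · intro Y1 Y2 h1 h2 h
      rw [AddMonoidAlgebra.coeff_add, Finsupp.add_apply] at h
      by_cases h3 : Y1.coeff l = 0
      · rw [h3, zero_add] at h
        exact h2 h
      · exact h1 h3

lemma ind_le_one (A : Finset (B D)) (b : B D) : ind D A b ≤ 1 := by
  unfold ind
  split_ifs <;> norm_num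

lemma chain_mono {m : ℕ} {C : ℕ → Finset (B D)} (hC : ∀ j, j + 1 < m → C (j + 1) ⊆ C j) :
    ∀ i j, i ≤ j → j < m → C j ⊆ C i := by
  intro i j hij
  induction j, hij using Nat.le_induction with
  | base => intro _; exact Finset.Subset.refl _
  | succ j hij ih => intro hj; exact (hC j hj).trans (ih (by omega))

/-- The coefficient at a chain. Induction on `m` (peel off the slot `0`:
`Finset.prod_range_succ'`): the coefficient of `slot φ * Y` at `ind (C 0) + l'` is
`∑_A φ A e A z_A^ε (coeff of Y at ind (C 0) + l' - ind A)`, and for `A ≠ C 0` with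
`typ A = typ (C 0)` there is `b ∈ A \ C 0`, where `ind (C 0) + l' - ind A` is negative, because
`l'` is supported in `C 1 ⊆ C 0`; but `Y` is supported on nonnegative exponents. -/
lemma coeff_chain (ε : ℕ → ℕ) (m : ℕ) (n : ℕ → D.I → ℕ) (C : ℕ → Finset (B D))
    (hC : ∀ j, j + 1 < m → C (j + 1) ⊆ C j) (hn : ∀ j, j < m → typ D (C j) = n j)
    {Y : AddMonoidAlgebra (S D Z) (B D → ℤ)} {p : S D Z}
    (h : (Y, p) ∈ ∏ j ∈ Finset.range m, Gr w (ε j) (n j) (C j)) :
    Y.coeff (∑ j ∈ Finset.range m, ind D (C j)) =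
      (∏ j ∈ Finset.range m, (e w (C j) * zs w (C j) ^ ε j)) * p := by
  classical
  suffices H : ∀ q : AddMonoidAlgebra (S D Z) (B D → ℤ) × S D Z,
      q ∈ ∏ j ∈ Finset.range m, Gr w (ε j) (n j) (C j) →
      q.1.coeff (∑ j ∈ Finset.range m, ind D (C j)) =
        (∏ j ∈ Finset.range m, (e w (C j) * zs w (C j) ^ ε j)) * q.2 from H (Y, p) h
  clear h
  induction m with
  | zero =>
    intro q hq
    rw [Finset.range_zero, Finset.prod_empty, Submodule.mem_one] at hq
    obtain ⟨c, rfl⟩ := hq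
    rw [Finset.range_zero, Finset.sum_empty, Finset.prod_empty, one_mul,
      Algebra.algebraMap_eq_smul_one, Prod.smul_fst, Prod.smul_snd,
      AddMonoidAlgebra.coeff_smul_apply, Prod.fst_one, Prod.snd_one,
      AddMonoidAlgebra.coeff_one_zero]
  | succ m ih =>
    intro q hq
    have ih' := ih (fun j hj => hC j (by omega)) (fun j hj => hn j (by omega))
    rw [Finset.prod_range_succ] at hq
    refine Submodule.mul_induction_on hq ?_ ?_
    · rintro ⟨Y1, p1⟩ hY1 _ ⟨φ, hφ, rfl⟩
      have h1 := ih' (Y1, p1) hY1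
      have h2 := graph_fst w ε m n C hY1
      change (Y1 * slot w (ε m) φ).coeff _ = _ * (p1 * φ (C m))
      rw [coeff_mul_slot, Finset.sum_range_succ, Finset.prod_range_succ,
        Finset.sum_eq_single (C m)]
      · rw [add_sub_cancel_right, h1]
        ring
      · intro A _ hA
        by_cases hT : typ D A = n m
        · have h3 : ∃ b ∈ C m, b ∉ A := by
            by_contra h3
            push Not at h3
            exact hA (eq_of_subset D h3 (by rw [hT, hn m (by omega)])).symm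
          obtain ⟨b, hb1, hb2⟩ := h3
          have h4 : Y1.coeff (∑ j ∈ Finset.range m, ind D (C j) + ind D (C m) - ind D A) = 0 := by
            by_contra h4
            obtain ⟨A', _, hl⟩ := coeff_ne w ε m n h2 h4
            have h5 := congrFun hl b
            rw [Pi.sub_apply, Pi.add_apply, Finset.sum_apply, Finset.sum_apply] at h5
            have h6 : ∑ j ∈ Finset.range m, ind D (C j) b = m := by
              have h7 : ∀ j ∈ Finset.range m, ind D (C j) b = 1 := by
                intro j hj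
                have hj' := Finset.mem_range.1 hj
                have h8 : b ∈ C j := chain_mono hC j m hj'.le (by omega) hb1
                rw [ind, if_pos h8]
              rw [Finset.sum_congr rfl h7, Finset.sum_const, Finset.card_range, nsmul_eq_mul,
                mul_one]
            have h7 : ∑ j ∈ Finset.range m, ind D (A' j) b ≤ m := by
              have h8 := Finset.sum_le_sum (fun j (_ : j ∈ Finset.range m) => ind_le_one (A' j) b)
              rw [Finset.sum_const, Finset.card_range, nsmul_eq_mul, mul_one] at h8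
              exact h8
            have h8 : ind D (C m) b = 1 := if_pos hb1
            have h9 : ind D A b = 0 := if_neg hb2
            rw [h6, h8, h9] at h5
            omega
          rw [h4, zero_mul]
        · rw [hφ.2 A hT, zero_mul, mul_zero]
      · intro h3
        exact absurd (Finset.mem_univ _) h3
    · intro q1 q2 h1 h2
      rw [Prod.fst_add, Prod.snd_add, AddMonoidAlgebra.coeff_add, Finsupp.add_apply, h1, h2,
        mul_add]

/-- an initial segment has the smallest sum among the finite sets of the same cardinality -/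
lemma sum_initial_le {S T : Finset ℕ} (hT : ∀ i j, i ≤ j → j ∈ T → i ∈ T)
    (hc : S.card = T.card) : ∑ j ∈ T, j + (S \ T).card ≤ ∑ j ∈ S, j := by
  have h1 : (T \ S).card = (S \ T).card := by
    have h2 := Finset.card_sdiff_add_card_inter S T
    have h3 := Finset.card_sdiff_add_card_inter T S
    rw [Finset.inter_comm] at h3
    omega
  have hTr : T = Finset.range T.card := by
    refine Finset.eq_of_subset_of_card_le ?_ (by rw [Finset.card_range])
    intro x hx
    have h2 : Finset.range (x + 1) ⊆ T := fun y hy =>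
      hT y x (by have := Finset.mem_range.1 hy; omega) hx
    have h3 := Finset.card_le_card h2
    rw [Finset.card_range] at h3
    exact Finset.mem_range.2 h3
  have h2 : ∑ j ∈ S \ T, j + ∑ j ∈ S ∩ T, j = ∑ j ∈ S, j := by
    rw [add_comm]
    exact Finset.sum_inter_add_sum_sdiff S T _
  have h3 : ∑ j ∈ T \ S, j + ∑ j ∈ S ∩ T, j = ∑ j ∈ T, j := by
    rw [add_comm, Finset.inter_comm]
    exact Finset.sum_inter_add_sum_sdiff T S _
  have h4 : (S \ T).card * T.card ≤ ∑ j ∈ S \ T, j := by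
    rw [← smul_eq_mul]
    refine Finset.card_nsmul_le_sum _ _ _ fun j hj => ?_
    have h5 : j ∉ T := (Finset.mem_sdiff.1 hj).2
    rw [hTr, Finset.mem_range] at h5
    omega
  have h5 : ∑ j ∈ T \ S, (j + 1) ≤ (T \ S).card * T.card := by
    rw [← smul_eq_mul]
    refine Finset.sum_le_card_nsmul _ _ _ fun j hj => ?_
    have h6 : j ∈ T := (Finset.mem_sdiff.1 hj).1
    rw [hTr, Finset.mem_range] at h6
    omega
  rw [Finset.sum_add_distrib, Finset.sum_const, smul_eq_mul, mul_one, h1] at h5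
  omega

lemma meas_eq (m : ℕ) (A : ℕ → Finset (B D)) :
    meas m (fun j => typ D (A j)) =
      ∑ b : B D, ∑ j ∈ (Finset.range m).filter (fun j => b ∈ A j), j := by
  classical
  rw [meas]
  have h1 : ∀ j ∈ Finset.range m, j * ∑ i, typ D (A j) i = ∑ b : B D, if b ∈ A j then j else 0 := by
    intro j _
    rw [sum_typ, Finset.sum_ite_mem, Finset.univ_inter, Finset.sum_const, smul_eq_mul, mul_comm]
  rw [Finset.sum_congr rfl h1, Finset.sum_comm]
  refine Finset.sum_congr rfl fun b _ => ?_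
  rw [Finset.sum_filter]

/-- The measure argument. For every `b` the set `{j < m | b ∈ C j}` is the initial segment with
`k = #{j < m | b ∈ A j}` elements, and `∑_{j < k} j ≤ ∑_{j < m, b ∈ A j} j` with equality iff the
two sets agree. Sum over `b`, using `sum_typ`. -/
lemma meas_le (m : ℕ) (A C : ℕ → Finset (B D)) (hC : ∀ j, j + 1 < m → C (j + 1) ⊆ C j)
    (h : ∑ j ∈ Finset.range m, ind D (A j) = ∑ j ∈ Finset.range m, ind D (C j)) :
    meas m (fun j => typ D (C j)) ≤ meas m (fun j => typ D (A j)) ∧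
      (meas m (fun j => typ D (A j)) ≤ meas m (fun j => typ D (C j)) → ∀ j, j < m → A j = C j) := by
  classical
  have hcard : ∀ (X : ℕ → Finset (B D)) (b : B D), (∑ j ∈ Finset.range m, ind D (X j)) b =
      ((Finset.range m).filter (fun j => b ∈ X j)).card := by
    intro X b
    rw [Finset.sum_apply]
    simp only [ind]
    rw [Finset.sum_ite, Finset.sum_const_zero, add_zero, Finset.sum_const, nsmul_eq_mul, mul_one]
  have hc : ∀ b : B D, ((Finset.range m).filter (fun j => b ∈ A j)).card =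
      ((Finset.range m).filter (fun j => b ∈ C j)).card := by
    intro b
    have h1 := congrFun h b
    rw [hcard, hcard] at h1
    exact_mod_cast h1
  have hI : ∀ b : B D, ∀ i j, i ≤ j → j ∈ (Finset.range m).filter (fun j => b ∈ C j) →
      i ∈ (Finset.range m).filter (fun j => b ∈ C j) := by
    intro b i j hij hj
    rw [Finset.mem_filter, Finset.mem_range] at hj ⊢
    exact ⟨by omega, chain_mono hC i j hij hj.1 hj.2⟩
  have key : ∀ b : B D, ∑ j ∈ (Finset.range m).filter (fun j => b ∈ C j), j +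
      ((Finset.range m).filter (fun j => b ∈ A j) \
        (Finset.range m).filter (fun j => b ∈ C j)).card ≤
      ∑ j ∈ (Finset.range m).filter (fun j => b ∈ A j), j :=
    fun b => sum_initial_le (hI b) (hc b)
  rw [meas_eq, meas_eq]
  have hle : ∀ b ∈ (Finset.univ : Finset (B D)),
      ∑ j ∈ (Finset.range m).filter (fun j => b ∈ C j), j ≤
      ∑ j ∈ (Finset.range m).filter (fun j => b ∈ A j), j :=
    fun b _ => (Nat.le_add_right _ _).trans (key b)
  refine ⟨Finset.sum_le_sum hle, fun hge j hj => ?_⟩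
  have heq := (Finset.sum_eq_sum_iff_of_le hle).1 (le_antisymm (Finset.sum_le_sum hle) hge)
  have hset : ∀ b : B D, (Finset.range m).filter (fun j => b ∈ A j) =
      (Finset.range m).filter (fun j => b ∈ C j) := by
    intro b
    have h1 := key b
    have h2 := heq b (Finset.mem_univ b)
    rw [h2] at h1
    have h3 : ((Finset.range m).filter (fun j => b ∈ A j) \
        (Finset.range m).filter (fun j => b ∈ C j)).card = 0 := by omega
    rw [Finset.card_eq_zero, Finset.sdiff_eq_empty_iff_subset] at h3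
    exact Finset.eq_of_subset_of_card_le h3 (hc b).ge
  ext b
  have h1 := hset b
  have h2 : j ∈ (Finset.range m).filter (fun j => b ∈ A j) ↔
      j ∈ (Finset.range m).filter (fun j => b ∈ C j) := by rw [h1]
  rw [Finset.mem_filter, Finset.mem_filter, Finset.mem_range] at h2
  exact ⟨fun h3 => (h2.1 ⟨hj, h3⟩).2, fun h3 => (h2.2 ⟨hj, h3⟩).2⟩

/-- existence of a chain with given nested types -/
lemma exists_chain (n : ℕ → D.I → ℕ) (hn : ∀ j, n (j + 1) ≤ n j) (h0 : n 0 ≤ D.v) :
    ∃ C : ℕ → Finset (B D), (∀ j, C (j + 1) ⊆ C j) ∧ ∀ j, typ D (C j) = n j := by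
  classical
  have hle : ∀ j, n j ≤ D.v := by
    intro j
    induction j with
    | zero => exact h0
    | succ j ih => exact (hn j).trans ih
  refine ⟨fun j => Finset.univ.filter fun b : B D => (b.2 : ℕ) < n j b.1, fun j b hb => ?_,
    fun j => ?_⟩
  · rw [Finset.mem_filter] at hb ⊢
    exact ⟨Finset.mem_univ _, lt_of_lt_of_le hb.2 (hn j b.1)⟩
  · funext i
    rw [← card_fib]
    have h1 : fib D (Finset.univ.filter fun b : B D => (b.2 : ℕ) < n j b.1) i =
        Finset.univ.filter fun r : Fin (D.v i) => (r : ℕ) < n j i := by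
      ext r
      rw [mem_fib, Finset.mem_filter, Finset.mem_filter]
      simp only [Finset.mem_univ, true_and]
    rw [h1]
    have h2 := Fin.card_filter_val_lt (n := D.v i) (m := n j i)
    rw [h2]
    exact min_eq_right (hle j i)

/-- `U w ε n` is zero if `n` is not at most `v` -/
lemma U_eq_bot (ε : ℕ) {n : D.I → ℕ} (h : ¬ n ≤ D.v) : U w ε n = ⊥ := by
  rw [eq_bot_iff]
  rintro _ ⟨φ, hφ, rfl⟩
  have h1 : φ = 0 := by
    funext A
    refine hφ.2 A fun hA => h ?_
    rw [← hA]
    exact typ_le D A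
  rw [h1, map_zero]
  exact Submodule.zero_mem _

end Vale.Agent.P291.H
end
end

section

section

set_option autoImplicit false
set_option linter.unusedSectionVars false

/-! The substitution `ρ : B (sub D N) → B D` attached to an exponent `l`. -/

namespace Vale.Agent.P291.H.N

open MvPolynomial Vale.Agent.P291.G Vale.Agent.P291.H.M

variable {D : QData} {Z : Type} {N : D.I → ℕ}

/-- `ρ` preserves colours, takes the value `a` exactly `l a` times, and is injective on `C'` with
image the support of `l` -/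
structure Rho (ρ : B (sub D N) → B D) (C' : Finset (B (sub D N))) (l : B D → ℤ) : Prop where
  col : ∀ b, (ρ b).1 = b.1
  cnt : ∀ a, ((Finset.univ.filter fun b => ρ b = a).card : ℤ) = l a
  inj : ∀ b ∈ C', ∀ c ∈ C', ρ b = ρ c → b = c
  mem : ∀ a, l a ≠ 0 → ∃ b ∈ C', ρ b = a

/-- the exponent for `sub D N` -/
def pull (ρ : B (sub D N) → B D) (C' : Finset (B (sub D N))) (l : B D → ℤ) (b : B (sub D N)) : ℤ :=
  if b ∈ C' then l (ρ b) else 0

/-- Proof: the pairs `(a, k)`, `a : B D`, `k : Fin (l a).toNat`, with `a.1 = i` are `N i` many, like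
the elements of `B (sub D N)` of colour `i`: choose a colour preserving bijection (see `exists_io` in
M/Iota.lean) and let `ρ` be its first component, `C'` the set of the elements with second component
`0`. -/
theorem exists_rho {l : B D → ℤ} (h0 : ∀ a, 0 ≤ l a)
    (hN : ∀ i, ∑ a : B D, (if a.1 = i then l a else 0) = (N i : ℤ)) :
    ∃ (ρ : B (sub D N) → B D) (C' : Finset (B (sub D N))), Rho ρ C' l := by
  classical
  have hcard : ∀ i : D.I, Nat.card {x : B (sub D N) // x.1 = i} =
      Nat.card {y : (Σ a : B D, Fin (l a).toNat) // y.1.1 = i} := by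
    intro i
    have h1 : Nat.card {x : B (sub D N) // x.1 = i} = N i := by
      have e1 : {x : B (sub D N) // x.1 = i} ≃ Fin (N i) :=
        Equiv.sigmaSubtype (β := fun i : D.I => Fin (N i)) i
      rw [Nat.card_congr e1, Nat.card_eq_fintype_card, Fintype.card_fin]
    have h2 : Nat.card {y : (Σ a : B D, Fin (l a).toNat) // y.1.1 = i} =
        ∑ a : B D, (if a.1 = i then (l a).toNat else 0) := by
      have e2 : {y : (Σ a : B D, Fin (l a).toNat) // y.1.1 = i} ≃
          (Σ a : B D, {_k : Fin (l a).toNat // a.1 = i}) :=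
        { toFun := fun y => ⟨y.1.1, y.1.2, y.2⟩
          invFun := fun z => ⟨⟨z.1, z.2.1⟩, z.2.2⟩
          left_inv := fun _ => rfl
          right_inv := fun _ => rfl }
      rw [Nat.card_congr e2, Nat.card_sigma]
      refine Finset.sum_congr rfl fun a _ => ?_
      by_cases h : a.1 = i
      · rw [if_pos h, Nat.card_eq_fintype_card, Fintype.card_subtype]
        simp only [h, Finset.filter_true, Finset.card_univ, Fintype.card_fin]
      · rw [if_neg h, Nat.card_eq_fintype_card, Fintype.card_subtype]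
        simp [h]
    rw [h1, h2]
    have h3 := hN i
    have h4 : ((∑ a : B D, (if a.1 = i then (l a).toNat else 0) : ℕ) : ℤ) = (N i : ℤ) := by
      rw [← h3, Nat.cast_sum]
      refine Finset.sum_congr rfl fun a _ => ?_
      split_ifs
      · exact Int.toNat_of_nonneg (h0 a)
      · rfl
    exact (Nat.cast_injective (R := ℤ) h4).symm
  have he : ∀ i : D.I, Nonempty ({x : B (sub D N) // x.1 = i} ≃
      {y : (Σ a : B D, Fin (l a).toNat) // y.1.1 = i}) := fun i =>
    ⟨(Finite.card_eq.1 (hcard i)).some⟩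
  let e : B (sub D N) ≃ (Σ a : B D, Fin (l a).toNat) :=
    Equiv.ofFiberEquiv (f := fun x : B (sub D N) => x.1)
      (g := fun y : (Σ a : B D, Fin (l a).toNat) => y.1.1) fun i => (he i).some
  have hecol : ∀ x, (e x).1.1 = x.1 := fun x =>
    Equiv.ofFiberEquiv_map (f := fun x : B (sub D N) => x.1)
      (g := fun y : (Σ a : B D, Fin (l a).toNat) => y.1.1) (fun i => (he i).some) x
  refine ⟨fun b => (e b).1, Finset.univ.filter fun b => ((e b).2 : ℕ) = 0, hecol, ?_, ?_, ?_⟩
  · intro a
    have h1 : (Finset.univ.filter fun b : B (sub D N) => (e b).1 = a).card =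
        (Finset.univ.filter fun y : (Σ a : B D, Fin (l a).toNat) => y.1 = a).card := by
      refine Finset.card_bij (fun b _ => e b) (fun b hb => ?_) (fun b _ c _ h => e.injective h)
        (fun y hy => ⟨e.symm y, ?_, e.apply_symm_apply y⟩)
      · simpa only [Finset.mem_filter, Finset.mem_univ, true_and] using hb
      · simpa only [Finset.mem_filter, Finset.mem_univ, Equiv.apply_symm_apply, true_and] using hy
    have h2 : (Finset.univ.filter fun y : (Σ a : B D, Fin (l a).toNat) => y.1 = a).card =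
        (l a).toNat := by
      rw [← Fintype.card_subtype, Fintype.card_congr
        (Equiv.sigmaSubtype (β := fun a : B D => Fin (l a).toNat) a), Fintype.card_fin]
    rw [h1, h2]
    exact Int.toNat_of_nonneg (h0 a)
  · intro b hb c hc h
    have hb' : ((e b).2 : ℕ) = 0 := (Finset.mem_filter.1 hb).2
    have hc' : ((e c).2 : ℕ) = 0 := (Finset.mem_filter.1 hc).2
    apply e.injective
    have key : ∀ y z : (Σ a : B D, Fin (l a).toNat), y.1 = z.1 → (y.2 : ℕ) = 0 →
        (z.2 : ℕ) = 0 → y = z := by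
      rintro ⟨a, j⟩ ⟨a', j'⟩ h1 h2 h3
      obtain rfl : a = a' := h1
      have h4 : j = j' := Fin.ext (h2.trans h3.symm)
      rw [h4]
    exact key _ _ h hb' hc'
  · intro a ha
    have h1 : 0 < (l a).toNat := by
      have := h0 a
      omega
    refine ⟨e.symm ⟨a, ⟨0, h1⟩⟩, ?_, ?_⟩
    · rw [Finset.mem_filter]
      refine ⟨Finset.mem_univ _, ?_⟩
      rw [Equiv.apply_symm_apply]
    · rw [Equiv.apply_symm_apply]

section
variable {ρ : B (sub D N) → B D} {C' : Finset (B (sub D N))} {l : B D → ℤ}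

lemma rho_ne (h : Rho ρ C' l) (b : B (sub D N)) : l (ρ b) ≠ 0 := by
  intro h0
  have h1 := h.cnt (ρ b)
  rw [h0] at h1
  have h2 : (Finset.univ.filter fun c => ρ c = ρ b).card = 0 := by exact_mod_cast h1
  rw [Finset.card_eq_zero] at h2
  have h3 : b ∈ Finset.univ.filter fun c => ρ c = ρ b :=
    Finset.mem_filter.2 ⟨Finset.mem_univ _, rfl⟩
  rw [h2] at h3
  exact Finset.notMem_empty _ h3

lemma rho_image (h : Rho ρ C' l) : C'.image ρ = Finset.univ.filter fun a => l a ≠ 0 := by
  ext a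
  rw [Finset.mem_image, Finset.mem_filter]
  constructor
  · rintro ⟨b, _, rfl⟩
    exact ⟨Finset.mem_univ _, rho_ne h b⟩
  · rintro ⟨_, ha⟩
    exact h.mem a ha

lemma rho_typ (h : Rho ρ C' l) {A : Finset (B (sub D N))} (hA : A ⊆ C') :
    typ D (A.image ρ) = typ (sub D N) A := by
  funext i
  rw [typ, typ, Finset.filter_image, Finset.card_image_of_injOn]
  · refine congrArg Finset.card (Finset.filter_congr fun b _ => ?_)
    rw [h.col b]
  · intro b hb c hc hbc
    exact h.inj b (hA (Finset.mem_filter.1 (Finset.mem_coe.1 hb)).1) c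
      (hA (Finset.mem_filter.1 (Finset.mem_coe.1 hc)).1) hbc

lemma rho_ind_aux (h : Rho ρ C' l) {A : Finset (B (sub D N))} (hA : A ⊆ C')
    {b : B (sub D N)} (hb : b ∈ C') : ind D (A.image ρ) (ρ b) = ind (sub D N) A b := by
  unfold ind
  refine if_congr ?_ rfl rfl
  rw [Finset.mem_image]
  constructor
  · rintro ⟨c, hc, hcb⟩
    rw [← h.inj c (hA hc) b hb hcb]
    exact hc
  · intro hb
    exact ⟨b, hb, rfl⟩

lemma rho_ind (h : Rho ρ C' l) {m : ℕ} {A : Fin m → Finset (B (sub D N))} (hA : ∀ t, A t ⊆ C') :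
    ∑ t, ind D ((A t).image ρ) = l ↔ ∑ t, ind (sub D N) (A t) = pull ρ C' l := by
  constructor
  · intro h1
    funext b
    rw [Finset.sum_apply, pull]
    by_cases hb : b ∈ C'
    · rw [if_pos hb, ← h1, Finset.sum_apply]
      exact Finset.sum_congr rfl fun t _ => (rho_ind_aux h (hA t) hb).symm
    · rw [if_neg hb]
      refine Finset.sum_eq_zero fun t _ => ?_
      exact if_neg fun h2 => hb (hA t h2)
  · intro h1
    funext a
    rw [Finset.sum_apply]
    by_cases ha : l a = 0
    · rw [ha]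
      refine Finset.sum_eq_zero fun t _ => ?_
      refine if_neg fun h2 => ?_
      obtain ⟨b, _, rfl⟩ := Finset.mem_image.1 h2
      exact rho_ne h b ha
    · obtain ⟨b, hb, rfl⟩ := h.mem a ha
      have h2 := congrFun h1 b
      rw [Finset.sum_apply, pull, if_pos hb] at h2
      rw [← h2]
      exact Finset.sum_congr rfl fun t _ => rho_ind_aux h (hA t) hb

open Classical in
/-- the tuples with sum `l` correspond to the tuples with sum `pull ρ C' l` (these are subsets of
`C'`, and tuples with sum `l` are subsets of the support of `l`, the image of `C'`) -/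
theorem rho_sum (h : Rho ρ C' l) {m : ℕ} (n : ℕ → D.I → ℕ) {M : Type} [AddCommMonoid M]
    (F : (Fin m → Finset (B D)) → M) :
    (∑ A : Fin m → Finset (B D),
      if (∀ t : Fin m, typ D (A t) = n t) ∧ ∑ t, ind D (A t) = l then F A else 0) =
    ∑ A : Fin m → Finset (B (sub D N)),
      if (∀ t : Fin m, typ (sub D N) (A t) = n t) ∧ ∑ t, ind (sub D N) (A t) = pull ρ C' l then
        F (fun t => (A t).image ρ) else 0 := by
  have him : ∀ A : Fin m → Finset (B D), ∑ t, ind D (A t) = l → ∀ t,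
      ((C'.filter fun b => ρ b ∈ A t).image ρ) = A t := by
    intro A hA t
    ext a
    rw [Finset.mem_image]
    constructor
    · rintro ⟨b, hb, rfl⟩
      exact (Finset.mem_filter.1 hb).2
    · intro ha
      have hl : l a ≠ 0 := by
        have h1 : l a = ∑ t, ind D (A t) a := by
          rw [← hA, Finset.sum_apply]
        have h2 : ind D (A t) a ≤ ∑ t, ind D (A t) a :=
          Finset.single_le_sum (f := fun t => ind D (A t) a)
            (fun s _ => by unfold ind; split_ifs <;> norm_num) (Finset.mem_univ t)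
        have h3 : ind D (A t) a = 1 := if_pos ha
        omega
      obtain ⟨b, hb, hba⟩ := h.mem a hl
      exact ⟨b, Finset.mem_filter.2 ⟨hb, hba ▸ ha⟩, hba⟩
  have hfil : ∀ A : Fin m → Finset (B D), ∀ t, (C'.filter fun b => ρ b ∈ A t) ⊆ C' :=
    fun A t => Finset.filter_subset _ _
  have hsub : ∀ A : Fin m → Finset (B (sub D N)),
      ∑ t, ind (sub D N) (A t) = pull ρ C' l → ∀ t, A t ⊆ C' := by
    intro A hA t b hb
    by_contra hbC
    have h1 : ∑ t, ind (sub D N) (A t) b = 0 := by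
      rw [← Finset.sum_apply, hA]
      exact if_neg hbC
    have h2 : ind (sub D N) (A t) b ≤ ∑ t, ind (sub D N) (A t) b :=
      Finset.single_le_sum (f := fun t => ind (sub D N) (A t) b)
        (fun s _ => by unfold ind; split_ifs <;> norm_num) (Finset.mem_univ t)
    have h3 : ind (sub D N) (A t) b = 1 := if_pos hb
    omega
  rw [← Finset.sum_filter, ← Finset.sum_filter]
  refine Finset.sum_nbij' (fun A t => C'.filter fun b => ρ b ∈ A t)
    (fun A t => (A t).image ρ) ?_ ?_ ?_ ?_ ?_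
  · intro A hA
    obtain ⟨h1, h2⟩ := (Finset.mem_filter.1 hA).2
    refine Finset.mem_filter.2 ⟨Finset.mem_univ _, fun t => ?_, ?_⟩
    · rw [← rho_typ h (hfil A t), him A h2 t]
      exact h1 t
    · refine (rho_ind h (hfil A)).1 ?_
      rw [← h2]
      exact Finset.sum_congr rfl fun t _ => by rw [him A h2 t]
  · intro A hA
    obtain ⟨h1, h2⟩ := (Finset.mem_filter.1 hA).2
    refine Finset.mem_filter.2 ⟨Finset.mem_univ _, fun t => ?_, ?_⟩
    · rw [rho_typ h (hsub A h2 t)]
      exact h1 t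
    · exact (rho_ind h (hsub A h2)).2 h2
  · intro A hA
    obtain ⟨h1, h2⟩ := (Finset.mem_filter.1 hA).2
    exact funext fun t => him A h2 t
  · intro A hA
    obtain ⟨h1, h2⟩ := (Finset.mem_filter.1 hA).2
    funext t
    ext b
    rw [Finset.mem_filter, Finset.mem_image]
    constructor
    · rintro ⟨hb, c, hc, hcb⟩
      rw [← h.inj c (hsub A h2 t hc) b hb hcb]
      exact hc
    · intro hb
      exact ⟨hsub A h2 t hb, b, hb, rfl⟩
  · intro A hA
    obtain ⟨h1, h2⟩ := (Finset.mem_filter.1 hA).2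
    exact congrArg F (funext fun t => (him A h2 t).symm)

lemma rho_sub (h : Rho ρ C' l) {m : ℕ} {A : Fin m → Finset (B (sub D N))}
    (hA : ∑ t, ind (sub D N) (A t) = pull ρ C' l) (t : Fin m) : A t ⊆ C' := by
  intro b hb
  by_contra hbC
  have h1 : ∑ t, ind (sub D N) (A t) b = 0 := by
    rw [← Finset.sum_apply, hA]
    exact if_neg hbC
  have h2 : ind (sub D N) (A t) b ≤ ∑ t, ind (sub D N) (A t) b :=
    Finset.single_le_sum (f := fun t => ind (sub D N) (A t) b)
      (fun s _ => by unfold ind; split_ifs <;> norm_num) (Finset.mem_univ t)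
  have h3 : ind (sub D N) (A t) b = 1 := if_pos hb
  omega

/-- `pull = ind univ` iff `l` is the indicator function of a set (then `C' = univ`) of type `N` -/
lemma pull_iff (h : Rho ρ C' l) : pull ρ C' l = ind (sub D N) Finset.univ ↔
    ∃ A : Finset (B D), l = ind D A := by
  classical
  constructor
  · intro hp
    have hb : ∀ b : B (sub D N), l (ρ b) = 1 := by
      intro b
      have h1 := congrFun hp b
      have h2 : ind (sub D N) Finset.univ b = 1 := if_pos (Finset.mem_univ b)
      rw [h2] at h1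
      unfold pull at h1
      split_ifs at h1
      · exact h1
      · omega
    refine ⟨Finset.univ.filter fun a => l a ≠ 0, funext fun a => ?_⟩
    unfold ind
    by_cases ha : l a = 0
    · rw [if_neg (by rw [Finset.mem_filter]; exact fun h1 => h1.2 ha), ha]
    · rw [if_pos (by rw [Finset.mem_filter]; exact ⟨Finset.mem_univ _, ha⟩)]
      obtain ⟨b, -, rfl⟩ := h.mem a ha
      exact hb b
  · rintro ⟨A, rfl⟩
    funext b
    have h1 := h.cnt (ρ b)
    have h2 : b ∈ Finset.univ.filter fun c => ρ c = ρ b :=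
      Finset.mem_filter.2 ⟨Finset.mem_univ _, rfl⟩
    have h3 : 0 < (Finset.univ.filter fun c => ρ c = ρ b).card := Finset.card_pos.2 ⟨b, h2⟩
    have h4 : ind D A (ρ b) = 1 := by
      have h5 : ind D A (ρ b) = 1 ∨ ind D A (ρ b) = 0 := by
        unfold ind
        split_ifs
        · exact Or.inl rfl
        · exact Or.inr rfl
      rcases h5 with h5 | h5
      · exact h5
      · rw [h5] at h1
        omega
    have h6 : (Finset.univ.filter fun c => ρ c = ρ b).card = 1 := by
      rw [h4] at h1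
      exact_mod_cast h1
    obtain ⟨b', hb', hbb⟩ := h.mem (ρ b) (by rw [h4]; norm_num)
    have h7 : b' ∈ Finset.univ.filter fun c => ρ c = ρ b :=
      Finset.mem_filter.2 ⟨Finset.mem_univ _, hbb⟩
    have h8 : b' = b := Finset.card_le_one.1 h6.le b' h7 b h2
    have h9 : b ∈ C' := h8 ▸ hb'
    have h10 : ind (sub D N) Finset.univ b = 1 := if_pos (Finset.mem_univ b)
    rw [h10]
    unfold pull
    rw [if_pos h9, h4]

end

end Vale.Agent.P291.H.N
end
end

section

section

set_option autoImplicit false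
set_option linter.unusedSectionVars false
set_option linter.all false

/-! Straightening. -/

namespace Vale.Agent.P291.H

open MvPolynomial Vale.Agent.P291.G

variable {D : QData} {Z : Type} (w : Wts D Z)

/-- values of the doubly updated sequence -/
lemma straight_upd_left (n : ℕ → D.I → ℕ) (i : ℕ) (a b : D.I → ℕ) :
    Function.update (Function.update n i a) (i + 1) b i = a := by
  rw [Function.update_of_ne (by omega), Function.update_self]

lemma straight_upd_right (n : ℕ → D.I → ℕ) (i : ℕ) (a b : D.I → ℕ) :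
    Function.update (Function.update n i a) (i + 1) b (i + 1) = b := by
  rw [Function.update_self]

lemma straight_upd_ne (n : ℕ → D.I → ℕ) (i : ℕ) (a b : D.I → ℕ) {j : ℕ} (h1 : j ≠ i)
    (h2 : j ≠ i + 1) : Function.update (Function.update n i a) (i + 1) b j = n j := by
  rw [Function.update_of_ne h2, Function.update_of_ne h1]

/-- splitting a sum over `range m` -/
lemma straight_sum_split {M : Type} [AddCommMonoid M] (f : ℕ → M) {m i : ℕ} (hi : i + 1 < m) :
    ∑ j ∈ Finset.range m, f j =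
      (f i + f (i + 1)) + ∑ j ∈ ((Finset.range m).erase i).erase (i + 1), f j := by
  have h1 : i ∈ Finset.range m := Finset.mem_range.2 (by omega)
  have h2 : i + 1 ∈ (Finset.range m).erase i :=
    Finset.mem_erase.2 ⟨by omega, Finset.mem_range.2 hi⟩
  rw [← Finset.add_sum_erase _ _ h1, ← Finset.add_sum_erase _ _ h2, add_assoc]

/-- replacing the pair `(i, i+1)` of slots: `UU` factors -/
lemma UU_update (ε : ℕ → ℕ) (m : ℕ) (n : ℕ → D.I → ℕ) (i : ℕ) (hi : i + 1 < m)
    (a b : D.I → ℕ) : UU w ε m (Function.update (Function.update n i a) (i + 1) b) =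
      (U w (ε i) a * U w (ε (i + 1)) b) *
        ∏ j ∈ ((Finset.range m).erase i).erase (i + 1), U w (ε j) (n j) := by
  have h1 : i ∈ Finset.range m := Finset.mem_range.2 (by omega)
  have h2 : i + 1 ∈ (Finset.range m).erase i :=
    Finset.mem_erase.2 ⟨by omega, Finset.mem_range.2 hi⟩
  rw [UU, ← Finset.mul_prod_erase _ _ h1, ← Finset.mul_prod_erase _ _ h2, ← mul_assoc,
    straight_upd_left, straight_upd_right]
  refine congrArg _ (Finset.prod_congr rfl fun j hj => ?_)
  rw [Finset.mem_erase, Finset.mem_erase] at hj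
  rw [straight_upd_ne n i a b hj.2.1 hj.1]

/-- the measure of a replaced sequence (`a + b = n i + n (i+1)`) -/
lemma meas_update (m : ℕ) (n : ℕ → D.I → ℕ) (i : ℕ) (hi : i + 1 < m)
    (a b : D.I → ℕ) (h : a + b = n i + n (i + 1)) :
    meas m (Function.update (Function.update n i a) (i + 1) b) + ∑ k, n (i + 1) k =
      meas m n + ∑ k, b k := by
  have hs : ∑ k, a k + ∑ k, b k = ∑ k, n i k + ∑ k, n (i + 1) k := by
    rw [← Finset.sum_add_distrib, ← Finset.sum_add_distrib]
    exact Finset.sum_congr rfl fun k _ => congrFun h k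
  rw [meas, meas, straight_sum_split _ hi, straight_sum_split _ hi, straight_upd_left,
    straight_upd_right]
  have hr : ∑ j ∈ ((Finset.range m).erase i).erase (i + 1),
      j * ∑ k, Function.update (Function.update n i a) (i + 1) b j k =
      ∑ j ∈ ((Finset.range m).erase i).erase (i + 1), j * ∑ k, n j k := by
    refine Finset.sum_congr rfl fun j hj => ?_
    rw [Finset.mem_erase, Finset.mem_erase] at hj
    rw [straight_upd_ne n i a b hj.2.1 hj.1]
  rw [hr]
  have h3 : i * ∑ k, a k + i * ∑ k, b k = i * ∑ k, n i k + i * ∑ k, n (i + 1) k := by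
    rw [← mul_add, ← mul_add, hs]
  rw [add_mul, add_mul, one_mul, one_mul]
  omega

/-- the replaced sequence is again admissible, if `n` is admissible, all `n j ≤ v`, and `n` is not
a pair sequence and `b ≠ n (i+1)`.
Proof: the total is unchanged. If the new sequence were the trivial one: if `i + 1 < l` then
`a = b = v`, so `n i + n (i+1) = v + v` with both `≤ v`: `n (i+1) = v = b`. If `l ≤ i` then
`a = b = 0`, `n (i+1) = 0 = b`. If `i + 1 = l` then `a = v`, `b = 0`, `n i + n (i+1) = v` and the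
other entries are trivial, so `n = seqP l (n (i+1))`, with `n (i+1) ≠ 0 = b`, `n (i+1) ≤ v`:
excluded. -/
lemma seqOK_update {m l : ℕ} {n : ℕ → D.I → ℕ} (h : seqOK m l n) (hv : ∀ j, n j ≤ D.v)
    (hp : ∀ s : D.I → ℕ, s ≠ 0 → s ≤ D.v → n ≠ seqP l s) (i : ℕ) (hi : i + 1 < m)
    (a b : D.I → ℕ) (hab : a + b = n i + n (i + 1)) (hb : b ≠ n (i + 1)) :
    seqOK m l (Function.update (Function.update n i a) (i + 1) b) := by
  obtain ⟨h1, h2, h3⟩ := h
  refine ⟨fun j hj => ?_, ?_, fun he => ?_⟩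
  · rw [straight_upd_ne n i a b (by omega) (by omega)]
    exact h1 j hj
  · rw [straight_sum_split _ hi] at h2 ⊢
    rw [straight_upd_left, straight_upd_right, hab, ← h2]
    refine congrArg _ (Finset.sum_congr rfl fun j hj => ?_)
    rw [Finset.mem_erase, Finset.mem_erase] at hj
    rw [straight_upd_ne n i a b hj.2.1 hj.1]
  · have ea : a = seqT D l i := by
      rw [← he, straight_upd_left]
    have eb : b = seqT D l (i + 1) := by
      rw [← he, straight_upd_right]
    have er : ∀ j, j ≠ i → j ≠ i + 1 → n j = seqT D l j := fun j hj1 hj2 => by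
      rw [← he, straight_upd_ne n i a b hj1 hj2]
    rcases lt_trichotomy (i + 1) l with hl | hl | hl
    · -- both slots full
      apply hb
      have ea' : a = D.v := by rw [ea, seqT, if_pos (by omega)]
      have eb' : b = D.v := by rw [eb, seqT, if_pos hl]
      funext k
      have h4 := congrFun hab k
      have h5 : n i k ≤ D.v k := hv i k
      have h6 : n (i + 1) k ≤ D.v k := hv (i + 1) k
      rw [ea', eb'] at h4
      rw [eb']
      simp only [Pi.add_apply] at h4
      omega
    · -- the pair sequence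
      have ea' : a = D.v := by rw [ea, seqT, if_pos (by omega)]
      have eb' : b = 0 := by rw [eb, seqT, if_neg (by omega)]
      refine hp (n (i + 1)) (fun h0 => hb (by rw [eb', h0])) (hv _) ?_
      funext j
      rw [seqP]
      split_ifs with c1 c2 c3
      · rw [er j (by omega) (by omega), seqT, if_pos (by omega)]
      · have : j = i := by omega
        subst this
        funext k
        have h4 := congrFun hab k
        rw [ea', eb'] at h4
        simp only [Pi.add_apply, Pi.zero_apply, Pi.sub_apply] at h4 ⊢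
        omega
      · rw [c3, ← hl]
      · rw [er j (by omega) (by omega), seqT, if_neg (by omega)]
    · -- both slots empty
      apply hb
      have ea' : a = 0 := by rw [ea, seqT, if_neg (by omega)]
      have eb' : b = 0 := by rw [eb, seqT, if_neg (by omega)]
      funext k
      have h4 := congrFun hab k
      rw [ea', eb'] at h4
      rw [eb']
      simp only [Pi.add_apply, Pi.zero_apply] at h4 ⊢
      omega

/-- STRAIGHTENING. Induction on `meas m n`. If some `n j` is not `≤ v`, `UU = ⊥` (`U_eq_bot`). If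
`n` is a pair sequence: contained in `LL`. If `n` is nested: it is a `seqN`. Otherwise
`¬ n (i+1) ≤ n i` for some `i`; here `i + 1 < m` (as `n j = 0` for `j ≥ m`); apply `pair_mul` to the
slots `i, i+1` (with the help of `UU_update` and the submodule
`{Y | ∀ Y' ∈ ∏_{j ≠ i, i+1} U (n j), Y * Y' ∈ T}`): the new sequences have `b = s ≤ n i`,
`s ≤ n (i+1)`, so `s ≠ n (i+1)`, smaller measure (`meas_update`) and are admissible
(`seqOK_update`). -/
theorem straighten {m l : ℕ} (hl : 1 ≤ l) (hm : l < m) :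
    ∀ n : ℕ → D.I → ℕ, seqOK m l n → UU w (ep l) m n ≤
      LL w m l ⊔ ⨆ n' : ℕ → D.I → ℕ, ⨆ _ : seqN m l (meas m n) n', UU w (ep l) m n' := by
  intro n hn
  induction hk : meas m n using Nat.strong_induction_on generalizing n with
  | _ k ih =>
    subst hk
    by_cases hv : ∀ j, n j ≤ D.v
    · by_cases hp : ∀ s : D.I → ℕ, s ≠ 0 → s ≤ D.v → n ≠ seqP l s
      · by_cases hne : ∀ j, n (j + 1) ≤ n j
        · refine le_sup_of_le_right ?_
          exact le_iSup₂_of_le n ⟨hn, hne, hp, le_rfl⟩ le_rfl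
        · push Not at hne
          obtain ⟨i, hi⟩ := hne
          have him : i + 1 < m := by
            by_contra hc
            apply hi
            rw [hn.1 (i + 1) (by omega)]
            exact fun k => Nat.zero_le _
          have hupd : Function.update (Function.update n i (n i)) (i + 1) (n (i + 1)) = n := by
            rw [Function.update_eq_self, Function.update_eq_self]
          have h12 : ep l i ≤ ep l (i + 1) := by
            unfold ep
            split_ifs <;> omega
          have key : U w (ep l i) (n i) * U w (ep l (i + 1)) (n (i + 1)) ≤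
              (LL w m l ⊔ ⨆ n' : ℕ → D.I → ℕ, ⨆ _ : seqN m l (meas m n) n',
                UU w (ep l) m n') /
                ∏ j ∈ ((Finset.range m).erase i).erase (i + 1), U w (ep l j) (n j) := by
            refine pair_mul w h12 (n i) (n (i + 1)) _ fun n1' s hs1 hs2 hs3 hs4 => ?_
            rw [Submodule.le_div_iff_mul_le, ← UU_update w (ep l) m n i him n1' s]
            have hsne : s ≠ n (i + 1) := fun h => hi (h ▸ hs1)
            have hlt : ∑ k, s k < ∑ k, n (i + 1) k := by
              refine lt_of_le_of_ne (Finset.sum_le_sum fun k _ => hs2 k) fun he => hsne ?_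
              funext k
              exact (Finset.sum_eq_sum_iff_of_le fun k _ => hs2 k).1 he k (Finset.mem_univ k)
            have hmeas := meas_update m n i him n1' s hs4
            have hmlt : meas m (Function.update (Function.update n i n1') (i + 1) s) <
                meas m n := by omega
            refine (ih _ hmlt _ (seqOK_update hn hv hp i him n1' s hs4 hsne) rfl).trans ?_
            refine sup_le_sup_left ?_ _
            refine iSup_mono fun n' => iSup_mono' fun h' => ⟨?_, le_rfl⟩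
            exact ⟨h'.1, h'.2.1, h'.2.2.1, h'.2.2.2.trans hmlt.le⟩
          rw [Submodule.le_div_iff_mul_le, ← UU_update w (ep l) m n i him, hupd] at key
          exact key
      · push Not at hp
        obtain ⟨s, hs0, hsv, hs⟩ := hp
        refine le_sup_of_le_left ?_
        rw [hs]
        exact le_iSup₂_of_le s ⟨hs0, hsv⟩ le_rfl
    · push Not at hv
      obtain ⟨j, hj⟩ := hv
      have hjm : j ∈ Finset.range m := by
        rw [Finset.mem_range]
        by_contra hc
        apply hj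
        rw [hn.1 j (by omega)]
        exact fun k => Nat.zero_le _
      have h0 : UU w (ep l) m n = 0 := by
        unfold UU
        have h1 : U w (ep l j) (n j) = 0 := U_eq_bot w _ hj
        exact Finset.prod_eq_zero (f := fun j => U w (ep l j) (n j)) hjm h1
      rw [h0]
      exact bot_le

end Vale.Agent.P291.H
end
end

section

section

set_option autoImplicit false
set_option linter.unusedSectionVars false

/-! Removing the trivial slots; coefficients of the quadratic relation. -/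

namespace Vale.Agent.P291.H

open MvPolynomial Vale.Agent.P291.G

variable {D : QData} {Z : Type} (w : Wts D Z)

/-! ### removing the trivial slots -/

lemma sgn_ne_zero_S (σ : W D) : ((sgn D σ : ℤ) : S D Z) ≠ 0 := by
  have h : sgn D σ ≠ 0 := by
    rw [sgn, Finset.prod_ne_zero_iff]
    intro i _
    exact (Equiv.Perm.sign (σ i)).ne_zero
  exact Int.cast_ne_zero.2 h

/-- an alternating polynomial is `del` times an invariant one, from divisibility -/
lemma inv_of_del_mul {r' f : S D Z} (hf : ∀ σ, act D Z σ f = (sgn D σ : S D Z) * f)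
    (h : f = del D Z * r') (σ : W D) : act D Z σ r' = r' := by
  have h1 := hf σ
  rw [h, map_mul, act_del, mul_assoc] at h1
  exact mul_left_cancel₀ (del_ne_zero D Z) (mul_left_cancel₀ (sgn_ne_zero_S σ) h1)

/-- multiplication by an invariant polynomial preserves the slot spaces -/
lemma single_mul_mem_U {ε : ℕ} {n : D.I → ℕ} {r' : S D Z} (hr : ∀ σ, act D Z σ r' = r')
    {x : AddMonoidAlgebra (S D Z) (B D → ℤ)} (hx : x ∈ U w ε n) :
    AddMonoidAlgebra.single 0 r' * x ∈ U w ε n := by
  obtain ⟨φ, ⟨h1, h2⟩, rfl⟩ := hx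
  refine ⟨fun A => r' * φ A, ⟨fun σ A => ?_, fun A hA => ?_⟩, ?_⟩
  · show act D Z σ (r' * φ A) = _ * (r' * φ (mp D σ A))
    rw [map_mul, hr, h1]
    ring
  · show r' * φ A = 0
    rw [h2 A hA, mul_zero]
  · show ∑ A, AddMonoidAlgebra.single (ind D A) ((r' * φ A) * (e w A * zs w A ^ ε)) =
      AddMonoidAlgebra.single 0 r' *
        ∑ A, AddMonoidAlgebra.single (ind D A) (φ A * (e w A * zs w A ^ ε))
    rw [Finset.mul_sum]
    refine Finset.sum_congr rfl fun A _ => ?_
    rw [AddMonoidAlgebra.single_mul_single, zero_add, mul_assoc]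

/-- `U ε n * N` absorbs the invariants -/
lemma single_mul_mem_T {ε ε' : ℕ} {n n' : D.I → ℕ} {r' : S D Z} (hr : ∀ σ, act D Z σ r' = r')
    {x : AddMonoidAlgebra (S D Z) (B D → ℤ)} (hx : x ∈ U w ε n * U w ε' n') :
    AddMonoidAlgebra.single 0 r' * x ∈ U w ε n * U w ε' n' := by
  refine Submodule.mul_induction_on hx (fun a ha b hb => ?_) (fun a b ha hb => ?_)
  · rw [← mul_assoc]
    exact Submodule.mul_mem_mul (single_mul_mem_U w hr ha) hb
  · rw [mul_add]
    exact Submodule.add_mem _ ha hb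

lemma U_zero_v {x : AddMonoidAlgebra (S D Z) (B D → ℤ)} (hx : x ∈ U w 0 D.v) :
    ∃ r' : S D Z, (∀ σ, act D Z σ r' = r') ∧
      x = AddMonoidAlgebra.single (ind D Finset.univ) (del D Z) *
        AddMonoidAlgebra.single 0 r' := by
  obtain ⟨φ, hφ, rfl⟩ := hx
  obtain ⟨r', hr'⟩ : del D Z ∣ φ Finset.univ := by
    have h1 := Dl_dvd D Z hφ Finset.univ
    have h2 := Dl_spec D Z Finset.univ
    have h3 : cr D Z Finset.univ Finset.univᶜ = 1 := by
      rw [cr]
      refine Finset.prod_eq_one fun a _ => ?_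
      rw [Finset.compl_univ, Finset.prod_empty]
    rw [h3, one_mul] at h2
    rwa [h2]
  have hinv : ∀ σ, act D Z σ (φ Finset.univ) = (sgn D σ : S D Z) * φ Finset.univ := by
    intro σ
    have h1 := hφ.1 σ Finset.univ
    have h2 : mp D σ Finset.univ = Finset.univ := by
      ext b
      rw [mem_mp']
      simp only [Finset.mem_univ]
    rwa [h2] at h1
  refine ⟨r', inv_of_del_mul hinv hr', ?_⟩
  show ∑ A, AddMonoidAlgebra.single (ind D A) (φ A * (e w A * zs w A ^ 0)) = _
  rw [Finset.sum_eq_single Finset.univ]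
  · rw [AddMonoidAlgebra.single_mul_single, add_zero, hr', e, Finset.compl_univ]
    simp only [Finset.prod_empty, Finset.prod_const_one, pow_zero, mul_one]
  · intro A _ hA
    have h4 : φ A = 0 := by
      refine hφ.2 A fun h => hA ?_
      refine eq_of_subset D (Finset.subset_univ A) ?_
      rw [h, typ_univ]
    rw [h4, zero_mul, AddMonoidAlgebra.single_zero]
  · intro h
    exact absurd (Finset.mem_univ _) h

lemma U_one_zero {x : AddMonoidAlgebra (S D Z) (B D → ℤ)} (hx : x ∈ U w 1 0) :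
    ∃ r' : S D Z, (∀ σ, act D Z σ r' = r') ∧
      x = AddMonoidAlgebra.single 0 (del D Z) * AddMonoidAlgebra.single 0 r' := by
  obtain ⟨φ, hφ, rfl⟩ := hx
  obtain ⟨r', hr'⟩ : del D Z ∣ φ ∅ := by
    have h1 := Dl_dvd D Z hφ ∅
    have h2 := Dl_spec D Z ∅
    have h3 : cr D Z ∅ ∅ᶜ = 1 := by
      rw [cr, Finset.prod_empty]
    rw [h3, one_mul] at h2
    rwa [h2]
  have hinv : ∀ σ, act D Z σ (φ ∅) = (sgn D σ : S D Z) * φ ∅ := by
    intro σ
    have h1 := hφ.1 σ ∅
    have h2 : mp D σ ∅ = ∅ := by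
      ext b
      rw [mem_mp']
      simp
    rwa [h2] at h1
  refine ⟨r', inv_of_del_mul hinv hr', ?_⟩
  show ∑ A, AddMonoidAlgebra.single (ind D A) (φ A * (e w A * zs w A ^ 1)) = _
  rw [Finset.sum_eq_single ∅]
  · have h5 : ind D (∅ : Finset (B D)) = 0 := by
      funext b
      simp [ind]
    rw [AddMonoidAlgebra.single_mul_single, add_zero, hr', e, zs, h5]
    simp only [Finset.compl_empty, Finset.prod_empty, one_pow, mul_one]
  · intro A _ hA
    have h4 : φ A = 0 := by
      refine hφ.2 A fun h => hA ?_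
      exact typ_eq_zero D h
    rw [h4, zero_mul, AddMonoidAlgebra.single_zero]
  · intro h
    exact absurd (Finset.mem_univ _) h

lemma mulR {M N P : Submodule ℂ (AddMonoidAlgebra (S D Z) (B D → ℤ))} (h : N ≤ P) :
    M * N ≤ M * P :=
  Submodule.mul_le.2 fun _ hm _ hn => Submodule.mul_mem_mul hm (h hn)

/-- a space of scaled invariants, applied `k` times to a pair space -/
lemma pow_mul_le {V T : Submodule ℂ (AddMonoidAlgebra (S D Z) (B D → ℤ))}
    {g : AddMonoidAlgebra (S D Z) (B D → ℤ)}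
    (hV : ∀ x ∈ V, ∃ r' : S D Z, (∀ σ, act D Z σ r' = r') ∧ x = g * AddMonoidAlgebra.single 0 r')
    (hT : ∀ r' : S D Z, (∀ σ, act D Z σ r' = r') → ∀ x ∈ T, AddMonoidAlgebra.single 0 r' * x ∈ T)
    (k : ℕ) : V ^ k * T ≤ Submodule.span ℂ {g ^ k} * T := by
  induction k with
  | zero =>
    rw [pow_zero, pow_zero, ← Submodule.one_eq_span]
  | succ k ih =>
    have h1 : V * T ≤ Submodule.span ℂ {g} * T := by
      rw [Submodule.mul_le]
      intro x hx y hy
      obtain ⟨r', hr', rfl⟩ := hV x hx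
      rw [mul_assoc]
      exact Submodule.mul_mem_mul (Submodule.mem_span_singleton_self g) (hT r' hr' y hy)
    calc V ^ (k + 1) * T = V ^ k * (V * T) := by rw [pow_succ, mul_assoc]
      _ ≤ V ^ k * (Submodule.span ℂ {g} * T) := mulR h1
      _ = Submodule.span ℂ {g} * (V ^ k * T) := by
        rw [← mul_assoc, mul_comm (V ^ k), mul_assoc]
      _ ≤ Submodule.span ℂ {g} * (Submodule.span ℂ {g ^ k} * T) := mulR ih
      _ = Submodule.span ℂ {g ^ (k + 1)} * T := by
        rw [← mul_assoc, Submodule.span_mul_span, Set.singleton_mul_singleton, pow_succ']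

lemma UU_eq {m l : ℕ} (hl : 1 ≤ l) (hm : l < m) (s : D.I → ℕ) :
    UU w (ep l) m (seqP l s) =
      U w 0 D.v ^ (l - 1) * (U w 1 0 ^ (m - l - 1) * (U w 0 (D.v - s) * U w 1 s)) := by
  obtain ⟨l, rfl⟩ : ∃ k, l = k + 1 := ⟨l - 1, by omega⟩
  obtain ⟨k, rfl⟩ : ∃ k, m = l + 1 + 1 + k := ⟨m - (l + 1) - 1, by omega⟩
  have e1 : l + 1 - 1 = l := by omega
  have e2 : l + 1 + 1 + k - (l + 1) - 1 = k := by omega
  rw [e1, e2, UU, Finset.prod_range_add, Finset.prod_range_succ, Finset.prod_range_succ]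
  have h1 : ∏ x ∈ Finset.range l, U w (ep (l + 1) x) (seqP (D := D) (l + 1) s x) =
      U w 0 D.v ^ l := by
    rw [Finset.prod_congr rfl (g := fun _ => U w 0 D.v), Finset.prod_const, Finset.card_range]
    intro j hj
    rw [Finset.mem_range] at hj
    rw [ep, if_pos (by omega), seqP, if_pos (by omega)]
  have h2 : ∏ x ∈ Finset.range k, U w (ep (l + 1) (l + 1 + 1 + x))
      (seqP (D := D) (l + 1) s (l + 1 + 1 + x)) = U w 1 0 ^ k := by
    rw [Finset.prod_congr rfl (g := fun _ => U w 1 0), Finset.prod_const, Finset.card_range]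
    intro j _
    rw [ep, if_neg (by omega), seqP, if_neg (by omega), if_neg (by omega), if_neg (by omega)]
  rw [h1, h2]
  have h3 : U w (ep (l + 1) l) (seqP (D := D) (l + 1) s l) = U w 0 (D.v - s) := by
    rw [ep, if_pos (by omega), seqP, if_neg (by omega), if_pos rfl]
  have h4 : U w (ep (l + 1) (l + 1)) (seqP (D := D) (l + 1) s (l + 1)) = U w 1 s := by
    rw [ep, if_neg (by omega), seqP, if_neg (by omega), if_neg (by omega), if_pos rfl]
  rw [h3, h4, mul_assoc, mul_assoc, ← mul_assoc (U w 0 (D.v - s)),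
    mul_comm (U w 0 (D.v - s) * U w 1 s) (U w 1 0 ^ k)]

lemma single_mul_cancel {c : B D → ℤ} {g : S D Z} (hg : g ≠ 0)
    {x y : AddMonoidAlgebra (S D Z) (B D → ℤ)}
    (h : AddMonoidAlgebra.single c g * x = AddMonoidAlgebra.single c g * y) : x = y := by
  have h0 : AddMonoidAlgebra.single c g ≠ (0 : AddMonoidAlgebra (S D Z) (B D → ℤ)) := by
    intro h
    exact hg (AddMonoidAlgebra.single_eq_zero.1 h)
  exact mul_left_cancel₀ h0 h

/-- removing the trivial slots: `U 0 v` consists of the `single (ind univ) (del * r')` with `r'`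
invariant and `U 1 0` of the `single 0 (del * r')`; so
`LL ≤ single ((l-1) • ind univ) (del^(m-2)) * ⨆ s, U 0 (v-s) * U 1 s`; cancel
`single ((l-1) • ind univ) (del^(m-2))` -/
theorem extract {m l : ℕ} (hl : 1 ≤ l) (hm : l < m) {r : S D Z}
    (h : AddMonoidAlgebra.single (l • ind D Finset.univ) (r * del D Z ^ m) ∈ LL w m l) :
    AddMonoidAlgebra.single (ind D Finset.univ) (r * del D Z ^ 2) ∈
      ⨆ s : D.I → ℕ, ⨆ _ : s ≠ 0 ∧ s ≤ D.v, U w 0 (D.v - s) * U w 1 s := by
  have key : LL w m l ≤ Submodule.span ℂ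
      {AddMonoidAlgebra.single ((l - 1) • ind D Finset.univ) (del D Z ^ (m - 2))} *
      ⨆ s : D.I → ℕ, ⨆ _ : s ≠ 0 ∧ s ≤ D.v, U w 0 (D.v - s) * U w 1 s := by
    rw [LL]
    refine iSup_le fun s => iSup_le fun hs => ?_
    rw [UU_eq w hl hm s]
    have hT : ∀ r' : S D Z, (∀ σ, act D Z σ r' = r') → ∀ x ∈ U w 0 (D.v - s) * U w 1 s,
        AddMonoidAlgebra.single 0 r' * x ∈ U w 0 (D.v - s) * U w 1 s :=
      fun r' hr' x hx => single_mul_mem_T w hr' hx
    have h1 := pow_mul_le (fun x hx => U_one_zero w (x := x) hx) hT (m - l - 1)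
    have h2 := pow_mul_le (fun x hx => U_zero_v w (x := x) hx) hT (l - 1)
    refine (mulR h1).trans ?_
    rw [← mul_assoc, mul_comm (U w 0 D.v ^ (l - 1)), mul_assoc]
    refine (mulR h2).trans ?_
    rw [← mul_assoc, Submodule.span_mul_span, Set.singleton_mul_singleton,
      AddMonoidAlgebra.single_pow, AddMonoidAlgebra.single_pow,
      AddMonoidAlgebra.single_mul_single, ← pow_add, smul_zero, zero_add,
      show m - l - 1 + (l - 1) = m - 2 by (clear * - hl hm; omega)]
    refine mulR ?_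
    exact le_iSup_of_le s (le_iSup_of_le hs le_rfl)
  obtain ⟨z, hz, hz'⟩ := Submodule.mem_span_singleton_mul.1 (key h)
  have h3 : z = AddMonoidAlgebra.single (ind D Finset.univ) (r * del D Z ^ 2) := by
    refine single_mul_cancel (pow_ne_zero (m - 2) (del_ne_zero D Z)) (hz'.trans ?_)
    rw [AddMonoidAlgebra.single_mul_single]
    congr 1
    · rw [← succ_nsmul]
      congr 1
      omega
    · rw [mul_left_comm, ← pow_add]
      congr 2
      omega
  rwa [← h3]

/-! ### coefficients -/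

/-- a finite sum of products of two slots -/
def QS (x : AddMonoidAlgebra (S D Z) (B D → ℤ)) : Prop :=
  ∃ (ι : Type) (_ : Fintype ι) (n : ι → D.I → ℕ) (φ ψ : ι → Finset (B D) → S D Z),
    (∀ j, n j ≠ 0 ∧ n j ≤ D.v ∧ φ j ∈ AF D Z (n j) ∧ ψ j ∈ AF D Z (D.v - n j)) ∧
    x = ∑ j, slot w 0 (ψ j) * slot w 1 (φ j)

lemma QS_zero : QS w (0 : AddMonoidAlgebra (S D Z) (B D → ℤ)) :=
  ⟨PEmpty, inferInstance, fun j => j.elim, fun j => j.elim, fun j => j.elim, fun j => j.elim,
    by rw [Finset.univ_eq_empty, Finset.sum_empty]⟩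

lemma QS_add {x y : AddMonoidAlgebra (S D Z) (B D → ℤ)} (hx : QS w x) (hy : QS w y) :
    QS w (x + y) := by
  obtain ⟨ι, _, n, φ, ψ, h, rfl⟩ := hx
  obtain ⟨ι', _, n', φ', ψ', h', rfl⟩ := hy
  refine ⟨ι ⊕ ι', inferInstance, Sum.elim n n', Sum.elim φ φ', Sum.elim ψ ψ', ?_, ?_⟩
  · rintro (j | j)
    · exact h j
    · exact h' j
  · rw [Fintype.sum_sum_type]
    rfl

lemma QS_of {s : D.I → ℕ} (hs : s ≠ 0 ∧ s ≤ D.v) {x : AddMonoidAlgebra (S D Z) (B D → ℤ)}
    (hx : x ∈ U w 0 (D.v - s) * U w 1 s) : QS w x := by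
  refine Submodule.mul_induction_on hx (fun a ha b hb => ?_) (fun a b ha hb => QS_add w ha hb)
  obtain ⟨ψ, hψ, rfl⟩ := ha
  obtain ⟨φ, hφ, rfl⟩ := hb
  refine ⟨PUnit, inferInstance, fun _ => s, fun _ => φ, fun _ => ψ,
    fun _ => ⟨hs.1, hs.2, hφ, hψ⟩, ?_⟩
  rw [Finset.univ_unique, Finset.sum_singleton]

lemma compl_mem_AF {n : D.I → ℕ} (hn : n ≤ D.v) {ψ : Finset (B D) → S D Z}
    (hψ : ψ ∈ AF D Z (D.v - n)) : (fun A => ψ Aᶜ) ∈ AF D Z n := by
  refine ⟨fun σ A => ?_, fun A hA => ?_⟩
  · show act D Z σ (ψ Aᶜ) = _ * ψ (mp D σ A)ᶜ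
    rw [hψ.1, mp_compl]
  · show ψ Aᶜ = 0
    refine hψ.2 _ fun h => hA ?_
    rw [typ_compl] at h
    funext i
    have h1 : D.v i - typ D A i = D.v i - n i := congrFun h i
    have h2 : typ D A i ≤ D.v i := typ_le D A i
    have h3 : n i ≤ D.v i := hn i
    omega

lemma set_aux1 {α : Type} [Fintype α] [DecidableEq α] {D1 D2 K : Finset α} (hq : D1 ⊆ D2ᶜ)
    (hK : K ⊆ (D1 ∪ D2)ᶜ) : D1 ∪ ((D1 ∪ D2)ᶜ \ K) = (D2 ∪ K)ᶜ := by
  ext b
  have h1 := @hK b
  have h2 := @hq b
  simp only [Finset.mem_sdiff, Finset.mem_compl, Finset.mem_union] at h1 h2 ⊢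
  tauto

lemma set_aux2 {α : Type} [Fintype α] [DecidableEq α] {D1 D2 K : Finset α} (hq : D1 ⊆ D2ᶜ)
    (hK : K ⊆ (D1 ∪ D2)ᶜ) : D2ᶜ \ ((D1 ∪ D2)ᶜ \ K) = D1 ∪ K := by
  ext b
  have h1 := @hK b
  have h2 := @hq b
  simp only [Finset.mem_sdiff, Finset.mem_compl, Finset.mem_union] at h1 h2 ⊢
  tauto

lemma set_aux3 {α : Type} [Fintype α] [DecidableEq α] {D1 D2 : Finset α} :
    D2ᶜ \ D1 = (D1 ∪ D2)ᶜ := by
  ext b
  simp only [Finset.mem_sdiff, Finset.mem_compl, Finset.mem_union]
  tauto

lemma ring_aux {R : Type} [CommRing R] (a b c d f : R) :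
    a * b * (c * d) * f = b * (f * 1) * (a * (c * d)) := by ring

/-- the coefficient of a product of two slots at `ind D2ᶜ + ind D1` -/
lemma coeff_pair (φ ψ : Finset (B D) → S D Z) {D1 D2 : Finset (B D)} (hq : D1 ⊆ D2ᶜ) :
    (slot w 0 ψ * slot w 1 φ).coeff (ind D D2ᶜ + ind D D1) =
      ∑ K ∈ (D1 ∪ D2)ᶜ.powerset, φ (D1 ∪ K) * ψ (D2 ∪ K)ᶜ *
        (e w (D1 ∪ K) * zs w (D1 ∪ K)) * e w (D2 ∪ K)ᶜ := by
  rw [coeff_slot_mul' w 0 1 _ _ hq, set_aux3]
  refine (Finset.sum_bij' (fun K _ => (D1 ∪ D2)ᶜ \ K) (fun X _ => (D1 ∪ D2)ᶜ \ X)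
    ?_ ?_ ?_ ?_ ?_).symm
  · intro K _
    exact Finset.mem_powerset.2 Finset.sdiff_subset
  · intro K _
    exact Finset.mem_powerset.2 Finset.sdiff_subset
  · intro K hK
    exact Finset.sdiff_sdiff_eq_self (Finset.mem_powerset.1 hK)
  · intro K hK
    exact Finset.sdiff_sdiff_eq_self (Finset.mem_powerset.1 hK)
  · intro K hK
    have hK' := Finset.mem_powerset.1 hK
    rw [set_aux1 hq hK', set_aux2 hq hK', pow_zero, pow_one]
    exact ring_aux _ _ _ _ _

/-- in terms of coefficients: take the coefficient at `ind P + ind q`, `q = D1`, `P = D2ᶜ`, of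
`∑_j slot 0 (ψ' j) * slot 1 (φ j)` by `coeff_slot_mul'`, with `ψ j A = ψ' j Aᶜ`,
`K = (P \ q) \ X`, `q ∪ X = (D2 ∪ K)ᶜ`, `P \ X = D1 ∪ K` -/
theorem linRel_of {r : S D Z}
    (h : AddMonoidAlgebra.single (ind D Finset.univ) (r * del D Z ^ 2) ∈
      ⨆ s : D.I → ℕ, ⨆ _ : s ≠ 0 ∧ s ≤ D.v, U w 0 (D.v - s) * U w 1 s) : LinRel w r := by
  have hQ : QS w (AddMonoidAlgebra.single (ind D Finset.univ) (r * del D Z ^ 2)) := by
    refine Submodule.iSup_induction _ (motive := QS w) h (fun s x hx => ?_) (QS_zero w)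
      (fun x y hx hy => QS_add w hx hy)
    refine Submodule.iSup_induction _ (motive := QS w) hx (fun hs x hx => ?_) (QS_zero w)
      (fun x y hx hy => QS_add w hx hy)
    exact QS_of w hs hx
  obtain ⟨ι, _, n, φ, ψ, hj, hsum⟩ := hQ
  refine ⟨Fintype.card ι, fun j => n ((Fintype.equivFin ι).symm j),
    fun j => φ ((Fintype.equivFin ι).symm j), fun j A => ψ ((Fintype.equivFin ι).symm j) Aᶜ,
    fun j => ⟨(hj _).1, (hj _).2.2.1, compl_mem_AF (hj _).2.1 (hj _).2.2.2⟩, ?_⟩
  intro D1 D2 hD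
  rw [Equiv.sum_comp (Fintype.equivFin ι).symm (fun j => ∑ K ∈ (D1 ∪ D2)ᶜ.powerset,
    φ j (D1 ∪ K) * ψ j (D2 ∪ K)ᶜ * (e w (D1 ∪ K) * zs w (D1 ∪ K)) * e w (D2 ∪ K)ᶜ)]
  have hq : D1 ⊆ D2ᶜ := by
    intro b hb
    rw [Finset.mem_compl]
    exact fun hb' => Finset.disjoint_left.1 hD hb hb'
  have hc := congrArg (fun y => y.coeff (ind D D2ᶜ + ind D D1)) hsum
  simp only [AddMonoidAlgebra.coeff_sum, Finsupp.finsetSum_apply, coeff_pair w _ _ hq] at hc
  rw [AddMonoidAlgebra.coeff_single, Finsupp.single_apply] at hc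
  have hU : (ind D Finset.univ = ind D D2ᶜ + ind D D1) ↔ (D1 = ∅ ∧ D2 = ∅) := by
    have h1 := ind_add_eq (A := Finset.univ) (C := ∅) hq
    have h5 : ind D (∅ : Finset (B D)) = 0 := by
      funext b
      simp [ind]
    rw [h5, add_zero, Finset.union_empty, Finset.inter_empty] at h1
    rw [h1]
    constructor
    · rintro ⟨h2, h3⟩
      exact ⟨h3.symm, Finset.compl_eq_univ_iff _ |>.1 h2.symm⟩
    · rintro ⟨rfl, rfl⟩
      exact ⟨Finset.compl_empty.symm, rfl⟩
  rw [← hc]
  simp only [hU]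

end Vale.Agent.P291.H
end
end

section

section

set_option autoImplicit false
set_option linter.unusedSectionVars false

/-! The elements `XQ` are in the products of slot spaces. -/

namespace Vale.Agent.P291.H.M

open MvPolynomial Vale.Agent.P291.G

section
variable (D : QData) (Z : Type)

/-- put the slot variables of a one slot polynomial in the slot `t` -/
noncomputable def UUgr_inc {m : ℕ} (t : Fin m) : PP D Z 1 →ₐ[ℂ] PP D Z m :=
  rename (Sum.map (fun p => (t, p.2)) id)

lemma UUgr_evA_inc {m : ℕ} (A : Fin m → Finset (B D)) (t : Fin m) (q : PP D Z 1) :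
    evA D Z A (UUgr_inc D Z t q) = evA D Z (fun _ => A t) q := by
  rw [UUgr_inc, evA, evA, aeval_rename]
  congr 2
  funext v
  rcases v with p | y
  · rfl
  · rfl

/-- product form polynomials -/
def UUgr_PF (m : ℕ) : Set (PP D Z m) :=
  {Q | ∃ q : Fin m → PP D Z 1, Q = ∏ t, UUgr_inc D Z t (q t)}

lemma UUgr_mul_inc {m : ℕ} (t : Fin m) (r : PP D Z 1) {Q : PP D Z m} (h : Q ∈ UUgr_PF D Z m) :
    Q * UUgr_inc D Z t r ∈ UUgr_PF D Z m := by
  obtain ⟨q, rfl⟩ := h
  refine ⟨fun s => q s * if s = t then r else 1, ?_⟩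
  have h1 : ∀ s : Fin m, UUgr_inc D Z s (q s * if s = t then r else 1) =
      UUgr_inc D Z s (q s) * if s = t then UUgr_inc D Z t r else 1 := by
    intro s
    rw [map_mul]
    split_ifs with hs
    · rw [hs]
    · rw [map_one]
  rw [Finset.prod_congr rfl fun s _ => h1 s, Finset.prod_mul_distrib, Finset.prod_ite_eq']
  rw [if_pos (Finset.mem_univ t)]

lemma UUgr_span {m : ℕ} (hm : 1 ≤ m) (Q : PP D Z m) :
    Q ∈ Submodule.span ℂ (UUgr_PF D Z m) := by
  induction Q using MvPolynomial.induction_on with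
  | C c =>
    have h1 : (C c : PP D Z m) = c • (1 : PP D Z m) := by
      rw [MvPolynomial.smul_eq_C_mul, mul_one]
    rw [h1]
    refine Submodule.smul_mem _ _ (Submodule.subset_span ⟨fun _ => 1, ?_⟩)
    simp only [map_one, Finset.prod_const_one]
  | add p q hp hq => exact Submodule.add_mem _ hp hq
  | mul_X p v hp =>
    obtain ⟨t, r, hr⟩ : ∃ (t : Fin m) (r : PP D Z 1), (X v : PP D Z m) = UUgr_inc D Z t r := by
      rcases v with ⟨t, i, j⟩ | y
      · refine ⟨t, X (Sum.inl (0, i, j)), ?_⟩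
        rw [UUgr_inc, rename_X]
        rfl
      · refine ⟨⟨0, hm⟩, X (Sum.inr y), ?_⟩
        rw [UUgr_inc, rename_X]
        rfl
    rw [hr]
    refine Submodule.span_induction (p := fun x _ => x * UUgr_inc D Z t r ∈
      Submodule.span ℂ (UUgr_PF D Z m)) ?_ ?_ ?_ ?_ hp
    · intro x hx
      exact Submodule.subset_span (UUgr_mul_inc D Z t r hx)
    · rw [zero_mul]
      exact Submodule.zero_mem _
    · intro x y _ _ hx hy
      rw [add_mul]
      exact Submodule.add_mem _ hx hy
    · intro a x _ hx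
      rw [smul_mul_assoc]
      exact Submodule.smul_mem _ _ hx

end

variable {D : QData} {Z : Type} (w : Wts D Z)

lemma UUgr_prod_mem {R A : Type} [CommSemiring R] [CommSemiring A] [Algebra R A] (m : ℕ)
    (x : ℕ → A) (G : ℕ → Submodule R A) (h : ∀ j, j < m → x j ∈ G j) :
    (∏ j ∈ Finset.range m, x j) ∈ ∏ j ∈ Finset.range m, G j := by
  induction m with
  | zero =>
    rw [Finset.range_zero, Finset.prod_empty, Finset.prod_empty]
    exact Submodule.one_le.1 le_rfl
  | succ m ih =>
    rw [Finset.prod_range_succ, Finset.prod_range_succ]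
    exact Submodule.mul_mem_mul (ih fun j hj => h j (by omega)) (h m (by omega))

lemma UUgr_XQ_smul (ε : ℕ → ℕ) {m : ℕ} (n : ℕ → D.I → ℕ) (c : ℂ) (Q : PP D Z m) :
    XQ w ε n (c • Q) = c • XQ w ε n Q := by
  classical
  rw [XQ, XQ, Finset.smul_sum]
  refine Finset.sum_congr rfl fun A _ => ?_
  by_cases h : ∀ t : Fin m, typ D (A t) = n t
  · rw [if_pos h, if_pos h, map_smul, smul_mul_assoc, AddMonoidAlgebra.smul_single]
  · rw [if_neg h, if_neg h, smul_zero]

open Classical in
lemma UUgr_pf (ε : ℕ → ℕ) {m : ℕ} (n : ℕ → D.I → ℕ) (C : ℕ → Finset (B D))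
    (hC : ∀ j, j < m → typ D (C j) = n j) {Q : PP D Z m} (hQ : Q ∈ UUgr_PF D Z m) :
    (XQ w ε n Q, evA D Z (fun t : Fin m => C t) Q * ∏ t : Fin m, Dl D Z (C t)) ∈
      ∏ j ∈ Finset.range m, Gr w (ε j) (n j) (C j) := by
  obtain ⟨q, rfl⟩ := hQ
  let φ : ℕ → Finset (B D) → S D Z := fun j A => if typ D A = n j then
    Dl D Z A * evA D Z (fun _ => A) (if h : j < m then q ⟨j, h⟩ else 0) else 0
  have hφ : ∀ j, φ j ∈ AF D Z (n j) := fun j => AF_of D Z (n j) _
  have hφt : ∀ (t : Fin m) (A : Finset (B D)), φ t A = if typ D A = n t then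
      Dl D Z A * evA D Z (fun _ => A) (q t) else 0 := by
    intro t A
    simp only [φ, t.2, dif_pos, Fin.eta]
  have key : (XQ w ε n (∏ t, UUgr_inc D Z t (q t)), evA D Z (fun t : Fin m => C t)
      (∏ t, UUgr_inc D Z t (q t)) * ∏ t : Fin m, Dl D Z (C t)) =
      ∏ j ∈ Finset.range m, (slot w (ε j) (φ j), φ j (C j)) := by
    rw [Finset.prod_range]
    refine Prod.ext ?_ ?_
    · rw [Prod.fst_prod]
      have h1 : ∀ t : Fin m, slot w (ε t) (φ t) = ∑ A, AddMonoidAlgebra.single (ind D A)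
        (φ t A * (e w A * zs w A ^ ε t)) := fun t => rfl
      rw [Finset.prod_congr rfl fun t _ => h1 t, Fintype.prod_sum, XQ]
      refine Finset.sum_congr rfl fun A _ => ?_
      rw [AddMonoidAlgebra.prod_single]
      by_cases h : ∀ t : Fin m, typ D (A t) = n t
      · rw [if_pos h]
        congr 1
        rw [map_prod, ← Finset.prod_mul_distrib]
        refine Finset.prod_congr rfl fun t _ => ?_
        rw [UUgr_evA_inc, hφt, if_pos (h t)]
        ring
      · rw [if_neg h]
        push Not at h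
        obtain ⟨t, ht⟩ := h
        rw [Finset.prod_eq_zero (Finset.mem_univ t), AddMonoidAlgebra.single_zero]
        rw [hφt, if_neg ht, zero_mul]
    · rw [Prod.snd_prod]
      change evA D Z (fun t : Fin m => C t) (∏ t, UUgr_inc D Z t (q t)) *
        ∏ t : Fin m, Dl D Z (C t) = ∏ t : Fin m, φ t (C t)
      rw [map_prod, ← Finset.prod_mul_distrib]
      refine Finset.prod_congr rfl fun t _ => ?_
      rw [UUgr_evA_inc, hφt, if_pos (hC t t.2)]
      ring
  rw [key]
  exact UUgr_prod_mem m _ _ fun j _ => ⟨φ j, hφ j, rfl⟩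

/-- Proof: the set of the `Q` with this property is closed under addition and under multiplication
by constants, so we may assume that `Q` is a monomial (`MvPolynomial.induction_on'''` or
`MvPolynomial.as_sum`). A monomial is of the form `∏ t : Fin m, rename (Sum.map (fun p => (t, p.2))
id) (Q_t)` with `Q_t : PP D Z 1` (put the global power sums and the flavors in the slot `0`, `1 ≤ m`);
it is enough that the monomials (and even: that the variables, with products of
elements of this form again of this form) are of this form. For such a `Q` the pair is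
`∏ j ∈ range m, (slot w (ε j) (φ j), φ j (C j))` where `φ j A = if typ A = n j then Dl A *
evA (fun _ => A) (Q_j) else 0` is in `AF (n j)` by `AF_of` (expand the product of the slots with
`Finset.prod_univ_sum`, after `Finset.prod_range`). -/
theorem XQ_mem_Gr (ε : ℕ → ℕ) {m : ℕ} (hm : 1 ≤ m) (n : ℕ → D.I → ℕ) (C : ℕ → Finset (B D))
    (hC : ∀ j, j < m → typ D (C j) = n j) (Q : PP D Z m) :
    (XQ w ε n Q, evA D Z (fun t : Fin m => C t) Q * ∏ t : Fin m, Dl D Z (C t)) ∈
      ∏ j ∈ Finset.range m, Gr w (ε j) (n j) (C j) := by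
  refine Submodule.span_induction (p := fun Q _ => (XQ w ε n Q,
    evA D Z (fun t : Fin m => C t) Q * ∏ t : Fin m, Dl D Z (C t)) ∈
      ∏ j ∈ Finset.range m, Gr w (ε j) (n j) (C j)) ?_ ?_ ?_ ?_ (UUgr_span D Z hm Q)
  · intro x hx
    exact UUgr_pf w ε n C hC hx
  · have h0 : XQ w ε n (0 : PP D Z m) = 0 := by
      have := UUgr_XQ_smul w ε n 0 (0 : PP D Z m)
      rwa [zero_smul, zero_smul] at this
    rw [h0, map_zero, zero_mul]
    exact Submodule.zero_mem _
  · intro x y _ _ hx hy
    have h1 := Submodule.add_mem _ hx hy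
    rw [XQ_add, map_add, add_mul]
    exact h1
  · intro a x _ hx
    have h1 := Submodule.smul_mem _ a hx
    rw [UUgr_XQ_smul, map_smul, smul_mul_assoc]
    exact h1

/-- If every `n j`, `j < m`, is the type of a subset use `XQ_mem_Gr` and `graph_fst`, otherwise
`XQ = 0`. -/
theorem XQ_mem (ε : ℕ → ℕ) {m : ℕ} (hm : 1 ≤ m) (n : ℕ → D.I → ℕ) (Q : PP D Z m) :
    XQ w ε n Q ∈ UU w ε m n := by
  classical
  by_cases h : ∀ j, j < m → ∃ A : Finset (B D), typ D A = n j
  · choose! C hC using h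
    exact graph_fst w ε m n C (XQ_mem_Gr w ε hm n C hC Q)
  · push Not at h
    obtain ⟨j, hj, hj2⟩ := h
    have h0 : XQ w ε n Q = 0 := by
      rw [XQ]
      refine Finset.sum_eq_zero fun A _ => ?_
      rw [if_neg]
      intro h2
      exact hj2 (A ⟨j, hj⟩) (h2 ⟨j, hj⟩)
    rw [h0]
    exact Submodule.zero_mem _

end Vale.Agent.P291.H.M
end
end

section

section

set_option autoImplicit false
set_option linter.unusedSectionVars false

/-! Colourings which survive the identification of marks. -/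

namespace Vale.Agent.P291.H.M

open MvPolynomial Vale.Agent.P291.G

variable {D : QData} (Z : Type)

/-- a factor `x b - x c` of `RR g` with `ι b = ι c` is mapped to `0` -/
theorem spread_inj {m : ℕ} {ι : B D → B D} (hι : ∀ b, (ι b).1 = b.1) (g : B D → Fin m)
    (h : kp D Z ι (RR D Z g) ≠ 0) : ∀ b c, ι b = ι c → g b = g c → b = c := by
  classical
  intro b c h1 h2
  by_contra hbc
  apply h
  have h3 : b.1 = c.1 := by rw [← hι b, ← hι c, h1]
  rw [RR, dd, map_prod]
  refine Finset.prod_eq_zero (Finset.mem_univ b) ?_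
  rw [map_prod]
  refine Finset.prod_eq_zero (Finset.mem_univ c) ?_
  rw [if_pos ⟨hbc, h3, h2⟩, map_sub, sub_eq_zero, xx, xx, kp, rename_X, rename_X, Sum.map_inl,
    Sum.map_inl, h1]

lemma Spread_typ_image {ι : B D → B D} (hι : ∀ b, (ι b).1 = b.1) (X : Finset (B D))
    (h : ∀ b ∈ X, ∀ c ∈ X, ι b = ι c → b = c) : typ D (X.image ι) = typ D X := by
  funext i
  rw [typ, typ, Finset.filter_image, Finset.card_image_of_injOn]
  · simp only [hι]
  · intro b hb c hc hbc
    exact h b (Finset.mem_filter.1 hb).1 c (Finset.mem_filter.1 hc).1 hbc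

lemma Spread_count {m : ℕ} {ι : B D → B D} (g : B D → Fin m)
    (hi : ∀ b c, ι b = ι c → g b = g c → b = c) (a : B D) (p : Fin m → Prop) [DecidablePred p]
    (hp : ∀ t, p t ↔ ∃ b, ι b = a ∧ g b = t) :
    ∑ t : Fin m, (if p t then (1 : ℤ) else 0) =
      ((Finset.univ.filter fun b : B D => ι b = a).card : ℤ) := by
  classical
  have h1 : Finset.univ.filter p = (Finset.univ.filter fun b : B D => ι b = a).image g := by
    ext t
    simp only [Finset.mem_filter, Finset.mem_univ, true_and, Finset.mem_image, hp]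
  rw [Finset.sum_ite, Finset.sum_const_zero, add_zero, Finset.sum_const, nsmul_eq_mul, mul_one,
    h1, Finset.card_image_of_injOn]
  intro b hb c hc hbc
  have hb' := (Finset.mem_filter.1 hb).2
  have hc' := (Finset.mem_filter.1 hc).2
  exact hi b c (hb'.trans hc'.symm) hbc

/-- Proof: let `A j = (fb g j).image ι` for `j < m`. As `ι` is injective on `fb g t` and preserves
colours, `typ (A t) = typ (fb g t) = n' t`. Also `∑ t, ind (A t) = ∑ t, ind (C t)`: at `a` both
sides are the number of `b` with `ι b = a` (left: `b ↦ g b` is injective on `ι⁻¹(a)`; right: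
`b ↦ g₀ b` is a bijection from `ι⁻¹(a)` to `{t | a ∈ C t}` by `Io`). Apply `meas_le`. -/
theorem spread {m : ℕ} {C : ℕ → Finset (B D)} (hC : ∀ j, C (j + 1) ⊆ C j) {ι : B D → B D}
    {g₀ : B D → Fin m} (hio : Io C ι g₀) {n n' : ℕ → D.I → ℕ} (hn : ∀ j, typ D (C j) = n j)
    (hle : meas m n' ≤ meas m n) (g : B D → Fin m)
    (hg : ∀ t : Fin m, typ D (fb D g t) = n' t)
    (hi : ∀ b c, ι b = ι c → g b = g c → b = c) :
    (∀ t : Fin m, (fb D g t).image ι = C t) ∧ ∀ t : Fin m, n' t = n t := by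
  set A : ℕ → Finset (B D) := fun j => if hj : j < m then (fb D g ⟨j, hj⟩).image ι else ∅ with hA
  have hAt : ∀ t : Fin m, A t = (fb D g t).image ι := fun t => by
    rw [hA]
    simp only [t.2, dif_pos, Fin.eta]
  have htyp : ∀ j, j < m → typ D (A j) = n' j := by
    intro j hj
    have h1 := hAt ⟨j, hj⟩
    simp only at h1
    rw [h1, Spread_typ_image hio.col, hg ⟨j, hj⟩]
    intro b hb c hc hbc
    exact hi b c hbc (((mem_fb D g _ b).1 hb).trans ((mem_fb D g _ c).1 hc).symm)
  have hsum : ∑ j ∈ Finset.range m, ind D (A j) = ∑ j ∈ Finset.range m, ind D (C j) := by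
    rw [Finset.sum_range, Finset.sum_range]
    funext a
    rw [Finset.sum_apply, Finset.sum_apply]
    simp only [ind]
    rw [Spread_count g hi a (fun t : Fin m => a ∈ A t), Spread_count g₀ hio.inj a
      (fun t : Fin m => a ∈ C t)]
    · intro t
      constructor
      · intro ha
        exact hio.surj a t ha
      · rintro ⟨b, hb, hbt⟩
        have := hio.mem b
        rwa [hb, hbt] at this
    · intro t
      rw [hAt, Finset.mem_image]
      constructor
      · rintro ⟨b, hb, hba⟩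
        exact ⟨b, hba, (mem_fb D g t b).1 hb⟩
      · rintro ⟨b, hba, hb⟩
        exact ⟨b, (mem_fb D g t b).2 hb, hba⟩
  have hmA : meas m (fun j => typ D (A j)) = meas m n' := by
    rw [meas, meas]
    refine Finset.sum_congr rfl fun j hj => ?_
    rw [htyp j (Finset.mem_range.1 hj)]
  have hmC : meas m (fun j => typ D (C j)) = meas m n := by
    rw [meas, meas]
    refine Finset.sum_congr rfl fun j _ => ?_
    rw [hn j]
  have key := (meas_le m A C (fun j _ => hC j) hsum).2 (by rw [hmA, hmC]; exact hle)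
  have h1 : ∀ t : Fin m, (fb D g t).image ι = C t := fun t => by
    rw [← hAt t]
    exact key t t.2
  refine ⟨h1, fun t => ?_⟩
  rw [← htyp t t.2, key t t.2, hn t]

end Vale.Agent.P291.H.M
end
end

section

section

set_option autoImplicit false
set_option linter.unusedSectionVars false

/-! The value of the reduced diagonal coefficient after the identification of marks. -/

namespace Vale.Agent.P291.H.M

open MvPolynomial Vale.Agent.P291.G

variable {D : QData} {Z : Type} (w : Wts D Z)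

lemma KV_kp_ps {ι : B D → B D} (hι : ∀ b, (ι b).1 = b.1) (A : Finset (B D)) (i : D.I) (j : ℕ) :
    kp D Z ι (ps D Z A i j) = ∑ b ∈ A, if (ι b).1 = i then xx D Z (ι b) ^ j else 0 := by
  rw [ps, map_sum]
  refine Finset.sum_congr rfl fun b _ => ?_
  rw [hι b]
  split_ifs
  · rw [map_pow, kp, xx, rename_X]
    rfl
  · rw [map_zero]

lemma KV_sub {C : ℕ → Finset (B D)} (hC : ∀ j, C (j + 1) ⊆ C j) (t : ℕ) : C t ⊆ C 0 := by
  induction t with
  | zero => exact subset_rfl
  | succ t ih => exact (hC t).trans ih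

theorem kp_evA {m : ℕ} {C : ℕ → Finset (B D)} (hC : ∀ j, C (j + 1) ⊆ C j) {ι : B D → B D}
    {g₀ : B D → Fin m} (hio : Io C ι g₀) (g : B D → Fin m)
    (hi : ∀ b c, ι b = ι c → g b = g c → b = c)
    (hA : ∀ t : Fin m, (fb D g t).image ι = C t) (Q : PP D Z m) :
    kp D Z ι (evA D Z (fb D g) Q) = kp D Z ι (evA D Z (fun t : Fin m => C t) Q) := by
  classical
  have h : (kp D Z ι).comp (evA D Z (fb D g)) =
      (kp D Z ι).comp (evA D Z (fun t : Fin m => C t)) := by
    apply MvPolynomial.algHom_ext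
    intro s
    rw [AlgHom.comp_apply, AlgHom.comp_apply, evA, evA, aeval_X, aeval_X]
    rcases s with ⟨t, i, j⟩ | ⟨i, j⟩ | z
    · change kp D Z ι (ps D Z (fb D g t) i j) = kp D Z ι (ps D Z (C t) i j)
      rw [KV_kp_ps hio.col, KV_kp_ps hio.col]
      have h1 : ∑ b ∈ C t, (if (ι b).1 = i then xx D Z (ι b) ^ j else 0) =
          ∑ b ∈ C t, if b.1 = i then xx D Z b ^ j else 0 := by
        refine Finset.sum_congr rfl fun b hb => ?_
        rw [hio.fix b (KV_sub hC t hb)]
      rw [h1, ← hA t, Finset.sum_image]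
      intro b hb c hc hbc
      exact hi b c hbc (((mem_fb D g _ b).1 hb).trans ((mem_fb D g _ c).1 hc).symm)
    · rfl
    · rfl
  exact DFunLike.congr_fun h Q

theorem kp_WR {m : ℕ} {C : ℕ → Finset (B D)} {ι : B D → B D} {g₀ : B D → Fin m}
    (hio : Io C ι g₀) (ε : ℕ → ℕ) (g : B D → Fin m)
    (hi : ∀ b c, ι b = ι c → g b = g c → b = c)
    (hA : ∀ t : Fin m, (fb D g t).image ι = C t) :
    kp D Z ι (WW w ε g * RR D Z g) = kp D Z ι (WW w ε g₀ * RR D Z g₀) := by
  classical
  have h1 : ∀ b, ∃ c, ι c = ι b ∧ g₀ c = g b := by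
    intro b
    apply hio.surj
    rw [← hA]
    exact Finset.mem_image.2 ⟨b, (mem_fb D g _ b).2 rfl, rfl⟩
  choose f hf1 hf2 using h1
  have hfi : Function.Injective f := by
    intro b b' hbb
    apply hi
    · rw [← hf1 b, ← hf1 b', hbb]
    · rw [← hf2 b, ← hf2 b', hbb]
  obtain ⟨σ, hσ⟩ := exists_W D f hfi (fun b => by rw [← hio.col (f b), hf1, hio.col])
  have h2 : g₀ = g ∘ (perm D σ).symm := by
    funext b
    obtain ⟨c, rfl⟩ := (perm D σ).surjective b
    rw [Function.comp_apply, Equiv.symm_apply_apply, hσ, hf2]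
  have h3 : ∀ b, ι (perm D σ b) = ι b := fun b => by rw [hσ, hf1]
  have h4 : WW w ε g₀ * RR D Z g₀ = act D Z σ (WW w ε g * RR D Z g) := by
    rw [map_mul, act_WW, act_RR, ← h2]
  rw [h4, kp_act D Z ι σ h3]

/-- the factors are nonzero: `NV`, and `ι b ≠ ι c` if `b ≠ c`, `g₀ b = g₀ c` -/
theorem kp_ne (hw : NV w) {m : ℕ} {C : ℕ → Finset (B D)} {ι : B D → B D} {g₀ : B D → Fin m}
    (hio : Io C ι g₀) (ε : ℕ → ℕ) : kp D Z ι (WW w ε g₀ * RR D Z g₀) ≠ 0 := by
  classical
  rw [map_mul]
  refine mul_ne_zero ?_ ?_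
  · rw [WW, map_prod]
    refine Finset.prod_ne_zero_iff.2 fun t _ => ?_
    rw [map_mul, map_pow]
    refine mul_ne_zero ?_ (pow_ne_zero _ ?_)
    · rw [e, map_prod]
      refine Finset.prod_ne_zero_iff.2 fun b hb => ?_
      rw [map_prod]
      refine Finset.prod_ne_zero_iff.2 fun c hc => ?_
      refine hw.h_ne ι hio.col b c ?_
      rintro rfl
      exact (Finset.mem_compl.1 hc) hb
    · rw [zs, map_prod]
      exact Finset.prod_ne_zero_iff.2 fun b _ => hw.z_ne ι hio.col b
  · rw [RR, dd, map_prod]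
    refine Finset.prod_ne_zero_iff.2 fun b _ => ?_
    rw [map_prod]
    refine Finset.prod_ne_zero_iff.2 fun c _ => ?_
    split_ifs with h
    · have h1 : ι b ≠ ι c := fun h1 => h.1 (hio.inj b c h1 h.2.2)
      have h2 : kp D Z ι (xx D Z b - xx D Z c) = xx D Z (ι b) - xx D Z (ι c) := by
        rw [map_sub, kp, xx, xx, rename_X, rename_X]
        rfl
      rw [h2]
      exact vdm_sub_ne D Z h1
    · rw [map_one]
      exact one_ne_zero

/-- `g₀` is a surviving colouring -/
lemma KV_g0 {m : ℕ} {C : ℕ → Finset (B D)} {ι : B D → B D} {g₀ : B D → Fin m}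
    (hio : Io C ι g₀) (t : Fin m) : (fb D g₀ t).image ι = C t := by
  ext a
  rw [Finset.mem_image]
  constructor
  · rintro ⟨b, hb, rfl⟩
    have h1 := hio.mem b
    rwa [(mem_fb D g₀ t b).1 hb] at h1
  · intro ha
    obtain ⟨b, hb, hbt⟩ := hio.surj a t ha
    exact ⟨b, (mem_fb D g₀ t b).2 hbt, hb⟩

lemma KV_typ {m : ℕ} {C : ℕ → Finset (B D)} {ι : B D → B D} (hι : ∀ b, (ι b).1 = b.1)
    (g : B D → Fin m) (hi : ∀ b c, ι b = ι c → g b = g c → b = c)
    (hA : ∀ t : Fin m, (fb D g t).image ι = C t) (t : Fin m) :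
    typ D (fb D g t) = typ D (C t) := by
  rw [← hA t, Spread_typ_image hι]
  intro b hb c hc hbc
  exact hi b c hbc (((mem_fb D g _ b).1 hb).trans ((mem_fb D g _ c).1 hc).symm)

/-- types which do not survive (`spread_inj`, `spread`) -/
theorem kv_zero {m : ℕ} {C : ℕ → Finset (B D)} (hC : ∀ j, C (j + 1) ⊆ C j) {ι : B D → B D}
    {g₀ : B D → Fin m} (hio : Io C ι g₀) {n n' : ℕ → D.I → ℕ} (hn : ∀ j, typ D (C j) = n j)
    (hle : meas m n' ≤ meas m n) (hne : ∃ j, j < m ∧ n' j ≠ n j) (ε : ℕ → ℕ) (Q : PP D Z m) :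
    kp D Z ι (ee w ε n' Q) = 0 := by
  classical
  rw [ee, map_sum]
  refine Finset.sum_eq_zero fun g _ => ?_
  split_ifs with hg
  · by_cases h0 : kp D Z ι (RR D Z g) = 0
    · rw [map_mul, map_mul, h0, mul_zero, mul_zero]
    · exfalso
      obtain ⟨j, hj, hjn⟩ := hne
      exact hjn ((spread hC hio hn hle g hg (spread_inj Z hio.col g h0)).2 ⟨j, hj⟩)
  · rw [map_zero]

/-- the surviving type: `kp ι (ee w ε n Q)` is the number of surviving colourings (at least one,
`g₀`) times `kp ι (evA C Q) * kp ι (WW g₀ * RR g₀)` -/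
theorem kv_top (hw : NV w) {m : ℕ} {C : ℕ → Finset (B D)} (hC : ∀ j, C (j + 1) ⊆ C j)
    {ι : B D → B D} {g₀ : B D → Fin m} (hio : Io C ι g₀) {n : ℕ → D.I → ℕ}
    (hn : ∀ j, typ D (C j) = n j) (ε : ℕ → ℕ) (Q : PP D Z m)
    (h : kp D Z ι (ee w ε n Q) = 0) : kp D Z ι (evA D Z (fun t : Fin m => C t) Q) = 0 := by
  classical
  set T : Finset (B D → Fin m) := Finset.univ.filter fun g =>
    (∀ b c, ι b = ι c → g b = g c → b = c) ∧ ∀ t : Fin m, (fb D g t).image ι = C t with hT
  have h1 : kp D Z ι (ee w ε n Q) = (T.card : S D Z) *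
      (kp D Z ι (evA D Z (fun t : Fin m => C t) Q) *
        kp D Z ι (WW w ε g₀ * RR D Z g₀)) := by
    rw [ee, map_sum, ← nsmul_eq_mul, ← Finset.sum_const, hT, Finset.sum_filter]
    refine Finset.sum_congr rfl fun g _ => ?_
    by_cases hg : (∀ b c, ι b = ι c → g b = g c → b = c) ∧
        ∀ t : Fin m, (fb D g t).image ι = C t
    · rw [if_pos hg, if_pos, map_mul, kp_evA hC hio g hg.1 hg.2,
        kp_WR w hio ε g hg.1 hg.2]
      intro t
      rw [KV_typ hio.col g hg.1 hg.2 t, hn t]
    · rw [if_neg hg]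
      split_ifs with ht
      · by_cases h0 : kp D Z ι (RR D Z g) = 0
        · rw [map_mul, map_mul, h0, mul_zero, mul_zero]
        · exfalso
          have hi := spread_inj Z hio.col g h0
          exact hg ⟨hi, (spread hC hio hn le_rfl g ht hi).1⟩
      · rw [map_zero]
  have h2 : T.card ≠ 0 := by
    refine Finset.card_ne_zero.2 ⟨g₀, ?_⟩
    rw [hT, Finset.mem_filter]
    exact ⟨Finset.mem_univ _, hio.inj, KV_g0 hio⟩
  rw [h1] at h
  rcases mul_eq_zero.1 h with h3 | h3
  · exact absurd h3 (Nat.cast_ne_zero.2 h2)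
  · exact (mul_eq_zero.1 h3).resolve_right (kp_ne w hw hio ε)

end Vale.Agent.P291.H.M
end
end

section

section

set_option autoImplicit false
set_option linter.unusedSectionVars false

/-! Straightening of all sequences of types. -/

namespace Vale.Agent.P291.H.M

open MvPolynomial Vale.Agent.P291.G

variable {D : QData} {Z : Type} (w : Wts D Z)

/-- `tot` is preserved by updates with the same sum (see `seqOK_update`) -/
lemma tot_update {m : ℕ} {n : ℕ → D.I → ℕ} (h : tot D m n) (i : ℕ) (hi : i + 1 < m)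
    (a b : D.I → ℕ) (hab : a + b = n i + n (i + 1)) :
    tot D m (Function.update (Function.update n i a) (i + 1) b) := by
  obtain ⟨h1, h2⟩ := h
  refine ⟨fun j hj => ?_, ?_⟩
  · rw [straight_upd_ne n i a b (by omega) (by omega)]
    exact h1 j hj
  · rw [straight_sum_split _ hi] at h2 ⊢
    rw [straight_upd_left, straight_upd_right, hab, ← h2]
    refine congrArg _ (Finset.sum_congr rfl fun j hj => ?_)
    rw [Finset.mem_erase, Finset.mem_erase] at hj
    rw [straight_upd_ne n i a b hj.2.1 hj.1]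

/-- Proof: strong induction on `meas m n`, like the proof of `straighten` in `H/Straight.lean` (but
easier, as no sequence is excluded): if `n` is nested, it is in the supremum. Otherwise there is `i`
with `¬ n (i + 1) ≤ n i`, so `i + 1 < m`; use `UU_update` and `pair_mul` (`ε i ≤ ε (i + 1)` as
`ε = ep 1`) with `n1 = n i`, `n2 = n (i + 1)`: the sequences with `n i`, `n (i + 1)` replaced by
`n1'`, `s`, where `s ≤ n i`, `s ≤ n (i + 1)`, `n1' + s = n i + n (i + 1)`, satisfy `tot`
(`tot_update`) and have smaller measure (`meas_update`; `s ≠ n (i + 1)`). -/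
theorem strAll {m : ℕ} (n : ℕ → D.I → ℕ) (h : tot D m n) :
    UU w (ep 1) m n ≤ ⨆ n' : ℕ → D.I → ℕ, ⨆ _ : seqM D m (meas m n) n', UU w (ep 1) m n' := by
  induction hk : meas m n using Nat.strong_induction_on generalizing n with
  | _ k ih =>
    subst hk
    by_cases hne : ∀ j, n (j + 1) ≤ n j
    · exact le_iSup₂_of_le n ⟨h, hne, le_rfl⟩ le_rfl
    · push Not at hne
      obtain ⟨i, hi⟩ := hne
      have him : i + 1 < m := by
        by_contra hc
        apply hi
        rw [h.1 (i + 1) (by omega)]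
        exact fun k => Nat.zero_le _
      have hupd : Function.update (Function.update n i (n i)) (i + 1) (n (i + 1)) = n := by
        rw [Function.update_eq_self, Function.update_eq_self]
      have h12 : ep 1 i ≤ ep 1 (i + 1) := by
        unfold ep
        split_ifs <;> omega
      have key : U w (ep 1 i) (n i) * U w (ep 1 (i + 1)) (n (i + 1)) ≤
          (⨆ n' : ℕ → D.I → ℕ, ⨆ _ : seqM D m (meas m n) n', UU w (ep 1) m n') /
            ∏ j ∈ ((Finset.range m).erase i).erase (i + 1), U w (ep 1 j) (n j) := by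
        refine pair_mul w h12 (n i) (n (i + 1)) _ fun n1' s hs1 hs2 hs3 hs4 => ?_
        rw [Submodule.le_div_iff_mul_le, ← UU_update w (ep 1) m n i him n1' s]
        have hsne : s ≠ n (i + 1) := fun h => hi (h ▸ hs1)
        have hlt : ∑ k, s k < ∑ k, n (i + 1) k := by
          refine lt_of_le_of_ne (Finset.sum_le_sum fun k _ => hs2 k) fun he => hsne ?_
          funext k
          exact (Finset.sum_eq_sum_iff_of_le fun k _ => hs2 k).1 he k (Finset.mem_univ k)
        have hmeas := meas_update m n i him n1' s hs4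
        have hmlt : meas m (Function.update (Function.update n i n1') (i + 1) s) <
            meas m n := by omega
        refine (ih _ hmlt _ (tot_update h i him n1' s hs4) rfl).trans ?_
        refine iSup_mono fun n' => iSup_mono' fun h' => ⟨?_, le_rfl⟩
        exact ⟨h'.1, h'.2.1, h'.2.2.trans hmlt.le⟩
      rw [Submodule.le_div_iff_mul_le, ← UU_update w (ep 1) m n i him, hupd] at key
      exact key

end Vale.Agent.P291.H.M
end
end

section

section

set_option autoImplicit false
set_option linter.unusedSectionVars false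

/-! From colourings to products of slots, general version. -/

namespace Vale.Agent.P291.H.N

open MvPolynomial Vale.Agent.P291.G Vale.Agent.P291.H.M

variable {D : QData} {Z : Type} (w : Wts D Z)

/-- the types of a colouring -/
def tyf (D : QData) {m : ℕ} (g : B D → Fin m) (j : ℕ) : D.I → ℕ :=
  if h : j < m then typ D (fb D g ⟨j, h⟩) else 0

section
variable (D : QData) (Z : Type)

lemma ExX_gA_le {m : ℕ} (g₀ : B D → Fin m) : gA D Z g₀ ≤ (evA D Z (fb D g₀)).range := by
  rw [gA, Algebra.adjoin_le_iff]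
  rintro x (⟨⟨k, i, j⟩, rfl⟩ | ⟨z, rfl⟩)
  · refine ⟨X (Sum.inl (k, i, j)), ?_⟩
    change evA D Z (fb D g₀) (X (Sum.inl (k, i, j))) = ps D Z (fb D g₀ k) i j
    rw [evA, aeval_X]
    rfl
  · refine ⟨X (Sum.inr (Sum.inr z)), ?_⟩
    change evA D Z (fb D g₀) (X (Sum.inr (Sum.inr z))) = X (Sum.inr z)
    rw [evA, aeval_X]
    rfl

open Classical in
lemma ExX_act_sum {m : ℕ} (g₀ : B D → Fin m) (s : S D Z) (τ : W D) :
    act D Z τ (∑ σ : W D, if g₀ ∘ (perm D σ).symm = g₀ then act D Z σ s else 0) =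
      ∑ σ : W D, if g₀ ∘ (perm D σ).symm = g₀ ∘ (perm D τ).symm then act D Z σ s else 0 := by
  rw [map_sum]
  refine Fintype.sum_equiv (Equiv.mulLeft τ) _ _ fun σ => ?_
  rw [apply_ite (act D Z τ), map_zero, Equiv.coe_mulLeft, act_mul]
  refine if_congr ?_ rfl rfl
  have h1 : ∀ c, (perm D (τ * σ)).symm c = (perm D σ).symm ((perm D τ).symm c) := by
    intro c
    rw [Equiv.symm_apply_eq]
    change c = perm D τ (perm D σ ((perm D σ).symm ((perm D τ).symm c)))
    rw [Equiv.apply_symm_apply, Equiv.apply_symm_apply]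
  constructor
  · intro h
    funext c
    have h2 := congrFun h ((perm D τ).symm c)
    simp only [Function.comp_apply] at h2 ⊢
    rw [h1, h2]
  · intro h
    funext c
    have h2 := congrFun h (perm D τ c)
    simp only [Function.comp_apply] at h2 ⊢
    rwa [h1, Equiv.symm_apply_apply] at h2

open Classical in
/-- Realisation of equivariant functions on colourings by power sums. -/
theorem realise {m : ℕ} (g₀ : B D → Fin m) (s : S D Z) :
    ∃ Q : PP D Z m, ∀ g : B D → Fin m, (∀ t, typ D (fb D g t) = typ D (fb D g₀ t)) →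
      evA D Z (fb D g) Q = ∑ σ : W D, if g₀ ∘ (perm D σ).symm = g then act D Z σ s else 0 := by
  have hinv : ∀ σ : W D, (∀ b, g₀ (perm D σ b) = g₀ b) →
      act D Z σ (∑ σ : W D, if g₀ ∘ (perm D σ).symm = g₀ then act D Z σ s else 0) =
        ∑ σ : W D, if g₀ ∘ (perm D σ).symm = g₀ then act D Z σ s else 0 := by
    intro τ hτ
    have h1 : g₀ ∘ (perm D τ).symm = g₀ := by
      funext c
      have h2 := hτ ((perm D τ).symm c)
      rw [Equiv.apply_symm_apply] at h2
      exact h2.symm
    rw [ExX_act_sum, h1]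
  obtain ⟨Q, hQ⟩ := ExX_gA_le D Z g₀ (gen D Z g₀ hinv)
  refine ⟨Q, fun g hg => ?_⟩
  obtain ⟨τ, rfl⟩ := exists_conj D g g₀ hg
  have h1 : fb D (g₀ ∘ (perm D τ).symm) = fun t => mp D τ (fb D g₀ t) := by
    funext t
    exact fb_perm D τ g₀ t
  rw [h1, ← act_evA, ← ExX_act_sum]
  exact congrArg (act D Z τ) hQ

end

section
variable {D : QData} {Z : Type} (w : Wts D Z)

lemma ExX_typ {m : ℕ} (g₀ : B D → Fin m) (σ : W D) (t : Fin m) :
    typ D (fb D (g₀ ∘ (perm D σ).symm) t) = typ D (fb D g₀ t) := by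
  rw [fb_perm, typ_mp]

lemma ExX_tyf {m : ℕ} (g₀ : B D → Fin m) (t : Fin m) :
    tyf D g₀ t = typ D (fb D g₀ t) := by
  rw [tyf, dif_pos t.2]

/-- the diagonal coefficient of the element attached to a colouring -/
lemma ExX_key (ε : ℕ → ℕ) {m : ℕ} (g₀ : B D → Fin m) (s : S D Z) :
    ∃ Q : PP D Z m, (XQ w ε (tyf D g₀) Q).coeff (ind D Finset.univ) * ddT D Z =
      del D Z ^ m * ∑ σ : W D, act D Z σ (s * (RR D Z g₀ * WW w ε g₀)) := by
  classical
  obtain ⟨Q, hQ⟩ := realise D Z g₀ s
  refine ⟨Q, ?_⟩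
  rw [diag, ee]
  congr 1
  have h1 : ∀ g : B D → Fin m, (if ∀ t : Fin m, typ D (fb D g t) = tyf D g₀ t then
      evA D Z (fb D g) Q * (WW w ε g * RR D Z g) else 0) =
      ∑ σ : W D, if g₀ ∘ (perm D σ).symm = g then
        act D Z σ (s * (RR D Z g₀ * WW w ε g₀)) else 0 := by
    intro g
    by_cases h : ∀ t : Fin m, typ D (fb D g t) = tyf D g₀ t
    · rw [if_pos h, hQ g fun t => by rw [h t, ExX_tyf], Finset.sum_mul]
      refine Finset.sum_congr rfl fun σ _ => ?_
      by_cases h2 : g₀ ∘ (perm D σ).symm = g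
      · rw [if_pos h2, if_pos h2, map_mul, map_mul, act_RR, act_WW, h2]
        ring
      · rw [if_neg h2, if_neg h2, zero_mul]
    · rw [if_neg h]
      refine (Finset.sum_eq_zero fun σ _ => if_neg fun h2 => h fun t => ?_).symm
      rw [← h2, ExX_typ, ExX_tyf]
  rw [Finset.sum_congr rfl fun g _ => h1 g, Finset.sum_comm]
  refine Finset.sum_congr rfl fun σ _ => ?_
  rw [Finset.sum_ite_eq, if_pos (Finset.mem_univ _)]

end

/-- Proof: write `r * ddT = ∑ g ∈ s, a g * (RR g * WW g)` (finite sum, cf. the proof of `exists_X` in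
M/Orbit.lean). For every `g₀` take `Q` from `realise g₀ (a g₀)` and `X g₀ = XQ w ε (tyf D g₀) Q`
(`XQ_mem`); by `diag`, `realise`, `act_WW`, `act_RR`, `(X g₀).coeff (ind univ) * ddT =
del ^ m * ∑ σ, act σ (a g₀ * (RR g₀ * WW w ε g₀))` (a colouring `g` with `typ (fb g t) = tyf g₀ t`
which is not of the form `g₀ ∘ σ⁻¹` does not exist, and the others are sums over `σ`:
`∑ g, (∑ σ, if g₀ ∘ σ⁻¹ = g then ..) = ∑ σ, ..`). Sum over `g₀ ∈ s`, use the invariance of `r` and
`ddT` (`act_ddT`) and divide by `card (W D)` (see `exists_X` in J/Orbit.lean). -/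
theorem exists_XG (ε : ℕ → ℕ) {m : ℕ} (hm : 1 ≤ m) {r : S D Z} (hr : ∀ σ, act D Z σ r = r)
    (Gg : (B D → Fin m) → Prop)
    (h : r * ddT D Z ∈ Ideal.span {p | ∃ g : B D → Fin m, Gg g ∧ p = RR D Z g * WW w ε g})
    (Pr : (ℕ → D.I → ℕ) → Prop) (hPr : ∀ g, Gg g → Pr (tyf D g)) :
    ∃ X ∈ VV w ε m Pr, X.coeff (ind D Finset.univ) = r * del D Z ^ m := by
  classical
  have h1 : {p | ∃ g : B D → Fin m, Gg g ∧ p = RR D Z g * WW w ε g} =
      (fun g : B D → Fin m => RR D Z g * WW w ε g) ''
        (Finset.univ.filter Gg : Finset (B D → Fin m)) := by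
    ext p
    rw [Set.mem_image]
    constructor
    · rintro ⟨g, hg, rfl⟩
      exact ⟨g, Finset.mem_coe.2 (Finset.mem_filter.2 ⟨Finset.mem_univ _, hg⟩), rfl⟩
    · rintro ⟨g, hg, rfl⟩
      exact ⟨g, (Finset.mem_filter.1 (Finset.mem_coe.1 hg)).2, rfl⟩
  rw [h1] at h
  obtain ⟨s, hs⟩ := (Submodule.mem_span_image_finset_iff_exists_fun' (S D Z)).1 h
  choose Q hQ using fun g : B D → Fin m => ExX_key w ε g (s g)
  have hmem : ∑ g ∈ Finset.univ.filter Gg, XQ w ε (tyf D g) (Q g) ∈ VV w ε m Pr := by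
    refine Submodule.sum_mem _ fun g hg => ?_
    exact Submodule.mem_iSup_of_mem _ (Submodule.mem_iSup_of_mem
      (hPr g (Finset.mem_filter.1 hg).2) (XQ_mem w ε hm _ (Q g)))
  refine ⟨((Fintype.card (W D) : ℕ) : ℂ)⁻¹ • ∑ g ∈ Finset.univ.filter Gg,
    XQ w ε (tyf D g) (Q g), Submodule.smul_mem _ _ hmem, ?_⟩
  refine mul_right_cancel₀ (ddT_ne_zero D Z) ?_
  rw [AddMonoidAlgebra.coeff_smul, Finsupp.smul_apply, AddMonoidAlgebra.coeff_sum,
    Finsupp.finsetSum_apply, Algebra.smul_mul_assoc, Finset.sum_mul,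
    Finset.sum_congr rfl fun g _ => hQ g, ← Finset.mul_sum, Finset.sum_comm]
  have h2 : ∀ σ : W D, ∑ g ∈ Finset.univ.filter Gg,
      act D Z σ (s g * (RR D Z g * WW w ε g)) = r * ddT D Z := by
    intro σ
    rw [← map_sum]
    have h3 : ∑ g ∈ Finset.univ.filter Gg, s g * (RR D Z g * WW w ε g) = r * ddT D Z := hs
    rw [h3, map_mul, hr, act_ddT]
  rw [Finset.sum_congr rfl fun σ _ => h2 σ, Finset.sum_const, Finset.card_univ, nsmul_eq_mul]
  have h4 : ((Fintype.card (W D) : ℕ) : S D Z) = algebraMap ℂ (S D Z) (Fintype.card (W D) : ℕ) :=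
    (map_natCast _ _).symm
  have h5 : ((Fintype.card (W D) : ℕ) : ℂ) ≠ 0 := by
    exact_mod_cast Fintype.card_ne_zero
  rw [h4, ← Algebra.smul_def, mul_smul_comm, smul_smul, inv_mul_cancel₀ h5, one_smul]
  ring

end Vale.Agent.P291.H.N
end
end

section

section

set_option autoImplicit false
set_option linter.unusedSectionVars false

/-! Comparison with the quadratic relation. -/

namespace Vale.Agent.P291.H

open MvPolynomial Vale.Agent.P291.G

variable (D : QData)

/-! ### specialization -/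

lemma spec_xq (b : B D) : spec D (xq D b) = xx D (Fin D.rk) b := by
  rw [spec, xq, xx, aeval_X, Sum.elim_inl]

lemma spec_tv (a : D.A) : spec D (tv D a) = lin (YY D) (D.ta a) := by
  rw [spec, tv, aeval_X]; rfl

lemma spec_zv (i : D.I) (k : Fin (D.w i)) : spec D (zv D i k) = lin (YY D) (D.tw i k) := by
  rw [spec, zv, aeval_X]; rfl

lemma spec_hb : spec D (hb D) = 0 := by
  rw [spec, hb, aeval_X]; rfl

lemma spec_inc (f : S D (Fin D.rk)) : spec D (inc D f) = f := by
  have h : (spec D).comp (inc D) = AlgHom.id ℂ (S D (Fin D.rk)) := by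
    apply MvPolynomial.algHom_ext
    intro b
    rw [AlgHom.comp_apply, inc, rename_X, spec, aeval_X, AlgHom.id_apply]
    cases b <;> rfl
  have h2 := DFunLike.congr_fun h f
  rwa [AlgHom.comp_apply, AlgHom.id_apply] at h2

lemma inc_act (σ : W D) (f : S D (Fin D.rk)) :
    inc D (act D (Fin D.rk) σ f) = act D (ZZ D) σ (inc D f) := by
  rw [inc, act, act, rename_rename, rename_rename]
  congr 2
  funext b
  cases b <;> rfl

/-- difference of gauge variables at the same vertex -/
noncomputable def gg (a b : B D) : S D (Fin D.rk) :=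
  if a.1 = b.1 then xx D (Fin D.rk) a - xx D (Fin D.rk) b else 1

lemma spec_g0 (a b : B D) : spec D (g0 D a b) = gg D a b := by
  unfold g0 gg
  split_ifs with h
  · rw [map_sub, spec_xq, spec_xq]
  · rw [map_one]

lemma spec_g1 (a b : B D) : spec D (g1 D a b) = gg D a b := by
  unfold g1 gg
  split_ifs with h
  · rw [map_add, map_sub, spec_xq, spec_xq, spec_hb, add_zero]
  · rw [map_one]

lemma spec_hq (b c : B D) {s : S D (ZZ D)} (hs : spec D s = 0) :
    spec D (hq D b c s) = (wF D).h b c := by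
  rw [hq, map_prod]
  change _ = ∏ a with D.src a = b.1 ∧ D.tgt a = c.1,
    (xx D (Fin D.rk) c - xx D (Fin D.rk) b + lin (YY D) (D.ta a))
  refine Finset.prod_congr rfl fun a _ => ?_
  rw [map_add, map_add, map_sub, spec_xq, spec_xq, spec_tv, hs, add_zero]

lemma spec_zq (b : B D) {s : S D (ZZ D)} (hs : spec D s = 0) :
    spec D (zq D b s) = (wF D).z b := by
  rw [zq, map_prod]
  change _ = ∏ k : Fin (D.w b.1), (lin (YY D) (D.tw b.1 k) - xx D (Fin D.rk) b)
  refine Finset.prod_congr rfl fun k _ => ?_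
  rw [map_add, map_sub, spec_xq, spec_zv, hs, add_zero]

lemma spec_sh {s : S D (ZZ D)} (hs : spec D s = 0) (A : Finset (B D)) (f : S D (ZZ D)) :
    spec D (sh D s A f) = spec D f := by
  have h : (spec D).comp (sh D s A) = spec D := by
    apply MvPolynomial.algHom_ext
    intro b
    rw [AlgHom.comp_apply, sh, aeval_X]
    cases b with
    | inl b =>
      rw [Sum.elim_inl]
      change _ = spec D (xq D b)
      split_ifs with h
      · rw [map_add, hs, add_zero]
      · rfl
    | inr b => rfl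
  rw [← AlgHom.comp_apply, h]

/-! ### products over pairs -/

section pr
variable {D}
variable {R : Type} [CommRing R]

/-- product over a rectangle -/
def rp (f : B D → B D → R) (X Y : Finset (B D)) : R := ∏ b ∈ X, ∏ c ∈ Y, f b c

/-- product over ordered pairs of distinct elements -/
def od (f : B D → B D → R) (N : Finset (B D)) : R := ∏ p ∈ N, ∏ q ∈ N.erase p, f p q

lemma rp_union_left (f : B D → B D → R) {X X' : Finset (B D)} (h : Disjoint X X')
    (Y : Finset (B D)) : rp f (X ∪ X') Y = rp f X Y * rp f X' Y := by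
  rw [rp, rp, rp, Finset.prod_union h]

lemma rp_union_right (f : B D → B D → R) {Y Y' : Finset (B D)} (h : Disjoint Y Y')
    (X : Finset (B D)) : rp f X (Y ∪ Y') = rp f X Y * rp f X Y' := by
  rw [rp, rp, rp, ← Finset.prod_mul_distrib]
  exact Finset.prod_congr rfl fun b _ => Finset.prod_union h

lemma rp_mul (f g : B D → B D → R) (X Y : Finset (B D)) :
    rp (fun b c => f b c * g b c) X Y = rp f X Y * rp g X Y := by
  rw [rp, rp, rp, ← Finset.prod_mul_distrib]
  exact Finset.prod_congr rfl fun b _ => Finset.prod_mul_distrib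

lemma od_union (f : B D → B D → R) {K M : Finset (B D)} (h : Disjoint K M) :
    od f (K ∪ M) = od f K * od f M * rp f K M * rp f M K := by
  have h1 : ∀ p ∈ K, ∏ q ∈ (K ∪ M).erase p, f p q =
      (∏ q ∈ K.erase p, f p q) * ∏ q ∈ M, f p q := by
    intro p hp
    have hpM : p ∉ M := Finset.disjoint_left.1 h hp
    rw [Finset.erase_union_distrib, Finset.erase_eq_of_notMem hpM]
    exact Finset.prod_union (h.mono_left (Finset.erase_subset _ _))
  have h2 : ∀ p ∈ M, ∏ q ∈ (K ∪ M).erase p, f p q =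
      (∏ q ∈ M.erase p, f p q) * ∏ q ∈ K, f p q := by
    intro p hp
    have hpK : p ∉ K := Finset.disjoint_right.1 h hp
    rw [Finset.erase_union_distrib, Finset.erase_eq_of_notMem hpK, Finset.union_comm]
    exact Finset.prod_union (h.symm.mono_left (Finset.erase_subset _ _))
  rw [od, Finset.prod_union h, Finset.prod_congr rfl h1, Finset.prod_congr rfl h2,
    Finset.prod_mul_distrib, Finset.prod_mul_distrib, od, od, rp, rp]
  ring

lemma od_congr {f g : B D → B D → R} {N : Finset (B D)}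
    (h : ∀ p ∈ N, ∀ q ∈ N, f p q = g p q) : od f N = od g N := by
  rw [od, od]
  refine Finset.prod_congr rfl fun p hp => Finset.prod_congr rfl fun q hq => ?_
  exact h p hp q (Finset.mem_of_mem_erase hq)

lemma rp_congr {f g : B D → B D → R} {X Y : Finset (B D)}
    (h : ∀ p ∈ X, ∀ q ∈ Y, f p q = g p q) : rp f X Y = rp g X Y := by
  rw [rp, rp]
  exact Finset.prod_congr rfl fun p hp => Finset.prod_congr rfl fun q hq => h p hp q hq

end pr

lemma cr_eq (A C : Finset (B D)) : cr D (Fin D.rk) A C = rp (gg D) A C := rfl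

lemma e_eq (A : Finset (B D)) : e (wF D) A = rp (wF D).h A Aᶜ := rfl

lemma spec_Om (N : Finset (B D)) : spec D (Om D N) = od (fun p q => gg D p q * gg D p q) N := by
  rw [Om, map_prod, od]
  refine Finset.prod_congr rfl fun p _ => ?_
  rw [map_prod]
  refine Finset.prod_congr rfl fun q _ => ?_
  rw [map_mul, spec_g0, spec_g1]

lemma gg_ne_zero {a b : B D} (h : a ≠ b) : gg D a b ≠ 0 := by
  unfold gg
  split_ifs with h1
  · rw [sub_ne_zero]
    intro h2
    exact h (Sum.inl_injective (X_injective h2))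
  · exact one_ne_zero

lemma spec_Om_ne_zero (N : Finset (B D)) : spec D (Om D N) ≠ 0 := by
  rw [spec_Om, od, Finset.prod_ne_zero_iff]
  intro p _
  rw [Finset.prod_ne_zero_iff]
  intro q hq
  have h := Finset.ne_of_mem_erase hq
  exact mul_ne_zero (gg_ne_zero D h.symm) (gg_ne_zero D h.symm)

lemma spec_pw (p q : B D) (i j : Bool) : spec D (pw D p q i j) =
    (if i = j then gg D p q else (wF D).h p q) * gg D p q := by
  have h0 : spec D (-hb D) = 0 := by rw [map_neg, spec_hb, neg_zero]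
  cases i <;> cases j <;>
    simp [pw, spec_g0, spec_g1, spec_hq D p q h0, spec_hq D p q (map_zero (spec D))]

lemma spec_ww (N K : Finset (B D)) : spec D (ww D N K) =
    od (fun p q => (if decide (p ∈ K) = decide (q ∈ K) then gg D p q else (wF D).h p q) *
      gg D p q) N := by
  rw [ww, map_prod, od]
  refine Finset.prod_congr rfl fun p _ => ?_
  rw [map_prod]
  refine Finset.prod_congr rfl fun q _ => ?_
  rw [spec_pw]

lemma spec_ww_union {K M : Finset (B D)} (h : Disjoint K M) :
    spec D (ww D (K ∪ M) K) * (rp (gg D) K M * rp (gg D) M K) =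
      rp (wF D).h K M * rp (wF D).h M K * spec D (Om D (K ∪ M)) := by
  rw [spec_ww, spec_Om, od_union _ h, od_union _ h]
  have e1 : od (fun p q => (if decide (p ∈ K) = decide (q ∈ K) then gg D p q else (wF D).h p q) *
      gg D p q) K = od (fun p q => gg D p q * gg D p q) K :=
    od_congr fun p hp q hq => by simp [hp, hq]
  have e2 : od (fun p q => (if decide (p ∈ K) = decide (q ∈ K) then gg D p q else (wF D).h p q) *
      gg D p q) M = od (fun p q => gg D p q * gg D p q) M :=
    od_congr fun p hp q hq => by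
      simp [Finset.disjoint_right.1 h hp, Finset.disjoint_right.1 h hq]
  have e3 : rp (fun p q => (if decide (p ∈ K) = decide (q ∈ K) then gg D p q else (wF D).h p q) *
      gg D p q) K M = rp (fun p q => (wF D).h p q * gg D p q) K M :=
    rp_congr fun p hp q hq => by simp [hp, Finset.disjoint_right.1 h hq]
  have e4 : rp (fun p q => (if decide (p ∈ K) = decide (q ∈ K) then gg D p q else (wF D).h p q) *
      gg D p q) M K = rp (fun p q => (wF D).h p q * gg D p q) M K :=
    rp_congr fun p hp q hq => by simp [hq, Finset.disjoint_right.1 h hp]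
  rw [e1, e2, e3, e4, rp_mul, rp_mul, rp_mul, rp_mul]
  ring

lemma spec_ww_compl (N K : Finset (B D)) :
    spec D (ww D N (N \ K)) = spec D (ww D N K) := by
  rw [spec_ww, spec_ww]
  refine od_congr fun p hp q hq => ?_
  simp only [Finset.mem_sdiff, hp, hq, true_and]
  by_cases h1 : p ∈ K <;> by_cases h2 : q ∈ K <;> simp [h1, h2]

/-! ### sign of the exchange -/

lemma gg_symm (a b : B D) : gg D a b = gg D b a ∨ gg D a b = - gg D b a := by
  unfold gg
  by_cases h : a.1 = b.1
  · right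
    rw [if_pos h, if_pos h.symm]; ring
  · left
    rw [if_neg h, if_neg (Ne.symm h)]

lemma rp_gg_dvd (X Y : Finset (B D)) : rp (gg D) X Y ∣ rp (gg D) Y X := by
  rw [rp, rp, Finset.prod_comm]
  refine Finset.prod_dvd_prod_of_dvd _ _ fun c _ => Finset.prod_dvd_prod_of_dvd _ _ fun b _ => ?_
  rcases gg_symm D b c with h | h
  · rw [h]
  · rw [h, neg_dvd]

lemma Dl_compl_dvd (C : Finset (B D)) : Dl D (Fin D.rk) Cᶜ ∣ Dl D (Fin D.rk) C := by
  have h1 := Dl_spec D (Fin D.rk) C
  have h2 := Dl_spec D (Fin D.rk) Cᶜ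
  rw [compl_compl] at h2
  obtain ⟨u, hu⟩ := rp_gg_dvd D C Cᶜ
  have h3 : cr D (Fin D.rk) Cᶜ C = cr D (Fin D.rk) C Cᶜ * u := hu
  have h4 := cr_ne_zero D (Fin D.rk) (disjoint_compl_right (a := C))
  refine ⟨u, mul_left_cancel₀ h4 ?_⟩
  rw [← h1, h2, h3]
  ring

lemma sgn_ne (σ : W D) : (sgn D σ : S D (Fin D.rk)) ≠ 0 := by
  intro h
  have h2 : ((sgn D σ * sgn D σ : ℤ) : S D (Fin D.rk)) = 0 := by
    push_cast
    rw [h, zero_mul]
  rw [sgn_sq] at h2
  simp at h2

/-- quotients of alternating families -/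
lemma exists_quo {n : D.I → ℕ} {φ : Finset (B D) → S D (Fin D.rk)} (h : φ ∈ AF D (Fin D.rk) n)
    (E : Finset (B D) → S D (Fin D.rk)) (hE : ∀ A, E A ∣ φ A) (hE0 : ∀ A, E A ≠ 0)
    (hEact : ∀ σ A, act D (Fin D.rk) σ (E A) = (sgn D σ : S D (Fin D.rk)) * E (mp D σ A)) :
    ∃ F : Finset (B D) → S D (Fin D.rk), (∀ A, φ A = E A * F A) ∧
      EF D n fun A => inc D (F A) := by
  choose F hF using hE
  have hact : ∀ σ A, act D (Fin D.rk) σ (F A) = F (mp D σ A) := by
    intro σ A
    have h1 := h.1 σ A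
    rw [hF A, hF (mp D σ A), map_mul, hEact] at h1
    have h2 : (sgn D σ : S D (Fin D.rk)) * E (mp D σ A) ≠ 0 :=
      mul_ne_zero (sgn_ne D σ) (hE0 _)
    refine mul_left_cancel₀ h2 ?_
    rw [h1]
    ring
  refine ⟨F, hF, fun σ A => ?_, fun A hA => ?_⟩
  · rw [← inc_act, hact]
  · have h1 := h.2 A hA
    rw [hF A] at h1
    rcases mul_eq_zero.1 h1 with h2 | h2
    · exact absurd h2 (hE0 A)
    · simp only [h2, map_zero]

lemma zsB_union {X Y : Finset (B D)} (h : Disjoint X Y) :
    zs (wF D) (X ∪ Y) = zs (wF D) X * zs (wF D) Y := by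
  rw [zs, zs, zs, Finset.prod_union h]

lemma spec_prod_zq (K : Finset (B D)) {s : S D (ZZ D)} (hs : spec D s = 0) :
    spec D (∏ k ∈ K, zq D k s) = zs (wF D) K := by
  rw [map_prod, zs]
  exact Finset.prod_congr rfl fun k _ => spec_zq D k hs

lemma spec_Term (ν : D.I → ℤ) (d : Dat D) (D1 D2 K : Finset (B D)) :
    spec D (Term D ν d D1 D2 K) =
      spec D (d.f (D1 ∪ K)) * spec D (d.g (D2 ∪ K)) * zs (wF D) K *
        spec D (ww D (D1 ∪ D2)ᶜ K) := by
  have h0 : spec D (-hb D) = 0 := by rw [map_neg, spec_hb, neg_zero]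
  unfold Term
  split_ifs with h
  · rw [map_mul, map_mul, map_mul, spec_sh D h0, spec_prod_zq D K (map_zero (spec D))]
  · rw [map_mul, map_mul, map_mul, spec_sh D (spec_hb D), spec_prod_zq D K h0, spec_ww_compl]
    ring

lemma h_rp_ne {X Y : Finset (B D)} (h : Disjoint X Y) : rp (wF D).h X Y ≠ 0 := by
  rw [rp, Finset.prod_ne_zero_iff]
  intro b hb
  rw [Finset.prod_ne_zero_iff]
  intro c hc
  exact (wF D).h_ne b c fun e => Finset.disjoint_left.1 h hb (e ▸ hc)

lemma zs_ne (X : Finset (B D)) : zs (wF D) X ≠ 0 := by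
  rw [zs, Finset.prod_ne_zero_iff]
  exact fun b _ => (wF D).z_ne b

/-- the identity for one term -/
lemma term_id {D1 D2 K : Finset (B D)} (hd : Disjoint D1 D2) (hK : K ⊆ (D1 ∪ D2)ᶜ)
    {φ ψ F G : Finset (B D) → S D (Fin D.rk)}
    (hφ : ∀ A, φ A = Dl D (Fin D.rk) A * F A) (hψ : ∀ C, ψ C = Dl D (Fin D.rk) Cᶜ * G C) :
    (rp (wF D).h D1 D2 ^ 2 * rp (wF D).h D1 (D1 ∪ D2)ᶜ * rp (wF D).h (D1 ∪ D2)ᶜ D2 *
        zs (wF D) D1 * del D (Fin D.rk) ^ 2) *
      (F (D1 ∪ K) * G (D2 ∪ K) * zs (wF D) K * spec D (ww D (D1 ∪ D2)ᶜ K)) =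
    (rp (gg D) D1 D2 ^ 2 * rp (gg D) D1 (D1 ∪ D2)ᶜ * rp (gg D) (D1 ∪ D2)ᶜ D2 *
        spec D (Om D (D1 ∪ D2)ᶜ)) *
      (φ (D1 ∪ K) * ψ (D2 ∪ K) * (e (wF D) (D1 ∪ K) * zs (wF D) (D1 ∪ K)) *
        e (wF D) (D2 ∪ K)ᶜ) := by
  obtain ⟨M, hM⟩ : ∃ M, M = (D1 ∪ D2)ᶜ \ K := ⟨_, rfl⟩
  have hN : (D1 ∪ D2)ᶜ = K ∪ M := by rw [hM, Finset.union_sdiff_of_subset hK]
  have hKM : Disjoint K M := by rw [hM]; exact Finset.disjoint_sdiff
  have hm : ∀ b, (b ∉ D1 ∧ b ∉ D2) ↔ (b ∈ K ∨ b ∈ M) := by
    intro b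
    have := Finset.ext_iff.1 hN b
    simpa only [Finset.mem_compl, Finset.mem_union, not_or] using this
  have d12 : ∀ b, b ∈ D1 → b ∉ D2 := fun b => fun h => Finset.disjoint_left.1 hd h
  have dKM : ∀ b, b ∈ K → b ∉ M := fun b => fun h => Finset.disjoint_left.1 hKM h
  have hD1K : Disjoint D1 K := Finset.disjoint_left.2 fun b h1 h2 => ((hm b).2 (Or.inl h2)).1 h1
  have hD1M : Disjoint D1 M := Finset.disjoint_left.2 fun b h1 h2 => ((hm b).2 (Or.inr h2)).1 h1
  have hD2K : Disjoint D2 K := Finset.disjoint_left.2 fun b h1 h2 => ((hm b).2 (Or.inl h2)).2 h1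
  have hD2M : Disjoint D2 M := Finset.disjoint_left.2 fun b h1 h2 => ((hm b).2 (Or.inr h2)).2 h1
  have c1 : (D1 ∪ K)ᶜ = D2 ∪ M := by
    ext b
    have := hm b; have := d12 b; have := dKM b
    simp only [Finset.mem_compl, Finset.mem_union]
    tauto
  have c2 : (D2 ∪ K)ᶜ = D1 ∪ M := by
    ext b
    have := hm b; have := d12 b; have := dKM b
    simp only [Finset.mem_compl, Finset.mem_union]
    tauto
  have c3 : (D1 ∪ M)ᶜ = D2 ∪ K := by rw [← c2, compl_compl]
  have s1 := Dl_spec D (Fin D.rk) (D1 ∪ K)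
  have s2 := Dl_spec D (Fin D.rk) (D1 ∪ M)
  have s3 := spec_ww_union D hKM
  rw [cr_eq, c1, rp_union_left _ hD1K, rp_union_right _ hD2M, rp_union_right _ hD2M] at s1
  rw [cr_eq, c3, rp_union_left _ hD1M, rp_union_right _ hD2K, rp_union_right _ hD2K] at s2
  rw [hφ, hψ, e_eq, e_eq, c1, c2, c3, rp_union_left _ hD1K, rp_union_right _ hD2M,
    rp_union_right _ hD2M, rp_union_left _ hD1M, rp_union_right _ hD2K, rp_union_right _ hD2K,
    zsB_union D hD1K, hN, rp_union_right _ hKM, rp_union_left _ hKM, rp_union_right _ hKM,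
    rp_union_left _ hKM]
  have s4 : del D (Fin D.rk) ^ 2 =
      (rp (gg D) D1 D2 * rp (gg D) D1 M * (rp (gg D) K D2 * rp (gg D) K M) *
        Dl D (Fin D.rk) (D1 ∪ K)) *
      (rp (gg D) D1 D2 * rp (gg D) D1 K * (rp (gg D) M D2 * rp (gg D) M K) *
        Dl D (Fin D.rk) (D1 ∪ M)) := by
    rw [← s1, ← s2, sq]
  rw [s4]
  linear_combination (rp (wF D).h D1 D2 ^ 2 * (rp (wF D).h D1 K * rp (wF D).h D1 M) *
    (rp (wF D).h K D2 * rp (wF D).h M D2) * zs (wF D) D1 * (rp (gg D) D1 D2 ^ 2 *
    rp (gg D) D1 K * rp (gg D) D1 M * (rp (gg D) K D2 * rp (gg D) M D2) *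
    Dl D (Fin D.rk) (D1 ∪ K) * Dl D (Fin D.rk) (D1 ∪ M)) *
    F (D1 ∪ K) * G (D2 ∪ K) * zs (wF D) K) * s3

/-- From the quadratic relation: `f j A = inc (φ j A / Dl A)`, `g j C = inc (ψ j C / Dl Cᶜ)`
(`Dl_dvd`). With `N = (D1 ∪ D2)ᶜ`, `K ⊔ M = N`, `h(X, Y) = ∏_{b ∈ X, c ∈ Y} h b c` (`wF`),
`e (D1 ∪ K) zs (D1 ∪ K) e (D2 ∪ K)ᶜ = [h(D1,D2)^2 h(D1,N) h(N,D2) zs D1] * h(K,M) h(M,K) zs K`,
`cr (D1 ∪ K) (D1 ∪ K)ᶜ * cr (D2 ∪ K)ᶜ (D2 ∪ K) =
[cr D1 D2 ^ 2 * cr D1 N * cr N D2] * cr K M * cr M K`, and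
`spec (ww N K) * cr K M * cr M K = h(K,M) h(M,K) * spec (Om N)` (also for `M` instead of `K`).
Since `del = cr A Aᶜ * Dl A`, for every `K`
`Dl (D1 ∪ K) * Dl (D2 ∪ K)ᶜ * (e zs e) * [cr-bracket] * spec (Om N) =
[h-bracket] * del ^ 2 * spec (ww N K) * zs K`; the brackets do not depend on `K` and are not zero,
for `D1 = D2 = ∅` they are `1`. -/
theorem classical (ν : D.I → ℤ) {r : S D (Fin D.rk)} (h : LinRel (wF D) r) :
    ∃ L : List (Dat D), ∀ D1 D2 : Finset (B D), Disjoint D1 D2 →
      spec D (Num D ν L D1 D2) =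
        if D1 = ∅ ∧ D2 = ∅ then r * spec D (Om D Finset.univ) else 0 := by
  obtain ⟨m, n, φ, ψ, h1, h2⟩ := h
  have hF : ∀ j, ∃ F : Finset (B D) → S D (Fin D.rk),
      (∀ A, φ j A = Dl D (Fin D.rk) A * F A) ∧ EF D (n j) fun A => inc D (F A) := fun j =>
    exists_quo D (h1 j).2.1 (Dl D (Fin D.rk)) (fun A => Dl_dvd D (Fin D.rk) (h1 j).2.1 A)
      (fun A => Dl_ne_zero D (Fin D.rk) A) (fun σ A => act_Dl D (Fin D.rk) σ A)
  have hG : ∀ j, ∃ G : Finset (B D) → S D (Fin D.rk),
      (∀ C, ψ j C = Dl D (Fin D.rk) Cᶜ * G C) ∧ EF D (n j) fun C => inc D (G C) := fun j =>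
    exists_quo D (h1 j).2.2 (fun C => Dl D (Fin D.rk) Cᶜ)
      (fun C => (Dl_compl_dvd D C).trans (Dl_dvd D (Fin D.rk) (h1 j).2.2 C))
      (fun C => Dl_ne_zero D (Fin D.rk) Cᶜ)
      (fun σ C => by rw [act_Dl, mp_compl])
  choose F hF1 hF2 using hF
  choose G hG1 hG2 using hG
  refine ⟨List.ofFn fun j => ⟨n j, fun A => inc D (F j A), fun C => inc D (G j C), hF2 j, hG2 j,
    (h1 j).1⟩, fun D1 D2 hd => ?_⟩
  have hnum : spec D (Num D ν (List.ofFn fun j => (⟨n j, fun A => inc D (F j A),
      fun C => inc D (G j C), hF2 j, hG2 j, (h1 j).1⟩ : Dat D)) D1 D2) =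
      ∑ j, ∑ K ∈ (D1 ∪ D2)ᶜ.powerset, F j (D1 ∪ K) * G j (D2 ∪ K) * zs (wF D) K *
        spec D (ww D (D1 ∪ D2)ᶜ K) := by
    rw [Num, List.map_ofFn, List.sum_ofFn, map_sum]
    refine Finset.sum_congr rfl fun j _ => ?_
    rw [Function.comp_apply, map_sum]
    refine Finset.sum_congr rfl fun K _ => ?_
    rw [spec_Term, spec_inc, spec_inc]
  rw [hnum]
  set HB := rp (wF D).h D1 D2 ^ 2 * rp (wF D).h D1 (D1 ∪ D2)ᶜ * rp (wF D).h (D1 ∪ D2)ᶜ D2 *
        zs (wF D) D1 * del D (Fin D.rk) ^ 2 with hHB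
  set CB := rp (gg D) D1 D2 ^ 2 * rp (gg D) D1 (D1 ∪ D2)ᶜ * rp (gg D) (D1 ∪ D2)ᶜ D2 *
        spec D (Om D (D1 ∪ D2)ᶜ) with hCB
  have hkey : HB * (∑ j, ∑ K ∈ (D1 ∪ D2)ᶜ.powerset, F j (D1 ∪ K) * G j (D2 ∪ K) *
      zs (wF D) K * spec D (ww D (D1 ∪ D2)ᶜ K)) =
      CB * (if D1 = ∅ ∧ D2 = ∅ then r * del D (Fin D.rk) ^ 2 else 0) := by
    rw [← h2 D1 D2 hd, Finset.mul_sum, Finset.mul_sum]
    refine Finset.sum_congr rfl fun j _ => ?_
    rw [Finset.mul_sum, Finset.mul_sum]
    refine Finset.sum_congr rfl fun K hK => ?_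
    rw [Finset.mem_powerset] at hK
    exact term_id D hd hK (hF1 j) (hG1 j)
  have hdel : del D (Fin D.rk) ^ 2 ≠ 0 := pow_ne_zero 2 (del_ne_zero D (Fin D.rk))
  have hHB0 : HB ≠ 0 := by
    have g1 : Disjoint D1 (D1 ∪ D2)ᶜ :=
      disjoint_compl_right.mono_left Finset.subset_union_left
    have g2 : Disjoint (D1 ∪ D2)ᶜ D2 :=
      disjoint_compl_left.mono_right Finset.subset_union_right
    exact mul_ne_zero (mul_ne_zero (mul_ne_zero (mul_ne_zero (pow_ne_zero 2 (h_rp_ne D hd))
      (h_rp_ne D g1)) (h_rp_ne D g2)) (zs_ne D D1)) hdel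
  refine mul_left_cancel₀ hHB0 (hkey.trans ?_)
  split_ifs with hc
  · obtain ⟨rfl, rfl⟩ := hc
    rw [hHB, hCB]
    simp only [rp, zs, Finset.prod_empty, Finset.empty_union, Finset.compl_empty,
      Finset.prod_const_one, one_pow, one_mul]
    ring
  · rw [mul_zero, mul_zero]

end Vale.Agent.P291.H
end
end

section

section

set_option autoImplicit false
set_option linter.unusedSectionVars false

/-! Top-down elimination of the off-diagonal coefficients. -/

namespace Vale.Agent.P291.H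

open MvPolynomial Vale.Agent.P291.G

variable (D : QData)

/-- data invisible after specialization -/
def Inv0 (c : Dat D) : Prop := (∀ A, spec D (c.f A) = 0) ∨ ∀ A, spec D (c.g A) = 0

lemma specT_hb : spec D (hb D) = 0 := by
  rw [spec, hb, aeval_X]
  rfl

lemma specT_sh {s : S D (ZZ D)} (hs : s = hb D ∨ s = -hb D) (A : Finset (B D))
    (f : S D (ZZ D)) : spec D (sh D s A f) = spec D f := by
  have hs0 : spec D s = 0 := by
    rcases hs with h | h
    · rw [h, specT_hb]
    · rw [h, map_neg, specT_hb, neg_zero]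
  have h1 : (spec D).comp (sh D s A) = spec D := by
    apply MvPolynomial.algHom_ext
    intro i
    rw [AlgHom.comp_apply]
    rcases i with b | z
    · rw [sh, aeval_X, Sum.elim_inl]
      by_cases hb' : b ∈ A
      · rw [if_pos hb', map_add, hs0, add_zero]
        rfl
      · rw [if_neg hb']
        rfl
    · rw [sh, aeval_X, Sum.elim_inr]
  exact congrArg (fun φ : S D (ZZ D) →ₐ[ℂ] S D (Fin D.rk) => φ f) h1

lemma spec_Term_inv0 (ν : D.I → ℤ) (c : Dat D) (hc : Inv0 D c) (D1 D2 K : Finset (B D)) :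
    spec D (Term D ν c D1 D2 K) = 0 := by
  unfold Term
  split_ifs
  · rw [map_mul, map_mul, map_mul, specT_sh D (Or.inr rfl)]
    rcases hc with h | h
    · rw [h]; ring
    · rw [h]; ring
  · rw [map_mul, map_mul, map_mul, specT_sh D (Or.inl rfl)]
    rcases hc with h | h
    · rw [h]; ring
    · rw [h]; ring

lemma spec_Num_inv0 (ν : D.I → ℤ) (L : List (Dat D)) (hL : ∀ c ∈ L, Inv0 D c)
    (D1 D2 : Finset (B D)) : spec D (Num D ν L D1 D2) = 0 := by
  unfold Num
  rw [map_list_sum, List.map_map]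
  apply List.sum_eq_zero
  intro x hx
  rw [List.mem_map] at hx
  obtain ⟨c, hc, rfl⟩ := hx
  rw [Function.comp_apply, map_sum]
  exact Finset.sum_eq_zero fun K _ => spec_Term_inv0 D ν c (hL c hc) D1 D2 K

lemma Num_nil (ν : D.I → ℤ) (D1 D2 : Finset (B D)) : Num D ν [] D1 D2 = 0 := by
  simp [Num]

lemma Num_cons (ν : D.I → ℤ) (c : Dat D) (L : List (Dat D)) (D1 D2 : Finset (B D)) :
    Num D ν (c :: L) D1 D2 = Num D ν [c] D1 D2 + Num D ν L D1 D2 := by
  simp [Num]

lemma Num_ofFn (ν : D.I → ℤ) {m : ℕ} (c : Fin m → Dat D) (D1 D2 : Finset (B D)) :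
    Num D ν (List.ofFn c) D1 D2 = ∑ t, Num D ν [c t] D1 D2 := by
  simp [Num, List.map_ofFn, List.sum_ofFn]

lemma Num_flatMap {α : Type} (ν : D.I → ℤ) (l : List α) (F : α → List (Dat D))
    (D1 D2 : Finset (B D)) :
    Num D ν (l.flatMap F) D1 D2 = (l.map fun a => Num D ν (F a) D1 D2).sum := by
  induction l with
  | nil => simp [Num]
  | cons a l ih => rw [List.flatMap_cons, Num_append, ih, List.map_cons, List.sum_cons]

lemma Om_ne_zero' (N : Finset (B D)) : Om D N ≠ 0 := by
  intro h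
  apply spec_Om_ne_zero D N
  rw [h, map_zero]

/-- the new data of one type -/
lemma topdown_type (ν : D.I → ℤ) (L : List (Dat D)) (d : ℕ) (hd : 1 ≤ d)
    (h0 : ∀ D1 D2 : Finset (B D), Disjoint D1 D2 → D1.card = d → spec D (Num D ν L D1 D2) = 0)
    (h : ∀ D1 D2 : Finset (B D), Disjoint D1 D2 → d + 1 ≤ D1.card → Num D ν L D1 D2 = 0)
    (D1 D2 : Finset (B D)) (hD : Disjoint D1 D2) (hc : D1.card = d)
    (ht : typ D D1 = typ D D2) :
    ∃ L' : List (Dat D), (∀ c ∈ L', Inv0 D c ∧ c.n = typ D D1) ∧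
      ∀ E1 E2 : Finset (B D), Disjoint E1 E2 → typ D E1 = typ D D1 → typ D E2 = typ D D1 →
        Num D ν L' E1 E2 = -Num D ν L E1 E2 := by
  classical
  have hn : typ D D1 ≠ 0 := by
    intro h1
    have h2 := sum_typ D D1
    rw [h1, hc] at h2
    simp at h2
    omega
  obtain ⟨G, hG⟩ : Om D (D1 ∪ D2)ᶜ ∣ Num D ν L D1 D2 := by
    refine Om_dvd_Num D ν L hD ?_
    intro a ha b hb' hab hv
    rw [Finset.mem_compl, Finset.mem_union, not_or] at ha hb'
    refine h _ _ ?_ ?_
    · rw [Finset.disjoint_insert_left, Finset.disjoint_insert_right]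
      refine ⟨?_, ha.1, hD⟩
      rw [Finset.mem_insert, not_or]
      exact ⟨fun h => hab h.symm, hb'.2⟩
    · rw [Finset.card_insert_of_notMem hb'.1, hc]
  have hG0 : spec D G = 0 := by
    have h1 := h0 D1 D2 hD hc
    rw [hG, map_mul] at h1
    rcases mul_eq_zero.mp h1 with h2 | h2
    · exact absurd h2 (spec_Om_ne_zero D _)
    · exact h2
  have hGi : ∀ σ, mp D σ D1 = D1 → mp D σ D2 = D2 → act D (ZZ D) σ G = G := by
    intro σ h1 h2
    have h3 := act_Num D ν L σ D1 D2
    rw [h1, h2, hG, map_mul, act_Om, mp_compl, mp_union, h1, h2] at h3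
    exact mul_left_cancel₀ (Om_ne_zero' D _) h3
  have key : ∀ L' : List (Dat D), Num D ν L' D1 D2 = -Num D ν L D1 D2 →
      ∀ E1 E2 : Finset (B D), Disjoint E1 E2 → typ D E1 = typ D D1 → typ D E2 = typ D D1 →
        Num D ν L' E1 E2 = -Num D ν L E1 E2 := by
    intro L' hL' E1 E2 hE h1 h2
    obtain ⟨σ, hσ1, hσ2⟩ := exists_mp_disj D hD hE h1.symm (ht.symm.trans h2.symm)
    rw [← hσ1, ← hσ2, ← act_Num, ← act_Num, hL', map_neg]
  by_cases hν : ∑ i, ν i * (typ D D1 i : ℤ) < 0
  · obtain ⟨m, a, b, hab, hsum⟩ := liftB D (s := -hb D) (Or.inr rfl) hD ht (G := -G)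
      (fun σ h1 h2 => by rw [map_neg, hGi σ h1 h2]) (by rw [map_neg, hG0, neg_zero])
    let c : Fin m → Dat D := fun t =>
      ⟨typ D D1, a t, b t, (hab t).1, (hab t).2.1, hn⟩
    refine ⟨List.ofFn c, ?_, key _ ?_⟩
    · intro c' hc'
      rw [List.mem_ofFn] at hc'
      obtain ⟨t, rfl⟩ := hc'
      exact ⟨Or.inl (hab t).2.2, rfl⟩
    · rw [Num_ofFn]
      have h1 : ∀ t, Num D ν [c t] D1 D2 = Om D (D1 ∪ D2)ᶜ * (a t D1 * sh D (-hb D) D1 (b t D2)) := by
        intro t
        rw [Num_single_top D ν (c t) hD rfl, if_pos hν]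
      rw [Finset.sum_congr rfl fun t _ => h1 t, ← Finset.mul_sum, hsum, hG, mul_neg]
  · obtain ⟨m, a, b, hab, hsum⟩ := liftB D (s := hb D) (Or.inl rfl) hD.symm ht.symm (G := -G)
      (fun σ h1 h2 => by rw [map_neg, hGi σ h2 h1]) (by rw [map_neg, hG0, neg_zero])
    rw [← ht] at hab
    let c : Fin m → Dat D := fun t =>
      ⟨typ D D1, b t, a t, (hab t).2.1, (hab t).1, hn⟩
    refine ⟨List.ofFn c, ?_, key _ ?_⟩
    · intro c' hc'
      rw [List.mem_ofFn] at hc'
      obtain ⟨t, rfl⟩ := hc'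
      exact ⟨Or.inr (hab t).2.2, rfl⟩
    · rw [Num_ofFn]
      have h1 : ∀ t, Num D ν [c t] D1 D2 = Om D (D1 ∪ D2)ᶜ * (a t D2 * sh D (hb D) D2 (b t D1)) := by
        intro t
        rw [Num_single_top D ν (c t) hD rfl, if_neg hν]
      rw [Finset.sum_congr rfl fun t _ => h1 t, ← Finset.mul_sum, hsum, hG, mul_neg]

lemma Num_eq_zero_of_typ (ν : D.I → ℤ) (L : List (Dat D)) {D1 D2 : Finset (B D)}
    (h : Disjoint D1 D2) (hL : ∀ c ∈ L, ¬ typ D D1 ≤ c.n) : Num D ν L D1 D2 = 0 := by
  induction L with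
  | nil => exact Num_nil D ν D1 D2
  | cons c L ih =>
    rw [Num_cons, ih fun c' hc' => hL c' (List.mem_cons_of_mem _ hc'), add_zero]
    by_contra hne
    exact hL c List.mem_cons_self (Num_single_ne D ν c h hne)

/-- One step. For every type `n` with `∑ n = d` having a pair of disjoint subsets of type `n`
choose such a pair `(D1, D2)`; by `Om_dvd_Num` (the numerators of level `d + 1` vanish, by `Num_typ`
for different types) `Num L D1 D2 = Om (D1 ∪ D2)ᶜ * G`, `spec G = 0`, `G` invariant under the common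
stabilizer. Apply `liftB` to `-G` (if `ν·n < 0`: `s = -ħ`, `f = a`, `g = b`; otherwise, with the
roles of `D1`, `D2` exchanged: `s = ħ`, `g = a`, `f = b`). The new data `c` of type `n` have
`Num [c] E1 E2 = 0` if `E1.card > d`, or if `E1.card = d` and `typ E1 ≠ n` (`Num_single_ne`), and
`Num L' D1 D2 = - Num L D1 D2` (`Num_single_top`), hence the same at all disjoint pairs of type
`n` (`exists_mp_disj`, `act_Num`). -/
lemma topdown_step (ν : D.I → ℤ) (L : List (Dat D)) (d : ℕ) (hd : 1 ≤ d)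
    (h0 : ∀ D1 D2 : Finset (B D), Disjoint D1 D2 → D1.card = d → spec D (Num D ν L D1 D2) = 0)
    (h : ∀ D1 D2 : Finset (B D), Disjoint D1 D2 → d + 1 ≤ D1.card → Num D ν L D1 D2 = 0) :
    ∃ L' : List (Dat D), (∀ c ∈ L', Inv0 D c) ∧
      ∀ D1 D2 : Finset (B D), Disjoint D1 D2 → d ≤ D1.card → Num D ν (L ++ L') D1 D2 = 0 := by
  classical
  -- the data of a given type
  have hex : ∀ n : D.I → ℕ, ∃ L' : List (Dat D), (∀ c ∈ L', Inv0 D c ∧ c.n = n ∧ ∑ i, n i = d) ∧
      ∀ E1 E2 : Finset (B D), Disjoint E1 E2 → E1.card = d → typ D E1 = n → typ D E2 = n →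
        Num D ν L' E1 E2 = -Num D ν L E1 E2 := by
    intro n
    by_cases hn : ∃ D1 D2 : Finset (B D), Disjoint D1 D2 ∧ D1.card = d ∧ typ D D1 = n ∧
        typ D D2 = n
    · obtain ⟨D1, D2, hD, hc, h1, h2⟩ := hn
      obtain ⟨L', hL1, hL2⟩ := topdown_type D ν L d hd h0 h D1 D2 hD hc (h1.trans h2.symm)
      refine ⟨L', fun c hc' => ⟨(hL1 c hc').1, (hL1 c hc').2.trans h1, ?_⟩, ?_⟩
      · rw [← h1, sum_typ, hc]
      · intro E1 E2 hE _ e1 e2
        exact hL2 E1 E2 hE (e1.trans h1.symm) (e2.trans h1.symm)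
    · refine ⟨[], fun c hc => absurd hc List.not_mem_nil, ?_⟩
      intro E1 E2 hE hc e1 e2
      exact absurd ⟨E1, E2, hE, hc, e1, e2⟩ hn
  choose F hF1 hF2 using hex
  let T : Finset (D.I → ℕ) := Finset.univ.image (typ D)
  refine ⟨T.toList.flatMap F, ?_, ?_⟩
  · intro c hc
    rw [List.mem_flatMap] at hc
    obtain ⟨n, _, hn⟩ := hc
    exact (hF1 n c hn).1
  · intro D1 D2 hD hc
    rw [Num_append, Num_flatMap]
    by_cases ht : typ D D1 = typ D D2
    swap
    · rw [Num_typ D ν L hD ht]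
      rw [zero_add]
      apply List.sum_eq_zero
      intro x hx
      rw [List.mem_map] at hx
      obtain ⟨n, _, rfl⟩ := hx
      exact Num_typ D ν _ hD ht
    have hzero : ∀ n, n ≠ typ D D1 → Num D ν (F n) D1 D2 = 0 := by
      intro n hn
      apply Num_eq_zero_of_typ D ν _ hD
      intro c hc' hle
      obtain ⟨_, h2, h3⟩ := hF1 n c hc'
      rw [h2] at hle
      have h4 : ∑ i, typ D D1 i ≤ ∑ i, n i := Finset.sum_le_sum fun i _ => hle i
      rw [h3, sum_typ] at h4
      have h5 : ∑ i, typ D D1 i = ∑ i, n i := by rw [h3, sum_typ]; omega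
      apply hn
      funext i
      exact (((Finset.sum_eq_sum_iff_of_le fun i _ => hle i).mp h5) i (Finset.mem_univ i)).symm
    have hmem : typ D D1 ∈ T := Finset.mem_image_of_mem _ (Finset.mem_univ _)
    have hsum : (T.toList.map fun a => Num D ν (F a) D1 D2).sum = Num D ν (F (typ D D1)) D1 D2 := by
      rw [Finset.sum_map_toList]
      exact Finset.sum_eq_single_of_mem _ hmem fun n _ hn => hzero n hn
    rw [hsum]
    rcases hc.eq_or_lt with hc' | hc'
    · rw [hF2 (typ D D1) D1 D2 hD hc'.symm rfl ht.symm]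
      ring
    · rw [h D1 D2 hD hc', zero_add]
      apply Num_eq_zero_of_typ D ν _ hD
      intro c hc2 _
      obtain ⟨_, _, h3⟩ := hF1 (typ D D1) c hc2
      rw [sum_typ] at h3
      omega

/-- the top-down induction: starts above the cardinality of `B D`, where `Num` vanishes by
`Num_typ` or because there are no disjoint pairs -/
theorem topdown (ν : D.I → ℤ) (L : List (Dat D))
    (h0 : ∀ D1 D2 : Finset (B D), Disjoint D1 D2 → 1 ≤ D1.card → spec D (Num D ν L D1 D2) = 0) :
    ∃ L' : List (Dat D), (∀ c ∈ L', Inv0 D c) ∧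
      ∀ D1 D2 : Finset (B D), Disjoint D1 D2 → 1 ≤ D1.card → Num D ν (L ++ L') D1 D2 = 0 := by
  have key : ∀ k : ℕ, ∃ L' : List (Dat D), (∀ c ∈ L', Inv0 D c) ∧
      ∀ D1 D2 : Finset (B D), Disjoint D1 D2 → 1 ≤ D1.card →
        Fintype.card (B D) + 1 - k ≤ D1.card → Num D ν (L ++ L') D1 D2 = 0 := by
    intro k
    induction k with
    | zero =>
      refine ⟨[], fun c hc => absurd hc List.not_mem_nil, ?_⟩
      intro D1 D2 _ _ hc
      have := Finset.card_le_univ D1
      omega
    | succ k ih =>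
      obtain ⟨L', hL1, hL2⟩ := ih
      by_cases hk : 1 ≤ Fintype.card (B D) + 1 - (k + 1)
      · obtain ⟨L'', hL3, hL4⟩ := topdown_step D ν (L ++ L') (Fintype.card (B D) + 1 - (k + 1)) hk
          (fun D1 D2 hD hc => by
            rw [Num_append, map_add, h0 D1 D2 hD (by omega), spec_Num_inv0 D ν L' hL1, add_zero])
          (fun D1 D2 hD hc => hL2 D1 D2 hD (by omega) (by omega))
        refine ⟨L' ++ L'', ?_, ?_⟩
        · intro c hc
          rcases List.mem_append.mp hc with h | h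
          · exact hL1 c h
          · exact hL3 c h
        · intro D1 D2 hD _ hc
          rw [← List.append_assoc]
          exact hL4 D1 D2 hD hc
      · refine ⟨L', hL1, fun D1 D2 hD h1 hc => ?_⟩
        exact hL2 D1 D2 hD h1 (by omega)
  obtain ⟨L', hL1, hL2⟩ := key (Fintype.card (B D) + 1)
  exact ⟨L', hL1, fun D1 D2 hD h1 => hL2 D1 D2 hD h1 (by omega)⟩

end Vale.Agent.P291.H
end
end

section

section

set_option autoImplicit false
set_option linter.unusedSectionVars false

/-! Step B. -/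

namespace Vale.Agent.P291.H

open MvPolynomial Vale.Agent.P291.G

variable (D : QData)

/-- STEP B. -/
theorem stepB (ν : D.I → ℤ) (hν : ∀ n : D.I → ℕ, n ≠ 0 → n ≤ D.v → ∑ i, ν i * (n i : ℤ) ≠ 0)
    {r : S D (Fin D.rk)} (h : LinRel (wF D) r) :
    ∃ g : S D (ZZ D), (∀ σ, act D (ZZ D) σ g = g) ∧
      g * Om D Finset.univ ∈ Ideal.span {p | ∃ l : B D → ℤ, wt D ν l < 0 ∧ p = elq D l} ∧
      spec D g = r := by
  obtain ⟨L, hL⟩ := classical D ν h
  obtain ⟨L', hL', h1⟩ := topdown D ν L fun D1 D2 hd hc => by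
    rw [hL D1 D2 hd, if_neg]
    rintro ⟨rfl, -⟩
    simp at hc
  have h2 : Om D (∅ ∪ ∅ : Finset (B D))ᶜ ∣ Num D ν (L ++ L') ∅ ∅ := by
    refine Om_dvd_Num D ν (L ++ L') (Finset.disjoint_empty_left _) fun a _ b _ hab _ => ?_
    refine h1 _ _ ?_ ?_
    · rw [Finset.disjoint_left]
      intro c hc hc'
      simp only [Finset.mem_insert, Finset.notMem_empty, or_false] at hc hc'
      exact hab (hc'.symm.trans hc)
    · simp
  rw [Finset.empty_union, Finset.compl_empty] at h2
  obtain ⟨g, hg⟩ := h2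
  have hOm : Om D (Finset.univ : Finset (B D)) ≠ 0 := fun h0 =>
    spec_Om_ne_zero D Finset.univ (by rw [h0, map_zero])
  refine ⟨g, fun σ => ?_, ?_, ?_⟩
  · apply mul_left_cancel₀ hOm
    have h3 := act_Num D ν (L ++ L') σ ∅ ∅
    have h4 : mp D σ ∅ = ∅ := by rw [mp, Finset.map_empty]
    rw [h4, hg, map_mul, act_Om] at h3
    have h5 : mp D σ Finset.univ = Finset.univ := by
      ext b; rw [mem_mp']; simp
    rw [h5] at h3
    exact h3
  · rw [mul_comm, ← hg]
    exact Num_mem D ν hν (L ++ L')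
  · apply mul_right_cancel₀ (spec_Om_ne_zero D Finset.univ)
    rw [← map_mul, mul_comm, ← hg, Num_append, map_add, spec_Num_inv0 D ν L' hL', add_zero,
      hL ∅ ∅ (Finset.disjoint_empty_left _), if_pos ⟨rfl, rfl⟩]

end Vale.Agent.P291.H
end
end

section

section

set_option autoImplicit false
set_option linter.unusedSectionVars false

/-! Specialization of the quadratic relations. -/

namespace Vale.Agent.P291.H.M

open MvPolynomial Vale.Agent.P291.G

variable (D : QData)

lemma spec_wX_h (b c : B D) : spec D ((wX D).h b c) = (wF D).h b c :=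
  spec_hq D b c (map_zero (spec D))

lemma spec_wX_z (b : B D) : spec D ((wX D).z b) = (wF D).z b :=
  spec_zq D b (map_zero (spec D))

lemma spec_e (A : Finset (B D)) : spec D (e (wX D) A) = e (wF D) A := by
  unfold e
  rw [map_prod]
  refine Finset.prod_congr rfl fun b _ => ?_
  rw [map_prod]
  exact Finset.prod_congr rfl fun c _ => spec_wX_h D b c

lemma spec_zs (A : Finset (B D)) : spec D (zs (wX D) A) = zs (wF D) A := by
  unfold zs
  rw [map_prod]
  exact Finset.prod_congr rfl fun b _ => spec_wX_z D b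

/-- the specialization of an alternating family is alternating -/
lemma spec_AF {n : D.I → ℕ} {φ : Finset (B D) → S D (ZZ D)} (h : φ ∈ AF D (ZZ D) n) :
    (fun A => spec D (φ A)) ∈ AF D (Fin D.rk) n := by
  refine ⟨fun σ A => ?_, fun A hA => ?_⟩
  · have h1 := congrArg (spec D) (h.1 σ A)
    rw [spec_act, map_mul, map_intCast] at h1
    exact h1
  · change spec D (φ A) = 0
    rw [h.2 A hA, map_zero]

/-- the specialization of a quadratic relation is a quadratic relation (`spec_act`, `bl_spec_del`,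
`spec_hq`, `spec_zq`) -/
theorem linRel_spec {r : S D (ZZ D)} (h : LinRel (wX D) r) : LinRel (wF D) (spec D r) := by
  obtain ⟨m, n, φ, ψ, h1, h2⟩ := h
  refine ⟨m, n, fun j A => spec D (φ j A), fun j A => spec D (ψ j A), fun j => ?_,
    fun D1 D2 hD => ?_⟩
  · exact ⟨(h1 j).1, spec_AF D (h1 j).2.1, spec_AF D (h1 j).2.2⟩
  · have h3 := congrArg (spec D) (h2 D1 D2 hD)
    rw [map_sum] at h3
    simp only [map_sum, map_mul, spec_e, spec_zs] at h3
    rw [h3]
    split_ifs with h4
    · rw [map_mul, map_pow, bl_spec_del]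
    · rw [map_zero]

end Vale.Agent.P291.H.M
end
end

section

section

set_option autoImplicit false
set_option linter.unusedSectionVars false

/-! Quadratic relations give elements of the cut ideal. -/

namespace Vale.Agent.P291.H.M

open MvPolynomial Vale.Agent.P291.G

variable (D : QData)

/-- the substitution `ħ ↦ 0` -/
noncomputable def z0 : S D (ZZ D) →ₐ[ℂ] S D (ZZ D) :=
  aeval (Sum.elim (fun b => xq D b) (Sum.elim (fun a => X (Sum.inr (Sum.inl a)))
    (Sum.elim (fun _ => 0) fun j => X (Sum.inr (Sum.inr (Sum.inr j))))))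

lemma Fwd_z0_xq (b : B D) : z0 D (xq D b) = xq D b := by
  rw [z0, xq, xx, aeval_X]; rfl

lemma Fwd_z0_hb : z0 D (hb D) = 0 := by
  rw [z0, hb, aeval_X]; rfl

lemma Fwd_z0_tv (a : D.A) : z0 D (tv D a) = tv D a := by
  rw [z0, tv, aeval_X]; rfl

lemma Fwd_z0_zv (i : D.I) (k : Fin (D.w i)) : z0 D (zv D i k) = zv D i k := by
  rw [z0, zv, aeval_X]; rfl

lemma z0_act (σ : W D) (f : S D (ZZ D)) :
    z0 D (act D (ZZ D) σ f) = act D (ZZ D) σ (z0 D f) := by
  have h : (z0 D).comp (act D (ZZ D) σ) = (act D (ZZ D) σ).comp (z0 D) := by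
    apply MvPolynomial.algHom_ext
    intro b
    rw [AlgHom.comp_apply, AlgHom.comp_apply, act, rename_X, z0, aeval_X, aeval_X]
    rcases b with b | (a | (u | j))
    · simp [xx, rename_X]
    · simp [rename_X]
    · simp
    · simp [rename_X]
  exact DFunLike.congr_fun h f

lemma spec_z0 (f : S D (ZZ D)) : spec D (z0 D f) = spec D f := by
  have h : (spec D).comp (z0 D) = spec D := by
    apply MvPolynomial.algHom_ext
    intro b
    rw [AlgHom.comp_apply, z0, aeval_X]
    rcases b with b | (a | (u | j))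
    · simp [xx]
    · simp
    · simp [spec]
    · simp
  exact DFunLike.congr_fun h f

lemma Fwd_z0_g0 (a b : B D) : z0 D (g0 D a b) = g0 D a b := by
  unfold g0
  split_ifs
  · rw [map_sub, Fwd_z0_xq, Fwd_z0_xq]
  · rw [map_one]

lemma Fwd_z0_g1 (a b : B D) : z0 D (g1 D a b) = g0 D a b := by
  unfold g0 g1
  split_ifs
  · rw [map_add, map_sub, Fwd_z0_xq, Fwd_z0_xq, Fwd_z0_hb, add_zero]
  · rw [map_one]

lemma Fwd_z0_hq (b c : B D) {s : S D (ZZ D)} (hs : z0 D s = 0) :
    z0 D (hq D b c s) = hq D b c 0 := by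
  rw [hq, hq, map_prod]
  refine Finset.prod_congr rfl fun a _ => ?_
  rw [map_add, map_add, map_sub, Fwd_z0_xq, Fwd_z0_xq, Fwd_z0_tv, hs]

lemma Fwd_z0_zq (b : B D) {s : S D (ZZ D)} (hs : z0 D s = 0) :
    z0 D (zq D b s) = zq D b 0 := by
  rw [zq, zq, map_prod]
  refine Finset.prod_congr rfl fun a _ => ?_
  rw [map_add, map_sub, Fwd_z0_xq, Fwd_z0_zv, hs]

lemma Fwd_z0_pw (p q : B D) (i j : Bool) : z0 D (pw D p q i j) =
    (if i = j then g0 D p q else hq D p q 0) * g0 D p q := by
  have h0 : z0 D (-hb D) = 0 := by rw [map_neg, Fwd_z0_hb, neg_zero]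
  cases i <;> cases j <;>
    simp [pw, Fwd_z0_g0, Fwd_z0_g1, Fwd_z0_hq D p q h0, Fwd_z0_hq D p q (map_zero (z0 D))]

open Classical in
lemma Fwd_dd (p : B D → B D → Prop) : dd D (ZZ D) p =
    ∏ b, ∏ c ∈ Finset.univ.erase b, if p b c then g0 D b c else 1 := by
  rw [dd]
  refine Finset.prod_congr rfl fun b _ => ?_
  rw [← Finset.mul_prod_erase Finset.univ _ (Finset.mem_univ b), if_neg fun h => h.1 rfl, one_mul]
  refine Finset.prod_congr rfl fun c hc => ?_
  have hne : b ≠ c := (Finset.ne_of_mem_erase hc).symm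
  unfold g0
  by_cases h1 : p b c
  · by_cases h2 : b.1 = c.1
    · rw [if_pos ⟨hne, h2, h1⟩, if_pos h1, if_pos h2]
    · rw [if_neg (fun h => h2 h.2.1), if_pos h1, if_neg h2]
  · rw [if_neg (fun h => h1 h.2.2), if_neg h1]

lemma Fwd_ddT : ddT D (ZZ D) = ∏ b, ∏ c ∈ Finset.univ.erase b, g0 D b c := by
  classical
  rw [ddT, Fwd_dd]
  simp only [if_true]

lemma z0_Om : z0 D (Om D Finset.univ) = ddT D (ZZ D) ^ 2 := by
  rw [Om, map_prod, Fwd_ddT, sq, ← Finset.prod_mul_distrib]
  refine Finset.prod_congr rfl fun b _ => ?_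
  rw [map_prod, ← Finset.prod_mul_distrib]
  refine Finset.prod_congr rfl fun c _ => ?_
  rw [map_mul, Fwd_z0_g0, Fwd_z0_g1]

open Classical in
lemma Fwd_cross (K : Finset (B D)) (f : B D → B D → S D (ZZ D)) :
    ∏ b, ∏ c ∈ Finset.univ.erase b, (if (b ∈ K ↔ c ∈ K) then 1 else f b c) =
      (∏ b ∈ K, ∏ c ∈ Kᶜ, f b c) * ∏ b ∈ Kᶜ, ∏ c ∈ K, f b c := by
  have h1 : ∀ b, ∏ c ∈ Finset.univ.erase b, (if (b ∈ K ↔ c ∈ K) then 1 else f b c) =
      ∏ c, (if (b ∈ K ↔ c ∈ K) then 1 else f b c) := by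
    intro b
    rw [← Finset.mul_prod_erase Finset.univ (fun c => if (b ∈ K ↔ c ∈ K) then 1 else f b c)
      (Finset.mem_univ b), if_pos Iff.rfl, one_mul]
  simp only [h1]
  rw [← Finset.prod_mul_prod_compl K]
  congr 1
  · refine Finset.prod_congr rfl fun b hb => ?_
    rw [← Finset.prod_mul_prod_compl K, Finset.prod_eq_one (s := K), one_mul]
    · refine Finset.prod_congr rfl fun c hc => ?_
      rw [if_neg]
      intro h
      exact (Finset.mem_compl.1 hc) (h.1 hb)
    · intro c hc
      rw [if_pos]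
      exact ⟨fun _ => hc, fun _ => hb⟩
  · refine Finset.prod_congr rfl fun b hb => ?_
    have hb' := Finset.mem_compl.1 hb
    rw [← Finset.prod_mul_prod_compl K, Finset.prod_eq_one (s := Kᶜ), mul_one]
    · refine Finset.prod_congr rfl fun c hc => ?_
      rw [if_neg]
      intro h
      exact hb' (h.2 hc)
    · intro c hc
      have hc' := Finset.mem_compl.1 hc
      rw [if_pos]
      exact ⟨fun h => absurd h hb', fun h => absurd h hc'⟩

/-- with `p b c = (b ∈ K ↔ c ∈ K)`; the mixed pairs contribute `hq p q 0 * g0 p q` -/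
lemma z0_ww (K : Finset (B D)) : z0 D (ww D Finset.univ K) =
    ddT D (ZZ D) * (dd D (ZZ D) fun b c => (b ∈ K ↔ c ∈ K)) * (e (wX D) K * e (wX D) Kᶜ) := by
  classical
  have h1 : e (wX D) K * e (wX D) Kᶜ = ∏ b, ∏ c ∈ Finset.univ.erase b,
      (if (b ∈ K ↔ c ∈ K) then 1 else hq D b c 0) := by
    rw [Fwd_cross, e, e, compl_compl]
    rfl
  rw [ww, map_prod, Fwd_ddT, Fwd_dd, h1, ← Finset.prod_mul_distrib, ← Finset.prod_mul_distrib]
  refine Finset.prod_congr rfl fun b _ => ?_
  rw [map_prod, ← Finset.prod_mul_distrib, ← Finset.prod_mul_distrib]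
  refine Finset.prod_congr rfl fun c _ => ?_
  rw [Fwd_z0_pw]
  by_cases h : b ∈ K ↔ c ∈ K
  · rw [if_pos h, if_pos h, if_pos (by rw [decide_eq_decide]; exact h), mul_one]
  · rw [if_neg h, if_neg h, if_neg (by rw [decide_eq_decide]; exact h), mul_one, mul_comm]

lemma Fwd_Term (d : Dat D) (K : Finset (B D)) :
    ∃ q ∈ cutI (wX D), z0 D (Term D 0 d ∅ ∅ K) = ddT D (ZZ D) * q := by
  classical
  by_cases hK : K = ∅
  · refine ⟨0, Ideal.zero_mem _, ?_⟩
    have h1 : d.f (∅ ∪ K) = 0 := by
      apply d.hf.2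
      rw [hK, Finset.union_empty, typ_empty]
      exact fun h => d.hn h.symm
    rw [Term]
    split_ifs
    · rw [h1, zero_mul, zero_mul, zero_mul, map_zero, mul_zero]
    · rw [h1, map_zero, mul_zero, zero_mul, zero_mul, map_zero, mul_zero]
  · have hlt : ¬ (∑ i, (0 : D.I → ℤ) i * d.n i < 0) := by simp
    rw [Term, if_neg hlt]
    have hc : ((∅ ∪ ∅ : Finset (B D))ᶜ \ K) = Kᶜ := by
      ext b; simp
    have hu : (∅ ∪ ∅ : Finset (B D))ᶜ = Finset.univ := by
      ext b; simp
    rw [hc, hu, map_mul, z0_ww, map_mul, map_prod]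
    have hz : ∏ k ∈ K, z0 D (zq D k (-hb D)) = zs (wX D) K := by
      rw [zs]
      refine Finset.prod_congr rfl fun k _ => ?_
      exact Fwd_z0_zq D k (by rw [map_neg, Fwd_z0_hb, neg_zero])
    rw [hz, compl_compl]
    refine ⟨z0 D (d.g (∅ ∪ K) * sh D (hb D) (∅ ∪ K) (d.f (∅ ∪ K))) *
      (dd D (ZZ D) fun b c => (b ∈ Kᶜ ↔ c ∈ Kᶜ)) *
      (e (wX D) K * e (wX D) Kᶜ * zs (wX D) K), ?_, by ring⟩
    exact Ideal.mul_mem_left _ _ (Ideal.subset_span
      ⟨K, Finset.nonempty_iff_ne_empty.2 hK, rfl⟩)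

/-- every term of `Num` with `D1 = D2 = ∅` is, for `ħ = 0`, in `ddT * cutI` (`K ≠ ∅` because
`d.n ≠ 0`; `ν = 0`, so the second case of `Term` applies, where
`z0 (ww univ (univ \ K)) = z0 (ww univ K)`) -/
lemma z0_Num (L : List (Dat D)) : ∃ q ∈ cutI (wX D), z0 D (Num D 0 L ∅ ∅) = ddT D (ZZ D) * q := by
  classical
  induction L with
  | nil =>
    refine ⟨0, Ideal.zero_mem _, ?_⟩
    rw [Num_nil, map_zero, mul_zero]
  | cons d L ih =>
    obtain ⟨q, hq, h1⟩ := ih
    rw [Num_cons, map_add, h1]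
    have h2 : ∀ s : Finset (Finset (B D)), ∃ q ∈ cutI (wX D),
        z0 D (∑ K ∈ s, Term D 0 d ∅ ∅ K) = ddT D (ZZ D) * q := by
      intro s
      induction s using Finset.induction_on with
      | empty => exact ⟨0, Ideal.zero_mem _, by rw [Finset.sum_empty, map_zero, mul_zero]⟩
      | insert K s hK ih =>
        obtain ⟨q1, hq1, h3⟩ := ih
        obtain ⟨q2, hq2, h4⟩ := Fwd_Term D d K
        exact ⟨q2 + q1, Ideal.add_mem _ hq2 hq1, by
          rw [Finset.sum_insert hK, map_add, h3, h4, mul_add]⟩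
    obtain ⟨q', hq', h3⟩ := h2 (∅ ∪ ∅ : Finset (B D))ᶜ.powerset
    refine ⟨q' + q, Ideal.add_mem _ hq' hq, ?_⟩
    rw [mul_add, ← h3]
    congr 2
    rw [Num]
    simp

/-- Proof: like `stepB` with `ν = 0` (which is not used in `classical`, `topdown`): there are `L`, `L'`
and an invariant `g` with `Num D 0 (L ++ L') ∅ ∅ = Om univ * g` and `spec g = r`. Then
`z0 g * ddT ^ 2 = ddT * q`, cancel `ddT`. -/
theorem fwd {r : S D (Fin D.rk)} (h : LinRel (wF D) r) :
    ∃ g : S D (ZZ D), (∀ σ, act D (ZZ D) σ g = g) ∧ g * ddT D (ZZ D) ∈ cutI (wX D) ∧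
      spec D g = r := by
  obtain ⟨L, hL⟩ := classical D 0 h
  obtain ⟨L', hL', h1⟩ := topdown D 0 L fun D1 D2 hd hc => by
    rw [hL D1 D2 hd, if_neg]
    rintro ⟨rfl, -⟩
    simp at hc
  have h2 : Om D (∅ ∪ ∅ : Finset (B D))ᶜ ∣ Num D 0 (L ++ L') ∅ ∅ := by
    refine Om_dvd_Num D 0 (L ++ L') (Finset.disjoint_empty_left _) fun a _ b _ hab _ => ?_
    refine h1 _ _ ?_ ?_
    · rw [Finset.disjoint_left]
      intro c hc hc'
      simp only [Finset.mem_insert, Finset.notMem_empty, or_false] at hc hc'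
      exact hab (hc'.symm.trans hc)
    · simp
  rw [Finset.empty_union, Finset.compl_empty] at h2
  obtain ⟨g, hg⟩ := h2
  have hOm : Om D (Finset.univ : Finset (B D)) ≠ 0 := fun h0 =>
    spec_Om_ne_zero D Finset.univ (by rw [h0, map_zero])
  refine ⟨z0 D g, fun σ => ?_, ?_, ?_⟩
  · rw [← z0_act]
    congr 1
    apply mul_left_cancel₀ hOm
    have h3 := act_Num D 0 (L ++ L') σ ∅ ∅
    have h4 : mp D σ ∅ = ∅ := by rw [mp, Finset.map_empty]
    rw [h4, hg, map_mul, act_Om] at h3
    have h5 : mp D σ Finset.univ = Finset.univ := by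
      ext b; rw [mem_mp']; simp
    rw [h5] at h3
    exact h3
  · obtain ⟨q, hq, h3⟩ := z0_Num D (L ++ L')
    rw [hg, map_mul, z0_Om] at h3
    have h4 : z0 D g * ddT D (ZZ D) = q := by
      apply mul_left_cancel₀ (ddT_ne_zero D (ZZ D))
      rw [← h3]
      ring
    rw [h4]
    exact hq
  · rw [spec_z0]
    apply mul_right_cancel₀ (spec_Om_ne_zero D Finset.univ)
    rw [← map_mul, mul_comm, ← hg, Num_append, map_add, spec_Num_inv0 D 0 L' hL', add_zero,
      hL ∅ ∅ (Finset.disjoint_empty_left _), if_pos ⟨rfl, rfl⟩]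

end Vale.Agent.P291.H.M
end
end

section

section

set_option autoImplicit false
set_option linter.unusedSectionVars false

/-! The cut ideal in terms of cocharacters. -/

namespace Vale.Agent.P291.H.M

open MvPolynomial Vale.Agent.P291.G

variable (D : QData)

/-- product of the weights of `N` which are nonzero on the cocharacter `l` -/
noncomputable def cw (l : B D → ℤ) : S D (ZZ D) :=
  (∏ a, ∏ r, ∏ s, if l ⟨D.tgt a, s⟩ - l ⟨D.src a, r⟩ = 0 then 1 else
      xq D ⟨D.tgt a, s⟩ - xq D ⟨D.src a, r⟩ + tv D a) *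
    ∏ i, ∏ r, ∏ k, if -l ⟨i, r⟩ = 0 then 1 else zv D i k - xq D ⟨i, r⟩

lemma cw_eq (l : B D → ℤ) : cw D l =
    (∏ p : B D, ∏ q : B D, if l q = l p then 1 else hq D p q 0) *
      ∏ b : B D, if l b = 0 then 1 else zq D b 0 := by
  rw [cw]
  congr 1
  · have h := BM_prod_arrows D (fun a p q => if l q = l p then 1 else
      (xq D q - xq D p + tv D a))
    have h1 : (∏ a, ∏ r, ∏ s, if l ⟨D.tgt a, s⟩ - l ⟨D.src a, r⟩ = 0 then 1 else
        xq D ⟨D.tgt a, s⟩ - xq D ⟨D.src a, r⟩ + tv D a) =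
        ∏ a, ∏ r : Fin (D.v (D.src a)), ∏ s : Fin (D.v (D.tgt a)),
          if l ⟨D.tgt a, s⟩ = l ⟨D.src a, r⟩ then 1 else
            xq D ⟨D.tgt a, s⟩ - xq D ⟨D.src a, r⟩ + tv D a := by
      refine Finset.prod_congr rfl fun a _ => Finset.prod_congr rfl fun r _ =>
        Finset.prod_congr rfl fun s _ => ?_
      exact if_congr sub_eq_zero rfl rfl
    rw [h1, ← h]
    refine Finset.prod_congr rfl fun p _ => Finset.prod_congr rfl fun q _ => ?_
    by_cases hl : l q = l p
    · rw [if_pos hl]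
      exact Finset.prod_eq_one fun a _ => if_pos hl
    · rw [if_neg hl, hq]
      refine Finset.prod_congr rfl fun a _ => ?_
      rw [if_neg hl, add_zero]
  · rw [Fintype.prod_sigma]
    refine Finset.prod_congr rfl fun i _ => Finset.prod_congr rfl fun r _ => ?_
    by_cases hl : l ⟨i, r⟩ = 0
    · rw [if_pos hl]
      exact Finset.prod_eq_one fun k _ => if_pos (by rw [hl, neg_zero])
    · rw [if_neg hl, zq]
      refine Finset.prod_congr rfl fun k _ => ?_
      rw [if_neg (fun h => hl (neg_eq_zero.1 h)), add_zero]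

lemma cw_ind (N : Finset (B D)) :
    cw D (ind D N) = e (wX D) N * e (wX D) Nᶜ * zs (wX D) N := by
  rw [cw_eq]
  congr 1
  · rw [e, e, compl_compl, ← Finset.prod_mul_prod_compl N]
    congr 1
    · refine Finset.prod_congr rfl fun p hp => ?_
      rw [← Finset.prod_mul_prod_compl N]
      rw [Finset.prod_eq_one fun q hq => ?_, one_mul]
      · refine Finset.prod_congr rfl fun q hq => ?_
        rw [Finset.mem_compl] at hq
        rw [if_neg]
        · rfl
        · rw [ind, ind, if_neg hq, if_pos hp]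
          norm_num
      · rw [if_pos]
        rw [ind, ind, if_pos hq, if_pos hp]
    · refine Finset.prod_congr rfl fun p hp => ?_
      rw [Finset.mem_compl] at hp
      rw [← Finset.prod_mul_prod_compl N]
      rw [Finset.prod_eq_one (s := Nᶜ) fun q hq => ?_, mul_one]
      · refine Finset.prod_congr rfl fun q hq => ?_
        rw [if_neg]
        · rfl
        · rw [ind, ind, if_pos hq, if_neg hp]
          norm_num
      · rw [Finset.mem_compl] at hq
        rw [if_pos]
        rw [ind, ind, if_neg hq, if_neg hp]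
  · rw [zs, ← Finset.prod_mul_prod_compl N, Finset.prod_eq_one (s := Nᶜ) fun q hq => ?_, mul_one]
    · refine Finset.prod_congr rfl fun q hq => ?_
      rw [if_neg]
      · rfl
      · rw [ind, if_pos hq]
        norm_num
    · rw [Finset.mem_compl] at hq
      rw [if_pos]
      rw [ind, if_neg hq]

lemma cw_dvd {l : B D → ℤ} (hl : l ≠ 0) : ∃ N : Finset (B D), N.Nonempty ∧
    e (wX D) N * e (wX D) Nᶜ * zs (wX D) N ∣ cw D l := by
  obtain ⟨b₀, hb⟩ : ∃ b, l b ≠ 0 := by
    by_contra h
    push Not at h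
    exact hl (funext h)
  refine ⟨Finset.univ.filter fun b => l b = l b₀, ⟨b₀, by simp⟩, ?_⟩
  rw [← cw_ind, cw_eq, cw_eq]
  have hi : ∀ b, ind D (Finset.univ.filter fun b => l b = l b₀) b = if l b = l b₀ then 1 else 0 := by
    intro b
    rw [ind]
    exact if_congr (by simp) rfl rfl
  refine mul_dvd_mul ?_ ?_
  · refine Finset.prod_dvd_prod_of_dvd _ _ fun p _ => Finset.prod_dvd_prod_of_dvd _ _ fun q _ => ?_
    rw [hi, hi]
    by_cases h : l q = l p
    · rw [if_pos h, if_pos (by rw [h])]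
    · rw [if_neg h]
      split_ifs
      · exact one_dvd _
      · exact dvd_rfl
      all_goals first | exact one_dvd _ | exact dvd_rfl
  · refine Finset.prod_dvd_prod_of_dvd _ _ fun b _ => ?_
    rw [hi]
    by_cases h : l b = 0
    · rw [if_pos h, if_pos]
      rw [if_neg]
      rw [h]
      exact fun h1 => hb h1.symm
    · rw [if_neg h]
      split_ifs
      · exact one_dvd _
      · exact dvd_rfl
      all_goals first | exact one_dvd _ | exact dvd_rfl

lemma cutI_eq : cutI (wX D) = Ideal.span {p | ∃ l : B D → ℤ, l ≠ 0 ∧ p = cw D l} := by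
  apply le_antisymm
  · refine Ideal.span_le.2 ?_
    rintro _ ⟨N, ⟨b, hb⟩, rfl⟩
    refine Ideal.subset_span ⟨ind D N, fun h => ?_, (cw_ind D N).symm⟩
    have h1 := congrFun h b
    rw [ind, if_pos hb] at h1
    exact one_ne_zero h1
  · refine Ideal.span_le.2 ?_
    rintro _ ⟨l, hl, rfl⟩
    obtain ⟨N, hN, h⟩ := cw_dvd D hl
    exact Ideal.mem_of_dvd _ h (Ideal.subset_span ⟨N, hN, rfl⟩)

/-- the product of the roots -/
lemma ddT_eq : ddT D (ZZ D) = ∏ i, ∏ r : Fin (D.v i), ∏ s : Fin (D.v i),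
    if (((r : ℕ) : ℤ) - ((s : ℕ) : ℤ)) = 0 then 1 else xq D ⟨i, r⟩ - xq D ⟨i, s⟩ := by
  classical
  rw [ddT, dd, Fintype.prod_sigma]
  refine Finset.prod_congr rfl fun i _ => Finset.prod_congr rfl fun r _ => ?_
  rw [Fintype.prod_sigma, Finset.prod_eq_single i]
  · refine Finset.prod_congr rfl fun s _ => ?_
    by_cases h : r = s
    · subst h
      rw [if_neg (fun h => h.1 rfl), if_pos (sub_self _)]
    · have hne : (⟨i, r⟩ : B D) ≠ ⟨i, s⟩ := fun h1 => h (eq_of_heq (Sigma.mk.inj h1).2)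
      rw [if_pos ⟨hne, rfl, trivial⟩, if_neg]
      intro h1
      apply h
      apply Fin.ext
      have := sub_eq_zero.1 h1
      exact_mod_cast this
  · intro j _ hj
    refine Finset.prod_eq_one fun s _ => if_neg fun h => hj h.2.1.symm
  · intro h
    exact absurd (Finset.mem_univ _) h

end Vale.Agent.P291.H.M
end
end

section

section

set_option autoImplicit false
set_option linter.unusedSectionVars false

/-! Regular elements modulo triangular systems. -/

namespace Vale.Agent.P291.K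

open MvPolynomial

section
variable {M A : Type} [CommRing A] [DecidableEq M]
variable {α : Type} [LinearOrder α]

lemma reg2_tri_mono {r : M → α} {P : M → MvPolynomial M A} {B B' : Finset M} (hT : Tri r P B)
    (h : B' ⊆ B) : Tri r P B' :=
  ⟨fun b hb => hT.mon b (h hb), fun b hb c hc hbc hr => hT.free b (h hb) c (h hc) hbc hr⟩

/-- add the relations `P b`, `b ∈ B'`, in order of decreasing rank
(`Finset.induction_on_min_value`) -/
lemma rg_ext (r : M → α) (P : M → MvPolynomial M A) {B B' : Finset M} (hT : Tri r P (B ∪ B'))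
    (hd : Disjoint B B') (q : MvPolynomial M A) (hq : ∀ b ∈ B', Free b q)
    (hr : ∀ b ∈ B', ∀ c ∈ B, r b ≤ r c) (h : Rg q (Ideal.span (P '' B))) :
    Rg q (Ideal.span (P '' (B ∪ B' : Finset M))) := by
  induction B' using Finset.induction_on_min_value r with
  | empty => rwa [Finset.union_empty]
  | insert a s has hmin ih =>
    have hsub : B ∪ s ⊆ B ∪ insert a s :=
      Finset.union_subset_union_right (Finset.subset_insert a s)
    have ha : a ∈ B ∪ insert a s := Finset.mem_union_right _ (Finset.mem_insert_self a s)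
    have haB : a ∉ B := fun h' =>
      Finset.disjoint_left.1 hd h' (Finset.mem_insert_self a s)
    have h1 := ih (reg2_tri_mono hT hsub)
      (hd.mono_right (Finset.subset_insert a s))
      (fun b hb => hq b (Finset.mem_insert_of_mem hb))
      (fun b hb => hr b (Finset.mem_insert_of_mem hb))
    have h2 : P '' ((B ∪ insert a s : Finset M) : Set M) =
        insert (P a) (P '' ((B ∪ s : Finset M) : Set M)) := by
      rw [Finset.union_insert, Finset.coe_insert, Set.image_insert_eq]
    rw [h2]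
    refine rg_insert a _ ?_ (hq a (Finset.mem_insert_self a s)) (hT.mon a ha) h1
    rintro _ ⟨c, hc, rfl⟩
    have hc' : c ∈ B ∪ s := hc
    refine hT.free a ha c (hsub hc') ?_ ?_
    · rintro rfl
      rcases Finset.mem_union.1 hc' with h3 | h3
      · exact haB h3
      · exact has h3
    · rcases Finset.mem_union.1 hc' with h3 | h3
      · exact hr a (Finset.mem_insert_self a s) c h3
      · exact hmin c h3

/-- a monic element in the variable `a` which only depends on variables of larger rank -/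
lemma rg_mon (r : M → α) (P : M → MvPolynomial M A) {B : Finset M} (hT : Tri r P B) (a : M)
    (ha : a ∉ B) (haP : ∀ b ∈ B, r a ≤ r b → Free a (P b)) {q : MvPolynomial M A}
    (hq : Mon a q) (hqf : ∀ b ∈ B, r b < r a → Free b q) :
    Rg q (Ideal.span (P '' B)) := by
  have hB : B.filter (fun b => r a ≤ r b) ∪ B.filter (fun b => ¬ r a ≤ r b) = B :=
    Finset.filter_union_filter_not_eq _ B
  have h1 : Rg q (Ideal.span (P '' (B.filter (fun b => r a ≤ r b) : Finset M))) := by
    refine rg_of_mon a _ ?_ hq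
    rintro _ ⟨c, hc, rfl⟩
    have hc' := Finset.mem_filter.1 (Finset.mem_coe.1 hc)
    exact haP c hc'.1 hc'.2
  have h2 := rg_ext r P (B := B.filter fun b => r a ≤ r b)
    (B' := B.filter fun b => ¬ r a ≤ r b) (by rw [hB]; exact hT)
    (Finset.disjoint_filter_filter_not _ _ _) q
    (fun b hb => hqf b (Finset.mem_filter.1 hb).1 (not_le.1 (Finset.mem_filter.1 hb).2))
    (fun b hb c hc => (not_le.1 (Finset.mem_filter.1 hb).2).le.trans (Finset.mem_filter.1 hc).2)
    h1
  rwa [hB] at h2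

/-- constants -/
lemma rg_const [IsDomain A] (r : M → α) (P : M → MvPolynomial M A) {B : Finset M}
    (hT : Tri r P B) {a : A} (ha : a ≠ 0) : Rg (C a) (Ideal.span (P '' B)) := by
  have h1 : Rg (C a) (Ideal.span (P '' ((∅ : Finset M) : Set M))) := by
    intro y hy
    rw [Finset.coe_empty, Set.image_empty, Ideal.span_empty, Ideal.mem_bot] at hy ⊢
    rcases mul_eq_zero.1 hy with h2 | h2
    · exact absurd (C_eq_zero.1 h2) ha
    · exact h2
  have h2 := rg_ext r P (B := ∅) (B' := B) (by rwa [Finset.empty_union])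
    (Finset.disjoint_empty_left _) (C a) (fun b _ => free_C b a)
    (fun _ _ c hc => absurd hc (Finset.notMem_empty c)) h1
  rwa [Finset.empty_union] at h2

/-- removing a factor of one relation: if `q y = q P' c + j` then `q (y - P' c)` is in the ideal of
the other relations, use `rg_mon` -/
lemma colon_one (r : M → α) (P P' : M → MvPolynomial M A) (B : Finset M) {a : M} (ha : a ∈ B)
    (q : MvPolynomial M A) (hP : P a = q * P' a) (hPb : ∀ b ∈ B, b ≠ a → P b = P' b)
    (hT : Tri r P B) (hq : Mon a q) (hqf : ∀ b ∈ B, r b < r a → Free b q)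
    {y : MvPolynomial M A} (hy : q * y ∈ Ideal.span (P '' B)) :
    y ∈ Ideal.span (P' '' B) := by
  have h1 : P '' (B : Set M) = insert (P a) (P '' ((B.erase a : Finset M) : Set M)) := by
    rw [← Set.image_insert_eq, ← Finset.coe_insert, Finset.insert_erase ha]
  rw [h1, Ideal.mem_span_insert] at hy
  obtain ⟨c, j, hj, hy⟩ := hy
  have h2 : q * (y - c * P' a) ∈ Ideal.span (P '' ((B.erase a : Finset M) : Set M)) := by
    have h3 : q * (y - c * P' a) = j := by
      rw [mul_sub, hy, hP]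
      ring
    rw [h3]
    exact hj
  have h3 := rg_mon r P (reg2_tri_mono hT (Finset.erase_subset a B)) a (Finset.notMem_erase a B)
    (fun b hb hab => hT.free a ha b (Finset.mem_of_mem_erase hb)
      (Finset.ne_of_mem_erase hb).symm hab) hq
    (fun b hb => hqf b (Finset.mem_of_mem_erase hb)) _ h2
  have h4 : Ideal.span (P '' ((B.erase a : Finset M) : Set M)) ≤ Ideal.span (P' '' B) := by
    rw [Ideal.span_le]
    rintro _ ⟨b, hb, rfl⟩
    have hb' : b ∈ B.erase a := hb
    rw [hPb b (Finset.mem_of_mem_erase hb') (Finset.ne_of_mem_erase hb')]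
    exact Ideal.subset_span ⟨b, Finset.mem_of_mem_erase hb', rfl⟩
  have h5 : P' a ∈ Ideal.span (P' '' (B : Set M)) := Ideal.subset_span ⟨a, ha, rfl⟩
  have h6 : y = (y - c * P' a) + c * P' a := by ring
  rw [h6]
  exact Ideal.add_mem _ (h4 h3) (Ideal.mul_mem_left _ c h5)

/-- removing factors of several relations: induction on `V` with `colon_one` for the systems
`fun b => if b ∈ V then P b else P' b` -/
lemma colon [Fintype M] (r : M → α) (P P' : M → MvPolynomial M A) (V : Finset M)
    (q : M → MvPolynomial M A) (hP : ∀ v ∈ V, P v = q v * P' v) (hPb : ∀ b ∉ V, P b = P' b)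
    (hT : Tri r P Finset.univ) (hT' : Tri r P' Finset.univ) (hq : ∀ v ∈ V, Mon v (q v))
    (hqf : ∀ v ∈ V, ∀ b, r b < r v → Free b (q v))
    {y : MvPolynomial M A} (hy : (∏ v ∈ V, q v) * y ∈ Ideal.span (Set.range P)) :
    y ∈ Ideal.span (Set.range P') := by
  have key : ∀ W : Finset M, W ⊆ V → ∀ y : MvPolynomial M A,
      (∏ v ∈ W, q v) * y ∈ Ideal.span (Set.range fun b => if b ∈ W then P b else P' b) →
      y ∈ Ideal.span (Set.range P') := by
    intro W
    induction W using Finset.induction_on with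
    | empty =>
      intro _ y hy
      simpa using hy
    | insert a W haW ih =>
      intro hW y hy
      have haV : a ∈ V := hW (Finset.mem_insert_self a W)
      refine ih (fun b hb => hW (Finset.mem_insert_of_mem hb)) y ?_
      rw [Finset.prod_insert haW, mul_assoc] at hy
      have h1 := colon_one r (fun b => if b ∈ insert a W then P b else P' b)
        (fun b => if b ∈ W then P b else P' b) Finset.univ (Finset.mem_univ a) (q a)
        (by
          rw [if_pos (Finset.mem_insert_self a W), if_neg haW]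
          exact hP a haV)
        (fun b _ hba => by
          by_cases hbW : b ∈ W
          · rw [if_pos (Finset.mem_insert_of_mem hbW), if_pos hbW]
          · rw [if_neg hbW, if_neg]
            rw [Finset.mem_insert]
            rintro (h2 | h2)
            · exact hba h2
            · exact hbW h2)
        ⟨fun b hb => by
          split_ifs
          · exact hT.mon b hb
          · exact hT'.mon b hb, fun b hb c hc hbc hr => by
          split_ifs
          · exact hT.free b hb c hc hbc hr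
          · exact hT'.free b hb c hc hbc hr⟩
        (hq a haV) (fun b _ hb => hqf a haV b hb) (y := (∏ v ∈ W, q v) * y)
        (by rwa [Finset.coe_univ, Set.image_univ])
      rwa [Finset.coe_univ, Set.image_univ] at h1
  refine key V (Finset.Subset.refl V) y ?_
  have h1 : (fun b => if b ∈ V then P b else P' b) = P := by
    funext b
    split_ifs with hb
    · rfl
    · exact (hPb b hb).symm
  rw [h1]
  exact hy

/-- `Pr L Z T` is triangular -/
lemma tri_Pr [Fintype M] (L : M → M → Multiset A) (Z : M → Multiset A) (r : M → α)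
    (T : M → Finset M) (hT : ∀ b, ∀ c ∈ T b, r b < r c) : Tri r (Pr L Z T) Finset.univ := by
  refine ⟨fun b _ => ?_, fun b _ c _ hbc hr => ?_⟩
  · refine mon_mul (mon_Zw Z b) (mon_prod _ _ fun c hc => mon_Dw L ?_)
    rintro rfl
    exact lt_irrefl _ (hT b b hc)
  · refine free_mul (free_Zw Z hbc) (free_prod _ _ fun d hd => free_Dw L hbc ?_)
    rintro rfl
    exact lt_irrefl _ ((hT c b hd).trans_le hr)

end

section
variable {M A : Type} [CommRing A] [DecidableEq M] [Fintype M]

/-- a cut is a multiple of the relation at an element of `N` of maximal rank -/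
lemma cut_mem {α : Type} [LinearOrder α] (L : M → M → Multiset A) (Z : M → Multiset A)
    (r : M → α) {N : Finset M} (hN : N.Nonempty) : cut L Z N ∈ TI L Z (up r) := by
  obtain ⟨b, hb, hmax⟩ := Finset.exists_max_image N r hN
  have h1 : Pr L Z (up r) b ∈ TI L Z (up r) := Ideal.subset_span ⟨b, rfl⟩
  refine Ideal.mem_of_dvd _ ?_ h1
  refine mul_dvd_mul (Finset.dvd_prod_of_mem _ hb) ?_
  refine dvd_trans ?_ (Finset.dvd_prod_of_mem (fun b => ∏ c ∈ Nᶜ, Dw L b c) hb)
  refine Finset.prod_dvd_prod_of_subset _ _ _ fun c hc => ?_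
  rw [Finset.mem_compl]
  intro hcN
  exact absurd (hmax c hcN) (not_le.2 (Finset.mem_filter.1 hc).2)

lemma KI_le {α : Type} [LinearOrder α] (L : M → M → Multiset A) (Z : M → Multiset A)
    (r : M → α) : KI L Z ≤ TI L Z (up r) := by
  rw [KI, Ideal.span_le]
  rintro _ ⟨N, hN, rfl⟩
  exact cut_mem L Z r hN

end

end Vale.Agent.P291.K
end
end

section

section

set_option autoImplicit false
set_option linter.unusedSectionVars false

/-! Alternating elements modulo a symmetric triangular ideal. -/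

namespace Vale.Agent.P291.K

open MvPolynomial

variable {M A I : Type} [CommRing A] [IsDomain A] [Algebra ℚ A] [DecidableEq M] [Fintype M]
  (col : M → I) (L : I → I → Multiset A) (Z : I → Multiset A) (r : M → ℚ)

/-- the triangular ideal of the rank function `r` for weights which depend only on the colours -/
noncomputable def TC {α : Type} [LinearOrder α] (r : M → α) : Ideal (MvPolynomial M A) :=
  TI (fun b c => L (col b) (col c)) (fun b => Z (col b)) (up r)

/-- renaming of a framing weight -/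
lemma as1_Zw (f : M → M) (hf : ∀ c, col (f c) = col c) (c : M) :
    rename f (Zw (fun b => Z (col b)) c) = Zw (fun b => Z (col b)) (f c) := by
  unfold Zw
  rw [map_multiset_prod, Multiset.map_map]
  beta_reduce
  rw [hf]
  congr 1
  refine Multiset.map_congr rfl fun z _ => ?_
  rw [Function.comp_apply, map_sub, rename_X, rename_C]

/-- renaming of the weight of a pair -/
lemma as1_Dw (f : M → M) (hf : ∀ c, col (f c) = col c) (c d : M) :
    rename f (Dw (fun b c => L (col b) (col c)) c d) =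
      Dw (fun b c => L (col b) (col c)) (f c) (f d) := by
  unfold Dw
  rw [map_multiset_prod, Multiset.map_map]
  beta_reduce
  rw [hf, hf]
  congr 1
  refine Multiset.map_congr rfl fun z _ => ?_
  rw [Function.comp_apply, map_add, map_sub, rename_X, rename_X, rename_C]

/-- renaming of a relation -/
lemma as1_Pr (f : M → M) (hf : ∀ c, col (f c) = col c) (T : M → Finset M) (c : M) :
    rename f (Pr (fun b c => L (col b) (col c)) (fun b => Z (col b)) T c) =
      Zw (fun b => Z (col b)) (f c) *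
        ∏ d ∈ T c, Dw (fun b c => L (col b) (col c)) (f c) (f d) := by
  unfold Pr
  rw [map_mul, as1_Zw col Z f hf, map_prod]
  congr 1
  exact Finset.prod_congr rfl fun d _ => as1_Dw col L f hf c d

lemma as1_swap {a b : M} (hc : col a = col b) (c : M) : col (Equiv.swap a b c) = col c := by
  by_cases h1 : c = a
  · rw [h1, Equiv.swap_apply_left, hc]
  · by_cases h2 : c = b
    · rw [h2, Equiv.swap_apply_right, hc]
    · rw [Equiv.swap_apply_of_ne_of_ne h1 h2]

/-- the relations are permuted -/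
lemma as1_sw_Pr {a b : M} (hc : col a = col b) (hr : r a = r b) (c : M) :
    sw a b (Pr (fun b c => L (col b) (col c)) (fun b => Z (col b)) (up r) c) =
      Pr (fun b c => L (col b) (col c)) (fun b => Z (col b)) (up r) (Equiv.swap a b c) := by
  unfold sw
  rw [as1_Pr col L Z _ (as1_swap col hc)]
  unfold Pr
  congr 1
  refine Finset.prod_bij (fun d _ => Equiv.swap a b d) ?_ ?_ ?_ ?_
  · intro d hd
    have h1 := (Finset.mem_filter.1 hd).2
    refine Finset.mem_filter.2 ⟨Finset.mem_univ _, ?_⟩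
    rw [as1_swap r hr, as1_swap r hr]
    exact h1
  · intro d _ d' _ h
    exact (Equiv.swap a b).injective h
  · intro d hd
    refine ⟨Equiv.swap a b d, ?_, Equiv.swap_apply_self a b d⟩
    have h1 := (Finset.mem_filter.1 hd).2
    refine Finset.mem_filter.2 ⟨Finset.mem_univ _, ?_⟩
    rw [as1_swap r hr] at h1 ⊢
    exact h1
  · intro d _
    rfl

lemma sw_TC {a b : M} (hc : col a = col b) (hr : r a = r b) {y : MvPolynomial M A}
    (hy : y ∈ TC col L Z r) : sw a b y ∈ TC col L Z r := by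
  have h1 : TC col L Z r ≤ (TC col L Z r).comap (sw a b) := by
    rw [TC, TI, Ideal.span_le]
    rintro _ ⟨c, rfl⟩
    show sw a b _ ∈ Ideal.span _
    rw [as1_sw_Pr col L Z r hc hr]
    exact Ideal.subset_span ⟨_, rfl⟩
  exact h1 hy

/-- restriction to the diagonal `x a = x b` -/
noncomputable def dg (a b : M) : MvPolynomial M A →ₐ[A] MvPolynomial M A :=
  aeval fun c => if c = a then X b else X c

lemma dg_ker {a b : M} {f : MvPolynomial M A} (h : dg a b f = 0) :
    ∃ g, f = (X a - X b) * g := by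
  have h1 : ((Ideal.Quotient.mkₐ A (Ideal.span {(X a - X b : MvPolynomial M A)})).comp (dg a b)) =
      Ideal.Quotient.mkₐ A (Ideal.span {(X a - X b : MvPolynomial M A)}) := by
    apply MvPolynomial.algHom_ext
    intro c
    rw [AlgHom.comp_apply, dg, aeval_X]
    by_cases hc : c = a
    · rw [if_pos hc, hc]
      show Ideal.Quotient.mk _ (X b) = Ideal.Quotient.mk _ (X a)
      rw [eq_comm, Ideal.Quotient.mk_eq_mk_iff_sub_mem]
      exact Ideal.subset_span rfl
    · rw [if_neg hc]
  have h2 := congrArg (fun φ => φ f) h1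
  simp only [AlgHom.comp_apply, h, map_zero] at h2
  have h3 : f ∈ Ideal.span {(X a - X b : MvPolynomial M A)} :=
    Ideal.Quotient.eq_zero_iff_mem.1 h2.symm
  exact Ideal.mem_span_singleton.1 h3

/-- the diagonal as a map of the marks -/
def as1_de (a b : M) (c : M) : M := if c = a then b else c

lemma as1_dg (a b : M) : (dg a b : MvPolynomial M A →ₐ[A] _) = rename (as1_de a b) := by
  apply MvPolynomial.algHom_ext
  intro c
  rw [dg, aeval_X, rename_X, as1_de]
  split_ifs <;> rfl

lemma as1_de_a (a b : M) : as1_de a b a = b := if_pos rfl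

lemma as1_de_ne {a b c : M} (h : c ≠ a) : as1_de a b c = c := if_neg h

lemma as1_dg_dg {a b : M} (hab : a ≠ b) (f : MvPolynomial M A) : dg a b (dg a b f) = dg a b f := by
  rw [as1_dg, rename_rename]
  congr 2
  funext c
  rw [Function.comp_apply]
  by_cases h : c = a
  · rw [h, as1_de_a, as1_de_ne hab.symm]
  · rw [as1_de_ne h, as1_de_ne h]

lemma as1_dg_sw {a b : M} (hab : a ≠ b) (f : MvPolynomial M A) : dg a b (sw a b f) = dg a b f := by
  unfold sw
  rw [as1_dg, rename_rename]
  congr 2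
  funext c
  rw [Function.comp_apply]
  by_cases h : c = a
  · rw [h, Equiv.swap_apply_left, as1_de_a, as1_de_ne hab.symm]
  · by_cases h2 : c = b
    · rw [h2, Equiv.swap_apply_right, as1_de_a, as1_de_ne hab.symm]
    · rw [Equiv.swap_apply_of_ne_of_ne h h2]

lemma as1_sw_sw (a b : M) (f : MvPolynomial M A) : sw a b (sw a b f) = f := by
  unfold sw
  rw [rename_rename]
  have h : (Equiv.swap a b : M → M) ∘ Equiv.swap a b = id := by
    funext c
    exact Equiv.swap_apply_self a b c
  rw [h, rename_id_apply]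

/-- Property (P).  Write `2 (x a - x b) y = α P a + (sw α) P b + j`, `j` in the ideal `J` of the
relations `P c`, `c ≠ a, b` (apply `sw a b` and add).  Restrict to the diagonal: `α P b ∈ dg J`,
`P b` is monic in `x b`, so `dg α ∈ dg J` by `rg_mon` for the relations `dg (P c)`, hence
`α = (x a - x b) α' + j'`.  So `(x a - x b) (2 y - α' P a + (sw α') P b) ∈ J` and `x a - x b` is
regular modulo `J` by `rg_mon`. -/
theorem propP {a b : M} (hab : a ≠ b) (hc : col a = col b) (hr : r a = r b)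
    {y : MvPolynomial M A} (hy : sw a b y = -y) (h : (X a - X b) * y ∈ TC col L Z r) :
    y ∈ TC col L Z r := by
  classical
  set P : M → MvPolynomial M A :=
    Pr (fun b c => L (col b) (col c)) (fun b => Z (col b)) (up r) with hP
  set B : Finset M := (Finset.univ.erase a).erase b with hB
  have hBa : ∀ c ∈ B, c ≠ a := fun c h =>
    Finset.ne_of_mem_erase (Finset.mem_of_mem_erase h)
  have hBb : ∀ c ∈ B, c ≠ b := fun c h => Finset.ne_of_mem_erase h
  have hBm : ∀ c, c ≠ a → c ≠ b → c ∈ B := fun c h1 h2 =>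
    Finset.mem_erase.2 ⟨h2, Finset.mem_erase.2 ⟨h1, Finset.mem_univ c⟩⟩
  have hup : ∀ c d, d ∈ up r c → r c < r d := fun c d h => (Finset.mem_filter.1 h).2
  have hTI : TC col L Z r = Ideal.span (Set.range P) := rfl
  have hswP : ∀ c, sw a b (P c) = P (Equiv.swap a b c) := as1_sw_Pr col L Z r hc hr
  have hTri : Tri r P Finset.univ := tri_Pr _ _ r (up r) hup
  -- the ideal `J`
  set J : Ideal (MvPolynomial M A) := Ideal.span (P '' (B : Finset M)) with hJ
  have hJle : J ≤ TC col L Z r := by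
    rw [hJ, hTI]
    refine Ideal.span_mono ?_
    rintro _ ⟨c, _, rfl⟩
    exact ⟨c, rfl⟩
  have hswJ : ∀ j ∈ J, sw a b j ∈ J := by
    have h1 : J ≤ J.comap (sw a b) := by
      rw [hJ, Ideal.span_le]
      rintro _ ⟨c, hcB, rfl⟩
      show sw a b _ ∈ Ideal.span _
      rw [hswP, Equiv.swap_apply_of_ne_of_ne (hBa c hcB) (hBb c hcB)]
      exact Ideal.subset_span ⟨c, hcB, rfl⟩
    exact fun j hj => h1 hj
  have hrange : Set.range P = insert (P a) (insert (P b) (P '' (B : Finset M))) := by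
    ext f
    constructor
    · rintro ⟨c, rfl⟩
      by_cases h1 : c = a
      · exact Or.inl (by rw [h1])
      · by_cases h2 : c = b
        · exact Or.inr (Or.inl (by rw [h2]))
        · exact Or.inr (Or.inr ⟨c, hBm c h1 h2, rfl⟩)
    · rintro (h1 | h1 | ⟨c, _, h1⟩)
      · exact ⟨a, h1.symm⟩
      · exact ⟨b, h1.symm⟩
      · exact ⟨c, h1⟩
  rw [hTI, hrange, Ideal.mem_span_insert] at h
  obtain ⟨α, z, hz, h⟩ := h
  rw [Ideal.mem_span_insert] at hz
  obtain ⟨β, j, hj, hz⟩ := hz
  have hj : j ∈ J := hj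
  have hswX : sw a b (X a - X b : MvPolynomial M A) = X b - X a := by
    unfold sw
    rw [map_sub, rename_X, rename_X, Equiv.swap_apply_left, Equiv.swap_apply_right]
  have hPa : sw a b (P a) = P b := by rw [hswP, Equiv.swap_apply_left]
  have hPb : sw a b (P b) = P a := by rw [hswP, Equiv.swap_apply_right]
  have h2 : (X a - X b) * y = sw a b α * P b + (sw a b β * P a + sw a b j) := by
    have h3 := congrArg (sw a b) h
    rw [hz, map_mul, hswX, hy, map_add, map_add, map_mul, map_mul, hPa, hPb] at h3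
    linear_combination h3
  set α₁ : MvPolynomial M A := α + sw a b β with hα₁
  have hswα : sw a b α₁ = β + sw a b α := by
    rw [hα₁, map_add, as1_sw_sw, add_comm]
  set j₁ : MvPolynomial M A := j + sw a b j with hj₁
  have hj₁J : j₁ ∈ J := add_mem hj (hswJ j hj)
  have h4 : 2 * ((X a - X b) * y) = α₁ * P a + sw a b α₁ * P b + j₁ := by
    rw [hswα, hα₁, hj₁]
    linear_combination h + h2 + hz
  -- the diagonal
  have hcol : ∀ c, col (as1_de a b c) = col c := by
    intro c
    by_cases h1 : c = a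
    · rw [h1, as1_de_a, hc]
    · rw [as1_de_ne h1]
  have hdgP : ∀ c, dg a b (P c) = Zw (fun b => Z (col b)) (as1_de a b c) *
      ∏ d ∈ up r c, Dw (fun b c => L (col b) (col c)) (as1_de a b c) (as1_de a b d) := by
    intro c
    rw [as1_dg, hP, as1_Pr col L Z _ hcol]
  have hdgPb : dg a b (P b) = P b := by
    rw [hdgP, as1_de_ne hab.symm, hP]
    unfold Pr
    congr 1
    refine Finset.prod_congr rfl fun d hd => ?_
    rw [as1_de_ne]
    rintro rfl
    have h1 := hup b d hd
    rw [hr] at h1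
    exact lt_irrefl _ h1
  have hdgPa : dg a b (P a) = P b := by
    rw [← hPb, as1_dg_sw hab, hdgPb]
  have h5 : P b * dg a b α₁ ∈ Ideal.span ((fun c => dg a b (P c)) '' (B : Finset M)) := by
    have h6 := congrArg (dg a b) h4
    have h7 : dg a b (X a - X b : MvPolynomial M A) = 0 := by
      rw [as1_dg, map_sub, rename_X, rename_X, as1_de_a, as1_de_ne hab.symm, sub_self]
    rw [map_mul, map_mul, h7, zero_mul, mul_zero, map_add, map_add, map_mul, map_mul, hdgPa, hdgPb,
      as1_dg_sw hab] at h6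
    have h8 : dg a b j₁ ∈ Ideal.span ((fun c => dg a b (P c)) '' (B : Finset M)) := by
      have h9 : J ≤ (Ideal.span ((fun c => dg a b (P c)) '' (B : Finset M))).comap (dg a b) := by
        rw [hJ, Ideal.span_le]
        rintro _ ⟨c, hcB, rfl⟩
        exact Ideal.subset_span ⟨c, hcB, rfl⟩
      exact h9 hj₁J
    have h9 : P b * dg a b α₁ = C (algebraMap ℚ A (-1 / 2)) * dg a b j₁ := by
      have h10 : (C (algebraMap ℚ A (-1 / 2)) : MvPolynomial M A) * 2 = -1 := by
        rw [show (2 : MvPolynomial M A) = C (algebraMap ℚ A 2) by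
          rw [map_ofNat, map_ofNat], ← C_mul, ← map_mul]
        norm_num
      linear_combination (C (algebraMap ℚ A (-1 / 2)) : MvPolynomial M A) * h6 +
        (P b * dg a b α₁) * h10
    rw [h9]
    exact Ideal.mul_mem_left _ _ h8
  have hupne : ∀ c, r b ≤ r c → ∀ d ∈ up r c, d ≠ a ∧ d ≠ b := by
    intro c hle d hd
    have hlt := hup c d hd
    constructor
    · intro hda
      rw [hda, hr] at hlt
      exact absurd (hle.trans_lt hlt) (lt_irrefl _)
    · intro hdb
      rw [hdb] at hlt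
      exact absurd (hle.trans_lt hlt) (lt_irrefl _)
  have hdne : ∀ c ∈ B, ∀ d, c ≠ d → c ≠ as1_de a b d := by
    intro c hcB d hcd
    by_cases h1 : d = a
    · rw [h1, as1_de_a]
      exact hBb c hcB
    · rw [as1_de_ne h1]
      exact hcd
  have hTri2 : Tri r (fun c => dg a b (P c)) B := by
    constructor
    · intro c hcB
      show Mon c (dg a b (P c))
      rw [hdgP, as1_de_ne (hBa c hcB)]
      refine mon_mul (mon_Zw _ c) (mon_prod _ _ fun d hd => mon_Dw _ (hdne c hcB d ?_))
      rintro rfl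
      exact lt_irrefl _ (hup c c hd)
    · intro c hcB c' hcB' hne hle
      show Free c (dg a b (P c'))
      rw [hdgP, as1_de_ne (hBa c' hcB')]
      refine free_mul (free_Zw _ hne) (free_prod _ _ fun d hd =>
        free_Dw _ hne (hdne c hcB d ?_))
      rintro rfl
      exact lt_irrefl _ (hle.trans_lt (hup c' c hd))
  have h6 : dg a b α₁ ∈ Ideal.span ((fun c => dg a b (P c)) '' (B : Finset M)) := by
    refine rg_mon r (fun c => dg a b (P c)) hTri2 b (fun h => hBb b h rfl) ?_
      (hTri.mon b (Finset.mem_univ b)) ?_ _ h5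
    · intro c hcB hle
      show Free b (dg a b (P c))
      rw [hdgP, as1_de_ne (hBa c hcB)]
      refine free_mul (free_Zw _ (hBb c hcB).symm) (free_prod _ _ fun d hd =>
        free_Dw _ (hBb c hcB).symm ?_)
      rw [as1_de_ne (hupne c hle d hd).1]
      exact (hupne c hle d hd).2.symm
    · intro c hcB hlt
      exact hTri.free c (Finset.mem_univ c) b (Finset.mem_univ b) (hBb c hcB) hlt.le
  have h7 : α₁ ∈ J ⊔ RingHom.ker (dg a b : MvPolynomial M A →ₐ[A] MvPolynomial M A) := by
    have h8 : Ideal.span ((fun c => dg a b (P c)) '' (B : Finset M)) ≤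
        J ⊔ RingHom.ker (dg a b : MvPolynomial M A →ₐ[A] MvPolynomial M A) := by
      rw [Ideal.span_le]
      rintro _ ⟨c, hcB, rfl⟩
      have h9 : (fun c => dg a b (P c)) c = P c + (dg a b (P c) - P c) := by ring
      rw [h9]
      refine add_mem (Ideal.mem_sup_left (Ideal.subset_span ⟨c, hcB, rfl⟩))
        (Ideal.mem_sup_right ?_)
      rw [RingHom.mem_ker, map_sub, as1_dg_dg hab, sub_self]
    have h9 : α₁ = dg a b α₁ + (α₁ - dg a b α₁) := by ring
    rw [h9]
    refine add_mem (h8 h6) (Ideal.mem_sup_right ?_)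
    rw [RingHom.mem_ker, map_sub, as1_dg_dg hab, sub_self]
  obtain ⟨j', hj', k, hk, hjk⟩ := Submodule.mem_sup.1 h7
  obtain ⟨α', hα'⟩ := dg_ker (RingHom.mem_ker.1 hk)
  -- division by `x a - x b`
  have h8 : (X a - X b) * (2 * y - α' * P a + sw a b α' * P b) ∈ J := by
    have h9 : sw a b α₁ = sw a b j' + (X b - X a) * sw a b α' := by
      rw [← hjk, hα', map_add, map_mul, hswX]
    have h10 : (X a - X b) * (2 * y - α' * P a + sw a b α' * P b) =
        j' * P a + sw a b j' * P b + j₁ := by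
      have h11 : α₁ = j' + (X a - X b) * α' := by rw [← hjk, hα']
      rw [h9] at h4
      rw [h11] at h4
      linear_combination h4
    rw [h10]
    exact add_mem (add_mem (Ideal.mul_mem_right _ _ hj') (Ideal.mul_mem_right _ _ (hswJ _ hj')))
      hj₁J
  have h9 : 2 * y - α' * P a + sw a b α' * P b ∈ J := by
    refine rg_mon r P (reg2_tri_mono hTri (Finset.subset_univ B)) a (fun h => hBa a h rfl) ?_ ?_ ?_
      _ h8
    · intro c hcB hle
      exact hTri.free a (Finset.mem_univ a) c (Finset.mem_univ c) (hBa c hcB).symm hle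
    · have h10 := mon_sub (A := A) hab 0
      rwa [C_0, add_zero] at h10
    · intro c hcB _
      have h10 := free_sub (A := A) (hBa c hcB) (hBb c hcB) 0
      rwa [C_0, add_zero] at h10
  have h10 : y = C (algebraMap ℚ A (1 / 2)) *
      ((2 * y - α' * P a + sw a b α' * P b) + (α' * P a - sw a b α' * P b)) := by
    have h11 : (C (algebraMap ℚ A (1 / 2)) : MvPolynomial M A) * 2 = 1 := by
      rw [show (2 : MvPolynomial M A) = C (algebraMap ℚ A 2) by
        rw [map_ofNat, map_ofNat], ← C_mul, ← map_mul]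
      norm_num
    linear_combination (-y) * h11
  have hmem : ∀ c, P c ∈ TC col L Z r := fun c => Ideal.subset_span ⟨c, rfl⟩
  rw [h10]
  exact Ideal.mul_mem_left _ _ (add_mem (hJle h9)
    (sub_mem (Ideal.mul_mem_left _ _ (hmem a)) (Ideal.mul_mem_left _ _ (hmem b))))

end Vale.Agent.P291.K
end
end

section

section

set_option autoImplicit false
set_option linter.unusedSectionVars false

/-! The main induction. -/

namespace Vale.Agent.P291.K

open MvPolynomial

section
variable {M A I : Type} [CommRing A] [IsDomain A] [Algebra ℚ A] [DecidableEq M] [Fintype M]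
  [DecidableEq I]
  (col : M → I) (L : I → I → Multiset A) (Z : I → Multiset A) (h : A)

/-- labels: `ε` separates them from `h` -/
structure Lbl (ε : A →+* ℂ) : Prop where
  mesh : ∀ i j, L j i = (L i j).map fun l => h - l
  eL : ∀ i j, ∀ l ∈ L i j, ε l = 1
  eZ : ∀ i, ∀ z ∈ Z i, ε z = 0
  eh : ε h = 2

/-- a point: a prime ideal without constants which contains `x b - p b` -/
structure Pt (ε : A →+* ℂ) (PP : Ideal (MvPolynomial M A)) (p : M → A) (r : M → ℚ) : Prop where
  pr : PP.IsPrime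
  cn : ∀ a : A, C a ∈ PP → a = 0
  mem : ∀ b, X b - C (p b) ∈ PP
  rr : ∀ b, ε (p b) = (r b : ℂ)
  r0 : ∀ b, r b ≤ 0

variable {col L Z h} {ε : A →+* ℂ} {PP : Ideal (MvPolynomial M A)} {p : M → A} {r : M → ℚ}

/-- a difference in the prime ideal -/
lemma Pt.sub (hP : Pt ε PP p r) {b c : M} {l : A} (h1 : X b - X c + C l ∈ PP) :
    p c = p b + l := by
  have h2 : C (p b - p c + l) ∈ PP := by
    have h3 : (C (p b - p c + l) : MvPolynomial M A) =
        (X b - X c + C l) - (X b - C (p b)) + (X c - C (p c)) := by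
      rw [C_add, C_sub]
      ring
    rw [h3]
    exact PP.add_mem (PP.sub_mem h1 (hP.mem b)) (hP.mem c)
  have h4 := hP.cn _ h2
  linear_combination -h4

/-- a factor of the weight of a pair in the prime ideal -/
lemma Pt_dc_mem (hP : Pt ε PP p r) {b c : M} (h1 : DC col L b c ∈ PP) :
    ∃ l ∈ L (col b) (col c), p c = p b + l := by
  unfold DC Dw at h1
  rw [hP.pr.multiset_prod_mem_iff_exists_mem] at h1
  obtain ⟨q, hq, hq2⟩ := h1
  rw [Multiset.mem_map] at hq
  obtain ⟨l, hl, rfl⟩ := hq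
  exact ⟨l, hl, hP.sub hq2⟩

lemma Pt.not_sub (hP : Pt ε PP p r) {b c : M} {l : A} (h1 : p c ≠ p b + l) :
    X b - X c + C l ∉ PP := fun h => h1 (hP.sub h)

/-- edges go up in rank by one -/
lemma Pt.dc (hP : Pt ε PP p r) (hl : Lbl L Z h ε) {b c : M} (h1 : DC col L b c ∈ PP) :
    r c = r b + 1 := by
  obtain ⟨l, hlm, hpc⟩ := Pt_dc_mem hP h1
  have h2 : ε (p c) = ε (p b) + ε l := by rw [hpc, map_add]
  rw [hP.rr, hP.rr, hl.eL _ _ l hlm] at h2
  exact_mod_cast h2

/-- no edge of length `h` -/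
lemma Pt.dc_h (hP : Pt ε PP p r) (hl : Lbl L Z h ε) {a u : M} (h1 : p u = p a + h) :
    DC col L a u ∉ PP := by
  intro h2
  obtain ⟨l, hlm, hpc⟩ := Pt_dc_mem hP h2
  have h3 : l = h := by
    rw [h1] at hpc
    exact (add_left_cancel hpc).symm
  have h4 := hl.eL _ _ l hlm
  rw [h3, hl.eh] at h4
  norm_num at h4

lemma Pt.zs (hP : Pt ε PP p r) (hl : Lbl L Z h ε) (u : M) : Zs col Z h u ∉ PP := by
  intro h1
  unfold Zs at h1
  rw [hP.pr.multiset_prod_mem_iff_exists_mem] at h1
  obtain ⟨q, hq, hq2⟩ := h1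
  rw [Multiset.mem_map] at hq
  obtain ⟨z, hz, rfl⟩ := hq
  have h2 : C (p u - h - z) ∈ PP := by
    have h3 : (C (p u - h - z) : MvPolynomial M A) =
        (X u - C h - C z) - (X u - C (p u)) := by
      rw [C_sub, C_sub]
      ring
    rw [h3]
    exact PP.sub_mem hq2 (hP.mem u)
  have h4 : p u = h + z := by linear_combination hP.cn _ h2
  have h5 : ε (p u) = ε h + ε z := by rw [h4, map_add]
  rw [hP.rr, hl.eh, hl.eZ _ z hz, add_zero] at h5
  have h6 : r u = 2 := by exact_mod_cast h5
  have h7 := hP.r0 u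
  rw [h6] at h7
  norm_num at h7

lemma prod_notMem (hP : Pt ε PP p r) (s : Finset M) (f : M → MvPolynomial M A)
    (hf : ∀ a ∈ s, f a ∉ PP) : ∏ a ∈ s, f a ∉ PP := by
  haveI := hP.pr
  intro h1
  rw [Ideal.IsPrime.prod_mem_iff] at h1
  obtain ⟨a, ha, ha2⟩ := h1
  exact hf a ha ha2

/-- the position of one mark -/
lemma Pt_pos (hl : Lbl L Z h ε) (σ : M → ℕ)
    (hPP : PP.IsPrime) (hT : TC col L Z σ ≤ PP) (N : ℕ) (hN : ∀ b, σ b ≤ N) :
    ∀ k : ℕ, ∀ b : M, N - σ b = k →
      ∃ (a : A) (n : ℕ), X b - C a ∈ PP ∧ ε a = -(n : ℂ) := by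
  intro k
  induction k using Nat.strong_induction_on with
  | _ k ih =>
    intro b hb
    have h1 : Pr (fun b c => L (col b) (col c)) (fun b => Z (col b)) (up σ) b ∈ PP :=
      hT (Ideal.subset_span ⟨b, rfl⟩)
    unfold Pr at h1
    rcases hPP.mem_or_mem h1 with h2 | h2
    · unfold Zw at h2
      rw [hPP.multiset_prod_mem_iff_exists_mem] at h2
      obtain ⟨q, hq, hq2⟩ := h2
      rw [Multiset.mem_map] at hq
      obtain ⟨z, hz, rfl⟩ := hq
      refine ⟨z, 0, hq2, ?_⟩
      rw [hl.eZ _ z hz]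
      simp
    · haveI := hPP
      rw [Ideal.IsPrime.prod_mem_iff] at h2
      obtain ⟨c, hc, hc2⟩ := h2
      unfold Dw at hc2
      rw [hPP.multiset_prod_mem_iff_exists_mem] at hc2
      obtain ⟨q, hq, hq2⟩ := hc2
      rw [Multiset.mem_map] at hq
      obtain ⟨l, hlm, rfl⟩ := hq
      have hbc : σ b < σ c := by
        unfold up at hc
        exact (Finset.mem_filter.mp hc).2
      obtain ⟨a, n, ha, hn⟩ := ih (N - σ c) (by have := hN c; omega) c rfl
      refine ⟨a - l, n + 1, ?_, ?_⟩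
      · have h3 : (X b - C (a - l) : MvPolynomial M A) = (X b - X c + C l) + (X c - C a) := by
          rw [C_sub]
          ring
        rw [h3]
        exact PP.add_mem hq2 ha
      · rw [map_sub, hn, hl.eL _ _ l hlm]
        push_cast
        ring

/-- if the triangular ideal of an order is in a prime ideal without constants then this is a
point -/
theorem exists_pt (hl : Lbl L Z h ε) (σ : M → ℕ) (hσ : Function.Injective σ)
    (hPP : PP.IsPrime) (hc : ∀ a : A, C a ∈ PP → a = 0) (hT : TC col L Z σ ≤ PP) :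
    ∃ p r, Pt ε PP p r := by
  have hN : ∀ b, σ b ≤ Finset.univ.sup σ := fun b => Finset.le_sup (Finset.mem_univ b)
  have key : ∀ b : M, ∃ (a : A) (n : ℕ), X b - C a ∈ PP ∧ ε a = -(n : ℂ) :=
    fun b => Pt_pos hl σ hPP hT _ hN _ b rfl
  choose p n hp hn using key
  refine ⟨p, fun b => -(n b : ℚ), hPP, hc, hp, ?_, ?_⟩
  · intro b
    rw [hn]
    push_cast
    rfl
  · intro b
    simp only [Left.neg_nonpos_iff]
    exact Nat.cast_nonneg _


end

end Vale.Agent.P291.K
end
end

section

section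

set_option autoImplicit false
set_option linter.unusedSectionVars false

/-! The labels of a quiver. -/

namespace Vale.Agent.P291.K

open MvPolynomial Vale.Agent.P291.G Vale.Agent.P291.H Vale.Agent.P291.H.M

variable (D : QData)

/-- flavor ring -/
abbrev FR : Type := MvPolynomial (ZZ D) ℂ

/-- variable of an arrow -/
noncomputable def ta (a : D.A) : FR D := X (Sum.inl (Sum.inl a))
/-- variable of a framing vector -/
noncomputable def zk (i : D.I) (k : Fin (D.w i)) : FR D := X (Sum.inl (Sum.inr ⟨i, k⟩))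
/-- `ħ` -/
noncomputable def hh : FR D := X (Sum.inr (Sum.inl ()))

/-- polynomials in the gauge variables over the flavor ring -/
noncomputable def iso : S D (ZZ D) ≃ₐ[ℂ] MvPolynomial (B D) (FR D) := sumAlgEquiv ℂ (B D) (ZZ D)

/-- labels of the pairs `b → c`, `b` of colour `i`, `c` of colour `j` -/
noncomputable def Lq (u v : FR D) (i j : D.I) : Multiset (FR D) :=
  ((Finset.univ.filter fun a => D.src a = i ∧ D.tgt a = j).val.map fun a => u - ta D a) +
  ((Finset.univ.filter fun a => D.src a = j ∧ D.tgt a = i).val.map fun a => ta D a - v)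

/-- framing roots -/
noncomputable def Zq (u : FR D) (i : D.I) : Multiset (FR D) :=
  (Finset.univ : Finset (Fin (D.w i))).val.map fun k => zk D i k - u

/-- evaluation of the flavor ring: arrows `↦ s`, framing vectors `↦ t`, `ħ ↦ e` -/
noncomputable def evq (s t e : ℂ) : FR D →+* ℂ :=
  (aeval (Sum.elim (Sum.elim (fun _ => s) fun _ => t) (Sum.elim (fun _ => e) fun _ => 0)) :
    FR D →ₐ[ℂ] ℂ)

/-- the substitution `ħ ↦ 0` in the flavor ring -/
noncomputable def h0 : FR D →+* FR D :=
  (aeval (Sum.elim (fun z => X (Sum.inl z))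
    (Sum.elim (fun _ => 0) fun j => X (Sum.inr (Sum.inr j)))) : FR D →ₐ[ℂ] FR D)

lemma GDefs_ev_ta (s t e : ℂ) (a : D.A) : evq D s t e (ta D a) = s := by
  change (aeval _ : FR D →ₐ[ℂ] ℂ) (X (Sum.inl (Sum.inl a))) = _
  rw [aeval_X]
  rfl

lemma GDefs_ev_zk (s t e : ℂ) (i : D.I) (k : Fin (D.w i)) : evq D s t e (zk D i k) = t := by
  change (aeval _ : FR D →ₐ[ℂ] ℂ) (X (Sum.inl (Sum.inr ⟨i, k⟩))) = _
  rw [aeval_X]
  rfl

lemma GDefs_ev_hh (s t e : ℂ) : evq D s t e (hh D) = e := by
  change (aeval _ : FR D →ₐ[ℂ] ℂ) (X (Sum.inr (Sum.inl ()))) = _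
  rw [aeval_X]
  rfl

lemma GDefs_mesh (u v h : FR D) (huv : h = u - v) (i j : D.I) :
    Lq D u v j i = (Lq D u v i j).map fun l => h - l := by
  unfold Lq
  rw [Multiset.map_add, Multiset.map_map, Multiset.map_map, add_comm]
  subst huv
  congr 1
  · refine Multiset.map_congr rfl fun a _ => ?_
    simp only [Function.comp_apply]
    ring
  · refine Multiset.map_congr rfl fun a _ => ?_
    simp only [Function.comp_apply]
    ring

lemma GDefs_eL (u v : FR D) (s t e : ℂ) (h1 : evq D s t e u = s + 1)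
    (h2 : evq D s t e v = s - 1) (i j : D.I) : ∀ l ∈ Lq D u v i j, evq D s t e l = 1 := by
  intro l hl
  unfold Lq at hl
  rw [Multiset.mem_add, Multiset.mem_map, Multiset.mem_map] at hl
  rcases hl with ⟨a, -, rfl⟩ | ⟨a, -, rfl⟩
  · rw [map_sub, h1, GDefs_ev_ta]
    ring
  · rw [map_sub, h2, GDefs_ev_ta]
    ring

lemma lbl_pos : Lbl (Lq D (hh D) 0) (Zq D (hh D)) (hh D) (evq D 1 2 2) where
  mesh := GDefs_mesh D _ _ _ (by rw [sub_zero])
  eL := GDefs_eL D _ _ _ _ _ (by rw [GDefs_ev_hh]; norm_num) (by rw [map_zero]; norm_num)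
  eZ i z hz := by
    unfold Zq at hz
    rw [Multiset.mem_map] at hz
    obtain ⟨k, -, rfl⟩ := hz
    rw [map_sub, GDefs_ev_hh, GDefs_ev_zk, sub_self]
  eh := GDefs_ev_hh D _ _ _

lemma lbl_neg : Lbl (Lq D 0 (hh D)) (Zq D 0) (-hh D) (evq D (-1) 0 (-2)) where
  mesh := GDefs_mesh D _ _ _ (by rw [zero_sub])
  eL := GDefs_eL D _ _ _ _ _ (by rw [map_zero]; norm_num) (by rw [GDefs_ev_hh]; norm_num)
  eZ i z hz := by
    unfold Zq at hz
    rw [Multiset.mem_map] at hz
    obtain ⟨k, -, rfl⟩ := hz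
    rw [map_sub, map_zero, GDefs_ev_zk, sub_self]
  eh := by rw [map_neg, GDefs_ev_hh, neg_neg]

lemma GDefs_h0_ta (a : D.A) : h0 D (ta D a) = ta D a := by
  change (aeval _ : FR D →ₐ[ℂ] FR D) (X (Sum.inl (Sum.inl a))) = _
  rw [aeval_X]
  rfl

lemma GDefs_h0_zk (i : D.I) (k : Fin (D.w i)) : h0 D (zk D i k) = zk D i k := by
  change (aeval _ : FR D →ₐ[ℂ] FR D) (X (Sum.inl (Sum.inr ⟨i, k⟩))) = _
  rw [aeval_X]
  rfl

lemma h0_hh : h0 D (hh D) = 0 := by
  change (aeval _ : FR D →ₐ[ℂ] FR D) (X (Sum.inr (Sum.inl ()))) = _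
  rw [aeval_X]
  rfl

lemma GDefs_h0_Lq (u v : FR D) (i j : D.I) :
    (Lq D u v i j).map (h0 D) = Lq D (h0 D u) (h0 D v) i j := by
  unfold Lq
  rw [Multiset.map_add, Multiset.map_map, Multiset.map_map]
  congr 1
  · refine Multiset.map_congr rfl fun a _ => ?_
    rw [Function.comp_apply, map_sub, GDefs_h0_ta]
  · refine Multiset.map_congr rfl fun a _ => ?_
    rw [Function.comp_apply, map_sub, GDefs_h0_ta]

lemma GDefs_h0_Zq (u : FR D) (i : D.I) : (Zq D u i).map (h0 D) = Zq D (h0 D u) i := by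
  unfold Zq
  rw [Multiset.map_map]
  refine Multiset.map_congr rfl fun k _ => ?_
  rw [Function.comp_apply, map_sub, GDefs_h0_zk]

/-- both systems of labels specialize to the same one -/
lemma h0_Lq_pos (i j : D.I) : (Lq D (hh D) 0 i j).map (h0 D) = Lq D 0 0 i j := by
  rw [GDefs_h0_Lq, h0_hh, map_zero]

lemma h0_Lq_neg (i j : D.I) : (Lq D 0 (hh D) i j).map (h0 D) = Lq D 0 0 i j := by
  rw [GDefs_h0_Lq, h0_hh, map_zero]

lemma h0_Zq_pos (i : D.I) : (Zq D (hh D) i).map (h0 D) = Zq D 0 i := by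
  rw [GDefs_h0_Zq, h0_hh]

lemma h0_Zq_neg (i : D.I) : (Zq D 0 i).map (h0 D) = Zq D 0 i := by
  rw [GDefs_h0_Zq, map_zero]

lemma GDefs_x (b : B D) : iso D (X (Sum.inl b)) = X b := sumAlgEquiv_X_inl _ _ _ b

lemma GDefs_z (z : ZZ D) : iso D (X (Sum.inr z)) = C (X z) := sumAlgEquiv_X_inr _ _ _ z

lemma GDefs_C (r : ℂ) : iso D (C r) = C (C r) := sumAlgEquiv_C_inl _ _ _ r

lemma iso_z0 (g : S D (ZZ D)) : iso D (z0 D g) = MvPolynomial.map (h0 D) (iso D g) := by
  have h : (iso D).toRingEquiv.toRingHom.comp (z0 D).toRingHom =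
      (MvPolynomial.map (h0 D)).comp (iso D).toRingEquiv.toRingHom := by
    apply MvPolynomial.ringHom_ext
    · intro r
      change iso D (z0 D (C r)) = MvPolynomial.map (h0 D) (iso D (C r))
      rw [z0, aeval_C, GDefs_C, map_C, h0]
      change iso D (C r) = C ((aeval _ : FR D →ₐ[ℂ] FR D) (C r))
      rw [aeval_C, GDefs_C]
      rfl
    · intro x
      change iso D (z0 D (X x)) = MvPolynomial.map (h0 D) (iso D (X x))
      rcases x with b | z
      · rw [z0, aeval_X, GDefs_x, map_X]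
        exact GDefs_x D b
      · rw [GDefs_z, map_C, z0, aeval_X]
        change _ = C ((aeval _ : FR D →ₐ[ℂ] FR D) (X z))
        rw [aeval_X]
        rcases z with z | (z | j)
        · exact GDefs_z D (Sum.inl z)
        · change iso D 0 = C 0
          rw [map_zero, map_zero]
        · exact GDefs_z D (Sum.inr (Sum.inr j))
  exact RingHom.congr_fun h g

lemma GDefs_rename (π : B D → B D) (g : S D (ZZ D)) :
    iso D (rename (Sum.map π id) g) = rename π (iso D g) := by
  have h : (iso D).toRingEquiv.toRingHom.comp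
      (rename (Sum.map π id) : S D (ZZ D) →ₐ[ℂ] S D (ZZ D)).toRingHom =
      (rename π : MvPolynomial (B D) (FR D) →ₐ[FR D] MvPolynomial (B D) (FR D)).toRingHom.comp
        (iso D).toRingEquiv.toRingHom := by
    apply MvPolynomial.ringHom_ext
    · intro r
      change iso D (rename (Sum.map π id) (C r)) = rename π (iso D (C r))
      rw [rename_C, GDefs_C, rename_C]
    · intro x
      change iso D (rename (Sum.map π id) (X x)) = rename π (iso D (X x))
      rcases x with b | z
      · rw [rename_X, GDefs_x, rename_X]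
        exact GDefs_x D (π b)
      · rw [rename_X, GDefs_z, rename_C]
        exact GDefs_z D z
  exact RingHom.congr_fun h g

lemma GDefs_perm {a b : B D} (hab : a.1 = b.1) :
    ∃ σ : W D, (perm D σ : B D → B D) = Equiv.swap a b := by
  obtain ⟨i, r⟩ := a
  obtain ⟨j, s⟩ := b
  change i = j at hab
  subst hab
  refine ⟨Function.update (1 : W D) i (Equiv.swap r s), ?_⟩
  funext ⟨k, t⟩
  change (⟨k, Function.update (1 : W D) i (Equiv.swap r s) k t⟩ : B D) = _
  by_cases hk : k = i
  · subst hk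
    rw [Function.update_self]
    by_cases h1 : t = r
    · subst h1
      rw [Equiv.swap_apply_left, Equiv.swap_apply_left]
    · by_cases h2 : t = s
      · subst h2
        rw [Equiv.swap_apply_right, Equiv.swap_apply_right]
      · rw [Equiv.swap_apply_of_ne_of_ne h1 h2, Equiv.swap_apply_of_ne_of_ne]
        · intro h3
          exact h1 (eq_of_heq (Sigma.mk.inj h3).2)
        · intro h3
          exact h2 (eq_of_heq (Sigma.mk.inj h3).2)
  · rw [Function.update_of_ne hk, Equiv.swap_apply_of_ne_of_ne]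
    · rfl
    · intro h3
      exact hk (Sigma.mk.inj h3).1
    · intro h3
      exact hk (Sigma.mk.inj h3).1

lemma iso_act {g : S D (ZZ D)} (hg : ∀ σ, act D (ZZ D) σ g = g) {a b : B D} (hab : a.1 = b.1) :
    sw a b (iso D g) = iso D g := by
  obtain ⟨σ, hσ⟩ := GDefs_perm D hab
  have h1 := hg σ
  rw [act, hσ] at h1
  rw [sw, ← GDefs_rename, h1]

/-- the product over the ordered pairs -/
lemma iso_ddT : iso D (ddT D (ZZ D)) = pp (Sigma.fst : B D → D.I) 0 fun _ _ => True := by
  unfold ddT dd pp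
  rw [map_prod]
  refine Finset.prod_congr rfl fun a _ => ?_
  rw [map_prod]
  refine Finset.prod_congr rfl fun b _ => ?_
  split_ifs with h
  · rw [map_sub, C_0, add_zero]
    exact congrArg₂ (· - ·) (GDefs_x D a) (GDefs_x D b)
  · rw [map_one]

lemma GDefs_prod {R : Type} [CommRing R] (f : B D → B D → R)
    (hd : ∀ a b : B D, Decidable (a ≠ b ∧ a.1 = b.1 ∧ True)) :
    (∏ i, ∏ r : Fin (D.v i), ∏ s ∈ Finset.univ.erase r, f ⟨i, r⟩ ⟨i, s⟩) =
      ∏ a : B D, ∏ b : B D, if a ≠ b ∧ a.1 = b.1 ∧ True then f a b else 1 := by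
  rw [Fintype.prod_sigma]
  refine Finset.prod_congr rfl fun i _ => Finset.prod_congr rfl fun r _ => ?_
  rw [Fintype.prod_sigma, Finset.prod_eq_single i]
  · rw [← Finset.filter_ne', Finset.prod_filter]
    refine Finset.prod_congr rfl fun s _ => ?_
    by_cases h : s = r
    · subst h
      rw [if_neg fun h1 => h1 rfl, if_neg fun h1 => h1.1 rfl]
    · rw [if_pos h, if_pos ⟨fun h1 => h (eq_of_heq (Sigma.mk.inj h1).2).symm, rfl, trivial⟩]
  · intro j _ hj
    refine Finset.prod_eq_one fun s _ => ?_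
    rw [if_neg fun h1 => hj h1.2.1.symm]
  · intro h
    exact absurd (Finset.mem_univ i) h

lemma iso_disc : iso D (disc D) = (pp (Sigma.fst : B D → D.I) 0 fun _ _ => True) *
      pp (Sigma.fst : B D → D.I) (hh D) fun _ _ => True := by
  classical
  unfold disc
  rw [GDefs_prod D (fun a b => (gx D a - gx D b) * (gx D a - gx D b + gh D))
    fun _ _ => Classical.dec _]
  unfold pp
  rw [map_prod, ← Finset.prod_mul_distrib]
  refine Finset.prod_congr rfl fun a _ => ?_
  rw [map_prod, ← Finset.prod_mul_distrib]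
  refine Finset.prod_congr rfl fun b _ => ?_
  have h1 : iso D (gx D a) = X a := GDefs_x D a
  have h2 : iso D (gx D b) = X b := GDefs_x D b
  have h3 : iso D (gh D) = C (hh D) := GDefs_z D _
  by_cases h : a ≠ b ∧ a.1 = b.1 ∧ True
  · rw [if_pos h, if_pos h, if_pos h, map_mul, map_add, map_sub, h1, h2, h3, C_0, add_zero]
  · rw [if_neg h, if_neg h, if_neg h, map_one, one_mul]

lemma iso_disc_pos : ∃ e : ℤ, e * e = 1 ∧ iso D (disc D) = (e : MvPolynomial (B D) (FR D)) *
    ((pp (Sigma.fst : B D → D.I) 0 fun _ _ => True) *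
      pp (Sigma.fst : B D → D.I) (hh D) fun _ _ => True) :=
  ⟨1, one_mul 1, by rw [iso_disc, Int.cast_one, one_mul]⟩

/-- exchange of the two marks -/
lemma GDefs_neg {M A I : Type} [CommRing A] [Fintype M] [DecidableEq M] (col : M → I) (s : A) :
    ∃ e : ℤ, e * e = 1 ∧ pp col s (fun _ _ => True) =
      (e : MvPolynomial M A) * pp col (-s) fun _ _ => True := by
  classical
  refine ⟨∏ a, ∏ b, if a ≠ b ∧ col a = col b ∧ True then -1 else 1, ?_, ?_⟩
  · rw [← Finset.prod_mul_distrib]
    refine Finset.prod_eq_one fun a _ => ?_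
    rw [← Finset.prod_mul_distrib]
    refine Finset.prod_eq_one fun b _ => ?_
    split_ifs <;> norm_num
  · unfold pp
    rw [Finset.prod_comm]
    push_cast
    rw [← Finset.prod_mul_distrib]
    refine Finset.prod_congr rfl fun a _ => ?_
    rw [← Finset.prod_mul_distrib]
    refine Finset.prod_congr rfl fun b _ => ?_
    by_cases h : a ≠ b ∧ col a = col b ∧ True
    · rw [if_pos h, if_pos h, if_pos ⟨h.1.symm, h.2.1.symm, h.2.2⟩, C_neg]
      ring
    · rw [if_neg h, if_neg h, if_neg fun h1 => h ⟨h1.1.symm, h1.2.1.symm, h1.2.2⟩, one_mul]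

lemma iso_disc_neg : ∃ e : ℤ, e * e = 1 ∧ iso D (disc D) = (e : MvPolynomial (B D) (FR D)) *
    ((pp (Sigma.fst : B D → D.I) 0 fun _ _ => True) *
      pp (Sigma.fst : B D → D.I) (-hh D) fun _ _ => True) := by
  obtain ⟨e, he, h⟩ := GDefs_neg (Sigma.fst : B D → D.I) (hh D)
  refine ⟨e, he, ?_⟩
  rw [iso_disc, h]
  ring

end Vale.Agent.P291.K
end
end

section

section

set_option autoImplicit false
set_option linter.unusedSectionVars false

/-! The mesh relations. -/

namespace Vale.Agent.P291.K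

open MvPolynomial

section
variable {M A I : Type} [CommRing A] [IsDomain A] [Algebra ℚ A] [DecidableEq M] [Fintype M]
  [DecidableEq I]
  (col : M → I) (L : I → I → Multiset A) (Z : I → Multiset A) (h : A)

lemma rank_ite {p q : Prop} {dp : Decidable p} {dq : Decidable q} {α : Type} (x y : α)
    (h : p ↔ q) : @ite α p dp x y = @ite α q dq x y := by
  by_cases hp : p
  · rw [if_pos hp, if_pos (h.1 hp)]
  · rw [if_neg hp, if_neg fun hq => hp (h.2 hq)]

/-- factors which are removed at the `k`-th step -/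
lemma pp_step (σ : M → ℕ) (hσ : Function.Injective σ) {k : ℕ} {u : M} (hu : σ u = k) :
    pp col h (fun a b => ¬ (σ b < σ a ∧ σ b < k)) =
      pp col h (fun a b => ¬ (σ b < σ a ∧ σ b < k + 1)) *
        ∏ a ∈ (Rs σ k).filter (fun a => col a = col u), (X a - X u + C h) := by
  classical
  have h1 : ∏ a ∈ (Rs σ k).filter (fun a => col a = col u), (X a - X u + C h) =
      ∏ a : M, ∏ b : M, if b = u then
        (if k < σ a ∧ col a = col u then (X a - X u + C h : MvPolynomial M A) else 1) else 1 := by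
    have h2 : ∀ a : M, (∏ b : M, if b = u then
        (if k < σ a ∧ col a = col u then (X a - X u + C h : MvPolynomial M A) else 1) else 1) =
        if k < σ a ∧ col a = col u then X a - X u + C h else 1 := by
      intro a
      rw [Finset.prod_ite_eq' Finset.univ u, if_pos (Finset.mem_univ u)]
    rw [Finset.prod_congr rfl fun a _ => h2 a, Rs, Finset.filter_filter, Finset.prod_filter]
  rw [h1]
  unfold pp
  rw [← Finset.prod_mul_distrib]
  refine Finset.prod_congr rfl fun a _ => ?_
  rw [← Finset.prod_mul_distrib]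
  refine Finset.prod_congr rfl fun b _ => ?_
  by_cases hb : b = u
  · subst hb
    rw [if_pos rfl]
    by_cases hc : k < σ a ∧ col a = col b
    · have hab : a ≠ b := by
        rintro rfl
        omega
      rw [if_pos hc, if_pos ⟨hab, hc.2, by omega⟩,
        if_neg (fun h3 => h3.2.2 ⟨by omega, by omega⟩), one_mul]
    · rw [if_neg hc, mul_one]
      refine rank_ite _ _ ?_
      constructor
      · rintro ⟨h3, h4, h5⟩
        exact ⟨h3, h4, fun h6 => hc ⟨by omega, h4⟩⟩
      · rintro ⟨h3, h4, h5⟩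
        exact ⟨h3, h4, fun h6 => by omega⟩
  · rw [if_neg hb, mul_one]
    have hk : σ b ≠ k := fun h3 => hb (hσ (h3.trans hu.symm))
    refine rank_ite _ _ ?_
    constructor
    · rintro ⟨h3, h4, h5⟩
      exact ⟨h3, h4, fun h6 => h5 ⟨h6.1, by omega⟩⟩
    · rintro ⟨h3, h4, h5⟩
      exact ⟨h3, h4, fun h6 => h5 ⟨h6.1, by omega⟩⟩

/-- if no mark has order `k` then nothing changes -/
lemma pp_none (σ : M → ℕ) {k : ℕ} (hk : ∀ u, σ u ≠ k) :
    pp col h (fun a b => ¬ (σ b < σ a ∧ σ b < k + 1)) =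
      pp col h (fun a b => ¬ (σ b < σ a ∧ σ b < k)) := by
  have h1 : (fun a b : M => ¬ (σ b < σ a ∧ σ b < k + 1)) =
      fun a b : M => ¬ (σ b < σ a ∧ σ b < k) := by
    funext a b
    have := hk b
    apply propext
    constructor
    · exact fun h6 h7 => h6 ⟨h7.1, by omega⟩
    · exact fun h6 h7 => h6 ⟨h7.1, by omega⟩
  rw [h1]

lemma rank_TC_congr {α β : Type} [LinearOrder α] [LinearOrder β] {r : M → α} {s : M → β}
    (h : ∀ b c, c ∈ up r b ↔ c ∈ up s b) : TC col L Z r = TC col L Z s := by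
  have h1 : up r = up s := by
    funext b
    ext c
    exact h b c
  unfold TC
  rw [h1]

lemma TC_none (σ : M → ℕ) (hσ : Function.Injective σ) (r : M → ℚ) {k : ℕ} (hk : ∀ u, σ u ≠ k) :
    TC col L Z (rk σ r (k + 1)) = TC col L Z (rk σ r k) := by
  refine rank_TC_congr col L Z fun b c => ?_
  rw [mem_up_rk σ hσ, mem_up_rk σ hσ]
  have h1 := hk b
  have h2 := hk c
  constructor
  · rintro (h3 | h3)
    · exact Or.inl ⟨by omega, h3.2⟩
    · exact Or.inr ⟨by omega, by omega, h3.2.2⟩
  · rintro (h3 | h3)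
    · exact Or.inl ⟨by omega, h3.2⟩
    · exact Or.inr ⟨by omega, by omega, h3.2.2⟩

lemma TC_zero (σ : M → ℕ) (hσ : Function.Injective σ) (r : M → ℚ) :
    TC col L Z (rk σ r 0) = TC col L Z r := by
  refine rank_TC_congr col L Z fun b c => ?_
  rw [mem_up_rk σ hσ, up, Finset.mem_filter]
  constructor
  · rintro (h3 | h3)
    · omega
    · exact ⟨Finset.mem_univ _, h3.2.2⟩
  · rintro ⟨-, h3⟩
    exact Or.inr ⟨Nat.zero_le _, Nat.zero_le _, h3⟩

lemma TC_last (σ : M → ℕ) (hσ : Function.Injective σ) (r : M → ℚ) {k : ℕ} (hk : ∀ b, σ b < k) :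
    TC col L Z (rk σ r k) = TC col L Z σ := by
  refine rank_TC_congr col L Z fun b c => ?_
  rw [mem_up_rk σ hσ, up, Finset.mem_filter]
  have h1 := hk b
  have h2 := hk c
  constructor
  · rintro (h3 | h3)
    · exact ⟨Finset.mem_univ _, h3.2⟩
    · omega
  · rintro ⟨-, h3⟩
    exact Or.inl ⟨h1, h3⟩

end

end Vale.Agent.P291.K
end
end

section

section

set_option autoImplicit false
set_option linter.unusedSectionVars false

/-! The mesh relations. -/

namespace Vale.Agent.P291.K

open MvPolynomial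

section
variable {M A I : Type} [CommRing A] [IsDomain A] [Algebra ℚ A] [DecidableEq M] [Fintype M]
  [DecidableEq I]
  (col : M → I) (L : I → I → Multiset A) (Z : I → Multiset A) (h : A)

/-- the colon step: move the mark `u` of order `k` in front of the marks of larger order -/
theorem colon_step (σ : M → ℕ) (hσ : Function.Injective σ) (r : M → ℚ) {k : ℕ} {u : M}
    (hu : σ u = k) {y : MvPolynomial M A}
    (hy : (∏ d ∈ (Rs σ k).filter (fun d => r d < r u), DC col L d u) * y ∈
      TC col L Z (rk σ r k)) :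
    (∏ c ∈ (Rs σ k).filter (fun c => ¬ r u < r c), DC col L u c) * y ∈
      TC col L Z (rk σ r (k + 1)) := by
  set V : Finset M := (Rs σ k).filter (fun d => r d < r u) with hV
  have hRs : ∀ c, c ∈ Rs σ k ↔ k < σ c := fun c => by
    unfold Rs; simp only [Finset.mem_filter, Finset.mem_univ, true_and]
  have hVm : ∀ c, c ∈ V ↔ k < σ c ∧ r c < r u := fun c => by
    rw [hV, Finset.mem_filter, hRs]
  have huV : u ∉ V := fun h => by
    have := ((hVm u).mp h).1
    omega
  set L' : M → M → Multiset A := fun b c => L (col b) (col c) with hL'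
  set Z' : M → Multiset A := fun b => Z (col b) with hZ'
  set T : M → Finset M := fun b => if b ∈ V then (up (rk σ r k) b).erase u else up (rk σ r k) b
    with hT
  -- the relations at the stages
  have e1 : ∀ v ∈ V, Pr L' Z' (up (rk σ r k)) v = DC col L v u * Pr L' Z' T v := by
    intro v hv
    have hv' := (hVm v).mp hv
    have hmem : u ∈ up (rk σ r k) v := by
      rw [mem_up_rk σ hσ]
      exact Or.inr ⟨by omega, by omega, hv'.2⟩
    unfold Pr DC
    rw [hT]
    simp only [if_pos hv]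
    rw [← Finset.mul_prod_erase _ _ hmem]
    ring
  have e2 : ∀ b ∉ V, Pr L' Z' (up (rk σ r k)) b = Pr L' Z' T b := by
    intro b hb
    unfold Pr
    rw [hT]
    simp only [if_neg hb]
  have hTup : ∀ b, ∀ c ∈ T b, rk σ r k b < rk σ r k c := by
    intro b c hc
    have hc' : c ∈ up (rk σ r k) b := by
      rw [hT] at hc
      simp only at hc
      split_ifs at hc with hb
      · exact Finset.mem_of_mem_erase hc
      · exact hc
    unfold up at hc'
    exact (Finset.mem_filter.mp hc').2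
  have hup : ∀ b, ∀ c ∈ up (rk σ r k) b, rk σ r k b < rk σ r k c := by
    intro b c hc
    unfold up at hc
    exact (Finset.mem_filter.mp hc).2
  have hne : ∀ v ∈ V, v ≠ u := fun v hv h => huV (h ▸ hv)
  have key : y ∈ Ideal.span (Set.range (Pr L' Z' T)) := by
    refine colon (rk σ r k) (Pr L' Z' (up (rk σ r k))) (Pr L' Z' T) V (fun d => DC col L d u)
      e1 e2 (tri_Pr L' Z' _ _ hup) (tri_Pr L' Z' _ _ hTup) ?_ ?_ hy
    · intro v hv
      exact mon_Dw _ (hne v hv)
    · intro v hv b hb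
      have hbv : b ≠ v := fun h => by
        rw [h] at hb
        exact lt_irrefl _ hb
      have hv' := (hVm v).mp hv
      have hvu : rk σ r k v < rk σ r k u := by
        have hmem : u ∈ up (rk σ r k) v := by
          rw [mem_up_rk σ hσ]
          exact Or.inr ⟨by omega, by omega, hv'.2⟩
        exact hup v u hmem
      have hbu : b ≠ u := fun h => by
        rw [h] at hb
        exact lt_irrefl _ (hb.trans hvu)
      exact free_Dw _ hbv hbu
  -- the relations of the next stage
  have e3 : ∀ b, b ≠ u → Pr L' Z' T b = Pr L' Z' (up (rk σ r (k + 1))) b := by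
    intro b hb
    have hσb : σ b ≠ k := fun h => hb (hσ (by rw [h, hu]))
    unfold Pr
    congr 1
    refine Finset.prod_congr ?_ fun _ _ => rfl
    rw [hT]
    simp only
    by_cases hbV : b ∈ V
    · have hb' := (hVm b).mp hbV
      rw [if_pos hbV]
      ext c
      rw [Finset.mem_erase, mem_up_rk σ hσ, mem_up_rk σ hσ]
      constructor
      · rintro ⟨h0, h1 | ⟨h1, h2, h3⟩⟩
        · omega
        · have : σ c ≠ k := fun h => h0 (hσ (by rw [h, hu]))
          exact Or.inr ⟨by omega, by omega, h3⟩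
      · rintro (h1 | ⟨h1, h2, h3⟩)
        · omega
        · refine ⟨fun h => ?_, Or.inr ⟨by omega, by omega, h3⟩⟩
          rw [h, hu] at h2
          omega
    · rw [if_neg hbV]
      ext c
      rw [mem_up_rk σ hσ, mem_up_rk σ hσ]
      constructor
      · rintro (h1 | ⟨h1, h2, h3⟩)
        · exact Or.inl ⟨by omega, h1.2⟩
        · refine Or.inr ⟨by omega, ?_, h3⟩
          by_contra hlt
          have hck : σ c = k := by omega
          have hcu : c = u := hσ (by rw [hck, hu])
          rw [hcu] at h3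
          exact hbV ((hVm b).mpr ⟨by omega, h3⟩)
      · rintro (h1 | ⟨h1, h2, h3⟩)
        · exact Or.inl ⟨by omega, h1.2⟩
        · exact Or.inr ⟨by omega, by omega, h3⟩
  have e4 : (∏ c ∈ (Rs σ k).filter (fun c => ¬ r u < r c), DC col L u c) * Pr L' Z' T u =
      Pr L' Z' (up (rk σ r (k + 1))) u := by
    have h1 : T u = (Rs σ k).filter (fun c => r u < r c) := by
      rw [hT]
      simp only [if_neg huV]
      ext c
      rw [mem_up_rk σ hσ, Finset.mem_filter, hRs]
      constructor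
      · rintro (h1 | ⟨h1, h2, h3⟩)
        · omega
        · refine ⟨?_, h3⟩
          by_contra hlt
          have hck : σ c = k := by omega
          have hcu : c = u := hσ (by rw [hck, hu])
          rw [hcu] at h3
          exact lt_irrefl _ h3
      · rintro ⟨h1, h2⟩
        exact Or.inr ⟨by omega, by omega, h2⟩
    have h2 : up (rk σ r (k + 1)) u = Rs σ k := by
      ext c
      rw [mem_up_rk σ hσ, hRs]
      constructor
      · rintro (h1 | ⟨h1, h2, h3⟩) <;> omega
      · intro h1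
        exact Or.inl ⟨by omega, by omega⟩
    unfold Pr
    rw [h1, h2, ← Finset.prod_filter_mul_prod_filter_not (Rs σ k) (fun c => r u < r c)]
    unfold DC
    ring
  -- conclusion
  unfold TC TI
  refine Submodule.span_induction (p := fun y _ =>
    (∏ c ∈ (Rs σ k).filter (fun c => ¬ r u < r c), DC col L u c) * y ∈
      Ideal.span (Set.range (Pr L' Z' (up (rk σ r (k + 1)))))) ?_ ?_ ?_ ?_ key
  · rintro _ ⟨b, rfl⟩
    by_cases hb : b = u
    · rw [hb, e4]
      exact Ideal.subset_span ⟨u, rfl⟩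
    · rw [e3 b hb]
      exact Ideal.mul_mem_left _ _ (Ideal.subset_span ⟨b, rfl⟩)
  · rw [mul_zero]
    exact Ideal.zero_mem _
  · intro a b _ _ ha hb
    rw [mul_add]
    exact Ideal.add_mem _ ha hb
  · intro a b _ hb
    rw [smul_eq_mul, mul_left_comm]
    exact Ideal.mul_mem_left _ _ hb

end

end Vale.Agent.P291.K
end
end

section

section

set_option autoImplicit false
set_option linter.unusedSectionVars false

/-! Alternating elements modulo a symmetric triangular ideal, second part. -/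

namespace Vale.Agent.P291.K

open MvPolynomial

variable {M A I : Type} [CommRing A] [IsDomain A] [Algebra ℚ A] [DecidableEq M] [Fintype M]
  (col : M → I) (L : I → I → Multiset A) (Z : I → Multiset A) (r : M → ℚ)

lemma as2_sw_sw (a b : M) (f : MvPolynomial M A) : sw a b (sw a b f) = f := by
  have h : (⇑(Equiv.swap a b) ∘ ⇑(Equiv.swap a b) : M → M) = id := by
    funext c
    simp
  rw [sw, rename_rename, h, rename_id_apply]

lemma as2_sw_X (a b c : M) : sw a b (X c : MvPolynomial M A) = X (Equiv.swap a b c) := by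
  rw [sw, rename_X]

lemma as2_X_sub_ne {a b : M} (hab : a ≠ b) : (X a - X b : MvPolynomial M A) ≠ 0 := by
  intro h
  exact hab (X_injective (sub_eq_zero.mp h))

/-- the colon ideal is stable under divided differences -/
theorem dd_closed {a b : M} (hab : a ≠ b) (hc : col a = col b) (hr : r a = r b)
    {y g g' : MvPolynomial M A} (hy : sw a b y = -y) (hg : g - sw a b g = (X a - X b) * g')
    (h : g * y ∈ TC col L Z r) : g' * y ∈ TC col L Z r := by
  have h1 : (X a - X b) * (g' * y) ∈ TC col L Z r := by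
    have h2 := sw_TC col L Z r hc hr h
    rw [map_mul, hy] at h2
    have h3 := Ideal.add_mem _ h h2
    have h4 : g * y + sw a b g * -y = (X a - X b) * (g' * y) := by
      rw [← mul_assoc, ← hg]
      ring
    rwa [h4] at h3
  have h5 : sw a b g' = g' := by
    have h6 := congrArg (sw a b) hg
    rw [map_sub, as2_sw_sw, map_mul, map_sub, as2_sw_X, as2_sw_X, Equiv.swap_apply_left,
      Equiv.swap_apply_right] at h6
    have h7 : (X a - X b) * (sw a b g' - g') = 0 := by
      have h8 : (X a - X b) * sw a b g' = (X a - X b) * g' := by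
        rw [← hg]
        have : (X a - X b) * sw a b g' = -((X b - X a) * sw a b g') := by ring
        rw [this, ← h6]
        ring
      rw [mul_sub, h8, sub_self]
    rcases mul_eq_zero.mp h7 with h8 | h8
    · exact absurd h8 (as2_X_sub_ne hab)
    · exact sub_eq_zero.mp h8
  refine propP col L Z r hab hc hr ?_ h1
  rw [map_mul, h5, hy]
  ring

/-- the sums of the induction -/
noncomputable def as2S (G₁ G₂ : Finset M) (a : M) : MvPolynomial M A :=
  ∑ i ∈ insert a G₂, ∏ c ∈ G₁, (X c - X i)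

lemma as2_step (G₁ : Finset M) {a : M} {y t : MvPolynomial M A} :
    ∀ G₂ : Finset M, Disjoint G₁ G₂ → a ∉ G₁ → a ∉ G₂ →
    (∀ b ∈ G₁, col b = col a ∧ r b = r a) → (∀ b ∈ G₁, sw b a y = -y) →
    (∀ b ∈ G₁, sw b a t = t) → as2S G₁ G₂ a * t * y ∈ TC col L Z r → t * y ∈ TC col L Z r := by
  induction G₁ using Finset.induction_on with
  | empty =>
    intro G₂ _ _ _ _ _ _ h
    have h1 : (as2S ∅ G₂ a : MvPolynomial M A) = ((Finset.card (insert a G₂) : ℕ) :
        MvPolynomial M A) := by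
      rw [as2S]
      simp only [Finset.prod_empty, Finset.sum_const, nsmul_eq_mul, mul_one]
    have h2 : ((Finset.card (insert a G₂) : ℕ) : ℚ) ≠ 0 := by
      exact_mod_cast (Finset.card_pos.mpr (Finset.insert_nonempty a G₂)).ne'
    generalize Finset.card (insert a G₂) = n at h1 h2
    have h3 : C (algebraMap ℚ A ((n : ℚ)⁻¹)) * ((n : ℕ) : MvPolynomial M A) = 1 := by
      have : ((n : ℕ) : MvPolynomial M A) = C (algebraMap ℚ A (n : ℚ)) := by
        rw [map_natCast, map_natCast]
      rw [this, ← C_mul, ← map_mul, inv_mul_cancel₀ h2, map_one, C_1]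
    have h4 : t * y = C (algebraMap ℚ A ((n : ℚ)⁻¹)) * (as2S ∅ G₂ a * t * y) := by
      rw [h1, mul_assoc, ← mul_assoc, h3, one_mul]
    rw [h4]
    exact Ideal.mul_mem_left _ _ h
  | insert c₀ G₁ hc₀ ih =>
    intro G₂ hd ha₁ ha₂ hG hy ht h
    have hca : c₀ ≠ a := fun h => ha₁ (h ▸ Finset.mem_insert_self _ _)
    have haG : a ∉ G₁ := fun h => ha₁ (Finset.mem_insert_of_mem h)
    have hc₂ : c₀ ∉ G₂ := Finset.disjoint_left.mp hd (Finset.mem_insert_self _ _)
    have hd' : Disjoint G₁ G₂ := Finset.disjoint_of_subset_left (Finset.subset_insert _ _) hd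
    refine ih (insert c₀ G₂) ?_ haG ?_ (fun b hb => hG b (Finset.mem_insert_of_mem hb))
      (fun b hb => hy b (Finset.mem_insert_of_mem hb))
      (fun b hb => ht b (Finset.mem_insert_of_mem hb)) ?_
    · rw [Finset.disjoint_insert_right]
      exact ⟨hc₀, hd'⟩
    · rw [Finset.mem_insert, not_or]
      exact ⟨hca.symm, ha₂⟩
    · refine dd_closed col L Z r hca (hG c₀ (Finset.mem_insert_self _ _)).1
        (hG c₀ (Finset.mem_insert_self _ _)).2 (hy c₀ (Finset.mem_insert_self _ _)) ?_ h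
      have e1 : ∀ i, (i = a ∨ i = c₀ ∨ (i ≠ a ∧ i ≠ c₀)) := fun i => by tauto
      have sx : ∀ i, i ≠ a → i ≠ c₀ → sw c₀ a (X i : MvPolynomial M A) = X i := by
        intro i h1 h2
        rw [as2_sw_X, Equiv.swap_apply_of_ne_of_ne h2 h1]
      have sa : sw c₀ a (X a : MvPolynomial M A) = X c₀ := by
        rw [as2_sw_X, Equiv.swap_apply_right]
      have sc : sw c₀ a (X c₀ : MvPolynomial M A) = X a := by
        rw [as2_sw_X, Equiv.swap_apply_left]
      have hX : ∀ c ∈ G₁, sw c₀ a (X c : MvPolynomial M A) = X c := fun c hc =>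
        sx c (fun h => haG (h ▸ hc)) (fun h => hc₀ (h ▸ hc))
      have s1 : (as2S (insert c₀ G₁) G₂ a : MvPolynomial M A) =
          (X c₀ - X a) * ∏ c ∈ G₁, (X c - X a)
          + ∑ i ∈ G₂, (X c₀ - X i) * ∏ c ∈ G₁, (X c - X i) := by
        rw [as2S, Finset.sum_insert ha₂]
        rw [Finset.prod_insert hc₀]
        congr 1
        exact Finset.sum_congr rfl fun i _ => Finset.prod_insert hc₀
      have s2 : sw c₀ a (as2S (insert c₀ G₁) G₂ a : MvPolynomial M A) =
          (X a - X c₀) * ∏ c ∈ G₁, (X c - X c₀)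
          + ∑ i ∈ G₂, (X a - X i) * ∏ c ∈ G₁, (X c - X i) := by
        rw [s1, map_add, map_mul, map_sub, sa, sc, map_prod, map_sum]
        congr 1
        · congr 1
          refine Finset.prod_congr rfl fun c hc => ?_
          rw [map_sub, hX c hc, sa]
        · refine Finset.sum_congr rfl fun i hi => ?_
          have hi' : sw c₀ a (X i : MvPolynomial M A) = X i :=
            sx i (fun h => ha₂ (h ▸ hi)) (fun h => hc₂ (h ▸ hi))
          rw [map_mul, map_sub, sc, hi', map_prod]
          congr 1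
          refine Finset.prod_congr rfl fun c hc => ?_
          rw [map_sub, hX c hc, hi']
      have s3 : (as2S G₁ (insert c₀ G₂) a : MvPolynomial M A) =
          ∏ c ∈ G₁, (X c - X a) + (∏ c ∈ G₁, (X c - X c₀)
          + ∑ i ∈ G₂, ∏ c ∈ G₁, (X c - X i)) := by
        rw [as2S, Finset.sum_insert (by
          rw [Finset.mem_insert, not_or]
          exact ⟨hca.symm, ha₂⟩), Finset.sum_insert hc₂]
      have s4 : ∑ i ∈ G₂, (X c₀ - X i) * ∏ c ∈ G₁, (X c - X i)
          - ∑ i ∈ G₂, (X a - X i) * ∏ c ∈ G₁, (X c - X i) =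
          (X c₀ - X a : MvPolynomial M A) * ∑ i ∈ G₂, ∏ c ∈ G₁, (X c - X i) := by
        rw [← Finset.sum_sub_distrib, Finset.mul_sum]
        refine Finset.sum_congr rfl fun i _ => ?_
        ring
      rw [map_mul, ht c₀ (Finset.mem_insert_self _ _), ← sub_mul, ← mul_assoc]
      congr 1
      rw [s2, s1, s3]
      have e2 : (X c₀ - X a : MvPolynomial M A) * ∏ c ∈ G₁, (X c - X a)
          + ∑ i ∈ G₂, (X c₀ - X i) * ∏ c ∈ G₁, (X c - X i)
          - ((X a - X c₀) * ∏ c ∈ G₁, (X c - X c₀)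
          + ∑ i ∈ G₂, (X a - X i) * ∏ c ∈ G₁, (X c - X i)) =
          (X c₀ - X a) * ∏ c ∈ G₁, (X c - X a) + (X c₀ - X a) * ∏ c ∈ G₁, (X c - X c₀)
          + (∑ i ∈ G₂, (X c₀ - X i) * ∏ c ∈ G₁, (X c - X i)
          - ∑ i ∈ G₂, (X a - X i) * ∏ c ∈ G₁, (X c - X i)) := by ring
      rw [e2, s4]
      ring

/-- Lagrange: for `G = G₁ ⊔ G₂` one has `(∑ i ∈ insert a G₂, ∏ c ∈ G₁, (x c - x i)) t y ∈ TC`, by
induction on `G₂`: move `c` from `G₁` to `G₂` by `dd_closed` for the swap of `c` and `a` -/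
theorem lagrange (G : Finset M) {a : M} (ha : a ∉ G)
    (hG : ∀ b ∈ G, col b = col a ∧ r b = r a) {y t : MvPolynomial M A}
    (hy : ∀ b ∈ G, sw b a y = -y) (ht : ∀ b ∈ G, sw b a t = t)
    (h : (∏ c ∈ G, (X c - X a)) * t * y ∈ TC col L Z r) : t * y ∈ TC col L Z r := by
  refine as2_step col L Z r G ∅ (Finset.disjoint_empty_right _) ha (Finset.notMem_empty _) hG hy
    ht ?_
  have h1 : (as2S G ∅ a : MvPolynomial M A) = ∏ c ∈ G, (X c - X a) := by
    rw [as2S, insert_empty_eq, Finset.sum_singleton]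
  rwa [h1]

open Classical in
/-- the factor `c(s)` -/
noncomputable def as2c {E : Type} (e : M → E) (σ : M → ℕ) (s : M) : MvPolynomial M A :=
  ∏ b ∈ Finset.univ.filter (fun b => e b = e s ∧ σ b < σ s), (X b - X s)

lemma as2_swE {E : Type} (e : M → E) (he : ∀ a b, e a = e b → col a = col b ∧ r a = r b)
    {a b : M} (hab : e a = e b) :
    sw a b (pp col (0 : A) fun a b => e a ≠ e b) = pp col 0 fun a b => e a ≠ e b := by
  have h1 : ∀ c, e (Equiv.swap a b c) = e c := by
    intro c
    rcases eq_or_ne c a with rfl | h1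
    · rw [Equiv.swap_apply_left, hab]
    rcases eq_or_ne c b with rfl | h2
    · rw [Equiv.swap_apply_right, hab]
    rw [Equiv.swap_apply_of_ne_of_ne h1 h2]
  refine rename_pp col (Equiv.swap a b) (fun c => (he _ _ (h1 c)).1) 0 _ fun c d => ?_
  rw [h1, h1]

lemma as2_swc {E : Type} (e : M → E) (σ : M → ℕ) (hσ : Function.Injective σ) {a b s : M}
    (hab : e a = e b) (ha : σ a < σ s) (hb : σ b < σ s) :
    sw a b (as2c e σ s : MvPolynomial M A) = as2c e σ s := by
  classical
  have hs : Equiv.swap a b s = s := Equiv.swap_apply_of_ne_of_ne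
    (fun h => by rw [h] at ha; exact lt_irrefl _ ha) (fun h => by rw [h] at hb; exact lt_irrefl _ hb)
  have h1 : ∀ c, e (Equiv.swap a b c) = e c := by
    intro c
    rcases eq_or_ne c a with rfl | h1
    · rw [Equiv.swap_apply_left, hab]
    rcases eq_or_ne c b with rfl | h2
    · rw [Equiv.swap_apply_right, hab]
    rw [Equiv.swap_apply_of_ne_of_ne h1 h2]
  have h2 : ∀ c, σ c < σ s → σ (Equiv.swap a b c) < σ s := by
    intro c hc
    rcases eq_or_ne c a with rfl | h1
    · rwa [Equiv.swap_apply_left]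
    rcases eq_or_ne c b with rfl | h2
    · rwa [Equiv.swap_apply_right]
    rwa [Equiv.swap_apply_of_ne_of_ne h1 h2]
  rw [as2c, map_prod]
  refine Finset.prod_bij' (fun c _ => Equiv.swap a b c) (fun c _ => Equiv.swap a b c)
    (fun c hc => ?_) (fun c hc => ?_) (fun c _ => by simp) (fun c _ => by simp) (fun c _ => ?_)
  · rw [Finset.mem_filter] at hc ⊢
    exact ⟨Finset.mem_univ _, by rw [h1]; exact hc.2.1, h2 c hc.2.2⟩
  · rw [Finset.mem_filter] at hc ⊢
    exact ⟨Finset.mem_univ _, by rw [h1]; exact hc.2.1, h2 c hc.2.2⟩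
  · rw [map_sub, as2_sw_X, as2_sw_X, hs]

lemma as2_remove {E : Type} (e : M → E) (he : ∀ a b, e a = e b → col a = col b ∧ r a = r b)
    (σ : M → ℕ) (hσ : Function.Injective σ) {y : MvPolynomial M A}
    (hy : ∀ a b, a ≠ b → e a = e b → sw a b y = -y)
    (h : (pp col (0 : A) fun a b => e a ≠ e b) * (∏ s, as2c e σ s) * y ∈ TC col L Z r) (n : ℕ) :
    (pp col (0 : A) fun a b => e a ≠ e b) *
      (∏ s ∈ Finset.univ.filter (fun s => n ≤ σ s), as2c e σ s) * y ∈ TC col L Z r := by
  classical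
  induction n with
  | zero =>
    have h1 : Finset.univ.filter (fun s => 0 ≤ σ s) = Finset.univ := by
      ext s
      simp
    rwa [h1]
  | succ n ih =>
    by_cases hs : ∃ s, σ s = n
    · obtain ⟨s, hs⟩ := hs
      have h1 : Finset.univ.filter (fun s => n ≤ σ s) =
          insert s (Finset.univ.filter (fun s => n + 1 ≤ σ s)) := by
        ext c
        simp only [Finset.mem_filter, Finset.mem_univ, true_and, Finset.mem_insert]
        constructor
        · intro h2
          rcases Nat.eq_or_lt_of_le h2 with h3 | h3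
          · left
            exact hσ (by rw [← h3, hs])
          · right
            exact h3
        · rintro (rfl | h2)
          · exact hs.ge
          · omega
      have h2 : s ∉ Finset.univ.filter (fun s => n + 1 ≤ σ s) := by
        rw [Finset.mem_filter, not_and]
        intro _
        omega
      rw [h1, Finset.prod_insert h2] at ih
      refine lagrange col L Z r (Finset.univ.filter (fun b => e b = e s ∧ σ b < σ s)) (a := s)
        ?_ ?_ ?_ ?_ ?_
      · rw [Finset.mem_filter]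
        exact fun h3 => lt_irrefl _ h3.2.2
      · intro b hb
        rw [Finset.mem_filter] at hb
        exact he _ _ hb.2.1
      · intro b hb
        rw [Finset.mem_filter] at hb
        refine hy b s (fun h3 => ?_) hb.2.1
        rw [h3] at hb
        exact lt_irrefl _ hb.2.2
      · intro b hb
        rw [Finset.mem_filter] at hb
        rw [map_mul, as2_swE col r e he hb.2.1, map_prod]
        congr 1
        refine Finset.prod_congr rfl fun c hc => ?_
        rw [Finset.mem_filter] at hc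
        exact as2_swc e σ hσ hb.2.1 (by omega) (by omega)
      · have h3 : (∏ c ∈ Finset.univ.filter (fun b => e b = e s ∧ σ b < σ s),
            (X c - X s : MvPolynomial M A)) = as2c e σ s := rfl
        rw [h3]
        have h4 : (as2c e σ s : MvPolynomial M A) * ((pp col (0 : A) fun a b => e a ≠ e b) *
            ∏ s ∈ Finset.univ.filter (fun s => n + 1 ≤ σ s), as2c e σ s) * y =
            (pp col (0 : A) fun a b => e a ≠ e b) * (as2c e σ s *
            ∏ s ∈ Finset.univ.filter (fun s => n + 1 ≤ σ s), as2c e σ s) * y := by ring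
        rw [h4]
        exact ih
    · have h1 : Finset.univ.filter (fun s => n ≤ σ s) =
          Finset.univ.filter (fun s => n + 1 ≤ σ s) := by
        ext c
        simp only [Finset.mem_filter, Finset.mem_univ, true_and]
        have : σ c ≠ n := fun h2 => hs ⟨c, h2⟩
        omega
      rwa [h1] at ih

/-- Let `E'` be the product over all ordered pairs with `e a ≠ e b`; it is invariant under the
swaps with `e a = e b`.  Let `c(s) = ∏ (x b - x s)` over `b` with `e b = e s`, `σ b < σ s`.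
Then `∏ c(s) E' y ∈ TC` and the factors `c(s)` are removed one after the other, in the order of
increasing `σ s`, by `lagrange` with `t = E' ∏ c(s')`, `σ s < σ s'`. -/
theorem as_main {E : Type} (e : M → E) (he : ∀ a b, e a = e b → col a = col b ∧ r a = r b)
    (σ : M → ℕ) (hσ : Function.Injective σ) {y : MvPolynomial M A}
    (hy : ∀ a b, a ≠ b → e a = e b → sw a b y = -y)
    (h : (pp col (0 : A) fun a b => σ a < σ b) * y ∈ TC col L Z r) :
    (pp col (0 : A) fun a b => e a ≠ e b) * y ∈ TC col L Z r := by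
  classical
  have c1 : (pp col (0 : A) fun a b => e a = e b ∧ σ a < σ b) = ∏ s, as2c e σ s := by
    rw [pp, Finset.prod_comm]
    refine Finset.prod_congr rfl fun s _ => ?_
    rw [as2c, Finset.prod_filter]
    refine Finset.prod_congr rfl fun b _ => ?_
    by_cases h1 : e b = e s ∧ σ b < σ s
    · have h2 : b ≠ s := fun h3 => by
        rw [h3] at h1
        exact lt_irrefl _ h1.2
      rw [if_pos ⟨h2, (he _ _ h1.1).1, h1⟩, if_pos h1, C_0, add_zero]
    · rw [if_neg (fun h2 => h1 h2.2.2), if_neg h1]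
  have c2 : (pp col (0 : A) fun a b => e a ≠ e b ∧ σ a < σ b) *
      (pp col (0 : A) fun a b => e a = e b ∧ σ a < σ b) = pp col 0 fun a b => σ a < σ b := by
    rw [pp_mul col 0 _ _ fun a b h1 => h1.1.1 h1.2.1]
    congr 1
    funext a b
    apply propext
    tauto
  have c3 : (pp col (0 : A) fun a b => e a ≠ e b ∧ σ a < σ b) *
      (pp col (0 : A) fun a b => e a ≠ e b ∧ ¬ σ a < σ b) = pp col 0 fun a b => e a ≠ e b := by
    rw [pp_mul col 0 _ _ fun a b h1 => h1.2.2 h1.1.2]
    congr 1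
    funext a b
    apply propext
    tauto
  have c4 : (pp col (0 : A) fun a b => e a ≠ e b) * (∏ s, as2c e σ s) * y ∈ TC col L Z r := by
    have : (pp col (0 : A) fun a b => e a ≠ e b) * (∏ s, as2c e σ s) * y =
        (pp col (0 : A) fun a b => e a ≠ e b ∧ ¬ σ a < σ b) *
        ((pp col (0 : A) fun a b => σ a < σ b) * y) := by
      rw [← c1, ← c2, ← c3]
      ring
    rw [this]
    exact Ideal.mul_mem_left _ _ h
  have c5 := as2_remove col L Z r e he σ hσ hy c4 ((∑ s, σ s) + 1)
  have c6 : Finset.univ.filter (fun s => (∑ s, σ s) + 1 ≤ σ s) = ∅ := by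
    rw [Finset.filter_eq_empty_iff]
    intro s _
    have : σ s ≤ ∑ s, σ s := Finset.single_le_sum (fun _ _ => Nat.zero_le _) (Finset.mem_univ s)
    omega
  rwa [c6, Finset.prod_empty, mul_one] at c5

end Vale.Agent.P291.K
end
end

section

section

set_option autoImplicit false
set_option linter.unusedSectionVars false

/-! The cut ideal is the intersection of the triangular ideals of all orders. -/

namespace Vale.Agent.P291.K

open MvPolynomial

variable {M A : Type} [CommRing A] [IsDomain A] [DecidableEq M]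

/-- relation at `b` inside `G` -/
noncomputable def PrG (L : M → M → Multiset A) (Z : M → Multiset A) (G : Finset M) (σ : M → ℕ)
    (b : M) : MvPolynomial M A := Zw Z b * ∏ c ∈ G.filter (fun c => σ b < σ c), Dw L b c

/-- weight of a cut of `G` -/
noncomputable def cutG (L : M → M → Multiset A) (Z : M → Multiset A) (G N : Finset M) :
    MvPolynomial M A := (∏ b ∈ N, Zw Z b) * ∏ b ∈ N, ∏ c ∈ G \ N, Dw L b c

/-- substitution `x a ↦ z` -/
noncomputable def fz (a : M) (z : A) : MvPolynomial M A →ₐ[A] MvPolynomial M A :=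
  aeval fun c => if c = a then C z else X c

lemma fz_ker (a : M) (z : A) {f : MvPolynomial M A} (h : fz a z f = 0) :
    ∃ g, f = (X a - C z) * g := by
  set I : Ideal (MvPolynomial M A) := Ideal.span {X a - C z} with hI
  have e : (Ideal.Quotient.mkₐ A I).comp (fz a z) = Ideal.Quotient.mkₐ A I := by
    apply MvPolynomial.algHom_ext
    intro c
    simp only [AlgHom.comp_apply, fz, aeval_X, Ideal.Quotient.mkₐ_eq_mk]
    by_cases hc : c = a
    · subst hc
      simp only [if_true]
      rw [Ideal.Quotient.eq, hI, Ideal.mem_span_singleton]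
      exact ⟨-1, by ring⟩
    · simp only [if_neg hc]
  have h1 := DFunLike.congr_fun e f
  rw [AlgHom.comp_apply, h, map_zero] at h1
  rw [Ideal.Quotient.mkₐ_eq_mk] at h1
  have h2 : f ∈ I := Ideal.Quotient.eq_zero_iff_mem.1 h1.symm
  rw [hI, Ideal.mem_span_singleton] at h2
  obtain ⟨g, hg⟩ := h2
  exact ⟨g, hg⟩

/-- framing roots after freezing `a` at `z` -/
noncomputable def Zf (L : M → M → Multiset A) (Z : M → Multiset A) (a : M) (z : A) (b : M) :
    Multiset A := Z b + (L b a).map fun l => z - l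

lemma inter_fz_Xself (a : M) (z : A) : fz a z (X a) = (C z : MvPolynomial M A) := by
  simp [fz]

lemma inter_fz_X {a c : M} (z : A) (h : c ≠ a) : fz a z (X c) = (X c : MvPolynomial M A) := by
  simp [fz, h]

lemma inter_fz_C (a : M) (z s : A) : fz a z (C s) = (C s : MvPolynomial M A) := by
  simp [fz]

lemma inter_fz_Zw (Z : M → Multiset A) {a b : M} (z : A) (h : b ≠ a) :
    fz a z (Zw Z b) = Zw Z b := by
  unfold Zw
  rw [map_multiset_prod, Multiset.map_map]
  congr 1
  apply Multiset.map_congr rfl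
  intro l _
  simp only [Function.comp_apply, map_sub]
  rw [inter_fz_X z h, inter_fz_C]

lemma inter_fz_Dw (L : M → M → Multiset A) {a b c : M} (z : A) (h : b ≠ a) (hc : c ≠ a) :
    fz a z (Dw L b c) = Dw L b c := by
  unfold Dw
  rw [map_multiset_prod, Multiset.map_map]
  congr 1
  apply Multiset.map_congr rfl
  intro l _
  simp only [Function.comp_apply, map_sub, map_add]
  rw [inter_fz_X z h, inter_fz_X z hc, inter_fz_C]

lemma inter_fz_fz (a : M) (z : A) (f : MvPolynomial M A) : fz a z (fz a z f) = fz a z f := by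
  have e : (fz a z).comp (fz a z) = (fz a z : MvPolynomial M A →ₐ[A] MvPolynomial M A) := by
    apply MvPolynomial.algHom_ext
    intro c
    rw [AlgHom.comp_apply]
    by_cases hc : c = a
    · subst hc
      rw [inter_fz_Xself, inter_fz_C]
    · rw [inter_fz_X z hc, inter_fz_X z hc]
  exact DFunLike.congr_fun e f

lemma fz_Zw (L : M → M → Multiset A) (Z : M → Multiset A) {a b : M} (z : A) (h : b ≠ a) :
    fz a z (Zw Z b * Dw L b a) = Zw (Zf L Z a z) b := by
  rw [map_mul, inter_fz_Zw Z z h]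
  unfold Zw Dw Zf
  rw [Multiset.map_add, Multiset.prod_add, map_multiset_prod, Multiset.map_map, Multiset.map_map]
  congr 2
  apply Multiset.map_congr rfl
  intro l _
  simp only [Function.comp_apply, map_sub, map_add]
  rw [inter_fz_X z h, inter_fz_Xself, inter_fz_C]
  ring

/-- the triangularity of the relations inside `G` -/
lemma inter_tri (L : M → M → Multiset A) (Z : M → Multiset A) (G : Finset M) (σ : M → ℕ) :
    Tri σ (PrG L Z G σ) G := by
  constructor
  · intro b _
    unfold PrG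
    apply mon_mul (mon_Zw Z b)
    apply mon_prod
    intro c hc
    apply mon_Dw
    rintro rfl
    exact lt_irrefl _ (Finset.mem_filter.1 hc).2
  · intro b _ c _ hbc hr
    unfold PrG
    apply free_mul (free_Zw Z hbc)
    apply free_prod
    intro d hd
    have hd2 := (Finset.mem_filter.1 hd).2
    apply free_Dw L hbc
    rintro rfl
    exact absurd hd2 (not_lt.2 hr)

lemma inter_cut_mem (L : M → M → Multiset A) (Z : M → Multiset A) (G : Finset M) (σ : M → ℕ)
    {N : Finset M} (hN : N.Nonempty) (hNG : N ⊆ G) :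
    cutG L Z G N ∈ Ideal.span (PrG L Z G σ '' G) := by
  obtain ⟨b, hb, hmax⟩ := Finset.exists_max_image N σ hN
  have h1 : PrG L Z G σ b ∈ Ideal.span (PrG L Z G σ '' G) :=
    Ideal.subset_span ⟨b, Finset.mem_coe.2 (hNG hb), rfl⟩
  have hsub : G.filter (fun c => σ b < σ c) ⊆ G \ N := by
    intro c hc
    rw [Finset.mem_filter] at hc
    rw [Finset.mem_sdiff]
    exact ⟨hc.1, fun h => absurd hc.2 (not_lt.2 (hmax c h))⟩
  have h2 : PrG L Z G σ b ∣ cutG L Z G N := by
    unfold PrG cutG
    apply mul_dvd_mul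
    · exact Finset.dvd_prod_of_mem _ hb
    · apply dvd_trans (Finset.prod_dvd_prod_of_subset _ _ _ hsub)
      exact Finset.dvd_prod_of_mem (fun b => ∏ c ∈ G \ N, Dw L b c) hb
  obtain ⟨g, hg⟩ := h2
  rw [hg, mul_comm]
  exact Ideal.mul_mem_left _ _ h1

/-- Induction on the number of marks and of framings.  If `G = ∅` then `f = 0`.  If there are no
framings then `cutG G G = 1`.  Otherwise let `z` be a framing root at `a`.  Extend orders of
`G \ a` by putting `a` last: `fz a z` maps the relations of `G` to the relations of `G \ a` with the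
framings `Zf` and the relation at `a` to `0`.  By induction `fz f = ∑ s_N fz (cut_N)`, so
`f - ∑ (fz s_N) cut_N = (x a - z) f'`; by `colon_one` `f'` is in all triangular ideals for the
framings without `z` at `a`; use the induction hypothesis. -/
theorem inter_aux (L : M → M → Multiset A) (n : ℕ) : ∀ (m : ℕ) (G : Finset M)
    (Z : M → Multiset A), G.card = n → ∑ b ∈ G, (Z b).card = m → ∀ f : MvPolynomial M A,
    (∀ σ : M → ℕ, Set.InjOn σ (G : Set M) → f ∈ Ideal.span (PrG L Z G σ '' G)) →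
    f ∈ Ideal.span {p | ∃ N : Finset M, N.Nonempty ∧ N ⊆ G ∧ p = cutG L Z G N} := by
  classical
  induction n with
  | zero =>
    intro m G Z hG _ f hf
    have hG0 : G = ∅ := Finset.card_eq_zero.1 hG
    subst hG0
    have h := hf (fun _ => 0) (by simp)
    simp only [Finset.coe_empty, Set.image_empty, Ideal.span_empty, Ideal.mem_bot] at h
    rw [h]
    exact Ideal.zero_mem _
  | succ n ihn =>
    intro m
    induction m with
    | zero =>
      intro G Z hG hZ f _
      have hZ0 : ∀ b ∈ G, Z b = 0 := by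
        intro b hb
        have := (Finset.sum_eq_zero_iff.1 hZ) b hb
        exact Multiset.card_eq_zero.1 this
      have h1 : cutG L Z G G = 1 := by
        unfold cutG
        rw [Finset.sdiff_self]
        simp only [Finset.prod_empty, Finset.prod_const_one, mul_one]
        apply Finset.prod_eq_one
        intro b hb
        unfold Zw
        rw [hZ0 b hb]
        simp
      have h2 : (1 : MvPolynomial M A) ∈
          Ideal.span {p | ∃ N : Finset M, N.Nonempty ∧ N ⊆ G ∧ p = cutG L Z G N} := by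
        apply Ideal.subset_span
        refine ⟨G, ?_, Finset.Subset.refl _, h1.symm⟩
        rw [← Finset.card_pos, hG]
        exact Nat.succ_pos n
      rw [(Ideal.eq_top_iff_one _).2 h2]
      exact Submodule.mem_top
    | succ m ihm =>
      intro G Z hG hZ f hf
      -- a framing root
      have hex : ∃ a ∈ G, Z a ≠ 0 := by
        by_contra hcon
        push Not at hcon
        have : ∑ b ∈ G, (Z b).card = 0 := by
          apply Finset.sum_eq_zero
          intro b hb
          rw [hcon b hb]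
          rfl
        omega
      obtain ⟨a, haG, hZa⟩ := hex
      obtain ⟨z, hz⟩ := Multiset.exists_mem_of_ne_zero hZa
      set G' := G.erase a with hG'
      have hG'c : G'.card = n := by
        rw [hG', Finset.card_erase_of_mem haG, hG]
        rfl
      have hGins : G = insert a G' := by
        rw [hG', Finset.insert_erase haG]
      have haG' : a ∉ G' := Finset.notMem_erase a G
      have hzeroa : fz a z (Zw Z a) = 0 := by
        unfold Zw
        rw [map_multiset_prod, Multiset.map_map, Multiset.prod_eq_zero_iff, Multiset.mem_map]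
        refine ⟨z, hz, ?_⟩
        simp only [Function.comp_apply, map_sub]
        rw [inter_fz_Xself, inter_fz_C, sub_self]
      -- the frozen polynomial
      have hfr : ∀ σ' : M → ℕ, Set.InjOn σ' (G' : Set M) →
          fz a z f ∈ Ideal.span (PrG L (Zf L Z a z) G' σ' '' G') := by
        intro σ' hσ'
        set σ : M → ℕ := fun b => if b = a then (∑ c ∈ G', σ' c) + 1 else σ' b with hσ
        have hσa : σ a = (∑ c ∈ G', σ' c) + 1 := by simp [hσ]
        have hσb : ∀ b, b ≠ a → σ b = σ' b := by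
          intro b hb
          simp [hσ, hb]
        have hne : ∀ b ∈ G', b ≠ a := fun b hb h => haG' (h ▸ hb)
        have hlt : ∀ b ∈ G', σ b < σ a := by
          intro b hb
          rw [hσa, hσb b (hne b hb)]
          exact Nat.lt_succ_of_le (Finset.single_le_sum (f := σ') (fun _ _ => Nat.zero_le _) hb)
        have hinj : Set.InjOn σ (G : Set M) := by
          intro b hb c hc hbc
          rw [hGins, Finset.coe_insert, Set.mem_insert_iff] at hb hc
          rcases hb with hb | hb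
          · rcases hc with hc | hc
            · rw [hb, hc]
            · exact absurd hbc (by rw [hb]; exact (hlt c hc).ne')
          · rcases hc with hc | hc
            · exact absurd hbc (by rw [hc]; exact (hlt b hb).ne)
            · rw [hσb b (hne b hb), hσb c (hne c hc)] at hbc
              exact hσ' hb hc hbc
        have h1 := hf σ hinj
        have h2 : fz a z f ∈ Ideal.map (fz a z) (Ideal.span (PrG L Z G σ '' G)) :=
          Ideal.mem_map_of_mem _ h1
        rw [Ideal.map_span] at h2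
        refine Ideal.span_le.2 ?_ h2
        rintro _ ⟨_, ⟨b, hb, rfl⟩, rfl⟩
        rw [hGins, Finset.coe_insert, Set.mem_insert_iff] at hb
        rcases hb with hb | hb
        · subst hb
          unfold PrG
          rw [map_mul, hzeroa, zero_mul]
          exact Ideal.zero_mem _
        · have hba := hne b hb
          apply Ideal.subset_span
          refine ⟨b, hb, ?_⟩
          unfold PrG
          have hfilt : G.filter (fun c => σ b < σ c) =
              insert a (G'.filter (fun c => σ' b < σ' c)) := by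
            ext c
            simp only [Finset.mem_filter, Finset.mem_insert]
            constructor
            · rintro ⟨hc, hbc⟩
              rw [hGins, Finset.mem_insert] at hc
              rcases hc with hc | hc
              · exact Or.inl hc
              · right
                rw [hσb b hba, hσb c (hne c hc)] at hbc
                exact ⟨hc, hbc⟩
            · rintro (hc | ⟨hc, hbc⟩)
              · rw [hc]
                exact ⟨haG, hlt b hb⟩
              · rw [hσb b hba, hσb c (hne c hc), hGins]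
                exact ⟨Finset.mem_insert_of_mem hc, hbc⟩
          have hnot : a ∉ G'.filter (fun c => σ' b < σ' c) :=
            fun h => haG' (Finset.mem_filter.1 h).1
          rw [hfilt, Finset.prod_insert hnot, ← mul_assoc, map_mul]
          change _ = fz a z (Zw Z b * Dw L b a) * _
          rw [fz_Zw L Z z hba, map_prod]
          congr 1
          apply Finset.prod_congr rfl
          intro c hc
          exact (inter_fz_Dw L z hba (hne c (Finset.mem_filter.1 hc).1)).symm
      have hIH := ihn _ G' (Zf L Z a z) hG'c rfl (fz a z f) hfr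
      -- lift
      set K := Ideal.span {p | ∃ N : Finset M, N.Nonempty ∧ N ⊆ G ∧ p = cutG L Z G N} with hK
      have hlift : ∀ p : MvPolynomial M A, p ∈ Ideal.span
          {p | ∃ N : Finset M, N.Nonempty ∧ N ⊆ G' ∧ p = cutG L (Zf L Z a z) G' N} →
          ∃ g ∈ K, fz a z g = fz a z p := by
        intro p hp
        induction hp using Submodule.span_induction with
        | mem p hp =>
          obtain ⟨N, hN, hNG, rfl⟩ := hp
          refine ⟨cutG L Z G N, ?_, ?_⟩
          · apply Ideal.subset_span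
            exact ⟨N, hN, fun x hx => by rw [hGins]; exact Finset.mem_insert_of_mem (hNG hx), rfl⟩
          · have haN : a ∉ N := fun h => haG' (hNG h)
            have hsd : G \ N = insert a (G' \ N) := by
              rw [hGins, Finset.insert_sdiff_of_notMem _ haN]
            have hnot : a ∉ G' \ N := fun h => haG' (Finset.mem_sdiff.1 h).1
            have hne : ∀ b ∈ G', b ≠ a := fun b hb h => haG' (h ▸ hb)
            have e : fz a z (cutG L Z G N) = cutG L (Zf L Z a z) G' N := by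
              unfold cutG
              rw [hsd]
              simp only [Finset.prod_insert hnot]
              rw [Finset.prod_mul_distrib, ← mul_assoc, ← Finset.prod_mul_distrib, map_mul,
                map_prod, map_prod]
              congr 1
              · apply Finset.prod_congr rfl
                intro b hb
                exact fz_Zw L Z z (hne b (hNG hb))
              · apply Finset.prod_congr rfl
                intro b hb
                rw [map_prod]
                apply Finset.prod_congr rfl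
                intro c hc
                exact inter_fz_Dw L z (hne b (hNG hb)) (hne c (Finset.mem_sdiff.1 hc).1)
            rw [← e, inter_fz_fz]
        | zero => exact ⟨0, K.zero_mem, rfl⟩
        | add x y _ _ hx hy =>
          obtain ⟨gx, hgx, ex⟩ := hx
          obtain ⟨gy, hgy, ey⟩ := hy
          exact ⟨gx + gy, K.add_mem hgx hgy, by rw [map_add, map_add, ex, ey]⟩
        | smul r x _ hx =>
          obtain ⟨gx, hgx, ex⟩ := hx
          exact ⟨r * gx, K.mul_mem_left r hgx, by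
            rw [smul_eq_mul, map_mul, map_mul, ex]⟩
      obtain ⟨g, hgK, hg⟩ := hlift _ hIH
      rw [inter_fz_fz] at hg
      have hker : fz a z (f - g) = 0 := by rw [map_sub, hg, sub_self]
      obtain ⟨f', hf'⟩ := fz_ker a z hker
      -- the smaller framing
      set Z' : M → Multiset A := Function.update Z a ((Z a).erase z) with hZ'
      have hZ'a : Z' a = (Z a).erase z := by rw [hZ', Function.update_self]
      have hZ'b : ∀ b, b ≠ a → Z' b = Z b := fun b hb => by
        rw [hZ', Function.update_of_ne hb]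
      have hZw : Zw Z a = (X a - C z) * Zw Z' a := by
        unfold Zw
        rw [hZ'a]
        conv_lhs => rw [← Multiset.cons_erase hz]
        rw [Multiset.map_cons, Multiset.prod_cons]
      have hZwb : ∀ b, b ≠ a → Zw Z b = Zw Z' b := by
        intro b hb
        unfold Zw
        rw [hZ'b b hb]
      have hq1 : (X a - C z : MvPolynomial M A) = Zw (fun _ => {z}) a := by
        unfold Zw
        simp
      have hcol : ∀ σ : M → ℕ, Set.InjOn σ (G : Set M) →
          f' ∈ Ideal.span (PrG L Z' G σ '' G) := by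
        intro σ hσ
        refine colon_one σ (PrG L Z G σ) (PrG L Z' G σ) G haG (X a - C z) ?_ ?_
          (inter_tri L Z G σ) ?_ ?_ ?_
        · unfold PrG
          rw [hZw, mul_assoc]
        · intro b _ hb
          unfold PrG
          rw [hZwb b hb]
        · rw [hq1]
          exact mon_Zw _ a
        · intro b _ hb
          rw [hq1]
          apply free_Zw
          rintro rfl
          exact lt_irrefl _ hb
        · rw [← hf']
          apply Ideal.sub_mem _ (hf σ hσ)
          refine Ideal.span_le.2 ?_ hgK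
          rintro _ ⟨N, hN, hNG, rfl⟩
          exact inter_cut_mem L Z G σ hN hNG
      have hsum : ∑ b ∈ G, (Z' b).card = m := by
        rw [hGins, Finset.sum_insert haG'] at hZ ⊢
        rw [hZ'a, Multiset.card_erase_of_mem hz]
        have h1 : ∑ b ∈ G', (Z' b).card = ∑ b ∈ G', (Z b).card := by
          apply Finset.sum_congr rfl
          intro b hb
          rw [hZ'b b (fun h => haG' (h ▸ hb))]
        rw [h1]
        have h2 : 0 < (Z a).card := Multiset.card_pos.2 hZa
        have h3 : (Z a).card.pred = (Z a).card - 1 := rfl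
        omega
      have hIH2 := ihm G Z' hG hsum f' hcol
      have hf2 : f = g + (X a - C z) * f' := by
        rw [← hf']
        ring
      rw [hf2]
      apply Ideal.add_mem _ hgK
      have hmul : ∀ p : MvPolynomial M A, p ∈ Ideal.span
          {p | ∃ N : Finset M, N.Nonempty ∧ N ⊆ G ∧ p = cutG L Z' G N} →
          (X a - C z) * p ∈ K := by
        intro p hp
        induction hp using Submodule.span_induction with
        | mem p hp =>
          obtain ⟨N, hN, hNG, rfl⟩ := hp
          have hmemK : cutG L Z G N ∈ K := Ideal.subset_span ⟨N, hN, hNG, rfl⟩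
          by_cases haN : a ∈ N
          · have e : (X a - C z) * cutG L Z' G N = cutG L Z G N := by
              unfold cutG
              rw [← mul_assoc]
              congr 1
              rw [← Finset.mul_prod_erase N _ haN, ← Finset.mul_prod_erase N (fun b => Zw Z b) haN,
                hZw, mul_assoc]
              congr 2
              apply Finset.prod_congr rfl
              intro b hb
              exact (hZwb b (Finset.ne_of_mem_erase hb)).symm
            rw [e]
            exact hmemK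
          · have e : cutG L Z' G N = cutG L Z G N := by
              unfold cutG
              congr 1
              apply Finset.prod_congr rfl
              intro b hb
              exact (hZwb b (fun h => haN (h ▸ hb))).symm
            rw [e]
            exact K.mul_mem_left _ hmemK
        | zero =>
          rw [mul_zero]
          exact K.zero_mem
        | add x y _ _ hx hy =>
          rw [mul_add]
          exact K.add_mem hx hy
        | smul r x _ hx =>
          rw [smul_eq_mul, mul_left_comm]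
          exact K.mul_mem_left r hx
      exact hmul f' hIH2

theorem inter [Fintype M] (L : M → M → Multiset A) (Z : M → Multiset A) {f : MvPolynomial M A}
    (h : ∀ σ : M → ℕ, Function.Injective σ → f ∈ TI L Z (up σ)) : f ∈ KI L Z := by
  have h1 := inter_aux L (Finset.univ : Finset M).card (∑ b ∈ Finset.univ, (Z b).card)
    Finset.univ Z rfl rfl f (by
      intro σ hσ
      have hinj : Function.Injective σ := by
        rw [Finset.coe_univ] at hσ
        exact Set.injOn_univ.1 hσ
      have h2 := h σ hinj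
      unfold TI at h2
      have e : Set.range (Pr L Z (up σ)) = PrG L Z Finset.univ σ '' (Finset.univ : Finset M) := by
        rw [Finset.coe_univ, Set.image_univ]
        rfl
      rw [e] at h2
      exact h2)
  unfold KI
  refine Ideal.span_le.2 ?_ h1
  rintro _ ⟨N, hN, _, rfl⟩
  apply Ideal.subset_span
  refine ⟨N, hN, ?_⟩
  unfold cutG cut
  rw [Finset.compl_eq_univ_sdiff]

end Vale.Agent.P291.K
end
end

section

section

set_option autoImplicit false
set_option linter.unusedSectionVars false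

/-! Descending induction on the measure. -/

namespace Vale.Agent.P291.H

open MvPolynomial Vale.Agent.P291.G

variable {D : QData} {Z : Type} (w : Wts D Z)

/-- the submodule of the elements whose coefficient at `lam` vanishes -/
noncomputable def coeffKer (lam : B D → ℤ) :
    Submodule ℂ (AddMonoidAlgebra (S D Z) (B D → ℤ)) where
  carrier := {Y | Y.coeff lam = 0}
  add_mem' := by
    intro a b ha hb
    have ha' : a.coeff lam = 0 := ha
    have hb' : b.coeff lam = 0 := hb
    change (a + b).coeff lam = 0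
    rw [AddMonoidAlgebra.coeff_add, Finsupp.add_apply, ha', hb', add_zero]
  zero_mem' := by
    change (0 : AddMonoidAlgebra (S D Z) (B D → ℤ)).coeff lam = 0
    rw [AddMonoidAlgebra.coeff_zero, Finsupp.zero_apply]
  smul_mem' := by
    intro c a ha
    have ha' : a.coeff lam = 0 := ha
    change (c • a).coeff lam = 0
    rw [AddMonoidAlgebra.coeff_smul_apply, ha', smul_zero]

lemma mem_coeffKer {lam : B D → ℤ} {Y : AddMonoidAlgebra (S D Z) (B D → ℤ)} :
    Y ∈ coeffKer (D := D) (Z := Z) lam ↔ Y.coeff lam = 0 := Iff.rfl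

/-- two chains with the same sum of indicator functions agree -/
lemma chain_unique (m : ℕ) (A C : ℕ → Finset (B D)) (hA : ∀ j, j + 1 < m → A (j + 1) ⊆ A j)
    (hC : ∀ j, j + 1 < m → C (j + 1) ⊆ C j)
    (h : ∑ j ∈ Finset.range m, ind D (A j) = ∑ j ∈ Finset.range m, ind D (C j)) :
    ∀ j, j < m → C j = A j := by
  have h1 := meas_le m A C hC h
  have h2 := meas_le m C A hA h.symm
  exact h2.2 h1.1

/-- changing two neighbouring sets to their union and intersection does not change the sum -/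
lemma sum_ind_pair (m k : ℕ) (hk : k + 1 < m) (A C : ℕ → Finset (B D))
    (h1 : C k = A k ∪ A (k + 1)) (h2 : C (k + 1) = A k ∩ A (k + 1))
    (h3 : ∀ j, j < m → j ≠ k → j ≠ k + 1 → C j = A j) :
    ∑ j ∈ Finset.range m, ind D (C j) = ∑ j ∈ Finset.range m, ind D (A j) := by
  have hk1 : k ∈ Finset.range m := Finset.mem_range.2 (by omega)
  have hk2 : k + 1 ∈ (Finset.range m).erase k :=
    Finset.mem_erase.2 ⟨by (clear * -; omega), Finset.mem_range.2 hk⟩
  rw [← Finset.add_sum_erase _ _ hk1, ← Finset.add_sum_erase _ _ hk2,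
    ← Finset.add_sum_erase _ (fun j => ind D (A j)) hk1,
    ← Finset.add_sum_erase _ (fun j => ind D (A j)) hk2, ← add_assoc, ← add_assoc, h1, h2,
    ← ind_union_inter]
  congr 1
  refine Finset.sum_congr rfl fun j hj => ?_
  rw [Finset.mem_erase, Finset.mem_erase, Finset.mem_range] at hj
  rw [h3 j hj.2.2 hj.2.1 hj.1]

/-- elements of `LL` have coefficient zero at the chains which are neither trivial nor of pair type.
Proof: by `coeff_ne`, if the coefficient of an element of `UU w (ep l) m (seqP l s)` at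
`∑_{j<m} ind (C j)` is not zero then this is `∑ ind (A j)` with `typ (A j) = seqP l s j`, so
`A j = univ` for `j + 1 < l` and `A j = ∅` for `j > l`: the exponent is
`(l - 1) • ind univ + ind P + ind q`, `P = A (l-1) ∪ A l`, `q = A (l-1) ∩ A l`; both sides are sums of
nested chains, so `C j = univ` (`j + 1 < l`), `C (l-1) = P`, `C l = q`, `C j = ∅` (`j > l`) (use
`meas_le` twice or the description `C j = {b | j + 1 ≤ ∑ ...}`); as `typ P + typ q = v`, the
sequence `typ (C j)` is `seqP l (typ q)` if `q ≠ ∅` and `seqT l` if `q = ∅`. -/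
lemma coeff_LL {m l M : ℕ} (hl : 1 ≤ l) (hm : l < m) {n : ℕ → D.I → ℕ} (hn : seqN m l M n)
    (C : ℕ → Finset (B D)) (hC : ∀ j, C (j + 1) ⊆ C j) (ht : ∀ j, typ D (C j) = n j)
    {Y : AddMonoidAlgebra (S D Z) (B D → ℤ)} (hY : Y ∈ LL w m l) :
    Y.coeff (∑ j ∈ Finset.range m, ind D (C j)) = 0 := by
  classical
  have key : LL w m l ≤ coeffKer (∑ j ∈ Finset.range m, ind D (C j)) := by
    rw [LL]
    refine iSup_le fun s => iSup_le fun hs => ?_
    intro Y hY
    rw [mem_coeffKer]
    by_contra hne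
    obtain ⟨A, hA, hlam⟩ := coeff_ne w (ep l) m (seqP l s) hY hne
    obtain ⟨k, rfl⟩ : ∃ k, l = k + 1 := ⟨l - 1, by omega⟩
    have hA1 : ∀ j, j < k → A j = Finset.univ := by
      intro j hj
      refine eq_of_subset D (Finset.subset_univ _) ?_
      rw [hA j (by omega), typ_univ, seqP, if_pos (by omega)]
    have hA2 : ∀ j, k + 1 < j → j < m → A j = ∅ := by
      intro j hj hjm
      refine typ_eq_zero D ?_
      rw [hA j hjm, seqP, if_neg (by omega), if_neg (by omega), if_neg (by omega)]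
    have hAk : typ D (A k) = D.v - s := by
      rw [hA k (by omega), seqP, if_neg (by omega), if_pos rfl]
    have hAk1 : typ D (A (k + 1)) = s := by
      rw [hA (k + 1) hm, seqP, if_neg (by omega), if_neg (by omega), if_pos rfl]
    have htyp : typ D (A k ∪ A (k + 1)) + typ D (A k ∩ A (k + 1)) = D.v := by
      rw [typ_union_inter, hAk, hAk1]
      exact tsub_add_cancel_of_le hs.2
    have htyp2 : typ D (A k ∪ A (k + 1)) = D.v - typ D (A k ∩ A (k + 1)) :=
      eq_tsub_of_add_eq htyp
    let C' : ℕ → Finset (B D) := fun j =>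
      if j < k then Finset.univ else if j = k then A k ∪ A (k + 1)
      else if j = k + 1 then A k ∩ A (k + 1) else ∅
    have hC'1 : ∀ j, j < k → C' j = Finset.univ := fun j hj => if_pos hj
    have hC'2 : C' k = A k ∪ A (k + 1) := by
      change (if k < k then _ else _) = _
      rw [if_neg (lt_irrefl k), if_pos rfl]
    have hC'3 : C' (k + 1) = A k ∩ A (k + 1) := by
      change (if k + 1 < k then _ else _) = _
      rw [if_neg (by omega), if_neg (by omega), if_pos rfl]
    have hC'4 : ∀ j, k + 1 < j → C' j = ∅ := by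
      intro j hj
      change (if j < k then _ else _) = _
      rw [if_neg (by omega), if_neg (by omega), if_neg (by omega)]
    have hC' : ∀ j, C' (j + 1) ⊆ C' j := by
      intro j
      rcases lt_trichotomy j k with h | h | h
      · rw [hC'1 j h]
        exact Finset.subset_univ _
      · rw [h, hC'2, hC'3]
        exact Finset.inter_subset_left.trans Finset.subset_union_left
      · rw [hC'4 (j + 1) (by omega)]
        exact Finset.empty_subset _
    have hsum : ∑ j ∈ Finset.range m, ind D (C' j) = ∑ j ∈ Finset.range m, ind D (A j) := by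
      refine sum_ind_pair m k hm A C' hC'2 hC'3 fun j hj h1 h2 => ?_
      rcases lt_trichotomy j k with h | h | h
      · rw [hC'1 j h, hA1 j h]
      · exact absurd h h1
      · rw [hC'4 j (by omega), hA2 j (by omega) hj]
    have heq : ∀ j, j < m → C j = C' j :=
      chain_unique m C' C (fun j _ => hC' j) (fun j _ => hC j) (hsum.trans hlam.symm)
    have hnP : n = seqP (k + 1) (typ D (A k ∩ A (k + 1))) := by
      funext j
      by_cases hj : j < m
      · rw [← ht j, heq j hj, seqP]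
        rcases lt_trichotomy j k with h | h | h
        · rw [hC'1 j h, typ_univ, if_pos (by omega)]
        · rw [h, hC'2, if_neg (by omega), if_pos rfl]
          exact htyp2
        · rcases eq_or_ne j (k + 1) with h' | h'
          · rw [h', hC'3, if_neg (by omega), if_neg (by omega), if_pos rfl]
          · rw [hC'4 j (by omega), typ_empty, if_neg (by omega), if_neg (by (clear * - h; omega)), if_neg h']
      · rw [hn.1.1 j (by omega), seqP, if_neg (by omega), if_neg (by omega), if_neg (by omega)]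
    by_cases hq : typ D (A k ∩ A (k + 1)) = 0
    · refine hn.1.2.2 ?_
      rw [hnP, hq]
      funext j
      rw [seqP, seqT]
      rcases lt_trichotomy j k with h | h | h
      · rw [if_pos (by omega), if_pos (by omega)]
      · rw [if_neg (by omega), if_pos (by omega), if_pos (by omega), tsub_zero]
      · rw [if_neg (by omega), if_neg (by omega), if_neg (by omega : ¬ j < k + 1)]
        split_ifs <;> rfl
    · exact hn.2.2.1 _ hq (typ_le D _) hnP
  exact key hY

/-- elements of `UU` of another sequence, of at most the same measure, have coefficient zero at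
the chain -/
lemma coeff_UU {m : ℕ} (ε : ℕ → ℕ) {n n' : ℕ → D.I → ℕ}
    (C : ℕ → Finset (B D)) (hC : ∀ j, C (j + 1) ⊆ C j) (ht : ∀ j, typ D (C j) = n j)
    (hle : meas m n' ≤ meas m n) (hne : ∃ j, j < m ∧ n' j ≠ n j)
    {Y : AddMonoidAlgebra (S D Z) (B D → ℤ)} (hY : Y ∈ UU w ε m n') :
    Y.coeff (∑ j ∈ Finset.range m, ind D (C j)) = 0 := by
  by_contra h0
  obtain ⟨A, hA, hlam⟩ := coeff_ne w ε m n' hY h0
  have h1 := meas_le m A C (fun j _ => hC j) hlam.symm
  have h2 : meas m (fun j => typ D (A j)) = meas m n' := by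
    rw [meas, meas]
    refine Finset.sum_congr rfl fun j hj => ?_
    rw [hA j (Finset.mem_range.1 hj)]
  have h3 : meas m (fun j => typ D (C j)) = meas m n := by
    rw [meas, meas]
    refine Finset.sum_congr rfl fun j hj => ?_
    rw [ht j]
  rw [h2, h3] at h1
  have h4 := h1.2 hle
  obtain ⟨j, hj, hj2⟩ := hne
  exact hj2 (by rw [← hA j hj, ← ht j, h4 j hj])

/-- common part of the two steps of the descent -/
lemma descend_aux {m l M : ℕ} (hm : l < m)
    (T : Submodule ℂ (AddMonoidAlgebra (S D Z) (B D → ℤ)))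
    (hT : ∀ n, seqOK m l n → meas m n < M → UU w (ep l) m n ≤ T)
    (hT0 : ∀ Y ∈ T, ∀ n : ℕ → D.I → ℕ, seqN m l M n → meas m n = M →
      ∀ C : ℕ → Finset (B D), (∀ j, C (j + 1) ⊆ C j) → (∀ j, typ D (C j) = n j) →
        Y.coeff (∑ j ∈ Finset.range m, ind D (C j)) = 0)
    {X : AddMonoidAlgebra (S D Z) (B D → ℤ)}
    (hX : X ∈ T ⊔ ⨆ n : {n : ℕ → D.I → ℕ // seqN m l M n ∧ meas m n = M}, UU w (ep l) m n.1)
    (h0 : ∀ lam : B D → ℤ, lam ≠ l • ind D Finset.univ → X.coeff lam = 0) : X ∈ T := by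
  classical
  obtain ⟨Y, hY, X', hX', rfl⟩ := Submodule.mem_sup.1 hX
  obtain ⟨f, hf, rfl⟩ := (Submodule.mem_iSup_iff_exists_finsupp _ _).1 hX'
  refine T.add_mem hY (T.sum_mem fun n hn => ?_)
  obtain ⟨n, hN, hM⟩ := n
  have hfn := hf ⟨n, hN, hM⟩
  dsimp only at hfn ⊢
  by_cases hv : n 0 ≤ D.v
  swap
  · have h1 : UU w (ep l) m n = ⊥ := by
      have h0m : 0 < m := by omega
      have h2 : U w (ep l 0) (n 0) = 0 := U_eq_bot w _ hv
      exact Finset.prod_eq_zero (f := fun j => U w (ep l j) (n j))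
        (Finset.mem_range.2 h0m) h2
    rw [h1, Submodule.mem_bot] at hfn
    rw [hfn]
    exact T.zero_mem
  obtain ⟨C, hC, ht⟩ := exists_chain n hN.2.1 hv
  have hle : ∀ j, n j ≤ D.v := fun j => ht j ▸ typ_le D (C j)
  -- the exponent of the chain is not the trivial one
  have hlam : (∑ j ∈ Finset.range m, ind D (C j)) ≠ l • ind D Finset.univ := by
    intro h
    let E : ℕ → Finset (B D) := fun j => if j < l then Finset.univ else ∅
    have hE1 : ∀ j, j < l → E j = Finset.univ := fun j hj => if_pos hj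
    have hE0 : ∀ j, ¬ j < l → E j = ∅ := fun j hj => if_neg hj
    have hE : ∀ j, E (j + 1) ⊆ E j := by
      intro j
      by_cases hj : j < l
      · rw [hE1 j hj]
        exact Finset.subset_univ _
      · rw [hE0 (j + 1) (by omega)]
        exact Finset.empty_subset _
    have hE2 : ∑ j ∈ Finset.range m, ind D (E j) = l • ind D Finset.univ := by
      have h5 : ∀ j, ind D (E j) = if j < l then ind D Finset.univ else 0 := by
        intro j
        split_ifs with h6
        · rw [hE1 j h6]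
        · rw [hE0 j h6]
          funext b
          rw [ind, if_neg (Finset.notMem_empty b)]
          rfl
      rw [Finset.sum_congr rfl fun j _ => h5 j, ← Finset.sum_filter, Finset.sum_const]
      congr 1
      have h7 : (Finset.range m).filter (fun j => j < l) = Finset.range l := by
        ext j
        rw [Finset.mem_filter, Finset.mem_range, Finset.mem_range]
        omega
      rw [h7, Finset.card_range]
    have h8 := chain_unique m E C (fun j _ => hE j) (fun j _ => hC j) (hE2.trans h.symm)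
    refine hN.1.2.2 ?_
    funext j
    by_cases hj : j < m
    · rw [← ht j, h8 j hj, seqT]
      split_ifs with h6
      · rw [hE1 j h6]
        exact typ_univ D
      · rw [hE0 j h6]
        exact typ_empty D
    · rw [hN.1.1 j (by omega), seqT, if_neg (by omega)]
  have hX0 := h0 _ hlam
  rw [AddMonoidAlgebra.coeff_add, Finsupp.add_apply, hT0 Y hY n hN hM C hC ht, zero_add,
    Finsupp.sum, AddMonoidAlgebra.coeff_sum, Finsupp.finsetSum_apply,
    Finset.sum_eq_single_of_mem _ hn] at hX0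
  · -- the coefficient of the chain vanishes, so the value of the graph does
    obtain ⟨p, hp⟩ := exists_graph w (ep l) m n C hfn
    have h9 := coeff_chain w (ep l) m n C (fun j _ => hC j) (fun j _ => ht j) hp
    rw [hX0] at h9
    have h10 : (∏ j ∈ Finset.range m, (e w (C j) * zs w (C j) ^ ep l j)) ≠ 0 :=
      Finset.prod_ne_zero_iff.2 fun j _ =>
        mul_ne_zero (e_ne_zero w _) (pow_ne_zero _ (zs_ne_zero w _))
    have h11 : p = 0 := (mul_eq_zero.1 h9.symm).resolve_left h10
    subst h11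
    refine chain w m (ep l) n C ?_ (fun j _ => hC j) (fun j _ => ht j) T ?_ _ hp
    · intro j
      rw [ep, ep]
      split_ifs <;> omega
    · intro i δ hi hδ hδn
      have ha : (n i + δ) + (n (i + 1) - δ) = n i + n (i + 1) := by
        rw [add_assoc, add_tsub_cancel_of_le hδn]
      have hb : n (i + 1) - δ ≠ n (i + 1) := by
        intro h
        apply hδ
        funext k
        have h12 : n (i + 1) k - δ k = n (i + 1) k := congrFun h k
        have h13 : δ k ≤ n (i + 1) k := hδn k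
        change δ k = 0
        omega
      refine hT _ ?_ ?_
      · exact seqOK_update hN.1 hle hN.2.2.1 i hi _ _ ha hb
      · have h14 := meas_update m n i hi _ _ ha
        have h15 : ∑ k, (n (i + 1) - δ) k < ∑ k, n (i + 1) k := by
          obtain ⟨k, hk⟩ := Function.ne_iff.1 hb
          refine Finset.sum_lt_sum (fun k' _ => ?_) ⟨k, Finset.mem_univ _, ?_⟩
          · exact tsub_le_self
          · exact lt_of_le_of_ne tsub_le_self hk
        rw [move]
        omega
  · intro n' _ hne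
    refine coeff_UU w (ep l) C hC ht (by rw [n'.2.2, hM]) ?_ (hf n')
    by_contra hcon
    push Not at hcon
    apply hne
    refine Subtype.ext ?_
    funext j
    by_cases hj : j < m
    · exact hcon j hj
    · exact (n'.2.1.1.1 j (by omega)).trans (hN.1.1 j (by omega)).symm

/-- monotonicity of the nested admissible sequences in the bound -/
lemma seqN_mono {m l M M' : ℕ} (h : M ≤ M') {n : ℕ → D.I → ℕ} (hn : seqN m l M n) :
    seqN m l M' n := ⟨hn.1, hn.2.1, hn.2.2.1, hn.2.2.2.trans h⟩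

lemma iSup_seqN_mono {m l M M' : ℕ} (h : M ≤ M') :
    LL w m l ⊔ (⨆ n : ℕ → D.I → ℕ, ⨆ _ : seqN m l M n, UU w (ep l) m n) ≤
      LL w m l ⊔ ⨆ n : ℕ → D.I → ℕ, ⨆ _ : seqN m l M' n, UU w (ep l) m n := by
  refine sup_le le_sup_left (iSup_le fun n => iSup_le fun hn => ?_)
  exact le_sup_of_le_right (le_iSup_of_le n (le_iSup_of_le (seqN_mono h hn) le_rfl))

/-- one step of the descent. Write `X = L + ∑ n, X_n` (finite sum over distinct `seqN m l M`
sequences, `X_n ∈ UU (n)`; `Submodule.mem_sup`, `Submodule.mem_iSup_iff_exists_finsupp` or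
induction). For `n` with `meas m n < M` there is nothing to do (`seqN` with `M - 1`). Let
`meas m n = M` and choose a chain `C` of type `n` (`exists_chain`). At `lam = ∑ ind (C j)` the
coefficients of `X` (as `lam ≠ l • ind univ`: otherwise `meas_le` with `seqT` gives `n = seqT`), of
`L` (`coeff_LL`) and of `X_{n'}`, `n' ≠ n` (`coeff_ne`, `meas_le`) are zero, so that of `X_n` is
zero; by `exists_graph` and `coeff_chain`, `(X_n, 0)` is in the product of the graphs. By `chain`
applied to `T = LL ⊔ ⨆ seqN (M-1)`, and `straighten` for the sequences `move n i δ`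
(`seqOK_update`, `meas_update`), `X_n ∈ T`. If `M = 0` the same argument gives `X_n ∈ LL` (`move`
has strictly smaller measure, so there are no such sequences, i.e. `hT` of `chain` is vacuous:
`δ ≤ n (i+1)` and `meas m n = 0` force `n (i+1) = 0`). -/
lemma descend_step {m l : ℕ} (hl : 1 ≤ l) (hm : l < m) (M : ℕ)
    {X : AddMonoidAlgebra (S D Z) (B D → ℤ)}
    (hX : X ∈ LL w m l ⊔ ⨆ n : ℕ → D.I → ℕ, ⨆ _ : seqN m l (M + 1) n, UU w (ep l) m n)
    (h0 : ∀ lam : B D → ℤ, lam ≠ l • ind D Finset.univ → X.coeff lam = 0) :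
    X ∈ LL w m l ⊔ ⨆ n : ℕ → D.I → ℕ, ⨆ _ : seqN m l M n, UU w (ep l) m n := by
  refine descend_aux w hm (M := M + 1) _ ?_ ?_ ?_ h0
  · intro n hn hlt
    exact (straighten w hl hm n hn).trans (iSup_seqN_mono w (by omega))
  · intro Y hY n hN hM C hC ht
    have h1 : LL w m l ⊔ (⨆ n : ℕ → D.I → ℕ, ⨆ _ : seqN m l M n, UU w (ep l) m n) ≤
        coeffKer (∑ j ∈ Finset.range m, ind D (C j)) := by
      refine sup_le (fun Y hY => ?_) (iSup_le fun n' => iSup_le fun hn' => fun Y hY => ?_)
      · exact coeff_LL w hl hm hN C hC ht hY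
      · refine coeff_UU w (ep l) C hC ht ?_ ?_ hY
        · rw [hM]
          exact hn'.2.2.2.trans (Nat.le_succ M)
        · by_contra hcon
          push Not at hcon
          have h2 : meas m n' = meas m n := by
            rw [meas, meas]
            refine Finset.sum_congr rfl fun j hj => ?_
            rw [hcon j (Finset.mem_range.1 hj)]
          have h3 := hn'.2.2.2
          omega
    exact h1 hY
  · have hle : (LL w m l ⊔ ⨆ n : ℕ → D.I → ℕ, ⨆ _ : seqN m l (M + 1) n, UU w (ep l) m n) ≤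
        (LL w m l ⊔ ⨆ n : ℕ → D.I → ℕ, ⨆ _ : seqN m l M n, UU w (ep l) m n) ⊔
          ⨆ n : {n : ℕ → D.I → ℕ // seqN m l (M + 1) n ∧ meas m n = M + 1},
            UU w (ep l) m n.1 := by
      refine sup_le (le_sup_of_le_left le_sup_left) (iSup_le fun n => iSup_le fun hn => ?_)
      by_cases h : meas m n = M + 1
      · exact le_sup_of_le_right (le_iSup_of_le
          (⟨n, hn, h⟩ : {n : ℕ → D.I → ℕ // seqN m l (M + 1) n ∧ meas m n = M + 1}) le_rfl)
      · have h1 := hn.2.2.2
        have h2 : seqN m l M n := ⟨hn.1, hn.2.1, hn.2.2.1, by (clear * - h h1; omega)⟩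
        exact le_sup_of_le_left (le_sup_of_le_right (le_iSup_of_le n (le_iSup_of_le h2 le_rfl)))
    exact hle hX

lemma descend_zero {m l : ℕ} (hl : 1 ≤ l) (hm : l < m)
    {X : AddMonoidAlgebra (S D Z) (B D → ℤ)}
    (hX : X ∈ LL w m l ⊔ ⨆ n : ℕ → D.I → ℕ, ⨆ _ : seqN m l 0 n, UU w (ep l) m n)
    (h0 : ∀ lam : B D → ℤ, lam ≠ l • ind D Finset.univ → X.coeff lam = 0) :
    X ∈ LL w m l := by
  refine descend_aux w hm (M := 0) _ ?_ ?_ ?_ h0
  · intro n _ hlt
    exact absurd hlt (Nat.not_lt_zero _)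
  · intro Y hY n hN _ C hC ht
    exact coeff_LL w hl hm hN C hC ht hY
  · have hle : (LL w m l ⊔ ⨆ n : ℕ → D.I → ℕ, ⨆ _ : seqN m l 0 n, UU w (ep l) m n) ≤
        LL w m l ⊔ ⨆ n : {n : ℕ → D.I → ℕ // seqN m l 0 n ∧ meas m n = 0},
            UU w (ep l) m n.1 := by
      refine sup_le le_sup_left (iSup_le fun n => iSup_le fun hn => ?_)
      exact le_sup_of_le_right (le_iSup_of_le
        (⟨n, hn, Nat.le_zero.1 hn.2.2.2⟩ :
          {n : ℕ → D.I → ℕ // seqN m l 0 n ∧ meas m n = 0}) le_rfl)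
    exact hle hX

/-- the result of the descent -/
theorem descend {m l : ℕ} (hl : 1 ≤ l) (hm : l < m)
    {X : AddMonoidAlgebra (S D Z) (B D → ℤ)}
    (hX : X ∈ ⨆ n : ℕ → D.I → ℕ, ⨆ _ : seqOK m l n, UU w (ep l) m n)
    (h0 : ∀ lam : B D → ℤ, lam ≠ l • ind D Finset.univ → X.coeff lam = 0) :
    X ∈ LL w m l := by
  have h1 : ∃ M, X ∈ LL w m l ⊔ ⨆ n : ℕ → D.I → ℕ, ⨆ _ : seqN m l M n, UU w (ep l) m n := by
    rw [iSup_subtype'] at hX
    refine Submodule.iSup_induction _ (motive := fun X => ∃ M, X ∈ LL w m l ⊔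
      ⨆ n : ℕ → D.I → ℕ, ⨆ _ : seqN m l M n, UU w (ep l) m n) hX ?_ ?_ ?_
    · intro n x hx
      exact ⟨meas m n.1, straighten w hl hm n.1 n.2 hx⟩
    · exact ⟨0, Submodule.zero_mem _⟩
    · rintro x y ⟨M1, h1⟩ ⟨M2, h2⟩
      exact ⟨max M1 M2, Submodule.add_mem _ (iSup_seqN_mono w (le_max_left _ _) h1)
        (iSup_seqN_mono w (le_max_right _ _) h2)⟩
  obtain ⟨M, hM⟩ := h1
  induction M with
  | zero => exact descend_zero w hl hm hM h0
  | succ M ih => exact ih (descend_step w hl hm M hM h0)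

end Vale.Agent.P291.H
end
end

section

section

set_option autoImplicit false
set_option linter.unusedSectionVars false

/-! Step A: quadratic presentation. -/

namespace Vale.Agent.P291.H

open MvPolynomial Vale.Agent.P291.G

variable (D : QData) {K L : Type} [Field K] [Algebra ℂ K] [CommRing L] [Algebra K L]
  (x : B D → K) (y : Fin D.rk → K) (u : Module.Basis (B D → ℤ) K L)
  (hxy : AlgebraicIndependent ℂ (Sum.elim x y)) (hu : ∀ l l', u (l + l') = u l * u l')
  (ν : D.I → ℤ)

include hxy hu in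
/-- invariant polynomials in the ideal `fixI` satisfy a quadratic relation -/
theorem stepA {f : S D (Fin D.rk)} (hf : ∀ σ : W D, act D (Fin D.rk) σ f = f)
    (h : algebraMap K L (EV D x y f) ∈ fixI D x y u ν) : LinRel (wF D) f := by
  obtain ⟨N, hN, h1⟩ := pad D x y u hxy hu ν hf h
  refine linRel_of (wF D) (extract (wF D) hN (by omega : N < 2 * N) (descend (wF D) hN
    (by omega) h1 fun lam hlam => ?_))
  rw [AddMonoidAlgebra.coeff_single, Finsupp.single_apply, if_neg (Ne.symm hlam)]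

end Vale.Agent.P291.H
end
end

section

section

set_option autoImplicit false
set_option linter.unusedSectionVars false

/-! Classes as elements of products of determinantal ideals. -/

namespace Vale.Agent.P291.G

open MvPolynomial Matrix Vale.Agent.P291.GDet Vale.Agent.P291.GVdm Vale.Agent.P291.GChain

variable (D : QData)

section
variable {K : Type} [Field K] [Algebra ℂ K] (x : B D → K) (y : Fin D.rk → K)

lemma cls_orbit (l : B D → ℤ) (f : P D) (τ : W D) :
    cls D x y (l ∘ perm D τ) f = cls D x y l (actP D τ f) := by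
  rw [cls, cls, ← Equiv.sum_comp (Equiv.mulRight τ)]
  refine Finset.sum_congr rfl fun σ _ => ?_
  have h1 : x ∘ perm D ((Equiv.mulRight τ) σ) = (x ∘ perm D σ) ∘ perm D τ := by
    funext b
    rw [Equiv.coe_mulRight, Function.comp, Function.comp, Function.comp, ← perm_mul]
  rw [h1, co, co, pol_act, pol_eq]
  have h2 := eul_reindex D (x ∘ perm D σ) y l τ
  have h3 := rts_reindex D (x ∘ perm D σ) l τ
  change _ * eul D (fun b => (x ∘ perm D σ) (perm D τ b)) y (fun b => l (perm D τ b)) /
    rts D (fun b => (x ∘ perm D σ) (perm D τ b)) (fun b => l (perm D τ b)) = _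
  rw [h2, h3]

lemma cls_smul (l : B D → ℤ) (r : Ainv D) (f : P D) :
    ιK D x y r * cls D x y l f = cls D x y l ((r : P D) * f) := by
  rw [cls, cls, Finset.mul_sum]
  refine Finset.sum_congr rfl fun σ _ => ?_
  have h1 : pol D (x ∘ perm D σ) y ((r : P D) * f) = ιK D x y r * pol D (x ∘ perm D σ) y f := by
    rw [pol_act, map_mul, map_mul, (mem_Ainv D).1 r.2 σ, ← pol_act, ιK_apply]
  rw [co, co, h1]
  ring

lemma cls_mono (l : B D → ℤ) (f : P D) :
    cls D x y l f = mono D x y (fun _ => (1 : K)) l f := by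
  rw [cls, mono]
  exact Finset.sum_congr rfl fun σ _ => by rw [smul_eq_mul, mul_one]

lemma Kdec_mul (r : Ainv D) {z : K} (hz : z ∈ Kdec D x y) : ιK D x y r * z ∈ Kdec D x y := by
  induction hz using AddSubgroup.closure_induction with
  | mem z hz =>
    obtain ⟨l, f, g, hl, hl0, rfl⟩ := hz
    rw [← mul_assoc, cls_smul]
    exact AddSubgroup.subset_closure ⟨l, _, g, hl, hl0, rfl⟩
  | zero => rw [mul_zero]; exact AddSubgroup.zero_mem _
  | add a b _ _ ha hb => rw [mul_add]; exact AddSubgroup.add_mem _ ha hb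
  | neg a _ ha => rw [mul_neg]; exact AddSubgroup.neg_mem _ ha

/-- the ideal `Kdec` in the invariants -/
noncomputable def KI : Ideal (Ainv D) where
  carrier := {r | ιK D x y r ∈ Kdec D x y}
  add_mem' := by
    intro a b ha hb
    change ιK D x y (a + b) ∈ Kdec D x y
    rw [map_add]
    exact AddSubgroup.add_mem _ ha hb
  zero_mem' := by
    change ιK D x y 0 ∈ Kdec D x y
    rw [map_zero]
    exact AddSubgroup.zero_mem _
  smul_mem' := by
    intro c a ha
    change ιK D x y (c * a) ∈ Kdec D x y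
    rw [map_mul]
    exact Kdec_mul D x y c ha

lemma mem_KI (r : Ainv D) : r ∈ KI D x y ↔ ιK D x y r ∈ Kdec D x y := Iff.rfl

lemma exists_perm {l l' : B D → ℤ} (hl : Min D l) (hl' : Min D l')
    (h : ∀ i, mOf D l i = mOf D l' i) : ∃ τ : W D, l' = l ∘ perm D τ := by
  classical
  have h1 : ∀ i, ∃ e : Equiv.Perm (Fin (D.v i)), ∀ r, l' ⟨i, r⟩ = 1 ↔ l ⟨i, e r⟩ = 1 := by
    intro i
    have hc : (Finset.univ.filter fun r : Fin (D.v i) => l' ⟨i, r⟩ = 1).card =
        (Finset.univ.filter fun r : Fin (D.v i) => l ⟨i, r⟩ = 1).card := (h i).symm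
    have hc2 : Fintype.card {r : Fin (D.v i) // l' ⟨i, r⟩ = 1} =
        Fintype.card {r : Fin (D.v i) // l ⟨i, r⟩ = 1} := by
      rw [Fintype.card_subtype, Fintype.card_subtype]; exact hc
    let e0 : {r : Fin (D.v i) // l' ⟨i, r⟩ = 1} ≃ {r : Fin (D.v i) // l ⟨i, r⟩ = 1} :=
      Fintype.equivOfCardEq hc2
    refine ⟨e0.extendSubtype, fun r => ⟨fun hr => ?_, fun hr => ?_⟩⟩
    · exact e0.extendSubtype_mem r hr
    · by_contra hr'
      exact e0.extendSubtype_not_mem r hr' hr
  choose e he using h1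
  refine ⟨e, ?_⟩
  funext ⟨i, r⟩
  have h2 := he i r
  have h3 := hl' ⟨i, r⟩
  have h4 := hl ⟨i, e i r⟩
  change l' ⟨i, r⟩ = l ⟨i, e i r⟩
  by_cases h5 : l' ⟨i, r⟩ = 1
  · rw [h5, h2.1 h5]
  · have h6 : ¬ l ⟨i, e i r⟩ = 1 := fun h => h5 (h2.2 h)
    rw [h3.resolve_right h5, h4.resolve_right h6]

variable (hxy : AlgebraicIndependent ℂ (Sum.elim x y)) (hD : ∀ a, D.v (D.tgt a) ≤ 1)

include hxy in
lemma ιK_inj : Function.Injective (ιK D x y) := by
  intro r s h
  exact Subtype.ext (EV_inj D x y hxy h)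

include hxy in
lemma mem_R_iff (z : K) : z ∈ R D x y ↔ ∃ r : Ainv D, ιK D x y r = z := by
  constructor
  · rintro ⟨f, hf⟩
    have h1 : f ∈ Ainv D := by
      rw [mem_Ainv]
      intro σ
      apply EV_inj D x y hxy
      rw [← pol_act, hf σ, ← hf 1, pol_act]
      have h2 : actP D 1 f = f := by
        have h3 : actP D 1 = AlgHom.id ℂ (P D) := by
          apply MvPolynomial.algHom_ext
          intro b
          rw [actP, rename_X, AlgHom.id_apply]
          cases b <;> rfl
        rw [h3]; rfl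
      rw [h2]
    refine ⟨⟨f, h1⟩, ?_⟩
    have h2 := hf 1
    rw [pol_act, (mem_Ainv D).1 h1 1] at h2
    exact h2
  · rintro ⟨r, rfl⟩
    exact R_of_inv D x y r

/-- the matrices of the algebra of functions -/
noncomputable def ΦA (i : D.I) :
    Polynomial (Ainv D) →* Matrix (Fin (D.v i)) (Fin (D.v i)) (Ainv D) :=
  MMhom (ιK D x y) (ιK_inj D x y hxy) (chA_monic D i) (chA_deg D i)
    (y := fun r => x ⟨i, r⟩) (IsUnit.mk0 _ (vK_unit D x y hxy i)) (eval_chA D x y i)

lemma ΦA_apply (i : D.I) (g : Polynomial (Ainv D)) :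
    ΦA D x y hxy i g = MM (chA D i) (D.v i) g := rfl

/-- product of determinantal ideals, positive side -/
noncomputable def LE (m : D.I → ℕ) : Ideal (Ainv D) :=
  Lm D.src D.tgt (ΦA D x y hxy) (fra D) (la D hD) m

/-- product of determinantal ideals, negative side -/
noncomputable def LF (m : D.I → ℕ) : Ideal (Ainv D) :=
  Lm D.src D.tgt (ΦA D x y hxy) 1 (la D hD) m

lemma EE_mem (l : B D → ℤ) (φ : B D → Polynomial (Ainv D)) :
    ∏ i, EE D hD l φ i ∈ LE D x y hxy hD (mOf D l) := by
  rw [LE, Lm]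
  refine Ideal.prod_mem_prod fun i _ => ?_
  exact mem_detIdeal _ (cols D l i) _ _ rfl

lemma mixCols_compl {A : Type} [CommRing A] {n : Type} [Fintype n] [DecidableEq n]
    (S : Finset n) (M N : Matrix n n A) : mixCols S M N = mixCols Sᶜ N M := by
  ext r c
  rw [mixCols_apply, mixCols_apply]
  by_cases h : c ∈ S
  · rw [if_pos h, if_neg (by simpa using h)]
  · rw [if_neg h, if_pos (by simpa using h)]

lemma FF_mem (l : B D → ℤ) (φ : B D → Polynomial (Ainv D)) :
    ∏ i, FF D hD l φ i ∈ LF D x y hxy hD (fun i => D.v i - mOf D l i) := by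
  rw [LF, Lm]
  refine Ideal.prod_mem_prod fun i _ => ?_
  rw [FF, mixCols_compl]
  refine mem_detIdeal _ (cols D l i)ᶜ _ _ ?_
  rw [Finset.card_compl, Fintype.card_fin]
  rfl

/-- the additive group of classes, positive side -/
lemma cls_clos_E {l : B D → ℤ} (hl : Min D l) (f : P D) (hxy : AlgebraicIndependent ℂ (Sum.elim x y)) :
    cls D x y l f ∈ AddSubgroup.closure {z : K | ∃ (κ : Ainv D) (φ : B D → Polynomial (Ainv D)),
      z = ιK D x y (κ * ∏ i, EE D hD l φ i)} := by
  rw [cls_mono]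
  have h := mono_mem D x y (fun _ => (1 : K)) hxy l l (min_sub D hl)
    (bE D x y (fun _ => (1 : K)) hD l) (fun _ => 1)
    (hβE D x y (fun _ => (1 : K)) (fun _ _ => (one_mul 1).symm) rfl hD hl) f
  refine AddSubgroup.closure_mono ?_ h
  rintro z ⟨κ, φ, rfl⟩
  refine ⟨κ, φ, ?_⟩
  rw [map_mul, map_prod]
  congr 1
  exact Finset.prod_congr rfl fun i _ => DDi_E_one D x y hxy hD l φ i

lemma cls_clos_F {l : B D → ℤ} (hl : Min D l) (f : P D) (hxy : AlgebraicIndependent ℂ (Sum.elim x y)) :
    cls D x y (-l) f ∈ AddSubgroup.closure {z : K | ∃ (κ : Ainv D) (φ : B D → Polynomial (Ainv D)),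
      z = ιK D x y (κ * ∏ i, FF D hD l φ i)} := by
  rw [cls_mono]
  have h := mono_mem D x y (fun _ => (1 : K)) hxy l (-l) (min_sub_neg D hl)
    (fun _ => 1) (bF D x y hD l)
    (hβF D x y (fun _ => (1 : K)) (fun _ _ => (one_mul 1).symm) rfl hD hl) f
  refine AddSubgroup.closure_mono ?_ h
  rintro z ⟨κ, φ, rfl⟩
  refine ⟨κ, φ, ?_⟩
  rw [map_mul, map_prod]
  congr 1
  exact Finset.prod_congr rfl fun i _ => DDi_F_one D x y hxy hD l φ i

lemma cls_ideal_E {l : B D → ℤ} (hl : Min D l) (f : P D) :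
    ∃ r ∈ LE D x y hxy hD (mOf D l), ιK D x y r = cls D x y l f := by
  have h := cls_clos_E D x y hD hl f hxy
  generalize cls D x y l f = z0 at h ⊢
  induction h using AddSubgroup.closure_induction with
  | mem z hz =>
    obtain ⟨κ, φ, rfl⟩ := hz
    exact ⟨_, Ideal.mul_mem_left _ _ (EE_mem D x y hxy hD l φ), rfl⟩
  | zero => exact ⟨0, Ideal.zero_mem _, map_zero _⟩
  | add a b _ _ ha hb =>
    obtain ⟨r, hr, hr'⟩ := ha
    obtain ⟨s, hs, hs'⟩ := hb
    exact ⟨r + s, Ideal.add_mem _ hr hs, by rw [map_add, hr', hs']⟩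
  | neg a _ ha =>
    obtain ⟨r, hr, hr'⟩ := ha
    exact ⟨-r, Ideal.neg_mem_iff _ |>.2 hr, by rw [map_neg, hr']⟩

lemma cls_ideal_F {l : B D → ℤ} (hl : Min D l) (f : P D) :
    ∃ r ∈ LF D x y hxy hD (fun i => D.v i - mOf D l i), ιK D x y r = cls D x y (-l) f := by
  have h := cls_clos_F D x y hD hl f hxy
  generalize cls D x y (-l) f = z0 at h ⊢
  induction h using AddSubgroup.closure_induction with
  | mem z hz =>
    obtain ⟨κ, φ, rfl⟩ := hz
    exact ⟨_, Ideal.mul_mem_left _ _ (FF_mem D x y hxy hD l φ), rfl⟩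
  | zero => exact ⟨0, Ideal.zero_mem _, map_zero _⟩
  | add a b _ _ ha hb =>
    obtain ⟨r, hr, hr'⟩ := ha
    obtain ⟨s, hs, hs'⟩ := hb
    exact ⟨r + s, Ideal.add_mem _ hr hs, by rw [map_add, hr', hs']⟩
  | neg a _ ha =>
    obtain ⟨r, hr, hr'⟩ := ha
    exact ⟨-r, Ideal.neg_mem_iff _ |>.2 hr, by rw [map_neg, hr']⟩

/-- products of determinants are classes, positive side -/
lemma EE_cls {l : B D → ℤ} (hl : Min D l) (κ : Ainv D) (φ : B D → Polynomial (Ainv D))
    (hxy : AlgebraicIndependent ℂ (Sum.elim x y)) :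
    ∃ f : P D, ιK D x y (κ * ∏ i, EE D hD l φ i) = cls D x y l f := by
  obtain ⟨f, hf⟩ := DD_mono D x y (fun _ => (1 : K)) hxy l l (min_sub D hl)
    (bE D x y (fun _ => (1 : K)) hD l) (fun _ => 1)
    (hβE D x y (fun _ => (1 : K)) (fun _ _ => (one_mul 1).symm) rfl hD hl) κ φ
  refine ⟨f, ?_⟩
  rw [cls_mono, ← hf, map_mul, map_prod]
  congr 1
  exact Finset.prod_congr rfl fun i _ => (DDi_E_one D x y hxy hD l φ i).symm

lemma FF_cls {l : B D → ℤ} (hl : Min D l) (κ : Ainv D) (φ : B D → Polynomial (Ainv D))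
    (hxy : AlgebraicIndependent ℂ (Sum.elim x y)) :
    ∃ f : P D, ιK D x y (κ * ∏ i, FF D hD l φ i) = cls D x y (-l) f := by
  obtain ⟨f, hf⟩ := DD_mono D x y (fun _ => (1 : K)) hxy l (-l) (min_sub_neg D hl)
    (fun _ => 1) (bF D x y hD l)
    (hβF D x y (fun _ => (1 : K)) (fun _ _ => (one_mul 1).symm) rfl hD hl) κ φ
  refine ⟨f, ?_⟩
  rw [cls_mono, ← hf, map_mul, map_prod]
  congr 1
  exact Finset.prod_congr rfl fun i _ => (DDi_F_one D x y hxy hD l φ i).symm

/-- the indicator of a family of sets -/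
noncomputable def ind (T : (i : D.I) → Finset (Fin (D.v i))) (b : B D) : ℤ :=
  if b.2 ∈ T b.1 then 1 else 0

lemma ind_min (T : (i : D.I) → Finset (Fin (D.v i))) : Min D (ind D T) := by
  intro b
  rw [ind]
  split_ifs
  · exact Or.inr rfl
  · exact Or.inl rfl

lemma ind_cols (T : (i : D.I) → Finset (Fin (D.v i))) (i : D.I) : cols D (ind D T) i = T i := by
  ext r
  rw [cols, Finset.mem_filter, ind]
  by_cases h : r ∈ T i <;> simp [h]

lemma ind_mOf (T : (i : D.I) → Finset (Fin (D.v i))) (i : D.I) :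
    mOf D (ind D T) i = (T i).card := by
  rw [← ind_cols D T i]; rfl

/-- the hypothesis of the chain lemma -/
lemma LE_LF_le (m : D.I → ℕ) (hm : ∀ i, m i ≤ D.v i) (hm0 : m ≠ 0) :
    LE D x y hxy hD m * LF D x y hxy hD (fun i => D.v i - m i) ≤ KI D x y := by
  classical
  rw [LE, LF, Lm, Lm]
  unfold detIdeal
  rw [Ideal.prod_span, Ideal.prod_span, Ideal.span_mul_span', Ideal.span_le]
  rintro z hz
  rw [Set.mem_mul] at hz
  obtain ⟨a, ha, b, hb, rfl⟩ := hz
  rw [Set.mem_finsetProd] at ha hb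
  obtain ⟨a', ha', rfl⟩ := ha
  obtain ⟨b', hb', rfl⟩ := hb
  choose T X hT hX using fun i => ha' (Finset.mem_univ i)
  choose T' X' hT' hX' using fun i => hb' (Finset.mem_univ i)
  -- positive side
  set l : B D → ℤ := ind D T with hl
  set l' : B D → ℤ := ind D fun i => (T' i)ᶜ with hl'
  have hml : mOf D l = m := by
    funext i; rw [hl, ind_mOf]; exact hT i
  have hml' : mOf D l' = m := by
    funext i
    rw [hl', ind_mOf, Finset.card_compl, Fintype.card_fin, hT' i]
    have := hm i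
    omega
  have hlm : Min D l := ind_min D T
  have hlm' : Min D l' := ind_min D _
  have hl0 : l ≠ 0 := by
    intro h0
    apply hm0
    funext i
    rw [← hml, mOf, Pi.zero_apply, Finset.card_eq_zero, Finset.filter_eq_empty_iff]
    intro r _
    rw [h0]
    exact zero_ne_one
  choose φ hφ using fun i => colM_surj (chA_monic D i) (chA_deg D i) (X i)
  choose ψ hψ using fun i => colM_surj (chA_monic D i) (chA_deg D i) (X' i)
  have h1 : ∏ i, a' i = ∏ i, EE D hD l (fun b => φ b.1 b.2) i := by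
    refine Finset.prod_congr rfl fun i _ => ?_
    have hXm : Xm D (fun b => φ b.1 b.2) i = X i := hφ i
    rw [hX i, EE, hl, ind_cols, hXm, gE, ← hl, hml]
    rfl
  have h2 : ∏ i, b' i = ∏ i, FF D hD l' (fun b => ψ b.1 b.2) i := by
    refine Finset.prod_congr rfl fun i _ => ?_
    have hXm : Xm D (fun b => ψ b.1 b.2) i = X' i := hψ i
    rw [hX' i, FF, hl', ind_cols, hXm, mixCols_compl (T' i)ᶜ, compl_compl, gF, ← hl', hml']
    rfl
  obtain ⟨f, hf⟩ := EE_cls D x y hD hlm 1 (fun b => φ b.1 b.2) hxy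
  obtain ⟨g, hg⟩ := FF_cls D x y hD hlm' 1 (fun b => ψ b.1 b.2) hxy
  rw [one_mul, ← h1] at hf
  rw [one_mul, ← h2] at hg
  obtain ⟨τ, hτ⟩ := exists_perm D hlm hlm' (fun i => by rw [hml, hml'])
  have hneg : -l' = (-l) ∘ perm D τ := by rw [hτ]; rfl
  rw [hneg, cls_orbit] at hg
  change _ ∈ KI D x y
  rw [mem_KI, map_mul, hf, hg]
  exact AddSubgroup.subset_closure ⟨l, _, _, hlm, hl0, rfl⟩

end

end Vale.Agent.P291.G
end
end

section

section

set_option autoImplicit false
set_option linter.unusedSectionVars false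

/-! Conclusion. -/

namespace Vale.Agent.P291.G

open MvPolynomial Matrix Vale.Agent.P291.GDet Vale.Agent.P291.GVdm Vale.Agent.P291.GChain
  Vale.Agent.P291.GGrade

variable (D : QData)

/-- the charge of a cocharacter -/
def chg (l : B D → ℤ) (i : D.I) : ℤ := ∑ r : Fin (D.v i), l ⟨i, r⟩

lemma chg_add (l l' : B D → ℤ) : chg D (l + l') = chg D l + chg D l' := by
  funext i
  rw [Pi.add_apply, chg, chg, chg, ← Finset.sum_add_distrib]
  rfl

lemma chg_neg (l : B D → ℤ) : chg D (-l) = -chg D l := by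
  funext i
  rw [Pi.neg_apply, chg, chg, ← Finset.sum_neg_distrib]
  rfl

lemma chg_comp (l : B D → ℤ) (σ : W D) : chg D (l ∘ (perm D σ).symm) = chg D l := by
  funext i
  rw [chg, chg, ← Equiv.sum_comp (σ i)]
  refine Finset.sum_congr rfl fun r _ => ?_
  rw [Function.comp]
  congr 1
  rw [Equiv.symm_apply_eq, perm_apply]

lemma chg_min {l : B D → ℤ} (hl : Min D l) (i : D.I) : chg D l i = (mOf D l i : ℤ) := by
  rw [chg, mOf, Finset.card_filter]
  push_cast
  refine Finset.sum_congr rfl fun r _ => ?_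
  rcases hl ⟨i, r⟩ with h | h <;> simp only [h, zero_ne_one, ↓reduceIte]

lemma wt_chg (ν : D.I → ℤ) (l : B D → ℤ) : wt D ν l = ∑ i, ν i * chg D l i := by
  rw [wt, Fintype.sum_sigma]
  refine Finset.sum_congr rfl fun i _ => ?_
  rw [chg, Finset.mul_sum]

section
variable {K : Type} [Field K] [Algebra ℂ K] (x : B D → K) (y : Fin D.rk → K)
  (hxy : AlgebraicIndependent ℂ (Sum.elim x y)) (hD : ∀ a, D.v (D.tgt a) ≤ 1)

/-- the generators of the ideal of charge `d` -/
def Iset (d : D.I → ℤ) : Set (Ainv D) :=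
  {r | ∃ (n : ℕ) (mE mF : Fin n → D.I → ℕ), (∀ k i, mE k i ≤ D.v i) ∧ (∀ k i, mF k i ≤ D.v i) ∧
    (∀ i, (∑ k, (mE k i : ℤ)) - ∑ k, (mF k i : ℤ) = d i) ∧
    r ∈ (∏ k, LE D x y hxy hD (mE k)) * ∏ k, LF D x y hxy hD (fun i => D.v i - mF k i)}

/-- the ideal of charge `d` -/
noncomputable def Id (d : D.I → ℤ) : Ideal (Ainv D) := Ideal.span (Iset D x y hxy hD d)

lemma Id_one : (1 : Ainv D) ∈ Id D x y hxy hD 0 := by
  refine Ideal.subset_span ⟨0, fun _ _ => 0, fun _ _ => 0, fun _ _ => Nat.zero_le _,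
    fun _ _ => Nat.zero_le _, fun i => by simp, ?_⟩
  rw [Finset.univ_eq_empty, Finset.prod_empty, Finset.prod_empty, one_mul, Ideal.one_eq_top]
  exact Submodule.mem_top

lemma Iset_mul {d d' : D.I → ℤ} {r s : Ainv D} (hr : r ∈ Iset D x y hxy hD d)
    (hs : s ∈ Iset D x y hxy hD d') : ∃ (n : ℕ) (mE mF : Fin n → D.I → ℕ),
      (∀ k i, mE k i ≤ D.v i) ∧ (∀ k i, mF k i ≤ D.v i) ∧
      (∀ i, (∑ k, (mE k i : ℤ)) - ∑ k, (mF k i : ℤ) = d i + d' i) ∧
      (∀ i, (∑ k, (mE k i : ℤ)) = 0 → d i = 0 ∨ d' i = 0 ∨ (d i < 0 ∧ d' i < 0)) ∧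
      r * s ∈ (∏ k, LE D x y hxy hD (mE k)) * ∏ k, LF D x y hxy hD (fun i => D.v i - mF k i) := by
  obtain ⟨n, mE, mF, h1, h2, h3, h4⟩ := hr
  obtain ⟨n', mE', mF', h1', h2', h3', h4'⟩ := hs
  have hsum : ∀ (f : Fin n → D.I → ℕ) (f' : Fin n' → D.I → ℕ) (i : D.I),
      (∑ k, ((Fin.append f f' k i : ℕ) : ℤ)) = (∑ k, (f k i : ℤ)) + ∑ k, (f' k i : ℤ) := by
    intro f f' i
    rw [Fin.sum_univ_add]
    simp only [Fin.append_left, Fin.append_right]
  refine ⟨n + n', Fin.append mE mE', Fin.append mF mF', ?_, ?_, ?_, ?_, ?_⟩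
  · intro k i
    refine Fin.addCases (fun k => ?_) (fun k => ?_) k
    · rw [Fin.append_left]; exact h1 k i
    · rw [Fin.append_right]; exact h1' k i
  · intro k i
    refine Fin.addCases (fun k => ?_) (fun k => ?_) k
    · rw [Fin.append_left]; exact h2 k i
    · rw [Fin.append_right]; exact h2' k i
  · intro i
    rw [hsum, hsum, ← h3 i, ← h3' i]
    ring
  · intro i hi
    rw [hsum] at hi
    have e1 := h3 i
    have e2 := h3' i
    have p1 : 0 ≤ ∑ k, (mE k i : ℤ) := Finset.sum_nonneg fun k _ => Int.natCast_nonneg _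
    have p2 : 0 ≤ ∑ k, (mE' k i : ℤ) := Finset.sum_nonneg fun k _ => Int.natCast_nonneg _
    have p3 : 0 ≤ ∑ k, (mF k i : ℤ) := Finset.sum_nonneg fun k _ => Int.natCast_nonneg _
    have p4 : 0 ≤ ∑ k, (mF' k i : ℤ) := Finset.sum_nonneg fun k _ => Int.natCast_nonneg _
    omega
  · have hP : ∀ (F : (D.I → ℕ) → Ideal (Ainv D)) (f : Fin n → D.I → ℕ) (f' : Fin n' → D.I → ℕ),
        ∏ k, F (Fin.append f f' k) = (∏ k, F (f k)) * ∏ k, F (f' k) := by
      intro F f f'
      rw [Fin.prod_univ_add]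
      simp only [Fin.append_left, Fin.append_right]
    rw [hP (LE D x y hxy hD), hP (fun m => LF D x y hxy hD (fun i => D.v i - m i)), mul_mul_mul_comm]
    exact Ideal.mul_mem_mul h4 h4'

lemma Id_mul (d d' : D.I → ℤ) :
    Id D x y hxy hD d * Id D x y hxy hD d' ≤ Id D x y hxy hD (d + d') := by
  rw [Id, Id, Ideal.span_mul_span', Ideal.span_le]
  intro z hz
  rw [Set.mem_mul] at hz
  obtain ⟨r, hr, s, hs, rfl⟩ := hz
  obtain ⟨n, mE, mF, h1, h2, h3, -, h5⟩ := Iset_mul D x y hxy hD hr hs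
  exact Ideal.subset_span ⟨n, mE, mF, h1, h2, h3, h5⟩

lemma Id_neg_mul (d : D.I → ℤ) (hd : d ≠ 0) :
    Id D x y hxy hD (-d) * Id D x y hxy hD d ≤ KI D x y := by
  rw [Id, Id, Ideal.span_mul_span', Ideal.span_le]
  intro z hz
  rw [Set.mem_mul] at hz
  obtain ⟨r, hr, s, hs, rfl⟩ := hz
  obtain ⟨n, mE, mF, h1, h2, h3, h4, h5⟩ := Iset_mul D x y hxy hD hr hs
  refine star D.src D.tgt (ΦA D x y hxy) (fra D) (la D hD) (fun i => D.v i ≤ 1) (fun i hi => hi) hD
    (la_one D hD) mE mF h1 h2 ?_ ?_ _ (fun m hm hm0 => LE_LF_le D x y hxy hD m hm hm0) h5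
  · intro i
    have := h3 i
    rw [Pi.neg_apply] at this
    zify
    omega
  · by_contra hcon
    push Not at hcon
    apply hd
    funext i
    have e1 : (∑ k, (mE k i : ℤ)) = 0 := by
      have := hcon i
      zify at this
      exact this
    have e2 := h4 i e1
    rw [Pi.neg_apply] at e2
    rw [Pi.zero_apply]
    omega

lemma LE_zero : LE D x y hxy hD 0 = ⊤ := by
  rw [LE, Lm, ← Ideal.one_eq_top]
  refine Finset.prod_eq_one fun i _ => ?_
  rw [Pi.zero_apply, detIdeal_zero, Ideal.one_eq_top]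

lemma LF_v : LF D x y hxy hD (fun i => D.v i - 0) = ⊤ := by
  rw [LF, Lm, ← Ideal.one_eq_top]
  refine Finset.prod_eq_one fun i _ => ?_
  have h8 : gpol D.src D.tgt 1 (la D hD) i (fun j => D.v j - 0) = 1 := by
    rw [gpol, Pi.one_apply, one_mul]
    refine Finset.prod_eq_one fun a ha => ?_
    rw [Finset.mem_filter] at ha
    exact la_one D hD a (by simpa only [tsub_zero] using ha.2.2)
  rw [h8, map_one, detIdeal_one (by rw [Fintype.card_fin]; exact Nat.sub_le _ _),
    Ideal.one_eq_top]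

lemma cls_Id_pos {l : B D → ℤ} (hl : Min D l) (f : P D) :
    ∃ r ∈ Id D x y hxy hD (chg D l), ιK D x y r = cls D x y l f := by
  obtain ⟨r, hr, hr'⟩ := cls_ideal_E D x y hxy hD hl f
  refine ⟨r, Ideal.subset_span ⟨1, fun _ => mOf D l, fun _ _ => 0, fun _ => mOf_le D l,
    fun _ _ => Nat.zero_le _, fun i => ?_, ?_⟩, hr'⟩
  · rw [chg_min D hl]; simp
  · rw [Fin.prod_univ_one, Fin.prod_univ_one, LF_v, Ideal.mul_top]
    exact hr

lemma cls_Id_neg {l : B D → ℤ} (hl : Min D l) (f : P D) :
    ∃ r ∈ Id D x y hxy hD (chg D (-l)), ιK D x y r = cls D x y (-l) f := by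
  obtain ⟨r, hr, hr'⟩ := cls_ideal_F D x y hxy hD hl f
  refine ⟨r, Ideal.subset_span ⟨1, fun _ => 0, fun _ => mOf D l, fun _ _ => Nat.zero_le _,
    fun _ => mOf_le D l, fun i => ?_, ?_⟩, hr'⟩
  · rw [chg_neg, Pi.neg_apply, chg_min D hl]; simp only [Finset.univ_unique, Fin.default_eq_zero, Fin.isValue, Pi.zero_apply, CharP.cast_eq_zero, Finset.sum_const_zero, Finset.sum_const, Finset.card_singleton, Int.nsmul_eq_mul, Nat.cast_one, one_mul, zero_sub]
  · rw [Fin.prod_univ_one, Fin.prod_univ_one, LE_zero, Ideal.top_mul]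
    exact hr

end

section
variable {K L : Type} [Field K] [Algebra ℂ K] [CommRing L] [Algebra K L]
  (x : B D → K) (y : Fin D.rk → K) (u : Module.Basis (B D → ℤ) K L)

section kap
variable (hu : ∀ l l', u (l + l') = u l * u l')

include hu in
lemma u_zero : u 0 = 1 := by
  have h : ∀ a : L, u 0 * a = a := by
    intro a
    have h1 : (LinearMap.mulLeft K (u 0)) = LinearMap.id := by
      apply u.ext
      intro l
      rw [LinearMap.mulLeft_apply, ← hu, zero_add, LinearMap.id_apply]
    have h2 := congrArg (fun g => g a) h1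
    exact h2
  rw [← mul_one (u 0), h 1]

/-- the projection to charges -/
noncomputable def kap : L →ₗ[K] AddMonoidAlgebra K (D.I → ℤ) :=
  u.constr K fun l => AddMonoidAlgebra.single (chg D l) (1 : K)

lemma kap_u (l : B D → ℤ) : kap D u (u l) = AddMonoidAlgebra.single (chg D l) (1 : K) := by
  rw [kap, Module.Basis.constr_basis]

include hu in
lemma kap_mul (a b : L) : kap D u (a * b) = kap D u a * kap D u b := by
  have h : (LinearMap.mul K L).compr₂ (kap D u) =
      (LinearMap.mul K (AddMonoidAlgebra K (D.I → ℤ))).compl₁₂ (kap D u) (kap D u) := by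
    apply u.ext
    intro l
    apply u.ext
    intro l'
    rw [LinearMap.compr₂_apply, LinearMap.compl₁₂_apply, LinearMap.mul_apply',
      LinearMap.mul_apply', ← hu, kap_u, kap_u, kap_u, AddMonoidAlgebra.single_mul_single,
      chg_add, one_mul]
  exact congrArg (fun g => g a b) h

include hu in
lemma kap_one : kap D u 1 = 1 := by
  rw [← u_zero D u hu, kap_u, AddMonoidAlgebra.one_def]
  congr 1
  funext i
  simp only [chg, Pi.zero_apply, Finset.sum_const_zero]

include hu in
lemma kap_algebraMap (r : K) :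
    kap D u (algebraMap K L r) = AddMonoidAlgebra.single (0 : D.I → ℤ) r := by
  rw [Algebra.algebraMap_eq_smul_one, map_smul, kap_one D u hu, AddMonoidAlgebra.one_def,
    AddMonoidAlgebra.smul_single, smul_eq_mul, mul_one]

lemma kap_mono (l : B D → ℤ) (f : P D) :
    kap D u (mono D x y u l f) = AddMonoidAlgebra.single (chg D l) (cls D x y l f) := by
  rw [mono, map_sum, cls]
  have h1 : ∀ σ : W D, kap D u (co D (x ∘ perm D σ) y l f • u (l ∘ (perm D σ).symm)) =
      AddMonoidAlgebra.single (chg D l) (co D (x ∘ perm D σ) y l f) := by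
    intro σ
    rw [map_smul, kap_u, chg_comp, AddMonoidAlgebra.smul_single, smul_eq_mul, mul_one]
  rw [Finset.sum_congr rfl fun σ _ => h1 σ]
  exact (map_sum (AddMonoidAlgebra.singleAddHom (chg D l)) _ _).symm

end kap

variable (hxy : AlgebraicIndependent ℂ (Sum.elim x y)) (hD : ∀ a, D.v (D.tgt a) ≤ 1)
  (hu : ∀ l l', u (l + l') = u l * u l') (ν : D.I → ℤ)

include hu in
lemma coulomb_GS {a : L} (ha : a ∈ coulomb D x y u) :
    kap D u a ∈ GS (ιK D x y) (Id D x y hxy hD) (Id_one D x y hxy hD) (Id_mul D x y hxy hD) := by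
  induction ha using Subring.closure_induction with
  | mem a ha =>
    rcases ha with ⟨r, hr, rfl⟩ | ⟨l, f, hl, rfl | rfl⟩
    · obtain ⟨s, rfl⟩ := (mem_R_iff D x y hxy r).1 hr
      rw [kap_algebraMap D u hu]
      refine single_mem_GS _ _ ?_
      have h1 := Ideal.mul_mem_left _ s (Id_one D x y hxy hD)
      rwa [mul_one] at h1
    · obtain ⟨r, hr, hr'⟩ := cls_Id_pos D x y hxy hD hl f
      rw [kap_mono, ← hr']
      exact single_mem_GS _ _ hr
    · obtain ⟨r, hr, hr'⟩ := cls_Id_neg D x y hxy hD hl f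
      rw [kap_mono, ← hr']
      exact single_mem_GS _ _ hr
  | zero => rw [map_zero]; exact Subring.zero_mem _
  | one => rw [kap_one D u hu]; exact Subring.one_mem _
  | add a b _ _ ha hb => rw [map_add]; exact Subring.add_mem _ ha hb
  | neg a _ ha => rw [map_neg]; exact Subring.neg_mem _ ha
  | mul a b _ _ ha hb => rw [kap_mul D u hu]; exact Subring.mul_mem _ ha hb

lemma kap_span {m : ℤ} (hm : m ≠ 0) {b : L}
    (hb : b ∈ Submodule.span K (u '' {l | wt D ν l = m})) : (kap D u b).coeff 0 = 0 := by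
  classical
  induction hb using Submodule.span_induction with
  | mem b hb =>
    obtain ⟨l, hl, rfl⟩ := hb
    rw [kap_u, AddMonoidAlgebra.coeff_single, Finsupp.single_apply, if_neg]
    intro h
    apply hm
    have hl2 : wt D ν l = m := hl
    rw [← hl2, wt_chg, h]
    simp only [Pi.zero_apply, mul_zero, Finset.sum_const_zero]
  | zero => simp
  | add a b _ _ ha hb => rw [map_add, AddMonoidAlgebra.coeff_add, Finsupp.add_apply, ha, hb, add_zero]
  | smul c a _ ha => rw [map_smul, AddMonoidAlgebra.coeff_smul, Finsupp.smul_apply, ha, smul_zero]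

include hxy hD hu in
lemma fixI_coeff {c : L} (hc : c ∈ fixI D x y u ν) :
    ∃ r ∈ KI D x y, ιK D x y r = (kap D u c).coeff 0 := by
  induction hc using AddSubgroup.closure_induction with
  | mem c hc =>
    obtain ⟨a, ha, b, hb, m, hm, hbm, rfl⟩ := hc
    rw [kap_mul D u hu]
    exact mul_coeff_zero (ιK D x y) (Id D x y hxy hD) (KI D x y) (Id_neg_mul D x y hxy hD)
      (coulomb_GS D x y u hxy hD hu ha) (coulomb_GS D x y u hxy hD hu hb) (kap_span D u ν hm hbm)
  | zero => exact ⟨0, Ideal.zero_mem _, by simp⟩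
  | add a b _ _ ha hb =>
    obtain ⟨r, hr, hr'⟩ := ha
    obtain ⟨s, hs, hs'⟩ := hb
    exact ⟨r + s, Ideal.add_mem _ hr hs, by
      rw [map_add, hr', hs', map_add, AddMonoidAlgebra.coeff_add, Finsupp.add_apply]⟩
  | neg a _ ha =>
    obtain ⟨r, hr, hr'⟩ := ha
    exact ⟨-r, Ideal.neg_mem_iff _ |>.2 hr, by
      rw [map_neg, hr', map_neg, AddMonoidAlgebra.coeff_neg, Finsupp.neg_apply]⟩

include hxy hD hu in
/-- the hard direction -/
lemma fixI_Kdec {r : K} (hr : algebraMap K L r ∈ fixI D x y u ν) : r ∈ Kdec D x y := by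
  obtain ⟨s, hs, hs'⟩ := fixI_coeff D x y u hxy hD hu ν hr
  rw [kap_algebraMap D u hu, AddMonoidAlgebra.coeff_single, Finsupp.single_eq_same] at hs'
  rw [← hs']
  exact hs

include hxy hD hu in
/-- the other direction -/
lemma Kdec_fixI (hν : ∀ l, Min D l → l ≠ 0 → wt D ν l ≠ 0) {r : K} (hr : r ∈ Kdec D x y) :
    algebraMap K L r ∈ fixI D x y u ν := by
  have hu0 := u_zero D u hu
  induction hr using AddSubgroup.closure_induction with
  | mem z hz =>
    obtain ⟨l, f, g, hl, hl0, rfl⟩ := hz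
    have h1 := cls_clos_E D x y hD hl f hxy
    have h2 := cls_clos_F D x y hD hl g hxy
    generalize cls D x y l f = z1 at h1 ⊢
    generalize cls D x y (-l) g = z2 at h2 ⊢
    induction h1 using AddSubgroup.closure_induction with
    | mem z1 hz1 =>
      obtain ⟨κ, φ, rfl⟩ := hz1
      induction h2 using AddSubgroup.closure_induction with
      | mem z2 hz2 =>
        obtain ⟨κ', ψ, rfl⟩ := hz2
        rw [← map_mul]
        exact EE_FF_mem D x y u ν hxy hD hu hu0 hν hl hl0 κ κ' φ ψ
      | zero => rw [mul_zero, map_zero]; exact AddSubgroup.zero_mem _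
      | add a b _ _ ha hb => rw [mul_add, map_add]; exact AddSubgroup.add_mem _ ha hb
      | neg a _ ha => rw [mul_neg, map_neg]; exact AddSubgroup.neg_mem _ ha
    | zero => rw [zero_mul, map_zero]; exact AddSubgroup.zero_mem _
    | add a b _ _ ha hb => rw [add_mul, map_add]; exact AddSubgroup.add_mem _ ha hb
    | neg a _ ha => rw [neg_mul, map_neg]; exact AddSubgroup.neg_mem _ ha
  | zero => rw [map_zero]; exact AddSubgroup.zero_mem _
  | add a b _ _ ha hb => rw [map_add]; exact AddSubgroup.add_mem _ ha hb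
  | neg a _ ha => rw [map_neg]; exact AddSubgroup.neg_mem _ ha

include hu in
lemma mono_zero (f : P D) : mono D x y u 0 f = algebraMap K L (cls D x y 0 f) := by
  rw [mono, cls, map_sum]
  refine Finset.sum_congr rfl fun σ _ => ?_
  have h1 : (0 : B D → ℤ) ∘ (perm D σ).symm = 0 := rfl
  rw [h1, u_zero D u hu, Algebra.algebraMap_eq_smul_one]

include hxy hD hu in
/-- surjectivity -/
lemma surj (hν : ∀ l, Min D l → l ≠ 0 → wt D ν l ≠ 0) {a : L} (ha : a ∈ coulomb D x y u) :
    ∃ r : Ainv D, a - ιL D x y r ∈ fixI D x y u ν := by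
  induction ha using Subring.closure_induction with
  | mem a ha =>
    rcases ha with ⟨r, hr, rfl⟩ | ⟨l, f, hl, h⟩
    · obtain ⟨s, rfl⟩ := (mem_R_iff D x y hxy r).1 hr
      refine ⟨s, ?_⟩
      have : algebraMap K L (ιK D x y s) - ιL D x y s = 0 := sub_self _
      rw [this]
      exact AddSubgroup.zero_mem _
    · by_cases hl0 : l = 0
      · subst hl0
        have h1 : a = algebraMap K L (cls D x y 0 f) := by
          rcases h with rfl | rfl
          · exact mono_zero D x y u hu f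
          · rw [neg_zero]; exact mono_zero D x y u hu f
        obtain ⟨r, -, hr⟩ := cls_ideal_E D x y hxy hD hl f
        refine ⟨r, ?_⟩
        have : a - ιL D x y r = 0 := by rw [h1, ← hr]; exact sub_self _
        rw [this]
        exact AddSubgroup.zero_mem _
      · refine ⟨0, ?_⟩
        rw [map_zero, sub_zero]
        rcases h with rfl | rfl
        · exact mono_mem_fixI D x y u ν hl (hν l hl hl0) f
        · exact mono_neg_mem_fixI D x y u ν hl (hν l hl hl0) f
  | zero => exact ⟨0, by rw [map_zero, sub_zero]; exact AddSubgroup.zero_mem _⟩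
  | one => exact ⟨1, by rw [map_one, sub_self]; exact AddSubgroup.zero_mem _⟩
  | add a b _ _ ha hb =>
    obtain ⟨r, hr⟩ := ha
    obtain ⟨s, hs⟩ := hb
    exact ⟨r + s, by
      rw [map_add, add_sub_add_comm]
      exact AddSubgroup.add_mem _ hr hs⟩
  | neg a _ ha =>
    obtain ⟨r, hr⟩ := ha
    exact ⟨-r, by
      have := AddSubgroup.neg_mem _ hr
      rw [map_neg]
      rwa [neg_sub, ← neg_sub_neg] at this⟩
  | mul a b ha' hb' ha hb =>
    obtain ⟨r, hr⟩ := ha
    obtain ⟨s, hs⟩ := hb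
    refine ⟨r * s, ?_⟩
    have h1 : a * b - ιL D x y (r * s) = a * (b - ιL D x y s) + ιL D x y s * (a - ιL D x y r) := by
      rw [map_mul]; ring
    rw [h1]
    exact AddSubgroup.add_mem _ (fixI_mul D x y u ν ha' hs)
      (fixI_mul D x y u ν (ιL_mem D x y u s) hr)

end

/-- main theorem -/
theorem main (K L : Type) [Field K] [Algebra ℂ K] [CommRing L] [Algebra K L]
    (x : B D → K) (y : Fin D.rk → K) (hxy : AlgebraicIndependent ℂ (Sum.elim x y))
    (u : Module.Basis (B D → ℤ) K L) (hu : ∀ l l', u (l + l') = u l * u l')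
    (hD : ∀ a, D.v (D.tgt a) ≤ 1) (ν : D.I → ℤ)
    (hν : ∀ l, Min D l → l ≠ 0 → wt D ν l ≠ 0) :
    (∀ a ∈ coulomb D x y u, ∃ r ∈ R D x y, a - algebraMap K L r ∈ fixI D x y u ν) ∧
      ∀ r ∈ R D x y, algebraMap K L r ∈ fixI D x y u ν ↔ r ∈ Kdec D x y := by
  refine ⟨fun a ha => ?_, fun r _ => ⟨fun h => fixI_Kdec D x y u hxy hD hu ν h,
    fun h => Kdec_fixI D x y u hxy hD hu ν hν h⟩⟩
  obtain ⟨r, hr⟩ := surj D x y u hxy hD hu ν hν ha
  exact ⟨_, R_of_inv D x y r, hr⟩

end Vale.Agent.P291.G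
end
end

section

section

set_option autoImplicit false
set_option linter.unusedSectionVars false

/-! `φ_C` is onto, all quivers. -/

namespace Vale.Agent.P291.H

open MvPolynomial Vale.Agent.P291.G

variable (D : QData)

section
variable {K L : Type} [Field K] [Algebra ℂ K] [CommRing L] [Algebra K L]
  (x : B D → K) (y : Fin D.rk → K) (u : Module.Basis (B D → ℤ) K L)

lemma eul_zero' {C : Type} [CommRing C] (x : B D → C) (y : Fin D.rk → C) : eul D x y 0 = 1 := by
  simp only [eul, Pi.zero_apply, sub_self, Int.toNat_zero, pow_zero, Finset.prod_const_one, mul_one]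

lemma rts_zero' {C : Type} [CommRing C] (x : B D → C) : rts D x 0 = 1 := by
  simp only [rts, Pi.zero_apply, sub_self, Int.toNat_zero, pow_zero, Finset.prod_const_one]

lemma cls_zero_mem (f : P D) : cls D x y 0 f ∈ R D x y := by
  refine ⟨∑ σ : W D, actP D σ f, fun τ => ?_⟩
  rw [pol_act, map_sum, map_sum, cls]
  symm
  rw [← Equiv.sum_comp (Equiv.mulLeft τ)]
  refine Finset.sum_congr rfl fun σ _ => ?_
  rw [co, eul_zero', rts_zero', mul_one, div_one, Equiv.coe_mulLeft, pol_act, actP_mul]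

lemma R_mem_coulomb {r : K} (hr : r ∈ R D x y) : algebraMap K L r ∈ coulomb D x y u :=
  Subring.subset_closure (Or.inl ⟨r, hr, rfl⟩)

lemma R_add {r s : K} (hr : r ∈ R D x y) (hs : s ∈ R D x y) : r + s ∈ R D x y := by
  obtain ⟨f, hf⟩ := hr
  obtain ⟨g, hg⟩ := hs
  exact ⟨f + g, fun σ => by rw [pol_eq, map_add, ← pol_eq, ← pol_eq, hf, hg]⟩

lemma R_mul {r s : K} (hr : r ∈ R D x y) (hs : s ∈ R D x y) : r * s ∈ R D x y := by
  obtain ⟨f, hf⟩ := hr
  obtain ⟨g, hg⟩ := hs
  exact ⟨f * g, fun σ => by rw [pol_eq, map_mul, ← pol_eq, ← pol_eq, hf, hg]⟩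

lemma R_neg {r : K} (hr : r ∈ R D x y) : -r ∈ R D x y := by
  obtain ⟨f, hf⟩ := hr
  exact ⟨-f, fun σ => by rw [pol_eq, map_neg, ← pol_eq, hf]⟩

lemma R_zero : (0 : K) ∈ R D x y := ⟨0, fun σ => by rw [pol_eq, map_zero]⟩

lemma R_one : (1 : K) ∈ R D x y := ⟨1, fun σ => by rw [pol_eq, map_one]⟩

variable (hu : ∀ l l', u (l + l') = u l * u l') (ν : D.I → ℤ)

include hu in
/-- surjectivity of `φ_C` -/
theorem surj (hν : ∀ l, Min D l → l ≠ 0 → wt D ν l ≠ 0) {a : L} (ha : a ∈ coulomb D x y u) :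
    ∃ r ∈ R D x y, a - algebraMap K L r ∈ fixI D x y u ν := by
  induction ha using Subring.closure_induction with
  | mem a ha =>
    rcases ha with ⟨r, hr, rfl⟩ | ⟨l, f, hl, h⟩
    · exact ⟨r, hr, by rw [sub_self]; exact AddSubgroup.zero_mem _⟩
    · by_cases hl0 : l = 0
      · subst hl0
        refine ⟨_, cls_zero_mem D x y f, ?_⟩
        have h1 : a = algebraMap K L (cls D x y 0 f) := by
          rcases h with rfl | rfl
          · exact mono_zero D x y u hu f
          · rw [neg_zero]; exact mono_zero D x y u hu f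
        rw [h1, sub_self]
        exact AddSubgroup.zero_mem _
      · refine ⟨0, R_zero D x y, ?_⟩
        rw [map_zero, sub_zero]
        rcases h with rfl | rfl
        · exact mono_mem_fixI D x y u ν hl (hν l hl hl0) f
        · exact mono_neg_mem_fixI D x y u ν hl (hν l hl hl0) f
  | zero => exact ⟨0, R_zero D x y, by rw [map_zero, sub_zero]; exact AddSubgroup.zero_mem _⟩
  | one => exact ⟨1, R_one D x y, by rw [map_one, sub_self]; exact AddSubgroup.zero_mem _⟩
  | add a b _ _ ha hb =>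
    obtain ⟨r, hr, hr'⟩ := ha
    obtain ⟨s, hs, hs'⟩ := hb
    exact ⟨r + s, R_add D x y hr hs, by
      rw [map_add, add_sub_add_comm]
      exact AddSubgroup.add_mem _ hr' hs'⟩
  | neg a _ ha =>
    obtain ⟨r, hr, hr'⟩ := ha
    exact ⟨-r, R_neg D x y hr, by
      have := AddSubgroup.neg_mem _ hr'
      rw [map_neg]
      rwa [neg_sub, ← neg_sub_neg] at this⟩
  | mul a b ha' hb' ha hb =>
    obtain ⟨r, hr, hr'⟩ := ha
    obtain ⟨s, hs, hs'⟩ := hb
    refine ⟨r * s, R_mul D x y hr hs, ?_⟩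
    have h1 : a * b - algebraMap K L (r * s) = a * (b - algebraMap K L s) +
        algebraMap K L s * (a - algebraMap K L r) := by
      rw [map_mul]; ring
    rw [h1]
    exact AddSubgroup.add_mem _ (fixI_mul D x y u ν ha' hs')
      (fixI_mul D x y u ν (R_mem_coulomb D x y u hs) hr')

end

end Vale.Agent.P291.H
end
end

section

section

set_option autoImplicit false
set_option linter.unusedSectionVars false

/-! The quadratic relation in terms of monopole operators. -/

namespace Vale.Agent.P291.H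

open MvPolynomial Vale.Agent.P291.G

variable (D : QData) {K L : Type} [Field K] [Algebra ℂ K] [CommRing L] [Algebra K L]
  (x : B D → K) (y : Fin D.rk → K) (u : Module.Basis (B D → ℤ) K L)
  (hxy : AlgebraicIndependent ℂ (Sum.elim x y)) (hu : ∀ l l', u (l + l') = u l * u l')

section quadaux

lemma quad_act_eq (σ : W D) (f : P D) : act D (Fin D.rk) σ f = actP D σ f := rfl

lemma quad_del_eq : del D (Fin D.rk) = Del D := rfl

lemma quad_ind_mp (σ : W D) (A : Finset (B D)) : ind D (mp D σ A) = ind D A ∘ (perm D σ).symm := by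
  funext b
  rw [ind, Function.comp, ind]
  exact if_congr (mem_mp' D σ A b) rfl rfl

lemma quad_act_eul (l : B D → ℤ) (σ : W D) :
    actP D σ (eul D (XX D) (YY D) l) = eul D (XX D) (YY D) (l ∘ (perm D σ).symm) := by
  have h := map_eul D (actP D σ).toRingHom (XX D) (YY D) l
  have h2 : (actP D σ).toRingHom (eul D (XX D) (YY D) l) = actP D σ (eul D (XX D) (YY D) l) := rfl
  rw [← h2, h]
  have h3 : (fun b => (actP D σ).toRingHom (XX D b)) = fun b => XX D (perm D σ b) := by
    funext b; exact actP_XX D σ b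
  have h4 : (fun b => (actP D σ).toRingHom (YY D b)) = YY D := by
    funext b; exact actP_YY D σ b
  rw [h3, h4]
  have h5 : l = fun b => (l ∘ (perm D σ).symm) (perm D σ b) := by
    funext b
    rw [Function.comp, Equiv.symm_apply_apply]
  conv_lhs => rw [h5]
  rw [eul_reindex]

/-- scalars move out of the alternating sum -/
lemma quad_TT_C (l : B D → ℤ) (a : ℂ) (h : P D) :
    TT D x y u l (MvPolynomial.C a * h) = algebraMap ℂ K a • TT D x y u l h := by
  rw [TT, TT, Finset.smul_sum]
  refine Finset.sum_congr rfl fun σ _ => ?_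
  rw [smul_smul]
  congr 1
  have h3 : EV D x y (actP D σ (MvPolynomial.C a)) = algebraMap ℂ K a := by
    rw [actP, rename_C, EV, aeval_C]
  rw [mul_assoc, map_mul, map_mul, h3]
  ring

/-- the alternating sum of an alternating family is a multiple of the sum over the subsets -/
lemma quad_TT_sum {n : D.I → ℕ} {φ : Finset (B D) → S D (Fin D.rk)} (hφ : φ ∈ AF D (Fin D.rk) n)
    {A₀ : Finset (B D)} (hA : typ D A₀ = n) (lam : Finset (B D) → B D → ℤ)
    (hlam : ∀ σ, lam (mp D σ A₀) = lam A₀ ∘ (perm D σ).symm) :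
    TT D x y u (lam A₀) (φ A₀) =
      ((Finset.univ.filter fun σ : W D => mp D σ A₀ = A₀).card : K) •
      ∑ A, (EV D x y (φ A * eul D (XX D) (YY D) (lam A))) • u (lam A) := by
  classical
  have h1 : TT D x y u (lam A₀) (φ A₀) = ∑ σ : W D,
      (EV D x y (φ (mp D σ A₀) * eul D (XX D) (YY D) (lam (mp D σ A₀)))) •
        u (lam (mp D σ A₀)) := by
    rw [TT]
    refine Finset.sum_congr rfl fun σ _ => ?_
    rw [hlam σ, ← quad_act_eul, map_mul, ← quad_act_eq D σ (φ A₀), hφ.1 σ A₀, mul_assoc, map_mul,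
      map_intCast, ← mul_assoc, sgn_sqK, one_mul]
  have h2 : (∑ σ : W D,
      (EV D x y (φ (mp D σ A₀) * eul D (XX D) (YY D) (lam (mp D σ A₀)))) •
        u (lam (mp D σ A₀))) = ∑ A, ∑ σ ∈ Finset.univ.filter (fun σ : W D => mp D σ A₀ = A),
      (EV D x y (φ A * eul D (XX D) (YY D) (lam A))) • u (lam A) := by
    rw [← Finset.sum_fiberwise_of_maps_to (s := (Finset.univ : Finset (W D)))
      (t := (Finset.univ : Finset (Finset (B D)))) (g := fun σ : W D => mp D σ A₀)
      (fun _ _ => Finset.mem_univ _)]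
    refine Finset.sum_congr rfl fun A _ => Finset.sum_congr rfl fun σ hσ => ?_
    rw [(Finset.mem_filter.1 hσ).2]
  rw [h1, h2, Finset.smul_sum]
  refine Finset.sum_congr rfl fun A _ => ?_
  rw [Finset.sum_const, ← Nat.cast_smul_eq_nsmul K]
  by_cases hAn : typ D A = n
  · congr 2
    obtain ⟨τ, hτ, -⟩ := exists_mp D (P := A₀) (q := ∅) (P' := A) (q' := ∅)
      (Finset.empty_subset _) (Finset.empty_subset _) (hA.trans hAn.symm) rfl
    symm
    refine Finset.card_bij (fun σ _ => τ * σ) ?_ ?_ ?_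
    · intro σ hσ
      rw [Finset.mem_filter] at hσ ⊢
      exact ⟨Finset.mem_univ _, by rw [mp_mul, hσ.2, hτ]⟩
    · intro σ _ σ' _ h
      exact mul_left_cancel h
    · intro σ hσ
      rw [Finset.mem_filter] at hσ
      refine ⟨τ⁻¹ * σ, ?_, mul_inv_cancel_left _ _⟩
      rw [Finset.mem_filter]
      refine ⟨Finset.mem_univ _, ?_⟩
      rw [mp_mul, hσ.2, ← hτ, ← mp_mul, inv_mul_cancel, mp_one]
  · rw [hφ.2 A hAn, zero_mul, map_zero, zero_smul, smul_zero, smul_zero]

include hxy in
/-- common version of `pos_mono` and `neg_mono` -/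
lemma quad_fam_mono {n : D.I → ℕ} {φ : Finset (B D) → S D (Fin D.rk)} (hφ : φ ∈ AF D (Fin D.rk) n)
    {A₀ : Finset (B D)} (hA : typ D A₀ = n) (lam : Finset (B D) → B D → ℤ)
    (hlam : ∀ σ, lam (mp D σ A₀) = lam A₀ ∘ (perm D σ).symm)
    (hle : ∀ b b', lam A₀ b - lam A₀ b' ≤ 1) :
    ∃ f : P D, ∑ A, (EV D x y (φ A * eul D (XX D) (YY D) (lam A))) • u (lam A) =
      EV D x y (del D (Fin D.rk)) • mono D x y u (lam A₀) f := by
  classical
  set N : ℂ := ((Finset.univ.filter fun σ : W D => mp D σ A₀ = A₀).card : ℂ) with hN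
  have hN0 : N ≠ 0 := by
    rw [hN, Nat.cast_ne_zero]
    refine Finset.card_ne_zero.2 ⟨1, ?_⟩
    rw [Finset.mem_filter]
    exact ⟨Finset.mem_univ _, mp_one D A₀⟩
  obtain ⟨f, hf⟩ := TT_mono D x y u hxy (lam A₀) hle (MvPolynomial.C N⁻¹ * φ A₀)
  refine ⟨f, ?_⟩
  rw [← hf, quad_del_eq, smul_smul, mul_inv_cancel₀ (EV_Del_ne D x y hxy), one_smul, quad_TT_C,
    quad_TT_sum D x y u hφ hA lam hlam, smul_smul]
  have h4 : algebraMap ℂ K N⁻¹ *
      ((Finset.univ.filter fun σ : W D => mp D σ A₀ = A₀).card : K) = 1 := by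
    have h5 : ((Finset.univ.filter fun σ : W D => mp D σ A₀ = A₀).card : K) =
      algebraMap ℂ K N := by rw [hN]; simp only [map_natCast]
    rw [h5, ← map_mul, inv_mul_cancel₀ hN0, map_one]
  rw [h4, one_smul]

end quadaux

/-- the operator of an alternating family is a monopole operator (up to `del`).
If there is `A₀` with `typ A₀ = n` then `φ = c⁻¹ • orb A₀ (φ A₀)`, `c` the order of the stabilizer,
and the sum is `TT (ind A₀) (c⁻¹ φ A₀)` (`eul_ind`), so `TT_mono` applies; otherwise `φ = 0` and the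
monopole operator with `f = 0` does it (choose any `l` then: here `l` is given with `φ ≠ 0`). -/
lemma pos_mono {n : D.I → ℕ} {φ : Finset (B D) → S D (Fin D.rk)} (hφ : φ ∈ AF D (Fin D.rk) n)
    {A₀ : Finset (B D)} (hA : typ D A₀ = n) (hxy : AlgebraicIndependent ℂ (Sum.elim x y)) :
    ∃ f : P D, ∑ A, (EV D x y (φ A * (e (wF D) A * zs (wF D) A))) • u (ind D A) =
      EV D x y (del D (Fin D.rk)) • mono D x y u (ind D A₀) f := by
  obtain ⟨f, hf⟩ := quad_fam_mono D x y u hxy hφ hA (ind D) (fun σ => quad_ind_mp D σ A₀)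
    (fun b b' => by unfold ind; split_ifs <;> norm_num)
  refine ⟨f, ?_⟩
  rw [← hf]
  exact Finset.sum_congr rfl fun A _ => by rw [eul_ind]

lemma neg_mono {n : D.I → ℕ} {ψ : Finset (B D) → S D (Fin D.rk)} (hψ : ψ ∈ AF D (Fin D.rk) n)
    {A₀ : Finset (B D)} (hA : typ D A₀ = n) (hxy : AlgebraicIndependent ℂ (Sum.elim x y)) :
    ∃ f : P D, ∑ C, (EV D x y (ψ C * e (wF D) Cᶜ)) • u (-ind D C) =
      EV D x y (del D (Fin D.rk)) • mono D x y u (-ind D A₀) f := by
  obtain ⟨f, hf⟩ := quad_fam_mono D x y u hxy hψ hA (fun C => -ind D C)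
    (fun σ => by rw [quad_ind_mp]; rfl)
    (fun b b' => by simp only [Pi.neg_apply]; unfold ind; split_ifs <;> norm_num)
  refine ⟨f, ?_⟩
  rw [← hf]
  exact Finset.sum_congr rfl fun C _ => by rw [eul_neg_ind]

section quadaux2

lemma quad_ind_sub {D1 D2 K : Finset (B D)} (h1 : Disjoint D1 K) (h2 : Disjoint D2 K) :
    ind D (D1 ∪ K) + -ind D (D2 ∪ K) = ind D D1 + -ind D D2 := by
  funext b
  simp only [Pi.add_apply, Pi.neg_apply, ind, Finset.mem_union]
  by_cases hK : b ∈ K
  · have h3 : b ∉ D1 := fun h => Finset.disjoint_left.1 h1 h hK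
    have h4 : b ∉ D2 := fun h => Finset.disjoint_left.1 h2 h hK
    simp [hK, h3, h4]
  · simp only [hK, or_false]

/-- pairs of subsets, sorted by the differences and the intersection -/
lemma quad_sum_pairs {M : Type} [AddCommMonoid M] (G : Finset (B D) → Finset (B D) → M) :
    ∑ A, ∑ C, G A C = ∑ p ∈ (Finset.univ : Finset (Finset (B D) × Finset (B D))).filter
      (fun p => Disjoint p.1 p.2), ∑ K ∈ (p.1 ∪ p.2)ᶜ.powerset, G (p.1 ∪ K) (p.2 ∪ K) := by
  classical
  rw [← Finset.sum_product', Finset.sum_sigma']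
  refine Finset.sum_bij' (fun q _ => ⟨(q.1 \ q.2, q.2 \ q.1), q.1 ∩ q.2⟩)
    (fun s _ => (s.1.1 ∪ s.2, s.1.2 ∪ s.2)) ?_ ?_ ?_ ?_ ?_
  · rintro ⟨A, C⟩ _
    rw [Finset.mem_sigma, Finset.mem_filter, Finset.mem_powerset]
    refine ⟨⟨Finset.mem_univ _, ?_⟩, ?_⟩
    · rw [Finset.disjoint_left]
      intro b hb hb'
      exact (Finset.mem_sdiff.1 hb).2 (Finset.mem_sdiff.1 hb').1
    · intro b hb
      rw [Finset.mem_inter] at hb
      rw [Finset.mem_compl, Finset.mem_union, Finset.mem_sdiff, Finset.mem_sdiff]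
      (clear * - hb; tauto)
  · rintro ⟨⟨D1, D2⟩, K⟩ _
    exact Finset.mem_product.2 ⟨Finset.mem_univ _, Finset.mem_univ _⟩
  · rintro ⟨A, C⟩ _
    simp only [Prod.mk.injEq]
    constructor
    · ext b; simp only [Finset.mem_union, Finset.mem_sdiff, Finset.mem_inter]; (clear * -; tauto)
    · ext b; simp only [Finset.mem_union, Finset.mem_sdiff, Finset.mem_inter]; (clear * -; tauto)
  · rintro ⟨⟨D1, D2⟩, K⟩ h
    rw [Finset.mem_sigma, Finset.mem_filter, Finset.mem_powerset] at h
    obtain ⟨⟨-, h1⟩, h2⟩ := h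
    simp only at h1 h2
    have h3 : ∀ b, b ∈ D1 → b ∉ D2 := fun b hb => Finset.disjoint_left.1 h1 hb
    have h4 : ∀ b, b ∈ K → b ∉ D1 ∧ b ∉ D2 := by
      intro b hb
      have := h2 hb
      rw [Finset.mem_compl, Finset.mem_union] at this
      (clear * - this; tauto)
    have e1 : (D1 ∪ K) \ (D2 ∪ K) = D1 := by
      ext b; simp only [Finset.mem_union, Finset.mem_sdiff]
      have := h3 b; have := h4 b; tauto
    have e2 : (D2 ∪ K) \ (D1 ∪ K) = D2 := by
      ext b; simp only [Finset.mem_union, Finset.mem_sdiff]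
      have := h3 b; have := h4 b; tauto
    have e3 : (D1 ∪ K) ∩ (D2 ∪ K) = K := by
      ext b; simp only [Finset.mem_union, Finset.mem_inter]
      have := h3 b; have := h4 b; tauto
    simp only [e1, e2, e3]
  · rintro ⟨A, C⟩ _
    have e1 : A \ C ∪ A ∩ C = A := by
      ext b; simp only [Finset.mem_union, Finset.mem_sdiff, Finset.mem_inter]; (clear * -; tauto)
    have e2 : C \ A ∪ A ∩ C = C := by
      ext b; simp only [Finset.mem_union, Finset.mem_sdiff, Finset.mem_inter]; (clear * -; tauto)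
    simp only [e1, e2]

end quadaux2

include hxy hu in
/-- From the quadratic relation: `(∑_A φ_j(A)..u^A) (∑_C ψ_j(C).. u^(-C))`, summed over `j`; sort
the terms by `D1 = A \ C`, `D2 = C \ A`, `K = A ∩ C`: the coefficient of `u^(D1 - D2)` is the left
side of `LinRel`. So the sum is `del ^ 2 * r`, and dividing by `del ^ 2` gives the claim
(`pos_mono`, `neg_mono`; if `n j` is not the type of a subset then `φ j = 0`). -/
theorem quad_of_linRel {r : S D (Fin D.rk)} (h : LinRel (wF D) r) :
    algebraMap K L (EV D x y r) ∈ quad D x y u := by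
  classical
  obtain ⟨m, n, φ, ψ, hj, hrel⟩ := h
  have hdel : EV D x y (del D (Fin D.rk)) ≠ 0 := EV_Del_ne D x y hxy
  set δ : K := EV D x y (del D (Fin D.rk)) with hδ
  -- the operators
  set Pj : Fin m → L := fun j =>
    ∑ A, (EV D x y (φ j A * (e (wF D) A * zs (wF D) A))) • u (ind D A) with hPj
  set Nj : Fin m → L := fun j =>
    ∑ C, (EV D x y (ψ j C * e (wF D) Cᶜ)) • u (-ind D C) with hNj
  -- each product is in `quad`, up to `δ ^ 2`
  have hprod : ∀ j, ∃ c ∈ quad D x y u, Pj j * Nj j = (δ ^ 2) • c := by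
    intro j
    obtain ⟨hn, hφ, hψ⟩ := hj j
    by_cases hA : ∃ A₀ : Finset (B D), typ D A₀ = n j
    · obtain ⟨A₀, hA₀⟩ := hA
      obtain ⟨f, hf⟩ := pos_mono D x y u hφ hA₀ hxy
      obtain ⟨g, hg⟩ := neg_mono D x y u hψ hA₀ hxy
      refine ⟨mono D x y u (ind D A₀) f * mono D x y u (-ind D A₀) g, ?_, ?_⟩
      · refine AddSubgroup.subset_closure ⟨ind D A₀, f, g, ?_, ?_, rfl⟩
        · intro b
          rw [ind]
          split_ifs
          · exact Or.inr rfl
          · exact Or.inl rfl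
        · intro h0
          refine hn ?_
          have h1 : A₀ = ∅ := by
            rw [Finset.eq_empty_iff_forall_notMem]
            intro b hb
            have h2 := congrFun h0 b
            rw [ind, if_pos hb] at h2
            exact one_ne_zero h2
          rw [← hA₀, h1, typ_empty]
      · simp only [hPj, hNj]
        rw [hf, hg, smul_mul_smul_comm, ← pow_two]
    · refine ⟨0, AddSubgroup.zero_mem _, ?_⟩
      have h0 : Pj j = 0 := by
        simp only [hPj]
        refine Finset.sum_eq_zero fun A _ => ?_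
        rw [hφ.2 A (fun h => hA ⟨A, h⟩), zero_mul, map_zero, zero_smul]
      rw [h0, zero_mul, smul_zero]
  choose c hc hc' using hprod
  -- the sum of the products
  have hsum : ∑ j, Pj j * Nj j = algebraMap K L (EV D x y r * δ ^ 2) := by
    have h1 : ∀ j, Pj j * Nj j = ∑ A, ∑ C, (EV D x y (φ j A * ψ j C *
        (e (wF D) A * zs (wF D) A) * e (wF D) Cᶜ)) • u (ind D A + -ind D C) := by
      intro j
      simp only [hPj, hNj]
      rw [Finset.sum_mul_sum]
      refine Finset.sum_congr rfl fun A _ => Finset.sum_congr rfl fun C _ => ?_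
      rw [smul_mul_smul_comm, ← hu, ← map_mul]
      congr 2
      ring
    rw [Finset.sum_congr rfl fun j _ => h1 j,
      Finset.sum_congr rfl fun j _ => quad_sum_pairs D _, Finset.sum_comm]
    have h2 : ∀ p ∈ (Finset.univ : Finset (Finset (B D) × Finset (B D))).filter
        (fun p => Disjoint p.1 p.2), (∑ j, ∑ K ∈ (p.1 ∪ p.2)ᶜ.powerset,
        (EV D x y (φ j (p.1 ∪ K) * ψ j (p.2 ∪ K) *
        (e (wF D) (p.1 ∪ K) * zs (wF D) (p.1 ∪ K)) * e (wF D) (p.2 ∪ K)ᶜ)) •
        u (ind D (p.1 ∪ K) + -ind D (p.2 ∪ K))) =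
        if p = (∅, ∅) then algebraMap K L (EV D x y r * δ ^ 2) else 0 := by
      rintro ⟨D1, D2⟩ hp
      have hd : Disjoint D1 D2 := (Finset.mem_filter.1 hp).2
      have h3 := congrArg (EV D x y) (hrel D1 D2 hd)
      simp only [map_sum] at h3
      have h4 : (∑ j, ∑ K ∈ (D1 ∪ D2)ᶜ.powerset,
        (EV D x y (φ j (D1 ∪ K) * ψ j (D2 ∪ K) *
        (e (wF D) (D1 ∪ K) * zs (wF D) (D1 ∪ K)) * e (wF D) (D2 ∪ K)ᶜ)) •
        u (ind D (D1 ∪ K) + -ind D (D2 ∪ K))) = (∑ j, ∑ K ∈ (D1 ∪ D2)ᶜ.powerset,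
        (EV D x y (φ j (D1 ∪ K) * ψ j (D2 ∪ K) *
        (e (wF D) (D1 ∪ K) * zs (wF D) (D1 ∪ K)) * e (wF D) (D2 ∪ K)ᶜ))) •
        u (ind D D1 + -ind D D2) := by
        rw [Finset.sum_smul]
        refine Finset.sum_congr rfl fun j _ => ?_
        rw [Finset.sum_smul]
        refine Finset.sum_congr rfl fun K hK => ?_
        rw [Finset.mem_powerset] at hK
        rw [quad_ind_sub D (Finset.disjoint_left.2 fun b hb hb' =>
          Finset.mem_compl.1 (hK hb') (Finset.mem_union_left _ hb))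
          (Finset.disjoint_left.2 fun b hb hb' =>
          Finset.mem_compl.1 (hK hb') (Finset.mem_union_right _ hb))]
      simp only
      rw [h4, h3]
      by_cases he : D1 = ∅ ∧ D2 = ∅
      · obtain ⟨rfl, rfl⟩ := he
        rw [if_pos ⟨rfl, rfl⟩, if_pos rfl, add_neg_cancel, G.u_zero D u hu, map_mul, map_pow,
          Algebra.algebraMap_eq_smul_one]
      · rw [if_neg he, if_neg (fun h => he ⟨congrArg Prod.fst h, congrArg Prod.snd h⟩), map_zero,
          zero_smul]
    rw [Finset.sum_congr rfl h2, Finset.sum_ite_eq', if_pos]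
    rw [Finset.mem_filter]
    exact ⟨Finset.mem_univ _, Finset.disjoint_empty_left _⟩
  -- divide
  have hfin : algebraMap K L (EV D x y r) = ∑ j, c j := by
    have h1 : (δ ^ 2) • algebraMap K L (EV D x y r) = (δ ^ 2) • ∑ j, c j := by
      rw [Finset.smul_sum, ← Finset.sum_congr rfl fun j _ => hc' j, hsum, Algebra.smul_def,
        ← map_mul, mul_comm]
    have h2 := congrArg (fun z => (δ ^ 2)⁻¹ • z) h1
    simp only [smul_smul] at h2
    rwa [inv_mul_cancel₀ (pow_ne_zero 2 hdel), one_smul, one_smul] at h2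
  rw [hfin]
  exact AddSubgroup.sum_mem _ fun j _ => hc j

/-- the converse inclusion -/
lemma quad_fixI (ν : D.I → ℤ) (hν : ∀ l, Min D l → l ≠ 0 → wt D ν l ≠ 0) {c : L}
    (hc : c ∈ quad D x y u) : c ∈ fixI D x y u ν := by
  induction hc using AddSubgroup.closure_induction with
  | mem c hc =>
    obtain ⟨l, f, g, hl, hl0, rfl⟩ := hc
    exact fixI_mul D x y u ν (mono_mem_coulomb D x y u hl f)
      (mono_neg_mem_fixI D x y u ν hl (hν l hl hl0) g)
  | zero => exact AddSubgroup.zero_mem _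
  | add a b _ _ ha hb => exact AddSubgroup.add_mem _ ha hb
  | neg a _ ha => exact AddSubgroup.neg_mem _ ha

end Vale.Agent.P291.H
end
end

section

section

set_option autoImplicit false
set_option linter.unusedSectionVars false

/-! Main theorem, all quivers. -/

namespace Vale.Agent.P291.H

open MvPolynomial Vale.Agent.P291.G

variable (D : QData)

lemma disc_eq : disc D = Om D Finset.univ := by
  rw [disc, Om]
  have h : ∀ F : B D → B D → S D (ZZ D), (∀ p q : B D, p.1 ≠ q.1 → F p q = 1) →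
      (∏ p : B D, ∏ q ∈ Finset.univ.erase p, F p q) =
      ∏ i, ∏ r : Fin (D.v i), ∏ s ∈ Finset.univ.erase r, F ⟨i, r⟩ ⟨i, s⟩ := by
    intro F hF
    rw [Fintype.prod_sigma]
    refine Finset.prod_congr rfl fun i _ => Finset.prod_congr rfl fun r _ => ?_
    rw [← Finset.prod_filter_mul_prod_filter_not _ (fun q : B D => q.1 = i)]
    rw [Finset.prod_eq_one (s := (Finset.univ.erase (⟨i, r⟩ : B D)).filter fun q => ¬ q.1 = i)
      (fun q hq => hF _ _ fun h => (Finset.mem_filter.1 hq).2 h.symm), mul_one]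
    refine (Finset.prod_bij (fun s _ => (⟨i, s⟩ : B D)) ?_ ?_ ?_ ?_).symm
    · intro s hs
      rw [Finset.mem_filter, Finset.mem_erase]
      refine ⟨⟨fun h => ?_, Finset.mem_univ _⟩, rfl⟩
      rw [Sigma.mk.injEq] at h
      exact Finset.ne_of_mem_erase hs (eq_of_heq h.2)
    · intro s _ s' _ h
      rw [Sigma.mk.injEq] at h
      exact eq_of_heq h.2
    · rintro ⟨j, s⟩ hq
      rw [Finset.mem_filter, Finset.mem_erase] at hq
      obtain ⟨⟨h1, -⟩, h2⟩ := hq
      simp only at h2
      subst h2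
      refine ⟨s, ?_, rfl⟩
      rw [Finset.mem_erase]
      exact ⟨fun h => h1 (by rw [h]), Finset.mem_univ _⟩
    · intro s _; rfl
  rw [h (fun p q => g0 D p q * g1 D p q) fun p q hpq => by rw [g0, g1, if_neg hpq, if_neg hpq, one_mul]]
  refine Finset.prod_congr rfl fun i _ => Finset.prod_congr rfl fun r _ =>
    Finset.prod_congr rfl fun s _ => ?_
  rw [g0, g1, if_pos rfl, if_pos rfl]
  rfl

lemma unst_eq (l : B D → ℤ) : unst D l = elq D l := by
  rw [unst, elq]
  congr 1
  · refine Finset.prod_congr rfl fun a _ => Finset.prod_congr rfl fun r _ =>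
      Finset.prod_congr rfl fun s _ => ?_
    rw [fac]
    have e1 : (l ⟨D.tgt a, s⟩ - l ⟨D.src a, r⟩ < 0) = (l ⟨D.tgt a, s⟩ < l ⟨D.src a, r⟩) := by
      apply propext; omega
    have e2 : (0 < l ⟨D.tgt a, s⟩ - l ⟨D.src a, r⟩) = (l ⟨D.src a, r⟩ < l ⟨D.tgt a, s⟩) := by
      apply propext; (clear * -; omega)
    simp only [e1, e2]
    rfl
  · refine Finset.prod_congr rfl fun i _ => Finset.prod_congr rfl fun r _ =>
      Finset.prod_congr rfl fun k _ => ?_
    rw [fac]
    have e1 : (-l ⟨i, r⟩ < 0) = (0 < l ⟨i, r⟩) := by apply propext; omega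
    have e2 : (0 < -l ⟨i, r⟩) = (l ⟨i, r⟩ < 0) := by apply propext; omega
    simp only [e1, e2]
    rfl

lemma nu_generic (ν : D.I → ℤ) (hν : ∀ l, Min D l → l ≠ 0 → wt D ν l ≠ 0) (n : D.I → ℕ)
    (hn : n ≠ 0) (hnv : n ≤ D.v) : ∑ i, ν i * (n i : ℤ) ≠ 0 := by
  set l : B D → ℤ := fun b => if (b.2 : ℕ) < n b.1 then 1 else 0 with hl
  have h1 : Min D l := by
    intro b
    simp only [hl]
    split_ifs
    · exact Or.inr rfl
    · exact Or.inl rfl
  have h2 : wt D ν l = ∑ i, ν i * (n i : ℤ) := by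
    rw [wt, Fintype.sum_sigma]
    refine Finset.sum_congr rfl fun i _ => ?_
    simp only [hl]
    rw [← Finset.mul_sum]
    congr 1
    rw [Finset.sum_ite, Finset.sum_const_zero, add_zero, Finset.sum_const, nsmul_eq_mul, mul_one]
    congr 1
    have h3 : (Finset.univ.filter fun r : Fin (D.v i) => (r : ℕ) < n i).card = min (D.v i) (n i) := by
      exact Fin.card_filter_val_lt
    rw [h3]
    exact min_eq_right (hnv i)
  rw [← h2]
  apply hν l h1
  intro h0
  apply hn
  funext i
  by_contra hi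
  have h4 : 0 < n i := Nat.pos_of_ne_zero hi
  have h5 : 0 < D.v i := lt_of_lt_of_le h4 (hnv i)
  have h6 := congrFun h0 (⟨i, ⟨0, h5⟩⟩ : B D)
  simp only [hl, Pi.zero_apply] at h6
  rw [if_pos h4] at h6
  exact one_ne_zero h6

section
variable {K L : Type} [Field K] [Algebra ℂ K] [CommRing L] [Algebra K L]
  (x : B D → K) (y : Fin D.rk → K)

lemma EV_spec (g : S D (ZZ D)) : EV D x y (spec D g) = spc D x y g := by
  have h : (EV D x y).comp (spec D) = spc D x y := by
    apply MvPolynomial.algHom_ext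
    intro b
    rw [AlgHom.comp_apply, spec, spc, aeval_X, aeval_X]
    rcases b with b | ((a | p) | (_ | j))
    · exact EV_XX D x y b
    · exact EV_lin D x y _
    · exact EV_lin D x y _
    · exact map_zero _
    · exact EV_YY D x y j
  exact DFunLike.congr_fun h g

lemma kerH_of {ν : D.I → ℤ} {f : S D (Fin D.rk)} (h : ∃ g : S D (ZZ D),
    (∀ σ, act D (ZZ D) σ g = g) ∧ g * Om D Finset.univ ∈
      Ideal.span {p | ∃ l : B D → ℤ, wt D ν l < 0 ∧ p = elq D l} ∧ spec D g = f) :
    EV D x y f ∈ kerH D x y ν := by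
  obtain ⟨g, h1, h2, rfl⟩ := h
  refine ⟨g, h1, ?_, (EV_spec D x y g).symm⟩
  rw [disc_eq]
  have h3 : ({p | ∃ l : B D → ℤ, wt D ν l < 0 ∧ p = unst D l} : Set (Pmax D)) =
      {p | ∃ l : B D → ℤ, wt D ν l < 0 ∧ p = elq D l} := by
    ext p
    simp only [Set.mem_ofPred_eq, unst_eq]
  rw [h3]
  exact h2

end

/-- main theorem -/
theorem main (K L : Type) [Field K] [Algebra ℂ K] [CommRing L] [Algebra K L]
    (x : B D → K) (y : Fin D.rk → K) (hxy : AlgebraicIndependent ℂ (Sum.elim x y))
    (u : Module.Basis (B D → ℤ) K L) (hu : ∀ l l', u (l + l') = u l * u l')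
    (ν : D.I → ℤ) (hν : ∀ l, Min D l → l ≠ 0 → wt D ν l ≠ 0) :
    (∀ a ∈ coulomb D x y u, ∃ r ∈ R D x y, a - algebraMap K L r ∈ fixI D x y u ν) ∧
    (∀ r ∈ R D x y, algebraMap K L r ∈ fixI D x y u ν →
      r ∈ kerH D x y ν ∧ algebraMap K L r ∈ quad D x y u) ∧
    ((∀ a, D.v (D.tgt a) ≤ 1) →
      ∀ r ∈ R D x y, algebraMap K L r ∈ fixI D x y u ν ↔ r ∈ Kdec D x y) := by
  refine ⟨fun a ha => surj D x y u hu ν hν ha, fun r hr h => ?_, fun hD =>
    (Vale.Agent.P291.G.main D K L x y hxy u hu hD ν hν).2⟩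
  obtain ⟨s, rfl⟩ := (mem_R_iff D x y hxy r).1 hr
  have h1 : LinRel (wF D) (s : P D) := stepA D x y u hxy hu ν (fun σ => (mem_Ainv D).1 s.2 σ) h
  exact ⟨kerH_of D x y (stepB D ν (nu_generic D ν hν) h1), quad_of_linRel D x y u hxy hu h1⟩

end Vale.Agent.P291.H
end
end

section

section

set_option autoImplicit false
set_option linter.unusedSectionVars false

/-! Translation of the main theorem to the definitions of `T/QD.lean`. -/

namespace Vale.Agent.P291.T

open MvPolynomial

variable (D : QData)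

section
variable {K L : Type} [Field K] [Algebra ℂ K] [CommRing L] [Algebra K L]
  (x : B D → K) (y : Fin D.rk → K) (u : (B D → ℤ) → L) (ν : D.I → ℤ)

lemma eul_eq {C : Type} [CommRing C] (x : B D → C) (y : Fin D.rk → C) (l : B D → ℤ) :
    wts D x (fl D y) (fun χ c => χ ^ (-c).toNat) l = Vale.Agent.P291.G.eul D x y l := by
  unfold wts Vale.Agent.P291.G.eul
  simp only [neg_sub, neg_neg]
  rfl

lemma rts_eq {C : Type} [CommRing C] (x : B D → C) (l : B D → ℤ) :
    rts D x (fun α c => α ^ c.toNat) l = Vale.Agent.P291.G.rts D x l := rfl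

lemma pm_eq (σ : W D) : pm D σ = Vale.Agent.P291.G.perm D σ := rfl

lemma pm_inv (σ : W D) : pm D σ⁻¹ = (Vale.Agent.P291.G.perm D σ).symm := rfl

lemma mono_eq (l : B D → ℤ) (f : MvPolynomial (B D ⊕ Fin D.rk) ℂ) :
    mono D x y u l f = Vale.Agent.P291.G.mono D x y u l f := by
  unfold mono Vale.Agent.P291.G.mono
  refine Finset.sum_congr rfl fun σ _ => ?_
  rw [eul_eq, rts_eq]
  rfl

lemma R_eq : R D x y = Vale.Agent.P291.G.R D x y := rfl

lemma coulomb_eq : coulomb D x y u = Vale.Agent.P291.G.coulomb D x y u := by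
  unfold coulomb Vale.Agent.P291.G.coulomb
  simp only [mono_eq]
  rfl

lemma fixI_eq : fixI D x y u ν = Vale.Agent.P291.G.fixI D x y u ν := by
  unfold fixI Vale.Agent.P291.G.fixI
  rw [coulomb_eq]
  rfl

lemma quad_eq : quad D x y u = Vale.Agent.P291.G.quad D x y u := by
  unfold quad Vale.Agent.P291.G.quad
  simp only [mono_eq]
  rfl

lemma Kdec_eq : quad D x y (fun _ => (1 : K)) = Vale.Agent.P291.G.Kdec D x y := by
  unfold quad Vale.Agent.P291.G.Kdec
  simp only [mono_eq]
  have h : ∀ l f, Vale.Agent.P291.G.mono D x y (fun _ => (1 : K)) l f =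
      Vale.Agent.P291.G.cls D x y l f :=
    fun l f => (Vale.Agent.P291.G.cls_mono D x y l f).symm
  simp only [h]
  rfl

/-- the polynomial ring with all flavor variables -/
abbrev PT : Type := MvPolynomial (B D ⊕ Z D) ℂ

noncomputable def xT (b : B D) : PT D := X (Sum.inl b)
noncomputable def tT (a : D.A ⊕ (Σ i : D.I, Fin (D.w i))) : PT D := X (Sum.inr (Sum.inl a))
noncomputable def hT : PT D := X (Sum.inr (Sum.inr (Sum.inl ())))

lemma disc_eq : rts D (xT D) (fun α c => if c = 0 then 1 else α * (hT D + α))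
    (fun b => (b.2 : ℕ)) = Vale.Agent.P291.G.disc D := by
  unfold rts Vale.Agent.P291.G.disc
  refine Finset.prod_congr rfl fun i _ => Finset.prod_congr rfl fun r _ => ?_
  beta_reduce
  rw [← Finset.mul_prod_erase Finset.univ _ (Finset.mem_univ r), if_pos (sub_self _), one_mul]
  refine Finset.prod_congr rfl fun s hs => ?_
  rw [if_neg]
  · rw [add_comm (hT D)]
    rfl
  · intro h0
    apply Finset.ne_of_mem_erase hs
    apply Fin.ext
    have := sub_eq_zero.1 h0
    exact_mod_cast this.symm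

lemma unst_eq (l : B D → ℤ) : wts D (xT D) (tT D)
    (fun χ c => if c < 0 then χ else if 0 < c then hT D - χ else 1) l =
      Vale.Agent.P291.G.unst D l := rfl

lemma act_eq (σ : W D) (g : PT D) :
    val (Sum.elim (fun b => (X (Sum.inl (pm D σ b)) : PT D)) fun c => X (Sum.inr c)) g =
      rename (Sum.map (Vale.Agent.P291.G.perm D σ) id) g := by
  have e1 : (Sum.elim (fun b => (X (Sum.inl (pm D σ b)) : PT D)) fun c => X (Sum.inr c)) =
      X ∘ Sum.map (Vale.Agent.P291.G.perm D σ) id := by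
    funext c
    cases c <;> rfl
  rw [e1]
  have e2 : (aeval (X ∘ Sum.map (Vale.Agent.P291.G.perm D σ) id) : PT D →ₐ[ℂ] PT D) =
      rename (Sum.map (Vale.Agent.P291.G.perm D σ) id) := by
    apply MvPolynomial.algHom_ext
    intro b
    rw [aeval_X, rename_X]
    rfl
  exact DFunLike.congr_fun e2 g

lemma spc_eq (g : PT D) :
    val (Sum.elim x (Sum.elim (fl D y) (Sum.elim (0 : Unit → K) y))) g =
      Vale.Agent.P291.G.spc D x y g := rfl

lemma kerH_def : kerH D x y ν = {z | ∃ g : PT D,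
    (∀ σ : W D, val (Sum.elim (fun b => (X (Sum.inl (pm D σ b)) : PT D)) fun c => X (Sum.inr c)) g
      = g) ∧
    g * rts D (xT D) (fun α c => if c = 0 then 1 else α * (hT D + α)) (fun b => (b.2 : ℕ)) ∈
      Ideal.span {p | ∃ l, wt D ν l < 0 ∧ p = wts D (xT D) (tT D)
        (fun χ c => if c < 0 then χ else if 0 < c then hT D - χ else 1) l} ∧
    val (Sum.elim x (Sum.elim (fl D y) (Sum.elim (0 : Unit → K) y))) g = z} := rfl

lemma kerH_sub : Vale.Agent.P291.G.kerH D x y ν ⊆ kerH D x y ν := by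
  rintro z ⟨g, h1, h2, h3⟩
  rw [kerH_def]
  refine ⟨g, fun σ => ?_, ?_, ?_⟩
  · rw [act_eq]
    exact h1 σ
  · rw [disc_eq]
    simp only [unst_eq]
    exact h2
  · rw [spc_eq]
    exact h3

/-- the main theorem in the definitions of `T/QD.lean` -/
theorem main (hxy : AlgebraicIndependent ℂ (Sum.elim x y))
    (hu : ∀ l l', u (l + l') = u l * u l') (hi : LinearIndependent K u)
    (hs : Submodule.span K (Set.range u) = ⊤) (hν : ∀ l, Min D l → l ≠ 0 → wt D ν l ≠ 0) :
    (∀ a ∈ coulomb D x y u, ∃ r ∈ R D x y, a - algebraMap K L r ∈ fixI D x y u ν) ∧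
    (∀ r ∈ R D x y, algebraMap K L r ∈ fixI D x y u ν →
      r ∈ kerH D x y ν ∧ algebraMap K L r ∈ quad D x y u) ∧
    ((∀ a, D.v (D.tgt a) ≤ 1) →
      ∀ r ∈ R D x y, algebraMap K L r ∈ fixI D x y u ν ↔ r ∈ quad D x y fun _ => (1 : K)) := by
  have hb : ∀ l, Module.Basis.mk hi hs.ge l = u l := fun l => Module.Basis.mk_apply hi hs.ge l
  have hb' : (Module.Basis.mk hi hs.ge : (B D → ℤ) → L) = u := funext hb
  have h := Vale.Agent.P291.H.main D K L x y hxy (Module.Basis.mk hi hs.ge)
    (fun l l' => by rw [hb, hb, hb]; exact hu l l') ν hν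
  have e : ((Module.Basis.mk hi hs.ge : Module.Basis (B D → ℤ) K L) :
      (Vale.Agent.P291.G.B D → ℤ) → L) = u := hb'
  rw [e] at h
  rw [coulomb_eq, fixI_eq, R_eq, quad_eq, Kdec_eq]
  exact ⟨h.1, fun r hr h' => ⟨kerH_sub D x y ν (h.2.1 r hr h').1, (h.2.1 r hr h').2⟩, h.2.2⟩

end

end Vale.Agent.P291.T
end
end

section

section

set_option autoImplicit false
set_option linter.unusedSectionVars false

/-! The zero-diagonal theorem: one step. -/

namespace Vale.Agent.P291.H.M

open MvPolynomial Vale.Agent.P291.G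

variable {D : QData} {Z : Type} (w : Wts D Z)

/-- the trivial sequence has measure `0` -/
lemma ZDstep_meas_seqT (m : ℕ) : meas m (seqT D 1) = 0 := by
  rw [meas]
  refine Finset.sum_eq_zero fun j _ => ?_
  rcases Nat.eq_zero_or_pos j with rfl | hj
  · rw [zero_mul]
  · have h : seqT D 1 j = 0 := if_neg (by omega)
    rw [h]
    simp only [Pi.zero_apply, Finset.sum_const_zero, mul_zero]

/-- the moved sequences are total and have smaller measure -/
lemma ZDstep_move {m M : ℕ} {n : ℕ → D.I → ℕ} (hn : tot D m n) (hM : meas m n = M + 1) (i : ℕ)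
    (hi : i + 1 < m) (δ : D.I → ℕ) (hδ : δ ≠ 0) (hle : δ ≤ n (i + 1)) :
    tot D m (move n i δ) ∧ meas m (move n i δ) ≤ M := by
  have hab : n i + δ + (n (i + 1) - δ) = n i + n (i + 1) := by
    rw [add_assoc, add_tsub_cancel_of_le hle]
  refine ⟨tot_update hn i hi _ _ hab, ?_⟩
  have h1 := meas_update m n i hi (n i + δ) (n (i + 1) - δ) hab
  have h2 : ∑ k, (n (i + 1) - δ) k < ∑ k, n (i + 1) k := by
    obtain ⟨k, hk⟩ := Function.ne_iff.1 hδ
    have hk' : 0 < δ k := Nat.pos_of_ne_zero hk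
    refine Finset.sum_lt_sum (fun k _ => ?_) ⟨k, Finset.mem_univ k, ?_⟩
    · rw [Pi.sub_apply]
      exact Nat.sub_le _ _
    · rw [Pi.sub_apply]
      exact Nat.sub_lt (lt_of_lt_of_le hk' (hle k)) hk'
  have h3 : meas m (move n i δ) = meas m (Function.update (Function.update n i (n i + δ)) (i + 1)
    (n (i + 1) - δ)) := rfl
  (clear * - hM h1 h2 h3; omega)

/-- One type. `n` is nested, total, of measure `M + 1`, and `C` is a chain of type `n`; `Q` is such
that `evA C Q` vanishes after the identification of marks. Then `XQ w (ep 1) n Q` is the sum of an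
element of `UN` with vanishing diagonal coefficient and of an element of the space of nested
sequences of measure at most `M`.
Proof: `Q' = Q - th Q`; `XQ Q' ∈ UU w (ep 1) m n ≤ UN` (`XQ_mem`; `seqOK m 1 n` because `n = seqT D 1`
would have measure `0`), and `(XQ Q').coeff (ind univ) = 0` by `coeff_XQ` and `th_fb`. By `th_C`,
`evA C (th Q) = kp ι (evA C Q) = 0`, so `(XQ (th Q), 0) ∈ ∏ Gr` by `XQ_mem_Gr`; apply
`chain m (ep 1) n C` with `T = ⨆ n', ⨆ _ : seqM D m M n', UU w (ep 1) m n'`: `move n i δ` is `tot`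
(`tot_update`) of measure `< meas m n` (`meas_update`), so `strAll`. -/
theorem zd_type {m M : ℕ} (hm : 1 ≤ m) {n : ℕ → D.I → ℕ} (hn : seqM D m (M + 1) n)
    (hM : meas m n = M + 1) {C : ℕ → Finset (B D)} (hC : ∀ j, C (j + 1) ⊆ C j)
    (ht : ∀ j, typ D (C j) = n j) {ι : B D → B D} {g₀ : B D → Fin m} (hio : Io C ι g₀)
    {Q : PP D Z m} (h : kp D Z ι (evA D Z (fun t : Fin m => C t) Q) = 0) :
    ∃ Y ∈ UN w m, Y.coeff (ind D Finset.univ) = 0 ∧
      XQ w (ep 1) n Q - Y ∈ ⨆ n' : ℕ → D.I → ℕ, ⨆ _ : seqM D m M n', UU w (ep 1) m n' := by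
  classical
  refine ⟨XQ w (ep 1) n (Q - th D Z m Q), ?_, ?_, ?_⟩
  · have hok : seqOK m 1 n := by
      refine ⟨hn.1.1, by rw [one_smul]; exact hn.1.2, fun he => ?_⟩
      rw [he, ZDstep_meas_seqT] at hM
      omega
    exact (le_iSup₂_of_le (f := fun (n : ℕ → D.I → ℕ) (_ : seqOK m 1 n) => UU w (ep 1) m n)
      n hok le_rfl) (XQ_mem w (ep 1) hm n _)
  · rw [coeff_XQ]
    refine Finset.sum_eq_zero fun g _ => ?_
    split_ifs
    · rw [map_sub, th_fb, sub_self, zero_mul]
    · rfl
  · rw [XQ_sub, sub_sub_cancel]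
    have h1 : evA D Z (fun t : Fin m => C t) (th D Z m Q) = 0 := by
      rw [← th_C hC hio, h]
    have h2 := XQ_mem_Gr w (ep 1) hm n C (fun j _ => ht j) (th D Z m Q)
    rw [h1, zero_mul] at h2
    refine chain w m (ep 1) n C (fun j => ?_) (fun j _ => hC j) (fun j _ => ht j) _ ?_ _ h2
    · unfold ep
      split_ifs <;> omega
    · intro i δ hi hδ hle
      obtain ⟨h3, h4⟩ := ZDstep_move hn.1 hM i hi δ hδ hle
      refine (strAll w _ h3).trans ?_
      refine iSup_mono fun n' => iSup_mono' fun h' => ⟨⟨h'.1, h'.2.1, h'.2.2.trans h4⟩, le_rfl⟩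

/-- Elements of the sum as finite sums: there are only finitely many total sequences.
Proof: a `⨆` of submodules over a predicate; an element is a finite sum of elements of the
`UU w (ep 1) m n`, `seqM D m M n` (`Submodule.mem_iSup_iff_exists_finsupp` or
`Submodule.iSup_induction`); by `exists_XQ` each is an `XQ`; group equal `n` by `XQ_add`. -/
theorem exists_sum {m M : ℕ} {X : AddMonoidAlgebra (S D Z) (B D → ℤ)}
    (hX : X ∈ ⨆ n : ℕ → D.I → ℕ, ⨆ _ : seqM D m M n, UU w (ep 1) m n) :
    ∃ (s : Finset (ℕ → D.I → ℕ)) (Q : (ℕ → D.I → ℕ) → PP D Z m), (∀ n ∈ s, seqM D m M n) ∧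
      X = ∑ n ∈ s, XQ w (ep 1) n (Q n) := by
  classical
  rw [Submodule.mem_iSup_iff_exists_finsupp] at hX
  obtain ⟨f, hf, hs⟩ := hX
  have h1 : ∀ n ∈ f.support, seqM D m M n := by
    intro n hn
    by_contra h
    have h2 := hf n
    rw [iSup_neg h, Submodule.mem_bot] at h2
    exact Finsupp.mem_support_iff.1 hn h2
  have h2 : ∀ n, ∃ Q : PP D Z m, n ∈ f.support → f n = XQ w (ep 1) n Q := by
    intro n
    by_cases hn : n ∈ f.support
    · have h3 := hf n
      rw [iSup_pos (h1 n hn)] at h3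
      obtain ⟨Q, hQ⟩ := exists_XQ w (ep 1) m n h3
      exact ⟨Q, fun _ => hQ⟩
    · exact ⟨0, fun h => absurd h hn⟩
  choose Q hQ using h2
  refine ⟨f.support, Q, h1, ?_⟩
  rw [← hs]
  exact Finset.sum_congr rfl fun n hn => hQ n hn

end Vale.Agent.P291.H.M
end
end

section

section

set_option autoImplicit false
set_option linter.unusedSectionVars false

/-! The zero-diagonal theorem. -/

namespace Vale.Agent.P291.H.M

open MvPolynomial Vale.Agent.P291.G

variable {D : QData} {Z : Type} (w : Wts D Z)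

lemma ZD_le_v {m : ℕ} {n : ℕ → D.I → ℕ} (ht : tot D m n) (j : ℕ) : n j ≤ D.v := by
  by_cases hj : j < m
  · intro i
    rw [← ht.2, Finset.sum_apply]
    exact Finset.single_le_sum (f := fun j => n j i) (fun _ _ => Nat.zero_le _)
      (Finset.mem_range.2 hj)
  · rw [ht.1 j (by omega)]
    exact fun i => Nat.zero_le _

/-- a total sequence with `n 0 = v` is trivial -/
lemma ZD_eq_seqT {m : ℕ} (hm : 1 ≤ m) {n : ℕ → D.I → ℕ} (ht : tot D m n) (h0 : n 0 = D.v) :
    ∀ j, 1 ≤ j → n j = 0 := by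
  intro j hj
  by_cases hjm : j < m
  · funext i
    have h1 := congrFun ht.2 i
    rw [Finset.sum_apply, ← Finset.add_sum_erase _ _ (Finset.mem_range.2 (by omega : 0 < m)),
      h0] at h1
    have h2 : ∑ k ∈ (Finset.range m).erase 0, n k i = 0 := by omega
    exact (Finset.sum_eq_zero_iff.1 h2) j
      (Finset.mem_erase.2 ⟨by omega, Finset.mem_range.2 hjm⟩)
  · exact ht.1 j (by omega)

lemma ZD_meas_zero {m : ℕ} {n : ℕ → D.I → ℕ} (h1 : ∀ j, 1 ≤ j → n j = 0) : meas m n = 0 := by
  refine Finset.sum_eq_zero fun j _ => ?_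
  rcases Nat.eq_zero_or_pos j with h | h
  · rw [h, zero_mul]
  · rw [h1 j h]
    simp only [Pi.zero_apply, Finset.sum_const_zero, mul_zero]

lemma ZD_zero_of_meas {m : ℕ} {n : ℕ → D.I → ℕ} (ht : tot D m n) (h0 : meas m n = 0) :
    ∀ j, 1 ≤ j → n j = 0 := by
  intro j hj
  by_cases hjm : j < m
  · have h2 := (Finset.sum_eq_zero_iff.1 h0) j (Finset.mem_range.2 hjm)
    have h3 : ∑ i, n j i = 0 := by
      rcases Nat.mul_eq_zero.1 h2 with h | h
      · omega
      · exact h
    funext i
    exact (Finset.sum_eq_zero_iff.1 h3) i (Finset.mem_univ i)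
  · exact ht.1 j (by omega)

lemma ZD_meas_le {m : ℕ} {n : ℕ → D.I → ℕ} (ht : tot D m n) : meas m n ≤ m * ∑ i, D.v i := by
  have h1 : ∑ j ∈ Finset.range m, ∑ i, n j i = ∑ i, D.v i := by
    rw [Finset.sum_comm]
    refine Finset.sum_congr rfl fun i _ => ?_
    rw [← ht.2, Finset.sum_apply]
  rw [← h1, Finset.mul_sum]
  refine Finset.sum_le_sum fun j hj => ?_
  exact Nat.mul_le_mul_right _ (Finset.mem_range.1 hj).le

lemma ZD_seqM_mono {m M M' : ℕ} (h : M ≤ M') :
    (⨆ n : ℕ → D.I → ℕ, ⨆ _ : seqM D m M n, UU w (ep 1) m n) ≤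
      ⨆ n : ℕ → D.I → ℕ, ⨆ _ : seqM D m M' n, UU w (ep 1) m n := by
  refine iSup_mono fun n => iSup_mono' fun h' => ⟨?_, le_rfl⟩
  exact ⟨h'.1, h'.2.1, h'.2.2.trans h⟩

/-- the identification of marks kills `Δ` -/
lemma ZD_kp_ddT {m : ℕ} {C : ℕ → Finset (B D)} (hC : ∀ j, C (j + 1) ⊆ C j) {ι : B D → B D}
    {g₀ : B D → Fin m} (hio : Io C ι g₀) {b : B D} (hb : b ∉ C 0) : kp D Z ι (ddT D Z) = 0 := by
  have hsub : ∀ j, C j ⊆ C 0 := by
    intro j
    induction j with
    | zero => exact Finset.Subset.refl _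
    | succ k ih => exact (hC k).trans ih
  have h1 : ι b ∈ C 0 := hsub _ (hio.mem b)
  have h2 : b ≠ ι b := fun h => hb (h ▸ h1)
  have h3 : ι (ι b) = ι b := hio.fix _ h1
  unfold ddT dd
  rw [map_prod]
  refine Finset.prod_eq_zero (Finset.mem_univ b) ?_
  rw [map_prod]
  refine Finset.prod_eq_zero (Finset.mem_univ (ι b)) ?_
  rw [if_pos ⟨h2, (hio.col b).symm, trivial⟩, map_sub, theta_kp_xx, theta_kp_xx, h3, sub_self]

/-- measure `0`: only the trivial sequence; elements of `UU w (ep 1) m (seqT D 1)` are of the form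
`single (ind univ) c` (`U_zero_v`, `U_one_zero`), so `X = single (ind univ) (c * del ^ m)` and the
difference is `0` -/
theorem zd_zero {m : ℕ} (hm : 1 ≤ m) {X : AddMonoidAlgebra (S D Z) (B D → ℤ)}
    (hX : X ∈ ⨆ n : ℕ → D.I → ℕ, ⨆ _ : seqM D m 0 n, UU w (ep 1) m n) :
    X = AddMonoidAlgebra.single (ind D Finset.univ) (X.coeff (ind D Finset.univ)) := by
  have h1 : ∀ l : B D → ℤ, l ≠ ind D Finset.univ → X.coeff l = 0 := by
    intro l hl
    have h2 : (⨆ n : ℕ → D.I → ℕ, ⨆ _ : seqM D m 0 n, UU w (ep 1) m n) ≤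
        coeffKer (D := D) (Z := Z) l := by
      refine iSup_le fun n => iSup_le fun hn => fun Y hY => ?_
      rw [mem_coeffKer]
      by_contra hY0
      obtain ⟨A, hA, hlA⟩ := coeff_ne w (ep 1) m n hY hY0
      have h3 := ZD_zero_of_meas hn.1 (Nat.le_zero.1 hn.2.2)
      refine hl ?_
      rw [hlA, Finset.sum_eq_single 0]
      · have h4 : typ D (A 0) = typ D Finset.univ := by
          rw [hA 0 (by omega), typ_univ]
          have h5 := hn.1.2
          rw [Finset.sum_eq_single 0] at h5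
          · exact h5
          · intro j _ hj
            exact h3 j (by omega)
          · intro h6
            exact absurd (Finset.mem_range.2 (by omega : 0 < m)) h6
        rw [eq_of_subset D (Finset.subset_univ _) h4]
      · intro j hj hj0
        have h4 : A j = ∅ := by
          apply typ_eq_zero
          rw [hA j (Finset.mem_range.1 hj), h3 j (by omega)]
        rw [h4]
        funext b
        exact if_neg (Finset.notMem_empty b)
      · intro h6
        exact absurd (Finset.mem_range.2 (by omega : 0 < m)) h6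
    exact mem_coeffKer.1 (h2 hX)
  apply AddMonoidAlgebra.coeff_injective
  ext1 l
  rw [AddMonoidAlgebra.coeff_single, Finsupp.single_apply]
  by_cases hl : ind D Finset.univ = l
  · rw [if_pos hl, hl]
  · rw [if_neg hl]
    exact h1 l (Ne.symm hl)

/-- Proof: write `X = ∑ n ∈ s, XQ n (Q n)` (`exists_sum`). From `diag` (summed over `n`) and `hc`,
`∑ n ∈ s, ee w (ep 1) n (Q n) = c * ddT` (cancel `del ^ m`). For `n ∈ s` with `meas m n = M + 1`
choose a chain `C` of type `n` (`exists_chain`) and `Io C ι g₀` (`exists_io`). `kp ι ddT = 0`: there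
is `b ∉ C 0` (otherwise `n 0 = v`, so `n = seqT D 1` has measure `0`), `ι b ∈ C 0` (`hio.mem`, chain)
so `ι b ≠ b`, `ι (ι b) = ι b`, and the factor `x b - x (ι b)` is mapped to `0`. By `kv_zero` for
the other elements of `s`, `kp ι (ee n (Q n)) = 0`, so by `kv_top` `kp ι (evA C (Q n)) = 0`, and
`zd_type` gives `Y n`. The elements of `s` of measure `≤ M` are fine. -/
theorem zd_step (hw : NV w) {m M : ℕ} (hm : 1 ≤ m) {X : AddMonoidAlgebra (S D Z) (B D → ℤ)}
    (hX : X ∈ ⨆ n : ℕ → D.I → ℕ, ⨆ _ : seqM D m (M + 1) n, UU w (ep 1) m n) {c : S D Z}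
    (hc : X.coeff (ind D Finset.univ) = c * del D Z ^ m) :
    ∃ Y ∈ UN w m, Y.coeff (ind D Finset.univ) = 0 ∧
      X - Y ∈ ⨆ n : ℕ → D.I → ℕ, ⨆ _ : seqM D m M n, UU w (ep 1) m n := by
  classical
  obtain ⟨s, Q, hs, hXs⟩ := exists_sum w hX
  have hsum : c * ddT D Z = ∑ n ∈ s, ee w (ep 1) n (Q n) := by
    refine mul_left_cancel₀ (pow_ne_zero m (del_ne_zero D Z)) ?_
    rw [Finset.mul_sum, ← Finset.sum_congr rfl fun n _ => diag w (ep 1) n (Q n),
      ← Finset.sum_mul, ← mul_assoc, mul_comm (del D Z ^ m) c, ← hc, hXs,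
      AddMonoidAlgebra.coeff_sum, Finsupp.finsetSum_apply]
  have key : ∀ n ∈ s, ∃ Y ∈ UN w m, Y.coeff (ind D Finset.univ) = 0 ∧
      XQ w (ep 1) n (Q n) - Y ∈
        ⨆ n' : ℕ → D.I → ℕ, ⨆ _ : seqM D m M n', UU w (ep 1) m n' := by
    intro n hn
    have hnM := hs n hn
    by_cases hM : meas m n = M + 1
    · obtain ⟨C, hC, ht⟩ := exists_chain n hnM.2.1 (ZD_le_v hnM.1 0)
      have hv : ∑ j ∈ Finset.range m, typ D (C j) = D.v := by
        rw [← hnM.1.2]
        exact Finset.sum_congr rfl fun j _ => ht j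
      obtain ⟨ι, g₀, hio⟩ := exists_io D hm C hC hv
      obtain ⟨b, hb⟩ : ∃ b, b ∉ C 0 := by
        by_contra hne
        push Not at hne
        have h1 : C 0 = Finset.univ := Finset.eq_univ_iff_forall.2 hne
        have h2 : n 0 = D.v := by rw [← ht 0, h1, typ_univ]
        have h3 := ZD_meas_zero (m := m) (ZD_eq_seqT hm hnM.1 h2)
        omega
      have h1 := congrArg (kp D Z ι) hsum
      rw [map_mul, ZD_kp_ddT hC hio hb, mul_zero, map_sum, Finset.sum_eq_single n] at h1
      · exact zd_type w hm hnM hM hC ht hio (kv_top w hw hC hio ht (ep 1) (Q n) h1.symm)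
      · intro n' hn' hne
        refine kv_zero w hC hio ht ?_ ?_ (ep 1) (Q n')
        · rw [hM]
          exact (hs n' hn').2.2
        · by_contra h2
          push Not at h2
          apply hne
          funext j
          by_cases hj : j < m
          · exact h2 j hj
          · rw [(hs n' hn').1.1 j (by omega), hnM.1.1 j (by omega)]
      · intro h2
        exact absurd hn h2
    · refine ⟨0, Submodule.zero_mem _, ?_, ?_⟩
      · rw [AddMonoidAlgebra.coeff_zero, Finsupp.zero_apply]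
      · rw [sub_zero]
        have h1 : seqM D m M n := by
          have h2 := hnM.2.2
          exact ⟨hnM.1, hnM.2.1, by omega⟩
        exact Submodule.mem_iSup_of_mem n
          (Submodule.mem_iSup_of_mem h1 (XQ_mem w (ep 1) hm n (Q n)))
  choose! Y hY using key
  refine ⟨∑ n ∈ s, Y n, Submodule.sum_mem _ fun n hn => (hY n hn).1, ?_, ?_⟩
  · rw [AddMonoidAlgebra.coeff_sum, Finsupp.finsetSum_apply]
    exact Finset.sum_eq_zero fun n hn => (hY n hn).2.1
  · rw [hXs, ← Finset.sum_sub_distrib]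
    exact Submodule.sum_mem _ fun n hn => (hY n hn).2.2

theorem zd_aux (hw : NV w) {m : ℕ} (hm : 1 ≤ m) (M : ℕ) :
    ∀ {X : AddMonoidAlgebra (S D Z) (B D → ℤ)},
    (X ∈ ⨆ n : ℕ → D.I → ℕ, ⨆ _ : seqM D m M n, UU w (ep 1) m n) → ∀ {c : S D Z},
    X.coeff (ind D Finset.univ) = c * del D Z ^ m →
    X - AddMonoidAlgebra.single (ind D Finset.univ) (c * del D Z ^ m) ∈ UN w m := by
  induction M with
  | zero =>
    intro X hX c hc
    rw [zd_zero w hm hX, hc, sub_self]
    exact Submodule.zero_mem _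
  | succ M ih =>
    intro X hX c hc
    obtain ⟨Y, hY, hY0, hXY⟩ := zd_step w hw hm hX hc
    have h1 := ih hXY (c := c) (by
      rw [AddMonoidAlgebra.coeff_sub, Finsupp.sub_apply, hY0, sub_zero, hc])
    have h2 : X - AddMonoidAlgebra.single (ind D Finset.univ) (c * del D Z ^ m) =
        (X - Y - AddMonoidAlgebra.single (ind D Finset.univ) (c * del D Z ^ m)) + Y := by
      abel
    rw [h2]
    exact Submodule.add_mem _ h1 hY

/-- an element of `UN` can be straightened -/
theorem UN_le {m : ℕ} : ∃ M, UN w m ≤ ⨆ n : ℕ → D.I → ℕ, ⨆ _ : seqM D m M n, UU w (ep 1) m n := by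
  refine ⟨m * ∑ i, D.v i, ?_⟩
  refine iSup_le fun n => iSup_le fun hn => ?_
  have ht : tot D m n := by
    refine ⟨hn.1, ?_⟩
    rw [hn.2.1, one_smul]
  exact (strAll w n ht).trans (ZD_seqM_mono w (ZD_meas_le ht))

/-- the zero-diagonal theorem -/
theorem zd (hw : NV w) {m : ℕ} (hm : 1 ≤ m) {X : AddMonoidAlgebra (S D Z) (B D → ℤ)}
    (hX : X ∈ UN w m) {c : S D Z}
    (hc : X.coeff (ind D Finset.univ) = c * del D Z ^ m) :
    AddMonoidAlgebra.single (ind D Finset.univ) (c * del D Z ^ m) ∈ UN w m := by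
  obtain ⟨M, hM⟩ := UN_le w (m := m)
  have h := zd_aux w hw hm M (hM hX) hc
  have h2 := Submodule.sub_mem _ hX h
  rwa [sub_sub_cancel] at h2

end Vale.Agent.P291.H.M
end
end

section

section

set_option autoImplicit false
set_option linter.unusedSectionVars false

/-! The cut ideal gives quadratic relations. -/

namespace Vale.Agent.P291.H.M

open MvPolynomial Vale.Agent.P291.G

variable {D : QData} {Z : Type} (w : Wts D Z)

theorem linRel_of_cut (L : Vale.Agent.P291.J.Lab w) (hN : NV w) {r : S D Z} (hr : ∀ σ, act D Z σ r = r)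
    (h : r * ddT D Z ∈ cutI w) : LinRel w r := by
  obtain ⟨m, hm⟩ : ∃ m, m = Fintype.card (B D) + 2 := ⟨_, rfl⟩
  have h1 := partI w L (m := m) (by omega) h
  obtain ⟨X, hX, hc⟩ := exists_X w (m := m) (by omega) hr h1
  have h2 := zd w hN (by omega) hX hc
  have h3 : AddMonoidAlgebra.single (1 • ind D Finset.univ) (r * del D Z ^ m) ∈ LL w m 1 := by
    rw [one_smul]
    refine descend w le_rfl (by omega) h2 fun lam hlam => ?_
    rw [one_smul] at hlam
    rw [AddMonoidAlgebra.coeff_single, Finsupp.single_apply, if_neg (Ne.symm hlam)]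
  exact linRel_of w (extract w le_rfl (by omega) h3)

end Vale.Agent.P291.H.M
end
end

section

section

set_option autoImplicit false
set_option linter.unusedSectionVars false

/-! The kernel of `φ_C`. -/

namespace Vale.Agent.P291.H.M

open MvPolynomial Vale.Agent.P291.G

variable (D : QData)

/-- values of the invariant `g` with `g · Δ` in the cut ideal -/
def kerJ {K : Type} [Field K] [Algebra ℂ K] (x : B D → K) (y : Fin D.rk → K) : Set K :=
  {z | ∃ g : S D (ZZ D), (∀ σ, act D (ZZ D) σ g = g) ∧ g * ddT D (ZZ D) ∈ cutI (wX D) ∧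
    spc D x y g = z}

variable {K L : Type} [Field K] [Algebra ℂ K] [CommRing L] [Algebra K L]
  (x : B D → K) (y : Fin D.rk → K) (u : Module.Basis (B D → ℤ) K L)

/-- the kernel of `φ_C` -/
theorem ker_iff (hxy : AlgebraicIndependent ℂ (Sum.elim x y))
    (hu : ∀ l l', u (l + l') = u l * u l')
    (ν : D.I → ℤ) (hν : ∀ l, Min D l → l ≠ 0 → wt D ν l ≠ 0) {r : K} (hr : r ∈ R D x y) :
    algebraMap K L r ∈ fixI D x y u ν ↔ r ∈ kerJ D x y := by
  constructor
  · intro h
    obtain ⟨s, rfl⟩ := (mem_R_iff D x y hxy r).1 hr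
    have h1 : LinRel (wF D) (s : P D) :=
      stepA D x y u hxy hu ν (fun σ => (mem_Ainv D).1 s.2 σ) h
    obtain ⟨g, h2, h3, h4⟩ := fwd D h1
    refine ⟨g, h2, h3, ?_⟩
    rw [← EV_spec, h4]
    rfl
  · rintro ⟨g, h2, h3, rfl⟩
    have h1 := linRel_spec D (linRel_of_cut (wX D) (lab_wX D) (nv_wX D) h2 h3)
    rw [← EV_spec]
    exact quad_fixI D x y u ν hν (quad_of_linRel D x y u hxy hu h1)

end Vale.Agent.P291.H.M
end
end

section

section

set_option autoImplicit false
set_option linter.unusedSectionVars false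

/-! Translation of the main theorem to the definitions of `T/QE.lean`. -/

namespace Vale.Agent.P291.E

open MvPolynomial

/-- the same data -/
@[reducible] def tG (D : QData) : Vale.Agent.P291.T.QData :=
  @Vale.Agent.P291.T.QData.mk D.I D.A D.fI D.dI D.fA D.src D.tgt D.v D.w D.rk D.ta D.tw

variable (D : QData)

section
variable {K L : Type} [Field K] [Algebra ℂ K] [CommRing L] [Algebra K L]
  (x : B D → K) (y : Fin D.rk → K) (u : (B D → ℤ) → L) (ν : D.I → ℤ)

lemma eul_eq {C : Type} [CommRing C] (x : B D → C) (y : Fin D.rk → C) (l : B D → ℤ) :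
    wts D x (fl D y) (fun χ c => χ ^ (-c).toNat) l =
      Vale.Agent.P291.G.eul (tG D) x y l := by
  unfold wts Vale.Agent.P291.G.eul
  simp only [neg_sub, neg_neg]
  rfl

lemma mono_eq (l : B D → ℤ) (f : MvPolynomial (B D ⊕ Fin D.rk) ℂ) :
    mono D x y u l f = Vale.Agent.P291.G.mono (tG D) x y u l f := by
  unfold mono Vale.Agent.P291.G.mono
  refine Finset.sum_congr rfl fun σ _ => ?_
  rw [eul_eq]
  rfl

lemma R_eq : R D x y = Vale.Agent.P291.G.R (tG D) x y := rfl

lemma coulomb_eq : coulomb D x y u = Vale.Agent.P291.G.coulomb (tG D) x y u := by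
  unfold coulomb Vale.Agent.P291.G.coulomb
  simp only [mono_eq]
  rfl

lemma fixI_eq : fixI D x y u ν = Vale.Agent.P291.G.fixI (tG D) x y u ν := by
  unfold fixI Vale.Agent.P291.G.fixI
  rw [coulomb_eq]
  rfl

/-- the polynomial ring with all flavor variables -/
abbrev PT : Type := MvPolynomial (B D ⊕ Z D) ℂ

noncomputable def xT (z : B D ⊕ Z D) : PT D := MvPolynomial.X z
noncomputable def hT : PT D := MvPolynomial.X (.inr (.inr (.inl ())))

lemma disc_eq : rts D (fun b => xT D (.inl b))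
    (fun α c => if c = 0 then 1 else α * (hT D + α)) (fun b => (b.2 : ℕ)) =
      Vale.Agent.P291.G.disc (tG D) := by
  unfold rts Vale.Agent.P291.G.disc
  refine Finset.prod_congr rfl fun i _ => Finset.prod_congr rfl fun r _ => ?_
  beta_reduce
  rw [← Finset.mul_prod_erase Finset.univ _ (Finset.mem_univ r), if_pos (sub_self _), one_mul]
  refine Finset.prod_congr rfl fun s hs => ?_
  rw [if_neg]
  · rw [add_comm (hT D)]
    rfl
  · intro h0
    apply Finset.ne_of_mem_erase hs
    apply Fin.ext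
    have := sub_eq_zero.1 h0
    exact_mod_cast this.symm

lemma disc0_eq : rts D (fun b => xT D (.inl b))
    (fun α c => if c = 0 then 1 else α) (fun b => (b.2 : ℕ)) =
      Vale.Agent.P291.H.M.ddT (tG D) (Vale.Agent.P291.H.ZZ (tG D)) := by
  rw [Vale.Agent.P291.H.M.ddT_eq]
  rfl

lemma act_eq (σ : W D) (g : PT D) :
    val (Sum.elim (fun b => (MvPolynomial.X (.inl (pm D σ b)) : PT D))
      fun c => MvPolynomial.X (.inr c)) g =
      rename (Sum.map (Vale.Agent.P291.G.perm (tG D) σ) id) g := by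
  have e1 : (Sum.elim (fun b => (MvPolynomial.X (.inl (pm D σ b)) : PT D))
      fun c => MvPolynomial.X (.inr c)) =
      (MvPolynomial.X : (B D ⊕ Z D) → PT D) ∘
        Sum.map (Vale.Agent.P291.G.perm (tG D) σ) id := by
    funext c
    cases c <;> rfl
  rw [e1]
  have e2 : (aeval ((MvPolynomial.X : (B D ⊕ Z D) → PT D) ∘
      Sum.map (Vale.Agent.P291.G.perm (tG D) σ) id) : PT D →ₐ[ℂ] PT D) =
      rename (Sum.map (Vale.Agent.P291.G.perm (tG D) σ) id) := by
    apply MvPolynomial.algHom_ext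
    intro b
    rw [aeval_X, rename_X]
    rfl
  exact DFunLike.congr_fun e2 g

lemma spc_eq (g : PT D) :
    val (Sum.elim x (Sum.elim (fl D y) (Sum.elim 0 y))) g =
      Vale.Agent.P291.G.spc (tG D) x y g := rfl

lemma ker2_def : (kerX D x y ν).2 = {z | ∃ g : PT D,
    (∀ σ, val (Sum.elim (fun b => (MvPolynomial.X (.inl (pm D σ b)) : PT D))
      fun c => MvPolynomial.X (.inr c)) g = g) ∧
    g * rts D (fun b => xT D (.inl b)) (fun α c => if c = 0 then 1 else α * (hT D + α))
      (fun b => (b.2 : ℕ)) ∈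
      Ideal.span {p | ∃ l, wt D ν l < 0 ∧ p = wts D (fun b => xT D (.inl b))
        (fun a => xT D (.inr (.inl a)))
        (fun χ c => if c < 0 then χ else if 0 < c then hT D - χ else 1) l} ∧
    val (Sum.elim x (Sum.elim (fl D y) (Sum.elim 0 y))) g = z} := rfl

lemma ker1_def : (kerX D x y ν).1 = {z | ∃ g : PT D,
    (∀ σ, val (Sum.elim (fun b => (MvPolynomial.X (.inl (pm D σ b)) : PT D))
      fun c => MvPolynomial.X (.inr c)) g = g) ∧
    g * rts D (fun b => xT D (.inl b)) (fun α c => if c = 0 then 1 else α)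
      (fun b => (b.2 : ℕ)) ∈
      Ideal.span {p | ∃ l, l ≠ 0 ∧ p = wts D (fun b => xT D (.inl b))
        (fun a => xT D (.inr (.inl a))) (fun χ c => if c = 0 then 1 else χ) l} ∧
    val (Sum.elim x (Sum.elim (fl D y) (Sum.elim 0 y))) g = z} := rfl

lemma kerH_sub : Vale.Agent.P291.G.kerH (tG D) x y ν ⊆ (kerX D x y ν).2 := by
  rintro z ⟨g, h1, h2, h3⟩
  rw [ker2_def]
  refine ⟨g, fun σ => ?_, ?_, ?_⟩
  · rw [act_eq]
    exact h1 σ
  · rw [disc_eq]
    exact h2
  · rw [spc_eq]
    exact h3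

lemma kerK_eq : (kerX D x y ν).1 = Vale.Agent.P291.H.M.kerJ (tG D) x y := by
  have hI : Vale.Agent.P291.H.M.cutI (Vale.Agent.P291.H.M.wX (tG D)) =
      Ideal.span {p | ∃ l : B D → ℤ, l ≠ 0 ∧ p = wts D (fun b => xT D (.inl b))
        (fun a => xT D (.inr (.inl a))) (fun χ c => if c = 0 then 1 else χ) l} :=
    Vale.Agent.P291.H.M.cutI_eq (tG D)
  rw [ker1_def]
  ext z
  constructor
  · rintro ⟨g, h1, h2, h3⟩
    refine ⟨g, fun σ => ?_, ?_, ?_⟩
    · have := h1 σ
      rw [act_eq] at this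
      exact this
    · rw [hI, ← disc0_eq]
      exact h2
    · exact h3
  · rintro ⟨g, h1, h2, h3⟩
    refine ⟨g, fun σ => ?_, ?_, ?_⟩
    · rw [act_eq]
      exact h1 σ
    · rw [hI, ← disc0_eq] at h2
      exact h2
    · exact h3

/-- the main theorem in the definitions of `T/QE.lean` -/
theorem main (hxy : AlgebraicIndependent ℂ (Sum.elim x y))
    (hu : ∀ l l', u (l + l') = u l * u l') (hi : LinearIndependent K u)
    (hs : Submodule.span K (Set.range u) = ⊤) (hν : ∀ l, Min D l → l ≠ 0 → wt D ν l ≠ 0) :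
    (∀ a ∈ coulomb D x y u, ∃ r ∈ R D x y, a - algebraMap K L r ∈ fixI D x y u ν) ∧
    (∀ r ∈ R D x y, algebraMap K L r ∈ fixI D x y u ν ↔ r ∈ (kerX D x y ν).1) ∧
    ∀ r ∈ R D x y, algebraMap K L r ∈ fixI D x y u ν → r ∈ (kerX D x y ν).2 := by
  have hb : ∀ l, Module.Basis.mk hi hs.ge l = u l := fun l => Module.Basis.mk_apply hi hs.ge l
  have hb' : (Module.Basis.mk hi hs.ge : (B D → ℤ) → L) = u := funext hb
  have hu' : ∀ l l', Module.Basis.mk hi hs.ge (l + l') =
      Module.Basis.mk hi hs.ge l * Module.Basis.mk hi hs.ge l' :=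
    fun l l' => by rw [hb, hb, hb]; exact hu l l'
  have h := Vale.Agent.P291.H.main (tG D) K L x y hxy (Module.Basis.mk hi hs.ge) hu' ν hν
  have h2 := fun {r : K} (hr : r ∈ Vale.Agent.P291.G.R (tG D) x y) =>
    Vale.Agent.P291.H.M.ker_iff (tG D) x y (Module.Basis.mk hi hs.ge) hxy hu' ν hν hr
  have e : ((Module.Basis.mk hi hs.ge : Module.Basis (B D → ℤ) K L) :
      (Vale.Agent.P291.G.B (tG D) → ℤ) → L) = u := hb'
  rw [e] at h
  rw [e] at h2
  rw [coulomb_eq, fixI_eq, R_eq, kerK_eq D x y ν]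
  exact ⟨h.1, fun r hr => h2 hr, fun r hr h' => kerH_sub D x y ν (h.2.1 r hr h').1⟩

end

end Vale.Agent.P291.E
end
end

section

section

set_option autoImplicit false
set_option linter.unusedSectionVars false

/-! The zero-diagonal theorem, general version: any monotone `ε` and any class `Pr` of sequences of
types which contains the nested sequences of nonzero measure. -/

namespace Vale.Agent.P291.H.N

open MvPolynomial Vale.Agent.P291.G Vale.Agent.P291.H.M

variable {D : QData} {Z : Type} (w : Wts D Z)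

/-- straightening for a general monotone `ε` (same proof as `strAll` in M/StrAll.lean, with
`ep 1` replaced by `ε`) -/
theorem strG {ε : ℕ → ℕ} (hε : ∀ j, ε j ≤ ε (j + 1)) {m : ℕ} (n : ℕ → D.I → ℕ) (h : tot D m n) :
    UU w ε m n ≤ ⨆ n' : ℕ → D.I → ℕ, ⨆ _ : seqM D m (meas m n) n', UU w ε m n' := by
  induction hk : meas m n using Nat.strong_induction_on generalizing n with
  | _ k ih =>
    subst hk
    by_cases hne : ∀ j, n (j + 1) ≤ n j
    · exact le_iSup₂_of_le n ⟨h, hne, le_rfl⟩ le_rfl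
    · push Not at hne
      obtain ⟨i, hi⟩ := hne
      have him : i + 1 < m := by
        by_contra hc
        apply hi
        rw [h.1 (i + 1) (by omega)]
        exact fun k => Nat.zero_le _
      have hupd : Function.update (Function.update n i (n i)) (i + 1) (n (i + 1)) = n := by
        rw [Function.update_eq_self, Function.update_eq_self]
      have key : U w (ε i) (n i) * U w (ε (i + 1)) (n (i + 1)) ≤
          (⨆ n' : ℕ → D.I → ℕ, ⨆ _ : seqM D m (meas m n) n', UU w ε m n') /
            ∏ j ∈ ((Finset.range m).erase i).erase (i + 1), U w (ε j) (n j) := by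
        refine pair_mul w (hε i) (n i) (n (i + 1)) _ fun n1' s hs1 hs2 hs3 hs4 => ?_
        rw [Submodule.le_div_iff_mul_le, ← UU_update w ε m n i him n1' s]
        have hsne : s ≠ n (i + 1) := fun h => hi (h ▸ hs1)
        have hlt : ∑ k, s k < ∑ k, n (i + 1) k := by
          refine lt_of_le_of_ne (Finset.sum_le_sum fun k _ => hs2 k) fun he => hsne ?_
          funext k
          exact (Finset.sum_eq_sum_iff_of_le fun k _ => hs2 k).1 he k (Finset.mem_univ k)
        have hmeas := meas_update m n i him n1' s hs4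
        have hmlt : meas m (Function.update (Function.update n i n1') (i + 1) s) <
            meas m n := by omega
        refine (ih _ hmlt _ (tot_update h i him n1' s hs4) rfl).trans ?_
        refine iSup_mono fun n' => iSup_mono' fun h' => ⟨?_, le_rfl⟩
        exact ⟨h'.1, h'.2.1, h'.2.2.trans hmlt.le⟩
      rw [Submodule.le_div_iff_mul_le, ← UU_update w ε m n i him, hupd] at key
      exact key

/-- one type (see `zd_type`) -/
theorem zdg_type {ε : ℕ → ℕ} (hε : ∀ j, ε j ≤ ε (j + 1)) {m M : ℕ} (hm : 1 ≤ m)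
    (Pr : (ℕ → D.I → ℕ) → Prop)
    (hP2 : ∀ n, tot D m n → (∀ j, n (j + 1) ≤ n j) → meas m n ≠ 0 → Pr n)
    {n : ℕ → D.I → ℕ} (hn : seqM D m (M + 1) n)
    (hM : meas m n = M + 1) {C : ℕ → Finset (B D)} (hC : ∀ j, C (j + 1) ⊆ C j)
    (ht : ∀ j, typ D (C j) = n j) {ι : B D → B D} {g₀ : B D → Fin m} (hio : Io C ι g₀)
    {Q : PP D Z m} (h : kp D Z ι (evA D Z (fun t : Fin m => C t) Q) = 0) :
    ∃ Y ∈ VV w ε m Pr, Y.coeff (ind D Finset.univ) = 0 ∧
      XQ w ε n Q - Y ∈ ⨆ n' : ℕ → D.I → ℕ, ⨆ _ : seqM D m M n', UU w ε m n' := by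
  classical
  refine ⟨XQ w ε n (Q - th D Z m Q), ?_, ?_, ?_⟩
  · have hok : Pr n := hP2 n hn.1 hn.2.1 (by omega)
    exact (le_iSup₂_of_le (f := fun (n : ℕ → D.I → ℕ) (_ : Pr n) => UU w ε m n)
      n hok le_rfl) (XQ_mem w ε hm n _)
  · rw [coeff_XQ]
    refine Finset.sum_eq_zero fun g _ => ?_
    split_ifs
    · rw [map_sub, th_fb, sub_self, zero_mul]
    · rfl
  · rw [XQ_sub, sub_sub_cancel]
    have h1 : evA D Z (fun t : Fin m => C t) (th D Z m Q) = 0 := by
      rw [← th_C hC hio, h]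
    have h2 := XQ_mem_Gr w ε hm n C (fun j _ => ht j) (th D Z m Q)
    rw [h1, zero_mul] at h2
    refine chain w m ε n C (fun j => hε j) (fun j _ => hC j) (fun j _ => ht j) _ ?_ _ h2
    intro i δ hi hδ hle
    obtain ⟨h3, h4⟩ := ZDstep_move hn.1 hM i hi δ hδ hle
    refine (strG w hε _ h3).trans ?_
    refine iSup_mono fun n' => iSup_mono' fun h' => ⟨⟨h'.1, h'.2.1, h'.2.2.trans h4⟩, le_rfl⟩

/-- elements of the sum as finite sums (see `exists_sum`) -/
theorem zdg_exists_sum (ε : ℕ → ℕ) {m M : ℕ} {X : AddMonoidAlgebra (S D Z) (B D → ℤ)}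
    (hX : X ∈ ⨆ n : ℕ → D.I → ℕ, ⨆ _ : seqM D m M n, UU w ε m n) :
    ∃ (s : Finset (ℕ → D.I → ℕ)) (Q : (ℕ → D.I → ℕ) → PP D Z m), (∀ n ∈ s, seqM D m M n) ∧
      X = ∑ n ∈ s, XQ w ε n (Q n) := by
  classical
  rw [Submodule.mem_iSup_iff_exists_finsupp] at hX
  obtain ⟨f, hf, hs⟩ := hX
  have h1 : ∀ n ∈ f.support, seqM D m M n := by
    intro n hn
    by_contra h
    have h2 := hf n
    rw [iSup_neg h, Submodule.mem_bot] at h2
    exact Finsupp.mem_support_iff.1 hn h2
  have h2 : ∀ n, ∃ Q : PP D Z m, n ∈ f.support → f n = XQ w ε n Q := by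
    intro n
    by_cases hn : n ∈ f.support
    · have h3 := hf n
      rw [iSup_pos (h1 n hn)] at h3
      obtain ⟨Q, hQ⟩ := exists_XQ w ε m n h3
      exact ⟨Q, fun _ => hQ⟩
    · exact ⟨0, fun h => absurd h hn⟩
  choose Q hQ using h2
  refine ⟨f.support, Q, h1, ?_⟩
  rw [← hs]
  exact Finset.sum_congr rfl fun n hn => hQ n hn

lemma zdg_seqM_mono (ε : ℕ → ℕ) {m M M' : ℕ} (h : M ≤ M') :
    (⨆ n : ℕ → D.I → ℕ, ⨆ _ : seqM D m M n, UU w ε m n) ≤
      ⨆ n : ℕ → D.I → ℕ, ⨆ _ : seqM D m M' n, UU w ε m n := by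
  refine iSup_mono fun n => iSup_mono' fun h' => ⟨?_, le_rfl⟩
  exact ⟨h'.1, h'.2.1, h'.2.2.trans h⟩

/-- measure `0` (see `zd_zero`) -/
theorem zdg_zero (ε : ℕ → ℕ) {m : ℕ} (hm : 1 ≤ m) {X : AddMonoidAlgebra (S D Z) (B D → ℤ)}
    (hX : X ∈ ⨆ n : ℕ → D.I → ℕ, ⨆ _ : seqM D m 0 n, UU w ε m n) :
    X = AddMonoidAlgebra.single (ind D Finset.univ) (X.coeff (ind D Finset.univ)) := by
  have h1 : ∀ l : B D → ℤ, l ≠ ind D Finset.univ → X.coeff l = 0 := by
    intro l hl
    have h2 : (⨆ n : ℕ → D.I → ℕ, ⨆ _ : seqM D m 0 n, UU w ε m n) ≤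
        coeffKer (D := D) (Z := Z) l := by
      refine iSup_le fun n => iSup_le fun hn => fun Y hY => ?_
      rw [mem_coeffKer]
      by_contra hY0
      obtain ⟨A, hA, hlA⟩ := coeff_ne w ε m n hY hY0
      have h3 := ZD_zero_of_meas hn.1 (Nat.le_zero.1 hn.2.2)
      refine hl ?_
      rw [hlA, Finset.sum_eq_single 0]
      · have h4 : typ D (A 0) = typ D Finset.univ := by
          rw [hA 0 (by omega), typ_univ]
          have h5 := hn.1.2
          rw [Finset.sum_eq_single 0] at h5
          · exact h5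
          · intro j _ hj
            exact h3 j (by omega)
          · intro h6
            exact absurd (Finset.mem_range.2 (by omega : 0 < m)) h6
        rw [eq_of_subset D (Finset.subset_univ _) h4]
      · intro j hj hj0
        have h4 : A j = ∅ := by
          apply typ_eq_zero
          rw [hA j (Finset.mem_range.1 hj), h3 j (by omega)]
        rw [h4]
        funext b
        exact if_neg (Finset.notMem_empty b)
      · intro h6
        exact absurd (Finset.mem_range.2 (by omega : 0 < m)) h6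
    exact mem_coeffKer.1 (h2 hX)
  apply AddMonoidAlgebra.coeff_injective
  ext1 l
  rw [AddMonoidAlgebra.coeff_single, Finsupp.single_apply]
  by_cases hl : ind D Finset.univ = l
  · rw [if_pos hl, hl]
  · rw [if_neg hl]
    exact h1 l (Ne.symm hl)

/-- one step (see `zd_step`) -/
theorem zdg_step (hw : NV w) {ε : ℕ → ℕ} (hε : ∀ j, ε j ≤ ε (j + 1)) {m M : ℕ} (hm : 1 ≤ m)
    (Pr : (ℕ → D.I → ℕ) → Prop)
    (hP2 : ∀ n, tot D m n → (∀ j, n (j + 1) ≤ n j) → meas m n ≠ 0 → Pr n)
    {X : AddMonoidAlgebra (S D Z) (B D → ℤ)}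
    (hX : X ∈ ⨆ n : ℕ → D.I → ℕ, ⨆ _ : seqM D m (M + 1) n, UU w ε m n) {c : S D Z}
    (hc : X.coeff (ind D Finset.univ) = c * del D Z ^ m) :
    ∃ Y ∈ VV w ε m Pr, Y.coeff (ind D Finset.univ) = 0 ∧
      X - Y ∈ ⨆ n : ℕ → D.I → ℕ, ⨆ _ : seqM D m M n, UU w ε m n := by
  classical
  obtain ⟨s, Q, hs, hXs⟩ := zdg_exists_sum w ε hX
  have hsum : c * ddT D Z = ∑ n ∈ s, ee w ε n (Q n) := by
    refine mul_left_cancel₀ (pow_ne_zero m (del_ne_zero D Z)) ?_
    rw [Finset.mul_sum, ← Finset.sum_congr rfl fun n _ => diag w ε n (Q n),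
      ← Finset.sum_mul, ← mul_assoc, mul_comm (del D Z ^ m) c, ← hc, hXs,
      AddMonoidAlgebra.coeff_sum, Finsupp.finsetSum_apply]
  have key : ∀ n ∈ s, ∃ Y ∈ VV w ε m Pr, Y.coeff (ind D Finset.univ) = 0 ∧
      XQ w ε n (Q n) - Y ∈
        ⨆ n' : ℕ → D.I → ℕ, ⨆ _ : seqM D m M n', UU w ε m n' := by
    intro n hn
    have hnM := hs n hn
    by_cases hM : meas m n = M + 1
    · obtain ⟨C, hC, ht⟩ := exists_chain n hnM.2.1 (ZD_le_v hnM.1 0)
      have hv : ∑ j ∈ Finset.range m, typ D (C j) = D.v := by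
        rw [← hnM.1.2]
        exact Finset.sum_congr rfl fun j _ => ht j
      obtain ⟨ι, g₀, hio⟩ := exists_io D hm C hC hv
      obtain ⟨b, hb⟩ : ∃ b, b ∉ C 0 := by
        by_contra hne
        push Not at hne
        have h1 : C 0 = Finset.univ := Finset.eq_univ_iff_forall.2 hne
        have h2 : n 0 = D.v := by rw [← ht 0, h1, typ_univ]
        have h3 := ZD_meas_zero (m := m) (ZD_eq_seqT hm hnM.1 h2)
        omega
      have h1 := congrArg (kp D Z ι) hsum
      rw [map_mul, ZD_kp_ddT hC hio hb, mul_zero, map_sum, Finset.sum_eq_single n] at h1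
      · exact zdg_type w hε hm Pr hP2 hnM hM hC ht hio
          (kv_top w hw hC hio ht ε (Q n) h1.symm)
      · intro n' hn' hne
        refine kv_zero w hC hio ht ?_ ?_ ε (Q n')
        · rw [hM]
          exact (hs n' hn').2.2
        · by_contra h2
          push Not at h2
          apply hne
          funext j
          by_cases hj : j < m
          · exact h2 j hj
          · rw [(hs n' hn').1.1 j (by omega), hnM.1.1 j (by omega)]
      · intro h2
        exact absurd hn h2
    · refine ⟨0, Submodule.zero_mem _, ?_, ?_⟩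
      · rw [AddMonoidAlgebra.coeff_zero, Finsupp.zero_apply]
      · rw [sub_zero]
        have h1 : seqM D m M n := by
          have h2 := hnM.2.2
          exact ⟨hnM.1, hnM.2.1, by omega⟩
        exact Submodule.mem_iSup_of_mem n
          (Submodule.mem_iSup_of_mem h1 (XQ_mem w ε hm n (Q n)))
  choose! Y hY using key
  refine ⟨∑ n ∈ s, Y n, Submodule.sum_mem _ fun n hn => (hY n hn).1, ?_, ?_⟩
  · rw [AddMonoidAlgebra.coeff_sum, Finsupp.finsetSum_apply]
    exact Finset.sum_eq_zero fun n hn => (hY n hn).2.1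
  · rw [hXs, ← Finset.sum_sub_distrib]
    exact Submodule.sum_mem _ fun n hn => (hY n hn).2.2

theorem zdg_aux (hw : NV w) {ε : ℕ → ℕ} (hε : ∀ j, ε j ≤ ε (j + 1)) {m : ℕ} (hm : 1 ≤ m)
    (Pr : (ℕ → D.I → ℕ) → Prop)
    (hP2 : ∀ n, tot D m n → (∀ j, n (j + 1) ≤ n j) → meas m n ≠ 0 → Pr n) (M : ℕ) :
    ∀ {X : AddMonoidAlgebra (S D Z) (B D → ℤ)},
    (X ∈ ⨆ n : ℕ → D.I → ℕ, ⨆ _ : seqM D m M n, UU w ε m n) → ∀ {c : S D Z},
    X.coeff (ind D Finset.univ) = c * del D Z ^ m →
    X - AddMonoidAlgebra.single (ind D Finset.univ) (c * del D Z ^ m) ∈ VV w ε m Pr := by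
  induction M with
  | zero =>
    intro X hX c hc
    rw [zdg_zero w ε hm hX, hc, sub_self]
    exact Submodule.zero_mem _
  | succ M ih =>
    intro X hX c hc
    obtain ⟨Y, hY, hY0, hXY⟩ := zdg_step w hw hε hm Pr hP2 hX hc
    have h1 := ih hXY (c := c) (by
      rw [AddMonoidAlgebra.coeff_sub, Finsupp.sub_apply, hY0, sub_zero, hc])
    have h2 : X - AddMonoidAlgebra.single (ind D Finset.univ) (c * del D Z ^ m) =
        (X - Y - AddMonoidAlgebra.single (ind D Finset.univ) (c * del D Z ^ m)) + Y := by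
      abel
    rw [h2]
    exact Submodule.add_mem _ h1 hY

/-- an element of `VV` can be straightened -/
theorem zdg_le {ε : ℕ → ℕ} (hε : ∀ j, ε j ≤ ε (j + 1)) {m : ℕ} (Pr : (ℕ → D.I → ℕ) → Prop)
    (hP1 : ∀ n, Pr n → tot D m n) :
    ∃ M, VV w ε m Pr ≤ ⨆ n : ℕ → D.I → ℕ, ⨆ _ : seqM D m M n, UU w ε m n := by
  refine ⟨m * ∑ i, D.v i, ?_⟩
  refine iSup_le fun n => iSup_le fun hn => ?_
  have ht : tot D m n := hP1 n hn
  exact (strG w hε n ht).trans (zdg_seqM_mono w ε (ZD_meas_le ht))

/-- Same proofs as in M/ZDstep.lean and M/ZD.lean (`zd_type`, `exists_sum`, `zd_zero`, `zd_step`,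
`zd_aux`, `UN_le`, `zd`) with `ep 1` replaced by `ε` and `UN w m` replaced by `VV w ε m Pr`: in
`zd_type` the sequence `n` is nested of measure `M + 1 ≠ 0`, so `Pr n` by `hP2`. -/
theorem zdG (hw : NV w) {ε : ℕ → ℕ} (hε : ∀ j, ε j ≤ ε (j + 1)) {m : ℕ} (hm : 1 ≤ m)
    (Pr : (ℕ → D.I → ℕ) → Prop) (hP1 : ∀ n, Pr n → tot D m n)
    (hP2 : ∀ n, tot D m n → (∀ j, n (j + 1) ≤ n j) → meas m n ≠ 0 → Pr n)
    {X : AddMonoidAlgebra (S D Z) (B D → ℤ)} (hX : X ∈ VV w ε m Pr) {c : S D Z}
    (hc : X.coeff (ind D Finset.univ) = c * del D Z ^ m) :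
    AddMonoidAlgebra.single (ind D Finset.univ) (c * del D Z ^ m) ∈ VV w ε m Pr := by
  obtain ⟨M, hM⟩ := zdg_le w hε Pr hP1
  have h := zdg_aux w hw hε hm Pr hP2 M (hM hX) hc
  have h2 := Submodule.sub_mem _ hX h
  rwa [sub_sub_cancel] at h2

end Vale.Agent.P291.H.N
end
end

section

section

set_option autoImplicit false
set_option linter.unusedSectionVars false

/-! The decomposition theorems in full type. -/

namespace Vale.Agent.P291.H.N

open MvPolynomial Vale.Agent.P291.G Vale.Agent.P291.H.M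

variable {D : QData} {Z : Type} (w : Wts D Z)

lemma opW_e (A : Finset (B D)) : e (opW w) A = e w Aᶜ := by
  rw [e, e, compl_compl, Finset.prod_comm]
  rfl

/-- the pair weights of a colouring -/
lemma lev_e {m : ℕ} (g : B D → Fin m) : ∏ t : Fin m, e w (fb D g t) =
    ∏ b : B D, ∏ c : B D, if g b ≠ g c then w.h b c else 1 := by
  classical
  have h1 : ∀ t : Fin m, e w (fb D g t) = ∏ b : B D, if g b = t then
      (∏ c : B D, if g b ≠ g c then w.h b c else 1) else 1 := by
    intro t
    rw [e, fb, Finset.prod_filter]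
    refine Finset.prod_congr rfl fun b _ => ?_
    split_ifs with hb
    · have h3 : (Finset.univ.filter fun b : B D => g b = t)ᶜ =
          Finset.univ.filter fun c : B D => g b ≠ g c := by
        ext c
        simp only [← hb, eq_comm, Finset.compl_filter, Finset.mem_filter, Finset.mem_univ, true_and, ne_eq]
      rw [h3, Finset.prod_filter]
    · rfl
  rw [Finset.prod_congr rfl fun t _ => h1 t, Finset.prod_comm]
  refine Finset.prod_congr rfl fun b _ => ?_
  rw [Finset.prod_ite_eq, if_pos (Finset.mem_univ _)]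

lemma opW_WW (ε : ℕ → ℕ) {m : ℕ} (g : B D → Fin m) : WW (opW w) ε g = WW w ε g := by
  classical
  rw [WW, WW, Finset.prod_mul_distrib, Finset.prod_mul_distrib, lev_e, lev_e, Finset.prod_comm]
  congr 1
  refine Finset.prod_congr rfl fun b _ => Finset.prod_congr rfl fun c _ => ?_
  exact if_congr ne_comm rfl rfl

lemma lev_NV (hN : NV w) : NV (opW w) where
  h_ne := fun ι hι b c hbc => hN.h_ne ι hι c b hbc.symm
  z_ne := fun ι hι b => hN.z_ne ι hι b

lemma lev_sum {m : ℕ} (g : B D → Fin m) : ∑ j ∈ Finset.range m, tyf D g j = D.v := by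
  classical
  rw [Finset.sum_range]
  funext i
  rw [Finset.sum_apply]
  have h1 : ∀ t : Fin m, tyf D g (t : ℕ) i =
      ((Finset.univ.filter fun b : B D => b.1 = i).filter fun b => g b = t).card := by
    intro t
    rw [tyf, dif_pos t.2, typ, fb, Finset.filter_comm]
  rw [Finset.sum_congr rfl fun t _ => h1 t, ← Finset.card_eq_sum_card_fiberwise
    (fun _ _ => Finset.mem_coe.2 (Finset.mem_univ _))]
  have h2 := congrFun (typ_univ D) i
  rw [typ] at h2
  exact h2

lemma lev_tot {m : ℕ} (g : B D → Fin m) : totN D D.v m (tyf D g) :=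
  ⟨fun _ hj => dif_neg (not_lt.2 hj), lev_sum g⟩

/-- a fibre of full type is everything -/
lemma lev_full {m : ℕ} {g : B D → Fin m} {t : Fin m} (h : typ D (fb D g t) = D.v) (b : B D) :
    g b = t := by
  have h1 : fb D g t = Finset.univ :=
    eq_of_subset D (Finset.subset_univ _) (h.trans (typ_univ D).symm)
  have h2 : b ∈ fb D g t := by
    rw [h1]
    exact Finset.mem_univ _
  exact (mem_fb _ g t b).1 h2

lemma lev_ntF {m : ℕ} (g : B D → Fin m) (hg : ∃ b, (g b : ℕ) ≠ 0) : ntF D D.v m (tyf D g) := by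
  refine ⟨lev_tot g, fun h => ?_⟩
  obtain ⟨b, hb⟩ := hg
  have hm : 0 < m := (Nat.zero_le _).trans_lt (g b).2
  rw [tyf, dif_pos hm] at h
  exact hb (by rw [lev_full h b])

lemma lev_ntU {m : ℕ} (g : B D → Fin m) (hg : ∃ b c, g b ≠ g c) : ntU D D.v m (tyf D g) := by
  refine ⟨lev_tot g, fun j h => ?_⟩
  obtain ⟨b, c, hbc⟩ := hg
  by_cases hj : j < m
  · rw [tyf, dif_pos hj] at h
    exact hbc ((lev_full h b).trans (lev_full h c).symm)
  · rw [tyf, dif_neg hj] at h
    have h1 : 0 = D.v b.1 := congrFun h b.1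
    have h2 := b.2.2
    omega

/-- a sequence with a full first slot has measure zero -/
lemma lev_meas {m : ℕ} {n : ℕ → D.I → ℕ} (h : tot D m n) (h0 : D.v ≤ n 0) : meas m n = 0 := by
  classical
  refine Finset.sum_eq_zero fun j hj => ?_
  rcases Nat.eq_zero_or_pos j with hj0 | hj0
  · rw [hj0, zero_mul]
  · have h1 : ∑ i, n j i = 0 := by
      refine Finset.sum_eq_zero fun i _ => ?_
      have h2 := congrFun h.2 i
      rw [Finset.sum_apply] at h2
      have hj' := Finset.mem_range.1 hj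
      have h3 : ∑ k ∈ ({0, j} : Finset ℕ), n k i ≤ ∑ k ∈ Finset.range m, n k i := by
        refine Finset.sum_le_sum_of_subset fun k hk => ?_
        rw [Finset.mem_insert, Finset.mem_singleton] at hk
        rw [Finset.mem_range]
        omega
      rw [Finset.sum_pair (by omega), h2] at h3
      have h4 : D.v i ≤ n 0 i := h0 i
      omega
    rw [h1, mul_zero]

lemma lev_anti {n : ℕ → D.I → ℕ} (h : ∀ j, n (j + 1) ≤ n j) (j : ℕ) : n j ≤ n 0 := by
  induction j with
  | zero => exact le_rfl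
  | succ j ih => exact (h j).trans ih

/-- with `J.Lab w`; for `w' = opW w` the two ideals and `WW` are the same -/
theorem levF (L : Vale.Agent.P291.J.Lab w) (hN : NV w) {r : S D Z} (hr : ∀ σ, act D Z σ r = r)
    (h : r * ddT D Z ∈ cutI w) {m : ℕ} (hm : Fintype.card (B D) + 1 ≤ m) (w' : Wts D Z)
    (hw' : w' = w ∨ w' = opW w) :
    AddMonoidAlgebra.single (ind D Finset.univ) (r * del D Z ^ m) ∈
      VV w' (ep 1) m (ntF D D.v m) := by
  have hN' : NV w' := by
    rcases hw' with rfl | rfl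
    · exact hN
    · exact lev_NV w hN
  have hWW : ∀ g : B D → Fin m, WW w' (ep 1) g = WW w (ep 1) g := by
    intro g
    rcases hw' with rfl | rfl
    · rfl
    · exact opW_WW w (ep 1) g
  have h1 := partI w L hm h
  have h2 : r * ddT D Z ∈ Ideal.span {p | ∃ g : B D → Fin m, (∃ b, (g b : ℕ) ≠ 0) ∧
      p = RR D Z g * WW w' (ep 1) g} := by
    simp only [hWW]
    exact h1
  obtain ⟨X, hX, hXc⟩ := exists_XG w' (ep 1) (show 1 ≤ m by omega) hr
    (fun g => ∃ b, (g b : ℕ) ≠ 0) h2 (ntF D D.v m) (fun g hg => lev_ntF g hg)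
  refine zdG w' hN' (fun j => ?_) (show 1 ≤ m by omega) (ntF D D.v m) (fun n hn => hn.1)
    (fun n h3 _ h5 => ⟨h3, fun h6 => h5 (lev_meas h3 h6.ge)⟩) hX hXc
  unfold ep
  split_ifs <;> omega

theorem levU (L : Vale.Agent.P291.J.Lab w) (hN : NV w) {r : S D Z} (hr : ∀ σ, act D Z σ r = r)
    (h : r * ddT D Z ∈ cutU w) {m : ℕ} (hm : Fintype.card (B D) + 1 ≤ m) (w' : Wts D Z)
    (hw' : w' = w ∨ w' = opW w) :
    AddMonoidAlgebra.single (ind D Finset.univ) (r * del D Z ^ m) ∈
      VV w' e0 m (ntU D D.v m) := by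
  have hN' : NV w' := by
    rcases hw' with rfl | rfl
    · exact hN
    · exact lev_NV w hN
  have hWW : ∀ g : B D → Fin m, WW w' e0 g = WW w e0 g := by
    intro g
    rcases hw' with rfl | rfl
    · rfl
    · exact opW_WW w e0 g
  have h1 := partU w L (show Fintype.card (B D) ≤ m by omega) h
  have h2 : r * ddT D Z ∈ Ideal.span {p | ∃ g : B D → Fin m, (∃ b c, g b ≠ g c) ∧
      p = RR D Z g * WW w' e0 g} := by
    simp only [hWW]
    exact h1
  obtain ⟨X, hX, hXc⟩ := exists_XG w' e0 (show 1 ≤ m by omega) hr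
    (fun g => ∃ b c, g b ≠ g c) h2 (ntU D D.v m) (fun g hg => lev_ntU g hg)
  exact zdG w' hN' (fun _ => le_rfl) (show 1 ≤ m by omega) (ntU D D.v m) (fun n hn => hn.1)
    (fun n h3 h4 h5 => ⟨h3, fun j h6 => h5 (lev_meas h3 (h6.ge.trans (lev_anti h4 j)))⟩) hX hXc

end Vale.Agent.P291.H.N
end
end

section

section

set_option autoImplicit false
set_option linter.unusedSectionVars false

/-! The substitution `ρ`: evaluation of polynomials. -/

namespace Vale.Agent.P291.H.N

open MvPolynomial Vale.Agent.P291.G Vale.Agent.P291.H.M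

variable {D : QData} {Z : Type} {N : D.I → ℕ}
variable {ρ : B (sub D N) → B D} {C' : Finset (B (sub D N))} {l : B D → ℤ}

lemma rn_xx (ρ : B (sub D N) → B D) (b : B (sub D N)) :
    rn Z ρ (xx (sub D N) Z b) = xx D Z (ρ b) := by
  rw [rn, xx, rename_X]; rfl

lemma RhoE_injOn (h : Rho ρ C' l) {A : Finset (B (sub D N))} (hA : A ⊆ C') :
    Set.InjOn ρ (A : Set (B (sub D N))) := fun b hb c hc hbc =>
  h.inj b (hA hb) c (hA hc) hbc

lemma RhoE_prod (h : Rho ρ C' l) {A : Finset (B (sub D N))} (hA : A ⊆ C') (F : B D → S D Z) :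
    ∏ a ∈ A.image ρ, F a = ∏ b ∈ A, F (ρ b) :=
  Finset.prod_image fun _ hb _ hc hbc => RhoE_injOn h hA hb hc hbc

lemma RhoE_sum (h : Rho ρ C' l) {A : Finset (B (sub D N))} (hA : A ⊆ C') (F : B D → S D Z) :
    ∑ a ∈ A.image ρ, F a = ∑ b ∈ A, F (ρ b) :=
  Finset.sum_image fun _ hb _ hc hbc => RhoE_injOn h hA hb hc hbc

lemma RhoE_mem (h : Rho ρ C' l) {A : Finset (B (sub D N))} (hA : A ⊆ C') {b : B (sub D N)}
    (hb : b ∈ C') : ρ b ∈ A.image ρ ↔ b ∈ A := by
  rw [Finset.mem_image]
  constructor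
  · rintro ⟨c, hc, hcb⟩
    rwa [← h.inj c (hA hc) b hb hcb]
  · intro hbA
    exact ⟨b, hbA, rfl⟩

lemma RhoE_ne (h : Rho ρ C' l) {b c : B (sub D N)} (hb : b ∈ C') (hc : c ∈ C') :
    (b ≠ c ∧ b.1 = c.1) ↔ (ρ b ≠ ρ c ∧ (ρ b).1 = (ρ c).1) := by
  rw [h.col, h.col]
  refine and_congr_left fun _ => ?_
  exact ⟨fun h1 h2 => h1 (h.inj b hb c hc h2), fun h1 h2 => h1 (by rw [h2])⟩

lemma RhoE_univ (h : Rho ρ C' l) (F : B D → S D Z) :
    ∑ b, F (ρ b) = ∑ a, l a • F a := by
  rw [← Finset.sum_fiberwise Finset.univ ρ]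
  refine Finset.sum_congr rfl fun a _ => ?_
  rw [← h.cnt a, natCast_zsmul, ← Finset.sum_const]
  refine Finset.sum_congr rfl fun b hb => ?_
  rw [(Finset.mem_filter.1 hb).2]

lemma RhoE_ps (h : Rho ρ C' l) (A : Finset (B (sub D N))) (i : D.I) (j : ℕ) :
    rn Z ρ (ps (sub D N) Z A i j) =
      ∑ b ∈ A, (fun a : B D => if a.1 = i then xx D Z a ^ j else 0) (ρ b) := by
  rw [ps, map_sum]
  refine Finset.sum_congr rfl fun b _ => ?_
  simp only [h.col]
  rw [apply_ite (rn Z ρ), map_pow, map_zero, rn_xx]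

lemma RhoE_ps_image (h : Rho ρ C' l) {A : Finset (B (sub D N))} (hA : A ⊆ C') (i : D.I) (j : ℕ) :
    rn Z ρ (ps (sub D N) Z A i j) = ps D Z (A.image ρ) i j := by
  rw [RhoE_ps h, ps]
  exact (RhoE_sum h hA (fun a : B D => if a.1 = i then xx D Z a ^ j else 0)).symm

lemma rn_PiC (h : Rho ρ C' l) : rn Z ρ (PiC (sub D N) Z C') = PiC D Z (C'.image ρ) := by
  rw [PiC, PiC, map_prod, RhoE_prod h (Finset.Subset.refl _)]
  refine Finset.prod_congr rfl fun b hb => ?_
  rw [map_prod, RhoE_prod h (Finset.Subset.refl _)]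
  refine Finset.prod_congr rfl fun c hc => ?_
  rw [apply_ite (rn Z ρ), map_sub, map_one, rn_xx, rn_xx]
  exact if_congr (RhoE_ne h hb hc) rfl rfl

lemma RhoE_qC (h : Rho ρ C' l) {A : Finset (B (sub D N))} (hA : A ⊆ C') :
    rn Z ρ (qC (sub D N) Z C' A) = qC D Z (C'.image ρ) (A.image ρ) := by
  rw [qC, qC, map_prod, RhoE_prod h (Finset.Subset.refl _)]
  refine Finset.prod_congr rfl fun b hb => ?_
  rw [map_prod, RhoE_prod h (Finset.Subset.refl _)]
  refine Finset.prod_congr rfl fun c hc => ?_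
  rw [apply_ite (rn Z ρ), map_sub, map_one, rn_xx, rn_xx]
  refine if_congr ?_ rfl rfl
  rw [RhoE_ne h hb hc, RhoE_mem h hA hb, RhoE_mem h hA hc]

lemma RhoE_sdiff (h : Rho ρ C' l) {A : Finset (B (sub D N))} (hA : A ⊆ C') :
    C'.image ρ \ A.image ρ = (C' \ A).image ρ := by
  ext a
  rw [Finset.mem_sdiff]
  constructor
  · rintro ⟨h1, h2⟩
    obtain ⟨b, hb, rfl⟩ := Finset.mem_image.1 h1
    rw [RhoE_mem h hA hb] at h2
    exact Finset.mem_image.2 ⟨b, Finset.mem_sdiff.2 ⟨hb, h2⟩, rfl⟩
  · intro h1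
    obtain ⟨b, hb, rfl⟩ := Finset.mem_image.1 h1
    have hb' := Finset.mem_sdiff.1 hb
    rw [RhoE_mem h hA hb'.1]
    exact ⟨Finset.mem_image.2 ⟨b, hb'.1, rfl⟩, hb'.2⟩

/-- all factors correspond to each other because `ρ` is injective on `C'` -/
theorem rn_LC (h : Rho ρ C' l) {w' : Wts (sub D N) Z} {w : Wts D Z} (hc : Cpt w' w) (ε : ℕ → ℕ)
    {m : ℕ} {A : Fin m → Finset (B (sub D N))} (hA : ∀ t, A t ⊆ C') :
    rn Z ρ (LC w' C' ε A) = LC w (C'.image ρ) ε fun t => (A t).image ρ := by
  rw [LC, LC, map_prod]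
  refine Finset.prod_congr rfl fun t _ => ?_
  rw [map_mul, map_mul, map_pow, RhoE_qC h (hA t)]
  congr 2
  · rw [eC, eC, map_prod, RhoE_prod h (hA t)]
    refine Finset.prod_congr rfl fun b _ => ?_
    rw [RhoE_sdiff h (hA t), map_prod, RhoE_prod h Finset.sdiff_subset]
    exact Finset.prod_congr rfl fun c _ => hc.h ρ h.col b c
  · rw [zs, zs, map_prod, RhoE_prod h (hA t)]
    congr 1
    exact Finset.prod_congr rfl fun b _ => hc.z ρ h.col b

/-- Proof: check the three kinds of variables. `rn ρ (ps (A t) i j) = ps ((A t).image ρ) i j`;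
`rn ρ (ps univ i j) = ∑ b', [b'.1 = i] x (ρ b') ^ j = ∑ a, [a.1 = i] l a * x a ^ j =
∑ t, ps ((A t).image ρ) i j` by `cnt` and `rho_ind`. -/
theorem rn_evA (h : Rho ρ C' l) {m : ℕ} {A : Fin m → Finset (B (sub D N))}
    (hA : ∑ t, ind (sub D N) (A t) = pull ρ C' l) (Q : PP D Z m) :
    rn Z ρ (evA (sub D N) Z A Q) = evA D Z (fun t => (A t).image ρ) (th D Z m Q) := by
  have hs : ∀ t, A t ⊆ C' := fun t => rho_sub h hA t
  have hl : ∑ t, ind D ((A t).image ρ) = l := (rho_ind h hs).2 hA
  have key : (rn Z ρ).comp (evA (sub D N) Z A) =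
      (evA D Z (fun t => (A t).image ρ)).comp (th D Z m) := by
    refine MvPolynomial.algHom_ext fun v => ?_
    rcases v with p | p | z
    · rw [AlgHom.comp_apply, AlgHom.comp_apply, evA, aeval_X, th, aeval_X]
      simp only [Sum.elim_inl]
      rw [evA, aeval_X]
      exact RhoE_ps_image h (hs p.1) p.2.1 p.2.2
    · rw [AlgHom.comp_apply, AlgHom.comp_apply, evA, aeval_X, th, aeval_X]
      simp only [Sum.elim_inr, Sum.elim_inl, map_sum]
      refine (RhoE_ps h _ _ _).trans ((RhoE_univ h (fun a : B D =>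
        if a.1 = p.1 then xx D Z a ^ p.2 else 0)).trans ?_)
      simp only [evA, ps, aeval_X, Sum.elim_inl]
      have h1 : ∀ t : Fin m, ∀ F : B D → S D Z, ∑ a ∈ (A t).image ρ, F a =
          ∑ a, ind D ((A t).image ρ) a • F a := by
        intro t F
        rw [← Finset.sum_subset (Finset.subset_univ ((A t).image ρ))]
        · refine Finset.sum_congr rfl fun a ha => ?_
          rw [ind, if_pos ha, one_zsmul]
        · intro a _ ha
          rw [ind, if_neg ha, zero_zsmul]
      simp only [h1]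
      rw [Finset.sum_comm]
      refine Finset.sum_congr rfl fun a _ => ?_
      rw [← Finset.sum_smul, ← hl, Finset.sum_apply]
    · rw [AlgHom.comp_apply, AlgHom.comp_apply, evA, aeval_X, th, aeval_X]
      simp only [Sum.elim_inr]
      rw [evA, aeval_X, rn, rename_X]
      rfl
  exact DFunLike.congr_fun key Q

/-- for `l = ind A`: `rn ρ (evS univ q) = evS A q` -/
lemma rn_evS {A : Finset (B D)} (h : Rho ρ C' (ind D A)) (q : PQ D Z) :
    rn Z ρ (evS (sub D N) Z Finset.univ q) = evS D Z A q := by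
  have key : (rn Z ρ).comp (evS (sub D N) Z Finset.univ) = evS D Z A := by
    refine MvPolynomial.algHom_ext fun v => ?_
    rcases v with p | z
    · rw [AlgHom.comp_apply, evS, aeval_X, evS, aeval_X]
      simp only [Sum.elim_inl]
      refine (RhoE_ps h _ _ _).trans ((RhoE_univ h (fun a : B D =>
        if a.1 = p.1 then xx D Z a ^ p.2 else 0)).trans ?_)
      rw [ps, ← Finset.sum_subset (Finset.subset_univ A)]
      · refine Finset.sum_congr rfl fun a ha => ?_
        rw [ind, if_pos ha, one_zsmul]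
      · intro a _ ha
        rw [ind, if_neg ha, zero_zsmul]
    · rw [AlgHom.comp_apply, evS, aeval_X, evS, aeval_X]
      simp only [Sum.elim_inr]
      rw [rn, rename_X]
      rfl
  exact DFunLike.congr_fun key q

end Vale.Agent.P291.H.N
end
end

section

section

set_option autoImplicit false
set_option linter.unusedSectionVars false

/-! Transfer of decompositions from `sub D N` to `D`. -/

namespace Vale.Agent.P291.H.N

open MvPolynomial Vale.Agent.P291.G Vale.Agent.P291.H.M

section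
variable {D : QData} {Z : Type} (w : Wts D Z)

lemma Trans_evA (A : Finset (B D)) (q : PQ D Z) :
    evA D Z (fun _ : Fin 1 => A)
      (rename (Sum.elim (fun p : D.I × ℕ => Sum.inl ((0 : Fin 1), p)) fun z => Sum.inr (Sum.inr z))
        q) = evS D Z A q := by
  rw [evA, evS, aeval_rename]
  congr 2
  funext p
  rcases p with p | p <;> rfl

lemma fam_mem (N : D.I → ℕ) (q : PQ D Z) : fam D Z N q ∈ AF D Z N := by
  classical
  have h1 := AF_of D Z N
    (rename (Sum.elim (fun p : D.I × ℕ => Sum.inl ((0 : Fin 1), p)) fun z => Sum.inr (Sum.inr z))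
      q : PP D Z 1)
  have h2 : (fun A : Finset (B D) => if typ D A = N then Dl D Z A * evA D Z (fun _ : Fin 1 => A)
      (rename (Sum.elim (fun p : D.I × ℕ => Sum.inl ((0 : Fin 1), p)) fun z => Sum.inr (Sum.inr z))
        q : PP D Z 1) else 0) = fam D Z N q := by
    funext A
    rw [fam, Trans_evA]
  rw [← h2]
  convert h1

/-- elements of `VV` as finite sums (`exists_sum` in M/ZDstep.lean, same proof) -/
theorem VV_sum (ε : ℕ → ℕ) (m : ℕ) (Pr : (ℕ → D.I → ℕ) → Prop)
    {X : AddMonoidAlgebra (S D Z) (B D → ℤ)} (hX : X ∈ VV w ε m Pr) :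
    ∃ (s : Finset (ℕ → D.I → ℕ)) (Q : (ℕ → D.I → ℕ) → PP D Z m), (∀ n ∈ s, Pr n) ∧
      X = ∑ n ∈ s, XQ w ε n (Q n) := by
  classical
  rw [VV, Submodule.mem_iSup_iff_exists_finsupp] at hX
  obtain ⟨f, hf, hs⟩ := hX
  have h1 : ∀ n ∈ f.support, Pr n := by
    intro n hn
    by_contra h
    have h2 := hf n
    rw [iSup_neg h, Submodule.mem_bot] at h2
    exact Finsupp.mem_support_iff.1 hn h2
  have h2 : ∀ n, ∃ Q : PP D Z m, n ∈ f.support → f n = XQ w ε n Q := by
    intro n
    by_cases hn : n ∈ f.support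
    · have h3 := hf n
      rw [iSup_pos (h1 n hn)] at h3
      obtain ⟨Q, hQ⟩ := exists_XQ w ε m n h3
      exact ⟨Q, fun _ => hQ⟩
    · exact ⟨0, fun h => absurd h hn⟩
  choose Q hQ using h2
  refine ⟨f.support, Q, h1, ?_⟩
  rw [← hs]
  exact Finset.sum_congr rfl fun n hn => hQ n hn

lemma Trans_ind_inj {A A' : Finset (B D)} (h : ind D A = ind D A') : A = A' := by
  ext b
  have h1 := congrFun h b
  unfold ind at h1
  by_cases h2 : b ∈ A <;> by_cases h3 : b ∈ A' <;> simp_all

/-- the type of the exponent of a product of slots -/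
lemma Trans_typ (A : Finset (B D)) (i : D.I) :
    ∑ a : B D, (if a.1 = i then ind D A a else 0) = (typ D A i : ℤ) := by
  classical
  rw [typ, Finset.card_filter, Nat.cast_sum, ← Finset.sum_subset (Finset.subset_univ A)]
  · refine Finset.sum_congr rfl fun a ha => ?_
    have h1 : ind D A a = 1 := if_pos ha
    rw [h1]
    push_cast
    rfl
  · intro a _ ha
    have h1 : ind D A a = 0 := if_neg ha
    rw [h1, ite_self]

open Classical in
/-- coefficients of `slot (fam ..) * single 0 (..)` -/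
lemma Trans_coeff_slot (N : D.I → ℕ) (q : PQ D Z) (k : ℕ) (l : B D → ℤ) :
    (slot w 0 (fam D Z N q) * AddMonoidAlgebra.single 0 (del D Z ^ k)).coeff l =
      ∑ A : Finset (B D), if ind D A = l then fam D Z N q A * e w A * del D Z ^ k else 0 := by
  have h1 : slot w 0 (fam D Z N q) = ∑ A, AddMonoidAlgebra.single (ind D A)
      (fam D Z N q A * (e w A * zs w A ^ 0)) := rfl
  rw [h1, Finset.sum_mul, AddMonoidAlgebra.coeff_sum, Finsupp.finsetSum_apply]
  refine Finset.sum_congr rfl fun A _ => ?_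
  rw [AddMonoidAlgebra.single_mul_single, add_zero, pow_zero, mul_one,
    AddMonoidAlgebra.coeff_single, Finsupp.single_apply]

/-- the exponent of a product of slots of total type `N` -/
lemma Trans_supp {N : D.I → ℕ} {m : ℕ} {n : ℕ → D.I → ℕ} (hn : totN D N m n) (ε : ℕ → ℕ)
    (Q : PP D Z m) {l : B D → ℤ}
    (hl : ¬ ((∀ a, 0 ≤ l a) ∧ ∀ i, ∑ a : B D, (if a.1 = i then l a else 0) = (N i : ℤ))) :
    (XQ w ε n Q).coeff l = 0 := by
  classical
  rw [coeff_XQ_gen]
  refine Finset.sum_eq_zero fun A _ => ?_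
  rw [if_neg]
  rintro ⟨h1, h2⟩
  apply hl
  have h3 : ∀ a, l a = ∑ t, ind D (A t) a := by
    intro a
    rw [← h2, Finset.sum_apply]
  refine ⟨fun a => ?_, fun i => ?_⟩
  · rw [h3 a]
    refine Finset.sum_nonneg fun t _ => ?_
    unfold ind
    split_ifs <;> norm_num
  · have h4 : ∑ a : B D, (if a.1 = i then l a else 0) =
        ∑ t : Fin m, ∑ a : B D, (if a.1 = i then ind D (A t) a else 0) := by
      rw [Finset.sum_comm]
      refine Finset.sum_congr rfl fun a _ => ?_
      rw [h3 a]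
      split_ifs
      · rfl
      · rw [Finset.sum_const_zero]
    rw [h4, Finset.sum_congr rfl fun t _ => Trans_typ (A t) i]
    rw [Finset.sum_congr rfl fun (t : Fin m) _ => by rw [h1 t], ← hn.2, Finset.sum_apply,
      Nat.cast_sum]
    exact Fin.sum_univ_eq_sum_range (fun j => ((n j i : ℕ) : ℤ)) m

open Classical in
/-- the coefficient at `l` in terms of the inner weights -/
lemma trans_loc (ε : ℕ → ℕ) {m : ℕ} (s : Finset (ℕ → D.I → ℕ))
    (Q : (ℕ → D.I → ℕ) → PP D Z m) (C : Finset (B D)) (l : B D → ℤ)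
    (hC : ∀ A : Fin m → Finset (B D), ∑ t, ind D (A t) = l → ∀ t, A t ⊆ C) :
    (∑ n ∈ s, XQ w ε n (Q n)).coeff l * (OmC D Z C l * PiC D Z C ^ m) =
      (del D Z ^ m * HC w C l) * ∑ n ∈ s, ∑ A : Fin m → Finset (B D),
        if (∀ t : Fin m, typ D (A t) = n t) ∧ ∑ t, ind D (A t) = l then
          evA D Z A (Q n) * LC w C ε A else 0 := by
  rw [AddMonoidAlgebra.coeff_sum, Finsupp.finsetSum_apply, Finset.sum_mul, Finset.mul_sum]
  refine Finset.sum_congr rfl fun n _ => ?_
  rw [coeff_XQ_gen, Finset.sum_mul, Finset.mul_sum]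
  refine Finset.sum_congr rfl fun A _ => ?_
  by_cases hA : (∀ t : Fin m, typ D (A t) = n t) ∧ ∑ t, ind D (A t) = l
  · rw [if_pos hA, if_pos hA]
    linear_combination (evA D Z A (Q n)) * loc_main w ε (hC A hA.2) hA.2
  · rw [if_neg hA, if_neg hA, zero_mul, mul_zero]

end

section
variable {D : QData} {Z : Type} {N : D.I → ℕ} {w' : Wts (sub D N) Z} {w : Wts D Z}

lemma trans_supp {ρ : B (sub D N) → B D} {C' : Finset (B (sub D N))} {l : B D → ℤ}
    (h : Rho ρ C' l) {m : ℕ} (A : Fin m → Finset (B D)) (hA : ∑ t, ind D (A t) = l) (t : Fin m) :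
    A t ⊆ C'.image ρ := by
  classical
  intro a ha
  rw [rho_image h, Finset.mem_filter]
  refine ⟨Finset.mem_univ _, fun hl => ?_⟩
  have h1 : l a = ∑ t, ind D (A t) a := by
    rw [← hA, Finset.sum_apply]
  have h2 : ind D (A t) a ≤ ∑ t, ind D (A t) a :=
    Finset.single_le_sum (f := fun t => ind D (A t) a)
      (fun s _ => by unfold ind; split_ifs <;> norm_num) (Finset.mem_univ t)
  have h3 : ind D (A t) a = 1 := if_pos ha
  omega

open Classical in
/-- Proof. Let `C = C'.image ρ = {a | l a ≠ 0}`. Take the coefficient at `l' = pull ρ C' l` of `hs`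
(`coeff_XQ_gen`); multiply with `OmC C' l' * PiC C' ^ m` and use `loc_main` (`rho_sub`), cancel
`del ^ m * HC`:
`∑ n ∈ s, ∑ A', [..] evA A' (Q n) * LC w' C' ε A' = [l' = ind univ] r * PiC C' ^ m`
(for `l' = ind univ` one has `C' = univ`, `OmC univ _ = 1`, `HC univ _ = 1`). Apply `rn ρ`
(`rn_evA`, `rn_LC`, `rn_PiC`), use `rho_sum` to get a sum over the `A`, multiply with
`del ^ m * HC w C l`, use `loc_main` again and cancel `PiC C ^ m`. -/
theorem trans_coeff (hc : Cpt w' w) (ε : ℕ → ℕ) {m : ℕ} (s : Finset (ℕ → D.I → ℕ))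
    (Q : (ℕ → D.I → ℕ) → PP D Z m) {r : S (sub D N) Z}
    (hs : ∑ n ∈ s, XQ w' ε n (Q n) =
      AddMonoidAlgebra.single (ind (sub D N) Finset.univ) (r * del (sub D N) Z ^ m))
    {ρ : B (sub D N) → B D} {C' : Finset (B (sub D N))} {l : B D → ℤ} (h : Rho ρ C' l) :
    (∑ n ∈ s, XQ w ε n (th D Z m (Q n))).coeff l * OmC D Z (C'.image ρ) l =
      if pull ρ C' l = ind (sub D N) Finset.univ then
        rn Z ρ r * (del D Z ^ m * HC w (C'.image ρ) l) else 0 := by
  have hdel : del (sub D N) Z ^ m ≠ 0 := pow_ne_zero m (del_ne_zero (sub D N) Z)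
  -- the reduced identity for `sub D N`
  have h1 : (∑ n ∈ s, ∑ A : Fin m → Finset (B (sub D N)),
      if (∀ t : Fin m, typ (sub D N) (A t) = n t) ∧ ∑ t, ind (sub D N) (A t) = pull ρ C' l then
        evA (sub D N) Z A (Q n) * LC w' C' ε A else 0) =
      if pull ρ C' l = ind (sub D N) Finset.univ then r * PiC (sub D N) Z C' ^ m else 0 := by
    have h2 := trans_loc w' ε s Q C' (pull ρ C' l) fun A hA t => rho_sub h hA t
    rw [hs, AddMonoidAlgebra.coeff_single, Finsupp.single_apply] at h2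
    by_cases hp : pull ρ C' l = ind (sub D N) Finset.univ
    · have hC' : C' = Finset.univ := by
        refine Finset.eq_univ_iff_forall.2 fun b => ?_
        by_contra hb
        have h3 := congrFun hp b
        rw [pull, if_neg hb, ind, if_pos (Finset.mem_univ b)] at h3
        exact zero_ne_one h3
      rw [if_pos hp]
      rw [if_pos hp.symm] at h2
      have hOm : OmC (sub D N) Z C' (pull ρ C' l) = 1 := by
        rw [hC', OmC, Finset.compl_univ]
        refine Finset.prod_eq_one fun b _ => ?_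
        rw [Finset.prod_empty, one_pow]
      have hHC : HC w' C' (pull ρ C' l) = 1 := by
        rw [hC', HC, Finset.compl_univ]
        refine Finset.prod_eq_one fun b _ => ?_
        rw [Finset.prod_empty, one_pow]
      rw [hOm, hHC, mul_one, one_mul] at h2
      refine mul_left_cancel₀ hdel ?_
      rw [← h2]
      ring
    · rw [if_neg hp]
      rw [if_neg (Ne.symm hp), zero_mul] at h2
      exact (mul_eq_zero.1 h2.symm).resolve_left (mul_ne_zero hdel (HC_ne_zero w' _ _))
  -- apply the substitution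
  have h3 := congrArg (rn Z ρ) h1
  have h4 : rn Z ρ (∑ n ∈ s, ∑ A : Fin m → Finset (B (sub D N)),
      if (∀ t : Fin m, typ (sub D N) (A t) = n t) ∧ ∑ t, ind (sub D N) (A t) = pull ρ C' l then
        evA (sub D N) Z A (Q n) * LC w' C' ε A else 0) =
      ∑ n ∈ s, ∑ A : Fin m → Finset (B D),
        if (∀ t : Fin m, typ D (A t) = n t) ∧ ∑ t, ind D (A t) = l then
          evA D Z A (th D Z m (Q n)) * LC w (C'.image ρ) ε A else 0 := by
    rw [map_sum]
    refine Finset.sum_congr rfl fun n _ => ?_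
    rw [map_sum, rho_sum h n fun A => evA D Z A (th D Z m (Q n)) * LC w (C'.image ρ) ε A]
    refine Finset.sum_congr rfl fun A _ => ?_
    by_cases hA : (∀ t : Fin m, typ (sub D N) (A t) = n t) ∧
        ∑ t, ind (sub D N) (A t) = pull ρ C' l
    · rw [if_pos hA, if_pos hA, map_mul, rn_evA h hA.2, rn_LC h hc ε fun t => rho_sub h hA.2 t]
    · rw [if_neg hA, if_neg hA, map_zero]
  rw [h4] at h3
  have h5 := trans_loc w ε s (fun n => th D Z m (Q n)) (C'.image ρ) l fun A hA t =>
    trans_supp h A hA t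
  rw [h3] at h5
  refine mul_right_cancel₀ (pow_ne_zero m (PiC_ne_zero (D := D) (Z := Z) (C'.image ρ))) ?_
  rw [mul_assoc, h5]
  by_cases hp : pull ρ C' l = ind (sub D N) Finset.univ
  · rw [if_pos hp, if_pos hp, map_mul, map_pow, rn_PiC h]
    ring
  · rw [if_neg hp, if_neg hp, map_zero, mul_zero, zero_mul]

/-- TRANSFER. Proof: `VV_sum` for `w'` gives `s`, `Q`. Claim: the left side is
`∑ n ∈ s, XQ w ε n (th (Q n))`, which is in `VV` by `XQ_mem`. Compare the coefficients at `l`.
The left side is `∑ A, single (ind A) (fam A * e A) * single 0 (del ^ (m-1))`. If `l a < 0` for some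
`a`, or the type of `l` is not `N`, both coefficients are `0` (`coeff_XQ_gen`: `l = ∑ t, ind (A t)`
with `typ (A t) = n t`, `∑ n t = N` by `hP`). Otherwise `exists_rho`, `trans_coeff`: if `l = ind A`
(`pull_iff`) then `C'.image ρ = A`, `rn ρ r = evS A q` (`rn_evS`), `OmC A (ind A) = cr A Aᶜ`,
`HC = e A`, `del = cr A Aᶜ * Dl A`, cancel `cr A Aᶜ`; if `l` is not an indicator function both
coefficients are `0` (cancel `OmC`). -/
theorem transfer (hc : Cpt w' w) (ε : ℕ → ℕ) {m : ℕ} (hm : 1 ≤ m)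
    (Pr : (ℕ → D.I → ℕ) → Prop) (hP : ∀ n, Pr n → totN D N m n) (q : PQ D Z)
    (h : AddMonoidAlgebra.single (ind (sub D N) Finset.univ)
      (evS (sub D N) Z Finset.univ q * del (sub D N) Z ^ m) ∈ VV w' ε m Pr) :
    slot w 0 (fam D Z N q) * AddMonoidAlgebra.single 0 (del D Z ^ (m - 1)) ∈ VV w ε m Pr := by
  classical
  obtain ⟨s, Q, hs, hX⟩ := VV_sum w' ε m Pr h
  have hmain : slot w 0 (fam D Z N q) * AddMonoidAlgebra.single 0 (del D Z ^ (m - 1)) =
      ∑ n ∈ s, XQ w ε n (th D Z m (Q n)) := by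
    apply AddMonoidAlgebra.coeff_injective
    ext1 l
    rw [Trans_coeff_slot]
    by_cases hl : (∀ a, 0 ≤ l a) ∧ ∀ i, ∑ a : B D, (if a.1 = i then l a else 0) = (N i : ℤ)
    · obtain ⟨ρ, C', hρ⟩ := exists_rho hl.1 hl.2
      have h1 := trans_coeff hc ε s Q hX.symm hρ
      by_cases hp : pull ρ C' l = ind (sub D N) Finset.univ
      · rw [if_pos hp] at h1
        obtain ⟨A, rfl⟩ := (pull_iff hρ).1 hp
        have hA : C'.image ρ = A := by
          rw [rho_image hρ]
          ext a
          unfold ind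
          simp only [ne_eq, ite_eq_right_iff, one_ne_zero, imp_false, Decidable.not_not, Finset.subset_univ, Finset.filter_mem_eq_of_subset]
        have htyp : typ D A = N := by
          funext i
          have h2 := hl.2 i
          rw [Trans_typ] at h2
          exact_mod_cast h2
        rw [hA, OmC_ind, HC_ind, rn_evS hρ] at h1
        have h3 : (∑ A' : Finset (B D), if ind D A' = ind D A then
            fam D Z N q A' * e w A' * del D Z ^ (m - 1) else 0) =
            fam D Z N q A * e w A * del D Z ^ (m - 1) := by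
          rw [Finset.sum_eq_single A]
          · rw [if_pos rfl]
          · intro A' _ hA'
            rw [if_neg fun h4 => hA' (Trans_ind_inj h4)]
          · intro h4
            exact absurd (Finset.mem_univ A) h4
        rw [h3]
        have hcr : cr D Z A Aᶜ ≠ 0 := by
          rw [← OmC_ind]
          exact OmC_ne_zero A _
        apply mul_right_cancel₀ hcr
        rw [h1]
        have hf : fam D Z N q A = Dl D Z A * evS D Z A q := by
          rw [fam, if_pos htyp]
        have hdel : del D Z ^ m = del D Z * del D Z ^ (m - 1) := by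
          rw [← pow_succ']
          congr 1
          omega
        rw [hf, hdel]
        have hD := Dl_spec D Z A
        rw [hD]
        ring
      · rw [if_neg hp] at h1
        have h2 := (mul_eq_zero.1 h1).resolve_right (OmC_ne_zero _ _)
        rw [h2]
        refine Finset.sum_eq_zero fun A _ => ?_
        rw [if_neg]
        intro h3
        exact hp ((pull_iff hρ).2 ⟨A, h3.symm⟩)
    · have h2 : (∑ n ∈ s, XQ w ε n (th D Z m (Q n))).coeff l = 0 := by
        rw [AddMonoidAlgebra.coeff_sum, Finsupp.finsetSum_apply]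
        exact Finset.sum_eq_zero fun n hn => Trans_supp w (hP n (hs n hn)) ε _ hl
      rw [h2]
      refine Finset.sum_eq_zero fun A _ => ?_
      by_cases h3 : ind D A = l
      · rw [if_pos h3]
        have h4 : typ D A ≠ N := by
          rintro rfl
          apply hl
          rw [← h3]
          refine ⟨fun a => ?_, fun i => Trans_typ A i⟩
          unfold ind
          split_ifs <;> norm_num
        have hf : fam D Z N q A = 0 := by
          rw [fam, if_neg h4]
        rw [hf, zero_mul, zero_mul]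
      · rw [if_neg h3]
  rw [hmain]
  refine Submodule.sum_mem _ fun n hn => ?_
  exact (le_iSup₂_of_le (f := fun (n : ℕ → D.I → ℕ) (_ : Pr n) => UU w ε m n)
    n (hs n hn) le_rfl) (XQ_mem w ε hm n _)

end

end Vale.Agent.P291.H.N
end
end

section

section

set_option autoImplicit false
set_option linter.unusedSectionVars false

/-! Decomposition theorems for type `N`. -/

namespace Vale.Agent.P291.H.N

open MvPolynomial Vale.Agent.P291.G Vale.Agent.P291.H.M

variable (D : QData) (N : D.I → ℕ)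

/-- `N` is a root: `Δ` is not in the unframed cut ideal -/
def Root : Prop := ddT (sub D N) (ZZ D) ∉ cutU (wX (sub D N))

/-- `Δ` is not in the framed cut ideal -/
def FrRoot : Prop := ddT (sub D N) (ZZ D) ∉ cutI (wX (sub D N))

lemma dec_xq (ρ : B (sub D N) → B D) (b : B (sub D N)) :
    rn (ZZ D) ρ (xq (sub D N) b) = xq D (ρ b) := by
  rw [rn, xq, xx, rename_X]; rfl

lemma dec_tv (ρ : B (sub D N) → B D) (a : D.A) : rn (ZZ D) ρ (tv (sub D N) a) = tv D a := by
  rw [rn, tv, rename_X]; rfl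

lemma dec_zv (ρ : B (sub D N) → B D) (i : D.I) (k : Fin (D.w i)) :
    rn (ZZ D) ρ (zv (sub D N) i k) = zv D i k := by
  rw [rn, zv, rename_X]; rfl

/-- `hq`, `zq` are products of `x c - x b + t a` and `z - x b` -/
lemma cpt_wX : Cpt (wX (sub D N)) (wX D) where
  h := by
    intro ρ hρ b c
    change rn (ZZ D) ρ (hq (sub D N) b c 0) = hq D (ρ b) (ρ c) 0
    rw [hq, hq, map_prod, hρ, hρ]
    refine Finset.prod_congr rfl fun a _ => ?_
    rw [map_add, map_add, map_sub, map_zero, dec_xq, dec_xq, dec_tv]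
  z := by
    intro ρ hρ b
    change rn (ZZ D) ρ (zq (sub D N) b 0) = zq D (ρ b) 0
    rw [zq, zq, map_prod, hρ]
    refine Finset.prod_congr rfl fun k _ => ?_
    rw [map_add, map_sub, map_zero, dec_xq, dec_zv]

lemma cpt_op {Z : Type} {w' : Wts (sub D N) Z} {w : Wts D Z} (h : Cpt w' w) :
    Cpt (opW w') (opW w) := ⟨fun ρ hρ b c => h.h ρ hρ c b, h.z⟩

/-- the evaluation at the power sums of all variables is invariant -/
lemma dec_act (q : PQ D (ZZ D)) (σ : W (sub D N)) :
    act (sub D N) (ZZ D) σ (evS (sub D N) (ZZ D) Finset.univ q) =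
      evS (sub D N) (ZZ D) Finset.univ q := by
  have h1 : ((act (sub D N) (ZZ D) σ : S (sub D N) (ZZ D) →ₐ[ℂ] S (sub D N) (ZZ D))).comp
      (evS (sub D N) (ZZ D) Finset.univ) = evS (sub D N) (ZZ D) Finset.univ := by
    refine MvPolynomial.algHom_ext fun i => ?_
    rw [AlgHom.comp_apply, evS, aeval_X]
    rcases i with p | z
    · refine (act_ps (sub D N) (ZZ D) σ _ _ _).trans ?_
      rw [mp_univ']
      rfl
    · exact act_inr (sub D N) (ZZ D) σ _
  exact DFunLike.congr_fun h1 q

/-- `levU` for `sub D N`, `wX (sub D N)`, `r = evS univ q` (invariant: `act_ps`), `lab_wX`, `nv_wX`;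
`r * ddT ∈ cutU` because `ddT ∈ cutU`; then `transfer` (`ntU (sub D N) N m n` and `ntU D N m n` are
the same proposition) -/
theorem decU (h : ¬ Root D N) : ∃ m, 1 ≤ m ∧ ∀ (w : Wts D (ZZ D)), w = wX D ∨ w = opW (wX D) →
    ∀ q : PQ D (ZZ D), slot w 0 (fam D (ZZ D) N q) *
      AddMonoidAlgebra.single 0 (del D (ZZ D) ^ (m - 1)) ∈ VV w e0 m (ntU D N m) := by
  have h0 : ddT (sub D N) (ZZ D) ∈ cutU (wX (sub D N)) := not_not.1 h
  refine ⟨Fintype.card (B (sub D N)) + 1, Nat.le_add_left 1 _, fun w hw q => ?_⟩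
  have hr : ∀ σ, act (sub D N) (ZZ D) σ (evS (sub D N) (ZZ D) Finset.univ q) =
      evS (sub D N) (ZZ D) Finset.univ q := dec_act D N q
  have hm : evS (sub D N) (ZZ D) Finset.univ q * ddT (sub D N) (ZZ D) ∈ cutU (wX (sub D N)) :=
    Ideal.mul_mem_left _ _ h0
  rcases hw with rfl | rfl
  · exact transfer (cpt_wX D N) e0 (Nat.le_add_left 1 _) (ntU D N _) (fun n hn => hn.1) q
      (levU (wX (sub D N)) (lab_wX (sub D N)) (nv_wX (sub D N)) hr hm le_rfl
        (wX (sub D N)) (Or.inl rfl))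
  · exact transfer (cpt_op D N (cpt_wX D N)) e0 (Nat.le_add_left 1 _) (ntU D N _)
      (fun n hn => hn.1) q
      (levU (wX (sub D N)) (lab_wX (sub D N)) (nv_wX (sub D N)) hr hm le_rfl
        (opW (wX (sub D N))) (Or.inr rfl))

/-- the same with `levF` -/
theorem decF (h : ¬ FrRoot D N) : ∃ m, 1 ≤ m ∧ ∀ (w : Wts D (ZZ D)), w = wX D ∨ w = opW (wX D) →
    ∀ q : PQ D (ZZ D), slot w 0 (fam D (ZZ D) N q) *
      AddMonoidAlgebra.single 0 (del D (ZZ D) ^ (m - 1)) ∈ VV w (ep 1) m (ntF D N m) := by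
  have h0 : ddT (sub D N) (ZZ D) ∈ cutI (wX (sub D N)) := not_not.1 h
  refine ⟨Fintype.card (B (sub D N)) + 1, Nat.le_add_left 1 _, fun w hw q => ?_⟩
  have hr : ∀ σ, act (sub D N) (ZZ D) σ (evS (sub D N) (ZZ D) Finset.univ q) =
      evS (sub D N) (ZZ D) Finset.univ q := dec_act D N q
  have hm : evS (sub D N) (ZZ D) Finset.univ q * ddT (sub D N) (ZZ D) ∈ cutI (wX (sub D N)) :=
    Ideal.mul_mem_left _ _ h0
  rcases hw with rfl | rfl
  · exact transfer (cpt_wX D N) (ep 1) (Nat.le_add_left 1 _) (ntF D N _) (fun n hn => hn.1) q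
      (levF (wX (sub D N)) (lab_wX (sub D N)) (nv_wX (sub D N)) hr hm le_rfl
        (wX (sub D N)) (Or.inl rfl))
  · exact transfer (cpt_op D N (cpt_wX D N)) (ep 1) (Nat.le_add_left 1 _) (ntF D N _)
      (fun n hn => hn.1) q
      (levF (wX (sub D N)) (lab_wX (sub D N)) (nv_wX (sub D N)) hr hm le_rfl
        (opW (wX (sub D N))) (Or.inr rfl))

end Vale.Agent.P291.H.N
end
end

section

section

set_option autoImplicit false
set_option linter.unusedSectionVars false

/-! Evaluation of products of slots in the abelianized algebra. -/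

namespace Vale.Agent.P291.H.N

open MvPolynomial Vale.Agent.P291.G Vale.Agent.P291.H.M

variable (D : QData) {K L : Type} [Field K] [Algebra ℂ K] [CommRing L] [Algebra K L]
  (x : B D → K) (y : Fin D.rk → K) (u : Module.Basis (B D → ℤ) K L)

/-- evaluation of the coefficients, `u^l ↦ U l` -/
noncomputable def Ev (U : (B D → ℤ) → L) (h0 : U 0 = 1) (hU : ∀ l l', U (l + l') = U l * U l') :
    AddMonoidAlgebra (S D (ZZ D)) (B D → ℤ) →+* L :=
  AddMonoidAlgebra.liftNCRingHom
    ((algebraMap K L).comp (((EV D x y).comp (spec D)).toRingHom))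
    { toFun := fun l => U (Multiplicative.toAdd l)
      map_one' := h0
      map_mul' := fun _ _ => hU _ _ }
    (fun _ _ => Commute.all _ _)

lemma Ev_single (U : (B D → ℤ) → L) (h0 : U 0 = 1) (hU : ∀ l l', U (l + l') = U l * U l')
    (l : B D → ℤ) (s : S D (ZZ D)) :
    Ev D x y U h0 hU (AddMonoidAlgebra.single l s) = EV D x y (spec D s) • U l := by
  rw [Algebra.smul_def]
  unfold Ev
  rw [AddMonoidAlgebra.liftNCRingHom_single]
  rfl

/-- positive operator of an alternating family -/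
noncomputable def opP (φ : Finset (B D) → S D (Fin D.rk)) : L :=
  ∑ A, (EV D x y (φ A * (e (wF D) A * zs (wF D) A))) • u (ind D A)

/-- negative operator of an alternating family -/
noncomputable def opN (ψ : Finset (B D) → S D (Fin D.rk)) : L :=
  ∑ C, (EV D x y (ψ C * e (wF D) Cᶜ)) • u (-ind D C)

/-- specialization of a family -/
noncomputable def sp (φ : Finset (B D) → S D (ZZ D)) (A : Finset (B D)) : S D (Fin D.rk) :=
  spec D (φ A)

/-- product of powers of the weights of the framing -/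
noncomputable def zp (l : B D → ℤ) : K := ∏ b, EV D x y ((wF D).z b) ^ l b

/-- the four evaluations: `U1`, `U2` for the framed theorem, `U3`, `U4` for the unframed one -/
noncomputable def U1 (l : B D → ℤ) : L := u l
noncomputable def U2 (l : B D → ℤ) : L := zp D x y (-l) • u (-l)
noncomputable def U3 (l : B D → ℤ) : L := zp D x y l • u l
noncomputable def U4 (l : B D → ℤ) : L := u (-l)

variable (hxy : AlgebraicIndependent ℂ (Sum.elim x y)) (hu : ∀ l l', u (l + l') = u l * u l')

include hxy in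
private lemma n10_zs_ne (b : B D) : EV D x y ((wF D).z b) ≠ 0 := fun h =>
  (wF D).z_ne b (EV_inj D x y hxy (h.trans (map_zero (EV D x y)).symm))

private lemma n10_zp_zero : zp D x y 0 = 1 := by
  rw [zp]
  exact Finset.prod_eq_one fun b _ => by rw [Pi.zero_apply, zpow_zero]

include hxy in
private lemma n10_zp_add (l l' : B D → ℤ) : zp D x y (l + l') = zp D x y l * zp D x y l' := by
  rw [zp, zp, zp, ← Finset.prod_mul_distrib]
  refine Finset.prod_congr rfl fun b _ => ?_
  rw [Pi.add_apply, zpow_add₀ (n10_zs_ne D x y hxy b)]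

include hu in
lemma U1_zero : U1 D u 0 = 1 := PadAux.pu_zero D u hu

include hu in
lemma U1_add (l l' : B D → ℤ) : U1 D u (l + l') = U1 D u l * U1 D u l' := hu l l'

include hu hxy in
lemma U2_zero : U2 D x y u 0 = 1 := by
  rw [U2, neg_zero, n10_zp_zero, one_smul, PadAux.pu_zero D u hu]

include hu hxy in
lemma U2_add (l l' : B D → ℤ) : U2 D x y u (l + l') = U2 D x y u l * U2 D x y u l' := by
  rw [U2, U2, U2, neg_add, n10_zp_add D x y hxy, hu, smul_mul_smul_comm]

include hu hxy in
lemma U3_zero : U3 D x y u 0 = 1 := by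
  rw [U3, n10_zp_zero, one_smul, PadAux.pu_zero D u hu]

include hu hxy in
lemma U3_add (l l' : B D → ℤ) : U3 D x y u (l + l') = U3 D x y u l * U3 D x y u l' := by
  rw [U3, U3, U3, n10_zp_add D x y hxy, hu, smul_mul_smul_comm]

include hu in
lemma U4_zero : U4 D u 0 = 1 := by
  rw [U4, neg_zero, PadAux.pu_zero D u hu]

include hu in
lemma U4_add (l l' : B D → ℤ) : U4 D u (l + l') = U4 D u l * U4 D u l' := by
  rw [U4, U4, U4, neg_add, hu]

/-- `spec` maps the weights `wX` to `wF` (`spec_e`, `spec_zs` in M/Spec.lean) -/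
theorem ev1_one (φ : Finset (B D) → S D (ZZ D)) :
    Ev D x y (U1 D u) (U1_zero D u hu) (U1_add D u hu) (slot (wX D) 1 φ) = opP D x y u (sp D φ) := by
  change Ev D x y (U1 D u) (U1_zero D u hu) (U1_add D u hu)
    (∑ A, AddMonoidAlgebra.single (ind D A) (φ A * (e (wX D) A * zs (wX D) A ^ 1))) = _
  rw [map_sum, opP]
  refine Finset.sum_congr rfl fun A _ => ?_
  rw [Ev_single, pow_one, map_mul (spec D), map_mul (spec D), spec_e, spec_zs, U1, sp]

/-- reindex by `A = Cᶜ`, `ind Cᶜ = ind univ - ind C` -/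
theorem ev1_zero (φ : Finset (B D) → S D (ZZ D)) :
    Ev D x y (U1 D u) (U1_zero D u hu) (U1_add D u hu) (slot (wX D) 0 φ) =
      U1 D u (ind D Finset.univ) * opN D x y u (sp D fun C => φ Cᶜ) := by
  change Ev D x y (U1 D u) (U1_zero D u hu) (U1_add D u hu)
    (∑ A, AddMonoidAlgebra.single (ind D A) (φ A * (e (wX D) A * zs (wX D) A ^ 0))) = _
  rw [map_sum, opN, Finset.mul_sum,
    ← Equiv.sum_comp (compl_involutive (α := Finset (B D))).toPerm]
  refine Finset.sum_congr rfl fun C _ => ?_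
  change Ev D x y (U1 D u) (U1_zero D u hu) (U1_add D u hu)
    (AddMonoidAlgebra.single (ind D Cᶜ) (φ Cᶜ * (e (wX D) Cᶜ * zs (wX D) Cᶜ ^ 0))) =
    U1 D u (ind D Finset.univ) * EV D x y (spec D (φ Cᶜ) * e (wF D) Cᶜ) • u (-ind D C)
  have h1 : ind D Cᶜ = ind D Finset.univ + -ind D C := by
    funext b
    rw [Pi.add_apply, Pi.neg_apply, ind, ind, ind, if_pos (Finset.mem_univ b)]
    by_cases hb : b ∈ C
    · rw [if_neg (by simpa only [Finset.mem_compl, Decidable.not_not] using hb), if_pos hb, add_neg_cancel]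
    · rw [if_pos (by simpa using hb), if_neg hb, neg_zero, add_zero]
  rw [Ev_single, pow_zero, mul_one, map_mul (spec D), spec_e, U1, U1, mul_smul_comm, h1, hu]

/-! ### the evaluations `ev2`, `ev3`, `ev4` -/

lemma Ev_slot (U : (B D → ℤ) → L) (h0 : U 0 = 1) (hU : ∀ l l', U (l + l') = U l * U l')
    (w : Wts D (ZZ D)) (ε : ℕ) (φ : Finset (B D) → S D (ZZ D)) :
    Ev D x y U h0 hU (slot w ε φ) =
      ∑ A, EV D x y (spec D (φ A * (e w A * zs w A ^ ε))) • U (ind D A) := by
  change Ev D x y U h0 hU (∑ A, AddMonoidAlgebra.single (ind D A) (φ A * (e w A * zs w A ^ ε))) = _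
  rw [map_sum]
  exact Finset.sum_congr rfl fun A _ => Ev_single D x y U h0 hU _ _

lemma e_opW {Z : Type} (w : Wts D Z) (A : Finset (B D)) : e (opW w) A = e w Aᶜ := by
  unfold e
  rw [compl_compl, Finset.prod_comm]
  rfl

lemma zs_opW {Z : Type} (w : Wts D Z) (A : Finset (B D)) : zs (opW w) A = zs w A := rfl

lemma EV_zs (A : Finset (B D)) : EV D x y (zs (wF D) A) = ∏ b ∈ A, EV D x y ((wF D).z b) := by
  rw [zs, map_prod]

lemma zp_ind (A : Finset (B D)) : zp D x y (ind D A) = EV D x y (zs (wF D) A) := by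
  rw [EV_zs, zp, ← Finset.prod_mul_prod_compl A]
  have h1 : ∏ b ∈ Aᶜ, EV D x y ((wF D).z b) ^ ind D A b = 1 := by
    refine Finset.prod_eq_one fun b hb => ?_
    rw [ind, if_neg (Finset.mem_compl.1 hb), zpow_zero]
  rw [h1, mul_one]
  refine Finset.prod_congr rfl fun b hb => ?_
  rw [ind, if_pos hb, zpow_one]

lemma zp_neg (l : B D → ℤ) : zp D x y (-l) = (zp D x y l)⁻¹ := by
  rw [zp, zp, ← Finset.prod_inv_distrib]
  refine Finset.prod_congr rfl fun b _ => ?_
  rw [Pi.neg_apply, zpow_neg]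

include hxy in
lemma EV_zs_ne (A : Finset (B D)) : EV D x y (zs (wF D) A) ≠ 0 := by
  intro h
  have h1 := EV_inj D x y hxy (h.trans (map_zero (EV D x y)).symm)
  rw [zs, Finset.prod_eq_zero_iff] at h1
  obtain ⟨b, _, hb⟩ := h1
  exact (wF D).z_ne b hb

lemma ind_compl (A : Finset (B D)) : ind D Aᶜ = ind D Finset.univ - ind D A := by
  funext b
  rw [Pi.sub_apply, ind, ind, ind, if_pos (Finset.mem_univ b)]
  by_cases hb : b ∈ A
  · rw [if_neg (by simpa using hb), if_pos hb, sub_self]
  · rw [if_pos (by simpa using hb), if_neg hb, sub_zero]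

/-- `e (opW w) A = e w Aᶜ`; `zs A * zp (-ind A) = 1` -/
theorem ev2_one (φ : Finset (B D) → S D (ZZ D)) :
    Ev D x y (U2 D x y u) (U2_zero D x y u hxy hu) (U2_add D x y u hxy hu)
      (slot (opW (wX D)) 1 φ) = opN D x y u (sp D φ) := by
  rw [Ev_slot, opN]
  refine Finset.sum_congr rfl fun A _ => ?_
  rw [pow_one, e_opW, zs_opW, map_mul (spec D), map_mul (spec D), spec_e, spec_zs, U2, smul_smul,
    zp_neg, zp_ind, map_mul, map_mul, sp, map_mul]
  congr 1
  have h := EV_zs_ne D x y hxy A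
  field_simp

theorem ev2_zero (φ : Finset (B D) → S D (ZZ D)) :
    Ev D x y (U2 D x y u) (U2_zero D x y u hxy hu) (U2_add D x y u hxy hu)
      (slot (opW (wX D)) 0 φ) =
      U2 D x y u (ind D Finset.univ) * opP D x y u (sp D fun C => φ Cᶜ) := by
  rw [Ev_slot, opP, Finset.mul_sum, ← Equiv.sum_comp (compl_involutive (α := Finset (B D))).toPerm]
  refine Finset.sum_congr rfl fun A _ => ?_
  change EV D x y (spec D (φ Aᶜ * (e (opW (wX D)) Aᶜ * zs (opW (wX D)) Aᶜ ^ 0))) •
    U2 D x y u (ind D Aᶜ) = U2 D x y u (ind D Finset.univ) *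
      EV D x y (spec D (φ Aᶜ) * (e (wF D) A * zs (wF D) A)) • u (ind D A)
  rw [pow_zero, mul_one, e_opW, compl_compl, map_mul, spec_e, U2, U2, smul_smul, mul_smul_comm,
    smul_mul_assoc, smul_smul, ← hu, ind_compl]
  have e1 : -(ind D Finset.univ - ind D A) = -ind D Finset.univ + ind D A := by abel
  rw [e1]
  congr 1
  rw [map_mul, map_mul, map_mul, ← e1, ← ind_compl, zp_neg, zp_neg, zp_ind, zp_ind]
  have h1 := EV_zs_ne D x y hxy A
  have h2 := EV_zs_ne D x y hxy Aᶜ
  have h3 : EV D x y (zs (wF D) Finset.univ) =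
      EV D x y (zs (wF D) A) * EV D x y (zs (wF D) Aᶜ) := by
    rw [EV_zs, EV_zs, EV_zs, Finset.prod_mul_prod_compl]
  rw [h3]
  field_simp

theorem ev3_zero (φ : Finset (B D) → S D (ZZ D)) :
    Ev D x y (U3 D x y u) (U3_zero D x y u hxy hu) (U3_add D x y u hxy hu)
      (slot (wX D) 0 φ) = opP D x y u (sp D φ) := by
  rw [Ev_slot, opP]
  refine Finset.sum_congr rfl fun A _ => ?_
  rw [pow_zero, mul_one, map_mul, spec_e, U3, smul_smul, zp_ind, map_mul, map_mul, map_mul, sp,
    mul_assoc]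

theorem ev4_zero (φ : Finset (B D) → S D (ZZ D)) :
    Ev D x y (U4 D u) (U4_zero D u hu) (U4_add D u hu)
      (slot (opW (wX D)) 0 φ) = opN D x y u (sp D φ) := by
  rw [Ev_slot, opN]
  refine Finset.sum_congr rfl fun A _ => ?_
  rw [pow_zero, mul_one, e_opW, map_mul, spec_e, U4, sp]

end Vale.Agent.P291.H.N
end
end

section

section

set_option autoImplicit false
set_option linter.unusedSectionVars false

/-! Values of products of slots. -/

namespace Vale.Agent.P291.H.N

open MvPolynomial Vale.Agent.P291.G Vale.Agent.P291.H.M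

variable (D : QData) {K L : Type} [Field K] [Algebra ℂ K] [CommRing L] [Algebra K L]
  (x : B D → K) (y : Fin D.rk → K) (u : Module.Basis (B D → ℤ) K L) (ν : D.I → ℤ)

/-- value of `del` -/
noncomputable def dl0 : K := EV D x y (del D (Fin D.rk))

/-- all values of the slot space are in `δ • U₀ * coulomb` -/
def SC (w : Wts D (ZZ D)) (E : AddMonoidAlgebra (S D (ZZ D)) (B D → ℤ) →+* L) (U₀ : L) (ε : ℕ)
    (n : D.I → ℕ) : Prop :=
  ∀ φ ∈ AF D (ZZ D) n, ∃ c ∈ coulomb D x y u, E (slot w ε φ) = dl0 D x y • (U₀ * c)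

/-- all values of the slot space are in `δ • U₀ * fixI` -/
def SG (w : Wts D (ZZ D)) (E : AddMonoidAlgebra (S D (ZZ D)) (B D → ℤ) →+* L) (U₀ : L) (ε : ℕ)
    (n : D.I → ℕ) : Prop :=
  ∀ φ ∈ AF D (ZZ D) n, ∃ c ∈ fixI D x y u ν, E (slot w ε φ) = dl0 D x y • (U₀ * c)

section
variable {D x y u ν}

lemma words_C_mem (c : ℂ) : algebraMap K L (algebraMap ℂ K c) ∈ coulomb D x y u := by
  refine R_mem_coulomb D x y u ⟨C c, fun σ => ?_⟩
  rw [pol_eq, EV, aeval_C]

lemma words_prod_coulomb {δ : K} (m : ℕ) (f : ℕ → L)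
    (h : ∀ j, j < m → ∃ c ∈ coulomb D x y u, f j = δ • c) :
    ∃ c ∈ coulomb D x y u, ∏ j ∈ Finset.range m, f j = δ ^ m • c := by
  induction m with
  | zero =>
    exact ⟨1, Subring.one_mem _, by rw [Finset.range_zero, Finset.prod_empty, pow_zero, one_smul]⟩
  | succ m ih =>
    obtain ⟨c, hc, h1⟩ := ih fun j hj => h j (Nat.lt_succ_of_lt hj)
    obtain ⟨d, hd, h2⟩ := h m (Nat.lt_succ_self m)
    refine ⟨c * d, Subring.mul_mem _ hc hd, ?_⟩
    rw [Finset.prod_range_succ, h1, h2, smul_mul_smul_comm, pow_succ]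

lemma words_prod_fixI {δ : K} (m : ℕ) (f : ℕ → L)
    (h : ∀ j, j < m → ∃ c ∈ coulomb D x y u, f j = δ • c)
    (hg : ∃ j, j < m ∧ ∃ c ∈ fixI D x y u ν, f j = δ • c) :
    ∃ c ∈ fixI D x y u ν, ∏ j ∈ Finset.range m, f j = δ ^ m • c := by
  induction m with
  | zero =>
    obtain ⟨j, hj, _⟩ := hg
    exact absurd hj (Nat.not_lt_zero j)
  | succ m ih =>
    obtain ⟨j, hj, d, hd, h2⟩ := hg
    by_cases hjm : j = m
    · subst hjm
      obtain ⟨c, hc, h1⟩ := words_prod_coulomb (δ := δ) j f fun i hi => h i (Nat.lt_succ_of_lt hi)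
      refine ⟨c * d, fixI_mul D x y u ν hc hd, ?_⟩
      rw [Finset.prod_range_succ, h1, h2, smul_mul_smul_comm, pow_succ]
    · obtain ⟨c, hc, h1⟩ := ih (fun i hi => h i (Nat.lt_succ_of_lt hi))
        ⟨j, by omega, d, hd, h2⟩
      obtain ⟨b, hb, h3⟩ := h m (Nat.lt_succ_self m)
      refine ⟨b * c, fixI_mul D x y u ν hb hc, ?_⟩
      rw [Finset.prod_range_succ, h1, h3, smul_mul_smul_comm, pow_succ, mul_comm b c]

end

/-- Proof: `prod_ind` (M/UUform.lean) with the predicate `∃ c ∈ fixI, E X = dl0 ^ m • (U₀ * c)`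
(for the scalars: `C a • ·`; `fixI` and `coulomb` are closed under multiplication with complex
numbers, which are in `R`, `R_mem_coulomb`; `E (c • X) = algebraMap .. * E X` from
`single 0 (C c)`; hypothesis `hE`). A pure product: all factors are in `δ • coulomb` up to `U₀` for the
slot `0`, one of them in `δ • fixI`; `fixI_mul`. -/
theorem words {w : Wts D (ZZ D)} {E : AddMonoidAlgebra (S D (ZZ D)) (B D → ℤ) →+* L} {U₀ : L}
    (hE : ∀ (c : ℂ) X, E (c • X) = algebraMap K L (algebraMap ℂ K c) * E X)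
    {ε : ℕ → ℕ} {m : ℕ} (hm : 1 ≤ m) {n : ℕ → D.I → ℕ}
    (h0 : SC D x y u w E U₀ (ε 0) (n 0))
    (h1 : ∀ j, 1 ≤ j → j < m → SC D x y u w E 1 (ε j) (n j))
    (hg : SG D x y u ν w E U₀ (ε 0) (n 0) ∨
      ∃ j, 1 ≤ j ∧ j < m ∧ SG D x y u ν w E 1 (ε j) (n j))
    {X : AddMonoidAlgebra (S D (ZZ D)) (B D → ℤ)} (hX : X ∈ UU w ε m n) :
    ∃ c ∈ fixI D x y u ν, E X = dl0 D x y ^ m • (U₀ * c) := by
  classical
  obtain ⟨m, rfl⟩ : ∃ m', m = m' + 1 := ⟨m - 1, by omega⟩
  refine prod_ind (m + 1) (fun j => U w (ε j) (n j))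
    (fun X => ∃ c ∈ fixI D x y u ν, E X = dl0 D x y ^ (m + 1) • (U₀ * c)) ?_ ?_ ?_ X hX
  · rintro X Y ⟨c, hc, h⟩ ⟨d, hd, h'⟩
    exact ⟨c + d, AddSubgroup.add_mem _ hc hd, by rw [map_add, h, h', mul_add, smul_add]⟩
  · rintro a X ⟨c, hc, h⟩
    refine ⟨algebraMap K L (algebraMap ℂ K a) * c, fixI_mul D x y u ν (words_C_mem a) hc, ?_⟩
    rw [hE, h, mul_smul_comm, mul_left_comm]
  · intro Y hY
    have h2 : ∀ j, 1 ≤ j → j < m + 1 → ∃ c ∈ coulomb D x y u, E (Y j) = dl0 D x y • c := by
      intro j hj hjm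
      obtain ⟨φ, hφ, h⟩ := hY j hjm
      obtain ⟨c, hc, h'⟩ := h1 j hj hjm φ hφ
      exact ⟨c, hc, by rw [← h, h', one_mul]⟩
    obtain ⟨φ, hφ, h3⟩ := hY 0 (Nat.succ_pos m)
    rw [map_prod, Finset.prod_range_succ']
    rcases hg with hg | ⟨j, hj, hjm, hg⟩
    · obtain ⟨c, hc, h4⟩ := hg φ hφ
      obtain ⟨d, hd, h5⟩ := words_prod_coulomb (D := D) (x := x) (y := y) (u := u)
        (δ := dl0 D x y) m (fun j => E (Y (j + 1))) fun j hj => h2 (j + 1) (by omega) (by omega)
      refine ⟨d * c, fixI_mul D x y u ν hd hc, ?_⟩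
      rw [h5, ← h3, h4, smul_mul_smul_comm, pow_succ, mul_left_comm]
    · obtain ⟨c, hc, h4⟩ := h0 φ hφ
      obtain ⟨d, hd, h5⟩ := words_prod_fixI (D := D) (x := x) (y := y) (u := u) (ν := ν)
        (δ := dl0 D x y) m (fun j => E (Y (j + 1))) (fun j hj => h2 (j + 1) (by omega) (by omega))
        (by
          obtain ⟨ψ, hψ, h⟩ := hY j hjm
          obtain ⟨c, hc, h'⟩ := hg ψ hψ
          refine ⟨j - 1, by omega, c, hc, ?_⟩
          rw [Nat.sub_add_cancel hj, ← h, h', one_mul])
      refine ⟨c * d, fixI_mul D x y u ν hc hd, ?_⟩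
      rw [h5, ← h3, h4, smul_mul_smul_comm, pow_succ, mul_left_comm, mul_comm d c]

/-- Proof: `Submodule.iSup_induction` (or `VV` as a sum) for `VV`, and division by `dl0 ^ (m-1)`;
`E (single 0 (del ^ (m-1))) = dl0 ^ (m-1) • 1` is the hypothesis `hd`. -/
theorem words_VV {w : Wts D (ZZ D)} {E : AddMonoidAlgebra (S D (ZZ D)) (B D → ℤ) →+* L} {U₀ : L}
    (hxy : AlgebraicIndependent ℂ (Sum.elim x y))
    {ε : ℕ → ℕ} {m : ℕ} (hm : 1 ≤ m) {Pr : (ℕ → D.I → ℕ) → Prop}
    (hd : ∀ k, E (AddMonoidAlgebra.single 0 (del D (ZZ D) ^ k)) = algebraMap K L (dl0 D x y ^ k))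
    (hP : ∀ n, Pr n → ∀ X ∈ UU w ε m n, ∃ c ∈ fixI D x y u ν, E X = dl0 D x y ^ m • (U₀ * c))
    {Y : AddMonoidAlgebra (S D (ZZ D)) (B D → ℤ)}
    (hY : Y * AddMonoidAlgebra.single 0 (del D (ZZ D) ^ (m - 1)) ∈ VV w ε m Pr) :
    ∃ c ∈ fixI D x y u ν, E Y = dl0 D x y • (U₀ * c) := by
  have h0 : dl0 D x y ≠ 0 := by
    rw [dl0, Ne, ← map_zero (EV D x y)]
    exact fun h => del_ne_zero D (Fin D.rk) (EV_inj D x y hxy h)
  have h1 : ∀ X ∈ VV w ε m Pr, ∃ c ∈ fixI D x y u ν, E X = dl0 D x y ^ m • (U₀ * c) := by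
    intro X hX
    have hz : ∃ c ∈ fixI D x y u ν,
        E (0 : AddMonoidAlgebra (S D (ZZ D)) (B D → ℤ)) = dl0 D x y ^ m • (U₀ * c) :=
      ⟨0, zero_mem _, by rw [map_zero, mul_zero, smul_zero]⟩
    have ha : ∀ X Y, (∃ c ∈ fixI D x y u ν, E X = dl0 D x y ^ m • (U₀ * c)) →
        (∃ c ∈ fixI D x y u ν, E Y = dl0 D x y ^ m • (U₀ * c)) →
        ∃ c ∈ fixI D x y u ν, E (X + Y) = dl0 D x y ^ m • (U₀ * c) := by
      rintro X Y ⟨c, hc, hX⟩ ⟨d, hd, hY⟩
      exact ⟨c + d, add_mem hc hd, by rw [map_add, hX, hY, mul_add, smul_add]⟩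
    refine Submodule.iSup_induction _ (motive := fun X => ∃ c ∈ fixI D x y u ν,
      E X = dl0 D x y ^ m • (U₀ * c)) hX (fun n X hX => ?_) hz ha
    refine Submodule.iSup_induction _ (motive := fun X => ∃ c ∈ fixI D x y u ν,
      E X = dl0 D x y ^ m • (U₀ * c)) hX (fun hn X hX => hP n hn X hX) hz ha
  obtain ⟨c, hc, h2⟩ := h1 _ hY
  refine ⟨c, hc, ?_⟩
  rw [map_mul, hd, ← Algebra.commutes, ← Algebra.smul_def] at h2
  have h3 : dl0 D x y ^ m = dl0 D x y ^ (m - 1) * dl0 D x y := by
    rw [← pow_succ, Nat.sub_add_cancel hm]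
  rw [h3, mul_smul] at h2
  have h4 := congrArg (fun z : L => (dl0 D x y ^ (m - 1))⁻¹ • z) h2
  rwa [inv_smul_smul₀ (pow_ne_zero _ h0), inv_smul_smul₀ (pow_ne_zero _ h0)] at h4

end Vale.Agent.P291.H.N
end
end

section

section

set_option autoImplicit false
set_option linter.unusedSectionVars false

/-! Linearity over the invariants; relation with the monopole operators. -/

namespace Vale.Agent.P291.H.N

open MvPolynomial Vale.Agent.P291.G Vale.Agent.P291.H.M

variable (D : QData) {K L : Type} [Field K] [Algebra ℂ K] [CommRing L] [Algebra K L]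
  (x : B D → K) (y : Fin D.rk → K) (u : Module.Basis (B D → ℤ) K L) (ν : D.I → ℤ)

/-- complement of an alternating family -/
lemma compl_mem {Z : Type} {n : D.I → ℕ} (hn : n ≤ D.v) {φ : Finset (B D) → S D Z}
    (h : φ ∈ AF D Z n) : (fun C => φ Cᶜ) ∈ AF D Z (D.v - n) := by
  obtain ⟨h1, h2⟩ := h
  refine ⟨fun σ A => ?_, fun A hA => ?_⟩
  · have h3 := h1 σ Aᶜ
    rw [mp_compl] at h3
    exact h3
  · refine h2 Aᶜ fun h3 => hA ?_
    have h4 := typ_compl D Aᶜ
    rw [compl_compl, h3] at h4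
    exact h4

lemma opP_add (φ ψ : Finset (B D) → S D (Fin D.rk)) :
    opP D x y u (φ + ψ) = opP D x y u φ + opP D x y u ψ := by
  rw [opP, opP, opP, ← Finset.sum_add_distrib]
  refine Finset.sum_congr rfl fun A _ => ?_
  rw [Pi.add_apply, add_mul, map_add, add_smul]

lemma opP_mul (r : S D (Fin D.rk)) (φ : Finset (B D) → S D (Fin D.rk)) :
    opP D x y u (fun A => r * φ A) = EV D x y r • opP D x y u φ := by
  rw [opP, opP, Finset.smul_sum]
  refine Finset.sum_congr rfl fun A _ => ?_
  rw [mul_assoc, map_mul, mul_smul]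

lemma opN_add (φ ψ : Finset (B D) → S D (Fin D.rk)) :
    opN D x y u (φ + ψ) = opN D x y u φ + opN D x y u ψ := by
  rw [opN, opN, opN, ← Finset.sum_add_distrib]
  refine Finset.sum_congr rfl fun A _ => ?_
  rw [Pi.add_apply, add_mul, map_add, add_smul]

lemma opN_mul (r : S D (Fin D.rk)) (φ : Finset (B D) → S D (Fin D.rk)) :
    opN D x y u (fun A => r * φ A) = EV D x y r • opN D x y u φ := by
  rw [opN, opN, Finset.smul_sum]
  refine Finset.sum_congr rfl fun A _ => ?_
  rw [mul_assoc, map_mul, mul_smul]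

lemma lin_min_ind (A : Finset (B D)) : Min D (ind D A) := by
  intro b
  rw [ind]
  split_ifs
  · exact Or.inr rfl
  · exact Or.inl rfl

/-- the operator of an orbit sum is the alternating sum -/
lemma lin_opP_orb (A₀ : Finset (B D)) (h : S D (Fin D.rk)) :
    opP D x y u (orb D (Fin D.rk) A₀ h) = TT D x y u (ind D A₀) h := by
  classical
  have h1 : ∀ A : Finset (B D), (EV D x y (orb D (Fin D.rk) A₀ h A *
      (e (wF D) A * zs (wF D) A))) • u (ind D A) =
      ∑ τ : W D, if mp D τ A₀ = A then ((sgn D τ : K) * EV D x y (act D (Fin D.rk) τ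
        (h * (e (wF D) A₀ * zs (wF D) A₀)))) • u (ind D (mp D τ A₀)) else 0 := by
    intro A
    rw [orb, Finset.sum_mul, map_sum, Finset.sum_smul]
    refine Finset.sum_congr rfl fun τ _ => ?_
    split_ifs with hA
    · subst hA
      congr 1
      rw [map_mul (act D (Fin D.rk) τ), map_mul (act D (Fin D.rk) τ), act_e, act_zs,
        mul_assoc, map_mul, map_intCast]
    · rw [zero_mul, map_zero, zero_smul]
  rw [opP, Finset.sum_congr rfl fun A _ => h1 A, Finset.sum_comm, TT]
  refine Finset.sum_congr rfl fun τ _ => ?_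
  rw [Finset.sum_ite_eq Finset.univ (mp D τ A₀), if_pos (Finset.mem_univ _), PadAux.ind_comp, eul_ind]
  rfl

lemma lin_opN_orb (A₀ : Finset (B D)) (h : S D (Fin D.rk)) :
    opN D x y u (orb D (Fin D.rk) A₀ h) = TT D x y u (-ind D A₀) h := by
  classical
  have h1 : ∀ A : Finset (B D), (EV D x y (orb D (Fin D.rk) A₀ h A *
      e (wF D) Aᶜ)) • u (-ind D A) =
      ∑ τ : W D, if mp D τ A₀ = A then ((sgn D τ : K) * EV D x y (act D (Fin D.rk) τ
        (h * e (wF D) A₀ᶜ))) • u (-ind D (mp D τ A₀)) else 0 := by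
    intro A
    rw [orb, Finset.sum_mul, map_sum, Finset.sum_smul]
    refine Finset.sum_congr rfl fun τ _ => ?_
    split_ifs with hA
    · subst hA
      congr 1
      rw [map_mul (act D (Fin D.rk) τ), act_e, mp_compl, mul_assoc, map_mul, map_intCast]
    · rw [zero_mul, map_zero, zero_smul]
  rw [opN, Finset.sum_congr rfl fun A _ => h1 A, Finset.sum_comm, TT]
  refine Finset.sum_congr rfl fun τ _ => ?_
  have h2 : (-ind D A₀) ∘ (perm D τ).symm = -ind D (mp D τ A₀) := by
    rw [← PadAux.ind_comp]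
    rfl
  rw [Finset.sum_ite_eq Finset.univ (mp D τ A₀), if_pos (Finset.mem_univ _), h2, eul_neg_ind]
  rfl

/-- without a subset of type `n` the operators vanish -/
lemma lin_opP_zero {n : D.I → ℕ} {φ : Finset (B D) → S D (Fin D.rk)}
    (hφ : φ ∈ AF D (Fin D.rk) n) (hA : ¬ ∃ A₀ : Finset (B D), typ D A₀ = n) :
    opP D x y u φ = 0 := by
  rw [opP]
  refine Finset.sum_eq_zero fun A _ => ?_
  rw [hφ.2 A (fun h => hA ⟨A, h⟩), zero_mul, map_zero, zero_smul]

lemma lin_opN_zero {n : D.I → ℕ} {φ : Finset (B D) → S D (Fin D.rk)}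
    (hφ : φ ∈ AF D (Fin D.rk) n) (hA : ¬ ∃ A₀ : Finset (B D), typ D A₀ = n) :
    opN D x y u φ = 0 := by
  rw [opN]
  refine Finset.sum_eq_zero fun A _ => ?_
  rw [hφ.2 A (fun h => hA ⟨A, h⟩), zero_mul, map_zero, zero_smul]

lemma lin_wt_ind {A₀ : Finset (B D)} {n : D.I → ℕ} (hA : typ D A₀ = n)
    (h : ∑ i, ν i * (n i : ℤ) ≠ 0) : wt D ν (ind D A₀) ≠ 0 := by
  rw [PadAux.pwt_chg, PadAux.pchg_ind, hA]
  exact h

/-- all positive operators of type `n` are in `EV del • fixI` -/
def GP (n : D.I → ℕ) : Prop := ∀ φ ∈ AF D (Fin D.rk) n, ∃ c ∈ fixI D x y u ν,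
  opP D x y u φ = EV D x y (del D (Fin D.rk)) • c

/-- all negative operators of type `n` are in `EV del • fixI` -/
def GN (n : D.I → ℕ) : Prop := ∀ φ ∈ AF D (Fin D.rk) n, ∃ c ∈ fixI D x y u ν,
  opN D x y u φ = EV D x y (del D (Fin D.rk)) • c

variable (hxy : AlgebraicIndependent ℂ (Sum.elim x y)) (hu : ∀ l l', u (l + l') = u l * u l')

include hxy in
/-- `pos_mono` (H/Quad.lean), `mono_mem_coulomb`; if there is no subset of type `n`, `φ = 0` -/
theorem opP_coulomb {n : D.I → ℕ} {φ : Finset (B D) → S D (Fin D.rk)}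
    (hφ : φ ∈ AF D (Fin D.rk) n) :
    ∃ c ∈ coulomb D x y u, opP D x y u φ = EV D x y (del D (Fin D.rk)) • c := by
  by_cases hA : ∃ A₀ : Finset (B D), typ D A₀ = n
  · obtain ⟨A₀, hA₀⟩ := hA
    obtain ⟨f, hf⟩ := pos_mono D x y u hφ hA₀ hxy
    exact ⟨_, mono_mem_coulomb D x y u (lin_min_ind D A₀) f, hf⟩
  · exact ⟨0, Subring.zero_mem _, by rw [lin_opP_zero D x y u hφ hA, smul_zero]⟩

include hxy in
theorem opN_coulomb {n : D.I → ℕ} {φ : Finset (B D) → S D (Fin D.rk)}
    (hφ : φ ∈ AF D (Fin D.rk) n) :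
    ∃ c ∈ coulomb D x y u, opN D x y u φ = EV D x y (del D (Fin D.rk)) • c := by
  by_cases hA : ∃ A₀ : Finset (B D), typ D A₀ = n
  · obtain ⟨A₀, hA₀⟩ := hA
    obtain ⟨f, hf⟩ := neg_mono D x y u hφ hA₀ hxy
    exact ⟨_, mono_neg_mem_coulomb D x y u (lin_min_ind D A₀) f, hf⟩
  · exact ⟨0, Subring.zero_mem _, by rw [lin_opN_zero D x y u hφ hA, smul_zero]⟩

include hxy in
/-- `pos_mono`, `mono_mem_fixI`; `wt D ν (ind A₀) = ∑ i, ν i * typ A₀ i` -/
theorem GP_wt {n : D.I → ℕ} (h : ∑ i, ν i * (n i : ℤ) ≠ 0) : GP D x y u ν n := by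
  intro φ hφ
  by_cases hA : ∃ A₀ : Finset (B D), typ D A₀ = n
  · obtain ⟨A₀, hA₀⟩ := hA
    obtain ⟨f, hf⟩ := pos_mono D x y u hφ hA₀ hxy
    exact ⟨_, mono_mem_fixI D x y u ν (lin_min_ind D A₀) (lin_wt_ind D ν hA₀ h) f, hf⟩
  · exact ⟨0, AddSubgroup.zero_mem _, by rw [lin_opP_zero D x y u hφ hA, smul_zero]⟩

include hxy in
theorem GN_wt {n : D.I → ℕ} (h : ∑ i, ν i * (n i : ℤ) ≠ 0) : GN D x y u ν n := by
  intro φ hφ
  by_cases hA : ∃ A₀ : Finset (B D), typ D A₀ = n
  · obtain ⟨A₀, hA₀⟩ := hA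
    obtain ⟨f, hf⟩ := neg_mono D x y u hφ hA₀ hxy
    exact ⟨_, mono_neg_mem_fixI D x y u ν (lin_min_ind D A₀) (lin_wt_ind D ν hA₀ h) f, hf⟩
  · exact ⟨0, AddSubgroup.zero_mem _, by rw [lin_opN_zero D x y u hφ hA, smul_zero]⟩

include hxy in
/-- `mono_TT` and `TT (ind A₀) h = opP (orb A₀ h)` (cf. `Th_slot_pos` in H/Pad.lean), `orb_mem` -/
theorem mono_of_GP {A₀ : Finset (B D)} (h : GP D x y u ν (typ D A₀)) (f : P D) :
    mono D x y u (ind D A₀) f ∈ fixI D x y u ν := by
  have hl : ∀ b b', ind D A₀ b - ind D A₀ b' ≤ 1 := by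
    intro b b'
    simp only [ind]
    split_ifs <;> norm_num
  obtain ⟨q, hq⟩ := mono_TT D x y u hxy (ind D A₀) hl f
  obtain ⟨c, hc, hc'⟩ := h _ (orb_mem D (Fin D.rk) A₀ q)
  have h1 : EV D x y (Del D) ≠ 0 := EV_Del_ne D x y hxy
  have h2 : EV D x y (del D (Fin D.rk)) = EV D x y (Del D) := rfl
  rw [hq, ← lin_opP_orb, hc', h2, smul_smul, inv_mul_cancel₀ h1, one_smul]
  exact hc

include hxy in
theorem mono_of_GN {A₀ : Finset (B D)} (h : GN D x y u ν (typ D A₀)) (f : P D) :
    mono D x y u (-ind D A₀) f ∈ fixI D x y u ν := by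
  have hl : ∀ b b', (-ind D A₀) b - (-ind D A₀) b' ≤ 1 := by
    intro b b'
    simp only [ind, Pi.neg_apply]
    split_ifs <;> norm_num
  obtain ⟨q, hq⟩ := mono_TT D x y u hxy (-ind D A₀) hl f
  obtain ⟨c, hc, hc'⟩ := h _ (orb_mem D (Fin D.rk) A₀ q)
  have h1 : EV D x y (Del D) ≠ 0 := EV_Del_ne D x y hxy
  have h2 : EV D x y (del D (Fin D.rk)) = EV D x y (Del D) := rfl
  rw [hq, ← lin_opN_orb, hc', h2, smul_smul, inv_mul_cancel₀ h1, one_smul]
  exact hc

end Vale.Agent.P291.H.N
end
end

section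

section

set_option autoImplicit false
set_option linter.unusedSectionVars false

/-! Linearity over the invariants. -/

namespace Vale.Agent.P291.H.N

open MvPolynomial Vale.Agent.P291.G Vale.Agent.P291.H.M

variable (D : QData) {K L : Type} [Field K] [Algebra ℂ K] [CommRing L] [Algebra K L]
  (x : B D → K) (y : Fin D.rk → K) (u : Module.Basis (B D → ℤ) K L) (ν : D.I → ℤ)

lemma lint_spec_ps (A : Finset (B D)) (i : D.I) (j : ℕ) :
    spec D (ps D (ZZ D) A i j) = ps D (Fin D.rk) A i j := by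
  rw [ps, ps, map_sum]
  refine Finset.sum_congr rfl fun b _ => ?_
  rw [apply_ite (spec D), map_pow, map_zero, show spec D (xx D (ZZ D) b) = _ from bl_spec_xq D b]

lemma lint_spec_cr (A C : Finset (B D)) :
    spec D (cr D (ZZ D) A C) = cr D (Fin D.rk) A C := by
  rw [cr, cr, map_prod]
  refine Finset.prod_congr rfl fun a _ => ?_
  rw [map_prod]
  refine Finset.prod_congr rfl fun b _ => ?_
  rw [apply_ite (spec D), map_sub, map_one, show spec D (xx D (ZZ D) a) = _ from bl_spec_xq D a,
    show spec D (xx D (ZZ D) b) = _ from bl_spec_xq D b]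

lemma lint_spec_Dl (A : Finset (B D)) : spec D (Dl D (ZZ D) A) = Dl D (Fin D.rk) A := by
  have h1 := congrArg (spec D) (Dl_spec D (ZZ D) A)
  rw [map_mul, lint_spec_cr, bl_spec_del, Dl_spec D (Fin D.rk) A] at h1
  exact (mul_left_cancel₀ (cr_ne_zero D (Fin D.rk) disjoint_compl_right) h1).symm

/-- inclusion of the polynomials -/
noncomputable def lintI : PQ D (Fin D.rk) →ₐ[ℂ] PQ D (ZZ D) :=
  rename (Sum.map id fun j => Sum.inr (Sum.inr j))

lemma lint_evS (A : Finset (B D)) (q : PQ D (Fin D.rk)) :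
    spec D (evS D (ZZ D) A (lintI D q)) = evS D (Fin D.rk) A q := by
  have h : ((spec D).comp ((evS D (ZZ D) A).comp (lintI D))) = evS D (Fin D.rk) A := by
    apply MvPolynomial.algHom_ext
    rintro (⟨i, j⟩ | j)
    · rw [AlgHom.comp_apply, AlgHom.comp_apply, lintI, rename_X, evS, aeval_X, evS, aeval_X]
      exact lint_spec_ps D A i j
    · rw [AlgHom.comp_apply, AlgHom.comp_apply, lintI, rename_X, evS, aeval_X, evS, aeval_X]
      change spec D (X (Sum.inr (Sum.inr (Sum.inr j)))) = X (Sum.inr j)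
      rw [spec, aeval_X]
      rfl
  exact DFunLike.congr_fun h q

lemma lint_fam (N : D.I → ℕ) (q : PQ D (Fin D.rk)) :
    sp D (fam D (ZZ D) N (lintI D q)) = fam D (Fin D.rk) N q := by
  funext A
  rw [sp, fam, fam]
  split_ifs with h
  · rw [map_mul, lint_spec_Dl, lint_evS]
  · rw [map_zero]

lemma lint_R (i : D.I) (j : ℕ) :
    EV D x y (ps D (Fin D.rk) Finset.univ i j) ∈ R D x y := by
  refine ⟨ps D (Fin D.rk) Finset.univ i j, fun σ => ?_⟩
  rw [pol_act]
  congr 1
  have h := act_ps D (Fin D.rk) σ Finset.univ i j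
  rw [mp_univ'] at h
  exact h

/-- Linearity. Let `T` be additive and linear over the polynomials. If `T` maps the
specializations of all `fam N q` to `EV del • fixI` then it maps `AF N` there.
Proof: `AF_form` (M/AFform.lean): `φ A = Dl A * evA (fun _ => A) Q`, `Q : PP D (Fin D.rk) 1`, for
`typ A = N`. Show for all `Q` by `MvPolynomial.induction_on` the statement: for all
`q : PQ D (Fin D.rk)`, `T (fun A => if typ A = N then Dl A * (evS A q * evA (fun _ => A) Q) else 0)`
is in `EV del • fixI`. `Q = C c`: put the constant into `q`; `fam D (ZZ D) N (rename .. q)`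
(`Sum.map id fun j => Sum.inr (Sum.inr j)`) specializes to `fam D (Fin D.rk) N q`
(`bl_spec_..`: `spec` of `Dl` is `Dl`: as in `spec_AF`, or from `Dl_spec` and `bl_spec_del`, and
`spec (xx b) = xx b`). `Q * X v`: if `v` is a slot variable or a flavor, replace `q` by `q * X ..`; if
`v = inr (inl (i, j))`, use `T (r * ·) = EV r • T`, `r = ps univ i j`, `EV r ∈ R D x y` (`act_ps`),
and `fixI_mul`, `R_mem_coulomb`. -/
theorem lin (hxy : AlgebraicIndependent ℂ (Sum.elim x y)) {N : D.I → ℕ}
    {T : (Finset (B D) → S D (Fin D.rk)) → L} (hT1 : ∀ φ ψ, T (φ + ψ) = T φ + T ψ)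
    (hT2 : ∀ r φ, T (fun A => r * φ A) = EV D x y r • T φ)
    (h : ∀ q : PQ D (ZZ D), ∃ c ∈ fixI D x y u ν,
      T (sp D (fam D (ZZ D) N q)) = EV D x y (del D (Fin D.rk)) • c)
    {φ : Finset (B D) → S D (Fin D.rk)} (hφ : φ ∈ AF D (Fin D.rk) N) :
    ∃ c ∈ fixI D x y u ν, T φ = EV D x y (del D (Fin D.rk)) • c := by
  classical
  -- the property is additive and linear over the invariants
  have Gadd : ∀ φ ψ : Finset (B D) → S D (Fin D.rk),
      (∃ c ∈ fixI D x y u ν, T φ = EV D x y (del D (Fin D.rk)) • c) →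
      (∃ c ∈ fixI D x y u ν, T ψ = EV D x y (del D (Fin D.rk)) • c) →
      ∃ c ∈ fixI D x y u ν, T (φ + ψ) = EV D x y (del D (Fin D.rk)) • c := by
    rintro φ ψ ⟨c, hc, h1⟩ ⟨c', hc', h2⟩
    exact ⟨c + c', AddSubgroup.add_mem _ hc hc', by rw [hT1, h1, h2, smul_add]⟩
  have Gmul : ∀ (r : S D (Fin D.rk)) (φ : Finset (B D) → S D (Fin D.rk)),
      EV D x y r ∈ R D x y → (∃ c ∈ fixI D x y u ν, T φ = EV D x y (del D (Fin D.rk)) • c) →
      ∃ c ∈ fixI D x y u ν, T (fun A => r * φ A) = EV D x y (del D (Fin D.rk)) • c := by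
    rintro r φ hr ⟨c, hc, h1⟩
    refine ⟨algebraMap K L (EV D x y r) * c, fixI_mul D x y u ν (R_mem_coulomb D x y u hr) hc, ?_⟩
    rw [hT2, h1, ← Algebra.smul_def, smul_comm]
  have key : ∀ (Q : PP D (Fin D.rk) 1) (q : PQ D (Fin D.rk)), ∃ c ∈ fixI D x y u ν,
      T (fun A => if typ D A = N then Dl D (Fin D.rk) A *
        (evS D (Fin D.rk) A q * evA D (Fin D.rk) (fun _ : Fin 1 => A) Q) else 0) =
      EV D x y (del D (Fin D.rk)) • c := by
    intro Q
    induction Q using MvPolynomial.induction_on with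
    | C c =>
      intro q
      have h1 := h (lintI D (q * C c))
      rw [lint_fam] at h1
      have h2 : (fun A => if typ D A = N then Dl D (Fin D.rk) A *
          (evS D (Fin D.rk) A q * evA D (Fin D.rk) (fun _ : Fin 1 => A) (C c)) else 0) =
          fam D (Fin D.rk) N (q * C c) := by
        funext A
        rw [fam, map_mul]
        have h3 : evA D (Fin D.rk) (fun _ : Fin 1 => A) (C c) =
            evS D (Fin D.rk) A (C c) := by
          rw [evA, evS, aeval_C, aeval_C]
        rw [h3]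
      rw [h2]
      exact h1
    | add Q Q' ih ih' =>
      intro q
      have h2 : (fun A => if typ D A = N then Dl D (Fin D.rk) A *
          (evS D (Fin D.rk) A q * evA D (Fin D.rk) (fun _ : Fin 1 => A) (Q + Q')) else 0) =
          (fun A => if typ D A = N then Dl D (Fin D.rk) A *
          (evS D (Fin D.rk) A q * evA D (Fin D.rk) (fun _ : Fin 1 => A) Q) else 0) +
          (fun A => if typ D A = N then Dl D (Fin D.rk) A *
          (evS D (Fin D.rk) A q * evA D (Fin D.rk) (fun _ : Fin 1 => A) Q') else 0) := by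
        funext A
        rw [Pi.add_apply]
        split_ifs with hA
        · rw [map_add, mul_add, mul_add]
        · rw [add_zero]
      rw [h2]
      exact Gadd _ _ (ih q) (ih' q)
    | mul_X Q v ih =>
      intro q
      rcases v with ⟨t, i, j⟩ | ⟨i, j⟩ | z
      · have h2 : (fun A => if typ D A = N then Dl D (Fin D.rk) A *
            (evS D (Fin D.rk) A q * evA D (Fin D.rk) (fun _ : Fin 1 => A)
              (Q * X (Sum.inl (t, i, j)))) else 0) =
            (fun A => if typ D A = N then Dl D (Fin D.rk) A *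
            (evS D (Fin D.rk) A (q * X (Sum.inl (i, j))) *
              evA D (Fin D.rk) (fun _ : Fin 1 => A) Q) else 0) := by
          funext A
          rw [map_mul, map_mul, AFform_evA_inl]
          have h3 : evS D (Fin D.rk) A (X (Sum.inl (i, j))) = ps D (Fin D.rk) A i j := by
            rw [evS, aeval_X]
            rfl
          rw [h3]
          split_ifs with hA
          · ring
          · rfl
        rw [h2]
        exact ih _
      · have h2 : (fun A => if typ D A = N then Dl D (Fin D.rk) A *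
            (evS D (Fin D.rk) A q * evA D (Fin D.rk) (fun _ : Fin 1 => A)
              (Q * X (Sum.inr (Sum.inl (i, j))))) else 0) =
            (fun A => ps D (Fin D.rk) Finset.univ i j *
              (if typ D A = N then Dl D (Fin D.rk) A *
            (evS D (Fin D.rk) A q * evA D (Fin D.rk) (fun _ : Fin 1 => A) Q) else 0)) := by
          funext A
          rw [map_mul, AFform_evA_tot]
          split_ifs with hA
          · ring
          · rw [mul_zero]
        rw [h2]
        exact Gmul _ _ (lint_R D x y i j) (ih q)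
      · have h2 : (fun A => if typ D A = N then Dl D (Fin D.rk) A *
            (evS D (Fin D.rk) A q * evA D (Fin D.rk) (fun _ : Fin 1 => A)
              (Q * X (Sum.inr (Sum.inr z)))) else 0) =
            (fun A => if typ D A = N then Dl D (Fin D.rk) A *
            (evS D (Fin D.rk) A (q * X (Sum.inr z)) *
              evA D (Fin D.rk) (fun _ : Fin 1 => A) Q) else 0) := by
          funext A
          rw [map_mul, map_mul, AFform_evA_flavor]
          have h3 : evS D (Fin D.rk) A (X (Sum.inr z)) = X (Sum.inr z) := by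
            rw [evS, aeval_X]
            rfl
          rw [h3]
          split_ifs with hA
          · ring
          · rfl
        rw [h2]
        exact ih _
  obtain ⟨Q, hQ⟩ := AF_form D (Fin D.rk) hφ
  have h1 := key Q 1
  have h2 : (fun A => if typ D A = N then Dl D (Fin D.rk) A *
      (evS D (Fin D.rk) A 1 * evA D (Fin D.rk) (fun _ : Fin 1 => A) Q) else 0) = φ := by
    funext A
    split_ifs with hA
    · rw [map_one, one_mul, hQ A hA]
    · exact (hφ.2 A hA).symm
  rwa [h2] at h1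

end Vale.Agent.P291.H.N
end
end

section

section

set_option autoImplicit false
set_option linter.unusedSectionVars false

/-! The induction: all minuscule operators are in the ideal of a regular character. -/

namespace Vale.Agent.P291.H.N

open MvPolynomial Vale.Agent.P291.G Vale.Agent.P291.H.M

variable (D : QData) (ν : D.I → ℤ)

/-- sums of roots orthogonal to `ν` -/
inductive Sm : (D.I → ℕ) → Prop
  | zero : Sm 0
  | add (n m : D.I → ℕ) : Sm n → Root D m → m ≠ 0 → ∑ i, ν i * (m i : ℤ) = 0 → Sm (n + m)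

/-- regularity in terms of types -/
def HR : Prop := ∀ n₀ m : D.I → ℕ, FrRoot D n₀ → Sm D ν m → n₀ + m = D.v → m = 0

lemma Sm_add {n m : D.I → ℕ} (h : Sm D ν n) (h' : Sm D ν m) : Sm D ν (n + m) := by
  induction h' with
  | zero => rwa [add_zero]
  | add a b _ hb hb0 hw ih =>
    rw [← add_assoc]
    exact Sm.add _ _ ih hb hb0 hw

lemma Sm_wt {n : D.I → ℕ} (h : Sm D ν n) : ∑ i, ν i * (n i : ℤ) = 0 := by
  induction h with
  | zero => simp only [Pi.zero_apply, CharP.cast_eq_zero, mul_zero, Finset.sum_const_zero]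
  | add a b _ _ _ hw ih =>
    have h1 : ∑ i, ν i * (((a + b) i : ℕ) : ℤ) =
        ∑ i, ν i * (a i : ℤ) + ∑ i, ν i * (b i : ℤ) := by
      rw [← Finset.sum_add_distrib]
      exact Finset.sum_congr rfl fun i _ => by rw [Pi.add_apply]; push_cast; ring
    rw [h1, ih, hw, add_zero]

lemma Ind_Sm_sum (s : Finset ℕ) (f : ℕ → D.I → ℕ) (h : ∀ j ∈ s, Sm D ν (f j)) :
    Sm D ν (∑ j ∈ s, f j) :=
  Finset.sum_induction f (Sm D ν) (fun _ _ => Sm_add D ν) Sm.zero h

lemma Ind_sum_lt {n n' : D.I → ℕ} (h : n' ≤ n) (h' : n' ≠ n) : ∑ i, n' i < ∑ i, n i := by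
  obtain ⟨i, hi⟩ := Function.ne_iff.1 h'
  exact Finset.sum_lt_sum (fun j _ => h j) ⟨i, Finset.mem_univ i, lt_of_le_of_ne (h i) hi⟩

variable {K L : Type} [Field K] [Algebra ℂ K] [CommRing L] [Algebra K L]
  (x : B D → K) (y : Fin D.rk → K) (u : Module.Basis (B D → ℤ) K L)
  (hxy : AlgebraicIndependent ℂ (Sum.elim x y)) (hu : ∀ l l', u (l + l') = u l * u l')

/-- operators which are linear over the polynomials, with values in the Coulomb branch -/
structure IndT (T : (Finset (B D) → S D (Fin D.rk)) → L) : Prop where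
  add : ∀ φ ψ, T (φ + ψ) = T φ + T ψ
  mul : ∀ r φ, T (fun A => r * φ A) = EV D x y r • T φ
  mem : ∀ (n : D.I → ℕ) φ, φ ∈ AF D (Fin D.rk) n →
    ∃ c ∈ coulomb D x y u, T φ = EV D x y (del D (Fin D.rk)) • c

/-- all values on the families of type `n` are in `EV del • fixI` -/
def IndG (T : (Finset (B D) → S D (Fin D.rk)) → L) (n : D.I → ℕ) : Prop :=
  ∀ φ ∈ AF D (Fin D.rk) n, ∃ c ∈ fixI D x y u ν, T φ = EV D x y (del D (Fin D.rk)) • c

include hxy in
lemma IndT_P : IndT D x y u (opP D x y u) :=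
  ⟨opP_add D x y u, opP_mul D x y u, fun _ _ h => opP_coulomb D x y u hxy h⟩

include hxy in
lemma IndT_N : IndT D x y u (opN D x y u) :=
  ⟨opN_add D x y u, opN_mul D x y u, fun _ _ h => opN_coulomb D x y u hxy h⟩

section
variable {E : AddMonoidAlgebra (S D (ZZ D)) (B D → ℤ) →+* L}

lemma Ind_smul (hE : ∀ s, E (AddMonoidAlgebra.single 0 s) = algebraMap K L (EV D x y (spec D s)))
    (c : ℂ) (X : AddMonoidAlgebra (S D (ZZ D)) (B D → ℤ)) :
    E (c • X) = algebraMap K L (algebraMap ℂ K c) * E X := by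
  have h1 : c • X = AddMonoidAlgebra.single 0 (algebraMap ℂ (S D (ZZ D)) c) * X :=
    Algebra.smul_def c X
  rw [h1, map_mul, hE, AlgHom.commutes, AlgHom.commutes]

lemma Ind_del (hE : ∀ s, E (AddMonoidAlgebra.single 0 s) = algebraMap K L (EV D x y (spec D s)))
    (k : ℕ) : E (AddMonoidAlgebra.single 0 (del D (ZZ D) ^ k)) =
      algebraMap K L (dl0 D x y ^ k) := by
  rw [hE, map_pow, bl_spec_del, map_pow]
  rfl

lemma Ind_words1 {w : Wts D (ZZ D)}
    (hE : ∀ s, E (AddMonoidAlgebra.single 0 s) = algebraMap K L (EV D x y (spec D s)))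
    {T : (Finset (B D) → S D (Fin D.rk)) → L} (hT : IndT D x y u T)
    (h0 : ∀ φ, E (slot w 0 φ) = T (sp D φ)) {n : D.I → ℕ} (hS : ¬ Sm D ν n)
    (ih : ∀ n', n' ≤ n → n' ≠ n → ¬ Sm D ν n' → IndG D ν x y u T n') {m : ℕ} (hm : 1 ≤ m)
    (n' : ℕ → D.I → ℕ) (hn' : ntU D n m n') (X : AddMonoidAlgebra (S D (ZZ D)) (B D → ℤ))
    (hX : X ∈ UU w e0 m n') :
    ∃ c ∈ fixI D x y u ν, E X = dl0 D x y ^ m • ((1 : L) * c) := by
  have hex : ∃ j, j < m ∧ ¬ Sm D ν (n' j) := by
    by_contra hcon
    refine hS ?_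
    rw [← hn'.1.2]
    refine Ind_Sm_sum D ν _ _ fun j hj => ?_
    by_contra hj'
    exact hcon ⟨j, Finset.mem_range.1 hj, hj'⟩
  obtain ⟨j, hj, hj'⟩ := hex
  have hle : n' j ≤ n := by
    rw [← hn'.1.2]
    exact Finset.single_le_sum (f := n') (fun _ _ _ => Nat.zero_le _) (Finset.mem_range.2 hj)
  have hsc : ∀ i, SC D x y u w E 1 0 (n' i) := fun i ψ hψ => by
    obtain ⟨c, hc, h⟩ := hT.mem _ _ (spec_AF D hψ)
    refine ⟨c, hc, ?_⟩
    rw [h0, one_mul]
    exact h
  have hsg : SG D x y u ν w E 1 0 (n' j) := fun ψ hψ => by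
    obtain ⟨c, hc, h⟩ := ih _ hle (hn'.2 j) hj' _ (spec_AF D hψ)
    refine ⟨c, hc, ?_⟩
    rw [h0, one_mul]
    exact h
  refine words D x y u ν (w := w) (E := E) (U₀ := 1) (ε := e0) (n := n') (Ind_smul D x y hE) hm
    (hsc 0) (fun i _ _ => hsc i) ?_ hX
  rcases Nat.eq_zero_or_pos j with rfl | hj0
  · exact Or.inl hsg
  · exact Or.inr ⟨j, hj0, hj, hsg⟩

include hxy in
lemma Ind_core1 {w : Wts D (ZZ D)} (hw : w = wX D ∨ w = opW (wX D))
    (hE : ∀ s, E (AddMonoidAlgebra.single 0 s) = algebraMap K L (EV D x y (spec D s)))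
    {T : (Finset (B D) → S D (Fin D.rk)) → L} (hT : IndT D x y u T)
    (h0 : ∀ φ, E (slot w 0 φ) = T (sp D φ)) {n : D.I → ℕ} (hn : ¬ Root D n) (hS : ¬ Sm D ν n)
    (ih : ∀ n', n' ≤ n → n' ≠ n → ¬ Sm D ν n' → IndG D ν x y u T n') :
    IndG D ν x y u T n := by
  obtain ⟨m, hm, hdec⟩ := decU D n hn
  intro φ hφ
  refine lin D x y u ν hxy hT.add hT.mul (fun q => ?_) hφ
  obtain ⟨c, hc, h⟩ := words_VV D x y u ν (w := w) (E := E) (U₀ := 1) hxy (ε := e0) hm
    (Pr := ntU D n m) (Ind_del D x y hE) (Ind_words1 D ν x y u hE hT h0 hS ih hm) (hdec w hw q)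
  refine ⟨c, hc, ?_⟩
  rw [h0, one_mul] at h
  exact h

include hxy in
lemma Ind_core2 {w : Wts D (ZZ D)} (hw : w = wX D ∨ w = opW (wX D))
    (hE : ∀ s, E (AddMonoidAlgebra.single 0 s) = algebraMap K L (EV D x y (spec D s)))
    {U₀ U₁ : L} (hU : U₁ * U₀ = 1) {T₀ T₁ : (Finset (B D) → S D (Fin D.rk)) → L}
    (hT₀ : IndT D x y u T₀) (hT₁ : IndT D x y u T₁)
    (h0 : ∀ φ, E (slot w 0 φ) = U₀ * T₀ (sp D fun C => φ Cᶜ))
    (h1 : ∀ φ, E (slot w 1 φ) = T₁ (sp D φ)) {k n : D.I → ℕ} (hk : k + n = D.v)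
    (hfr : ¬ FrRoot D k)
    (ih1 : ∀ n', n' ≠ 0 → ¬ Sm D ν n' → IndG D ν x y u T₁ n')
    (ih2 : ∀ k' s, k' + s = k → s ≠ 0 → Sm D ν s → IndG D ν x y u T₀ (s + n)) :
    IndG D ν x y u T₀ n := by
  obtain ⟨m, hm, hdec⟩ := decF D k hfr
  have e0' : ep 1 0 = 0 := rfl
  have e1' : ∀ j, 1 ≤ j → ep 1 j = 1 := fun j hj => if_neg (by omega)
  have hkv : k ≤ D.v := by rw [← hk]; exact le_self_add
  have key : ∀ φ ∈ AF D (Fin D.rk) k, ∃ c ∈ fixI D x y u ν,
      (fun φ : Finset (B D) → S D (Fin D.rk) => T₀ fun C => φ Cᶜ) φ =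
        EV D x y (del D (Fin D.rk)) • c := by
    intro φ hφ
    refine lin D x y u ν hxy (T := fun φ => T₀ fun C => φ Cᶜ)
      (fun φ ψ => hT₀.add (fun C => φ Cᶜ) (fun C => ψ Cᶜ))
      (fun r φ => hT₀.mul r (fun C => φ Cᶜ)) (fun q => ?_) hφ
    obtain ⟨c, hc, h⟩ := words_VV D x y u ν (w := w) (E := E) (U₀ := U₀) hxy (ε := ep 1) hm
      (Pr := ntF D k m) (Ind_del D x y hE) (fun n' hn' X hX => by
        have hs := Finset.add_sum_erase (Finset.range m) n' (Finset.mem_range.2 hm)
        rw [hn'.1.2] at hs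
        have hle : n' 0 ≤ k := by rw [← hs]; exact le_self_add
        have hsc0 : SC D x y u w E U₀ (ep 1 0) (n' 0) := fun ψ hψ => by
          obtain ⟨c, hc, h⟩ := hT₀.mem _ _ (spec_AF D (compl_mem D (hle.trans hkv) hψ))
          refine ⟨c, hc, ?_⟩
          rw [e0', h0, ← mul_smul_comm]
          exact congrArg (U₀ * ·) h
        have hsc1 : ∀ j, 1 ≤ j → j < m → SC D x y u w E 1 (ep 1 j) (n' j) := fun j hj _ ψ hψ => by
          obtain ⟨c, hc, h⟩ := hT₁.mem _ _ (spec_AF D hψ)
          exact ⟨c, hc, by rw [e1' j hj, h1, one_mul]; exact h⟩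
        refine words D x y u ν (w := w) (E := E) (U₀ := U₀) (ε := ep 1) (n := n')
          (Ind_smul D x y hE) hm hsc0 hsc1 ?_ hX
        by_cases hex : ∃ j, 1 ≤ j ∧ j < m ∧ ¬ Sm D ν (n' j)
        · obtain ⟨j, hj, hjm, hj'⟩ := hex
          refine Or.inr ⟨j, hj, hjm, fun ψ hψ => ?_⟩
          obtain ⟨c, hc, h⟩ := ih1 (n' j) (fun h4 => hj' (h4 ▸ Sm.zero)) hj' _ (spec_AF D hψ)
          exact ⟨c, hc, by rw [e1' j hj, h1, one_mul]; exact h⟩
        · refine Or.inl fun ψ hψ => ?_
          have hS : Sm D ν (∑ j ∈ (Finset.range m).erase 0, n' j) :=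
            Ind_Sm_sum D ν _ _ fun j hj => by
              by_contra hj'
              rw [Finset.mem_erase, Finset.mem_range] at hj
              exact hex ⟨j, Nat.one_le_iff_ne_zero.2 hj.1, hj.2, hj'⟩
          have hs0 : ∑ j ∈ (Finset.range m).erase 0, n' j ≠ 0 := fun h4 =>
            hn'.2 (by rw [h4, add_zero] at hs; exact hs)
          have h5 : D.v - n' 0 = ∑ j ∈ (Finset.range m).erase 0, n' j + n := by
            rw [← hk, ← hs, add_assoc, add_tsub_cancel_left]
          have h6 := compl_mem D (hle.trans hkv) hψ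
          rw [h5] at h6
          obtain ⟨c, hc, h⟩ := ih2 (n' 0) _ hs hs0 hS _ (spec_AF D h6)
          refine ⟨c, hc, ?_⟩
          rw [e0', h0, ← mul_smul_comm]
          exact congrArg (U₀ * ·) h) (hdec w hw q)
    refine ⟨c, hc, ?_⟩
    rw [h0] at h
    have h3 := congrArg (U₁ * ·) h
    simp only [← mul_assoc, hU, one_mul, mul_smul_comm] at h3
    exact h3
  intro ψ hψ
  have hnv : n ≤ D.v := by rw [← hk]; exact le_add_self
  have h4 := compl_mem D hnv hψ
  have h5 : D.v - n = k := by rw [← hk, add_tsub_cancel_right]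
  rw [h5] at h4
  obtain ⟨c, hc, h⟩ := key _ h4
  refine ⟨c, hc, ?_⟩
  simpa only [compl_compl] using h

end

include hxy hu in
/-- Proof: strong induction on `∑ i, n i`. If the `ν`-weight is not `0`: `GP_wt`, `GN_wt`. Otherwise
`n` is not a root (else `Sm n`), `decU`. For `GP`: `w = wX D`, `E = Ev U3` (`ev3_zero`); for a
sequence with `ntU D n m n'` some `n' j` (`j < m`) is not `Sm` (else `n` is, by `Sm_add`), it is not
`0`, `≠ n`, `≤ n`, so `GP (n' j)` by induction: `words` (`U₀ = 1`; `SC` from `opP_coulomb`, `spec_AF`),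
`words_VV`, `ev3_zero`, and `lin` with `T = opP`. For `GN`: `w = opW (wX D)`, `Ev U4`. -/
theorem ind1 (n : D.I → ℕ) (h0 : n ≠ 0) (h : ¬ Sm D ν n) :
    GP D x y u ν n ∧ GN D x y u ν n := by
  obtain ⟨M, hM⟩ : ∃ M, ∑ i, n i < M := ⟨_, Nat.lt_succ_self _⟩
  induction M generalizing n with
  | zero => omega
  | succ M ihM =>
    by_cases hw : ∑ i, ν i * (n i : ℤ) = 0
    · have hr : ¬ Root D n := fun hr => h (by
        have h1 := Sm.add 0 n Sm.zero hr h0 hw
        rwa [zero_add] at h1)
      have ih : ∀ n', n' ≤ n → n' ≠ n → ¬ Sm D ν n' → GP D x y u ν n' ∧ GN D x y u ν n' :=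
        fun n' h1 h2 h3 => ihM n' (fun h4 => h3 (h4 ▸ Sm.zero)) h3
          (lt_of_lt_of_le (Ind_sum_lt D h1 h2) (Nat.le_of_lt_succ hM))
      refine ⟨Ind_core1 D ν x y u hxy (Or.inl rfl) (fun s => ?_) (IndT_P D x y u hxy)
          (ev3_zero D x y u hxy hu) hr h (fun n' h1 h2 h3 => (ih n' h1 h2 h3).1),
        Ind_core1 D ν x y u hxy (Or.inr rfl) (fun s => ?_) (IndT_N D x y u hxy)
          (ev4_zero D x y u hu) hr h (fun n' h1 h2 h3 => (ih n' h1 h2 h3).2)⟩
      · rw [Ev_single, U3_zero D x y u hxy hu, Algebra.smul_def, mul_one]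
      · rw [Ev_single, U4_zero D u hu, Algebra.smul_def, mul_one]
    · exact ⟨GP_wt D x y u ν hxy hw, GN_wt D x y u ν hxy hw⟩

include hxy hu in
/-- Proof: induction on `∑ i, k i`, where `k + n = v`. By `h`, `k` is not a `FrRoot` (`Sm 0`), `decF`.
For `GN n`: `w = wX D`, `E = Ev U1`, `U₀ = U1 (ind univ)`, `T = fun φ => opN (fun C => φ Cᶜ)`,
`N = k`. For a sequence `n'` with `ntF D k m n'`: if some `n' j`, `1 ≤ j < m`, is not `Sm`, it has `GP`
by `ind1`. Otherwise `s = ∑ j ∈ range m \ {0}, n' j` is `Sm`, `s ≠ 0` (`n' 0 ≠ k`), and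
`n' 0 + (s + n) = v`: the induction hypothesis for `k' = n' 0` and `s + n` (of weight `0` by
`Sm_wt`) gives `GN (s + n)`, and `SG` for the slot `0` by `ev1_zero` and `compl_mem`
(`v - n' 0 = s + n`). Then `words`, `words_VV`, divide by the unit `U1 (ind univ)`, `lin`; every
alternating family of type `n` is `fun C => φ Cᶜ` with `φ` of type `k`. For `GP n`: `w = opW (wX D)`,
`Ev U2`, exchange the roles. -/
theorem ind2 (k n : D.I → ℕ) (hk : k + n = D.v) (h0 : n ≠ 0) (hn : ∑ i, ν i * (n i : ℤ) = 0)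
    (h : ∀ n₀ m : D.I → ℕ, FrRoot D n₀ → Sm D ν m → n₀ + m ≠ k) :
    GP D x y u ν n ∧ GN D x y u ν n := by
  obtain ⟨M, hM⟩ : ∃ M, ∑ i, k i < M := ⟨_, Nat.lt_succ_self _⟩
  induction M generalizing k n with
  | zero => omega
  | succ M ihM =>
    have hfr : ¬ FrRoot D k := fun hr => h k 0 hr Sm.zero (add_zero k)
    have ih2 : ∀ k' s, k' + s = k → s ≠ 0 → Sm D ν s →
        GP D x y u ν (s + n) ∧ GN D x y u ν (s + n) := by
      intro k' s hks hs hS
      refine ihM k' (s + n) (by rw [← add_assoc, hks, hk]) (fun h5 => h0 ?_) ?_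
        (fun n₀ m hf hm he => h n₀ (m + s) hf (Sm_add D ν hm hS) (by rw [← add_assoc, he, hks])) ?_
      · funext i
        have h6 := congrFun h5 i
        rw [Pi.add_apply, Pi.zero_apply] at h6
        rw [Pi.zero_apply]
        omega
      · have h1 : ∑ i, ν i * (((s + n) i : ℕ) : ℤ) =
            ∑ i, ν i * (s i : ℤ) + ∑ i, ν i * (n i : ℤ) := by
          rw [← Finset.sum_add_distrib]
          exact Finset.sum_congr rfl fun i _ => by rw [Pi.add_apply]; push_cast; ring
        rw [h1, Sm_wt D ν hS, hn, add_zero]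
      · refine lt_of_lt_of_le (Ind_sum_lt D (by rw [← hks]; exact le_self_add)
          (fun h5 => hs ?_)) (Nat.le_of_lt_succ hM)
        rw [h5] at hks
        exact add_eq_left.1 hks
    refine ⟨Ind_core2 D ν x y u hxy (Or.inr rfl) (fun s => ?_)
        (U₁ := U2 D x y u (-ind D Finset.univ)) ?_ (IndT_P D x y u hxy) (IndT_N D x y u hxy)
        (ev2_zero D x y u hxy hu) (ev2_one D x y u hxy hu) hk hfr
        (fun n' h1 h2 => (ind1 D ν x y u hxy hu n' h1 h2).2)
        (fun k' s h1 h2 h3 => (ih2 k' s h1 h2 h3).1),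
      Ind_core2 D ν x y u hxy (Or.inl rfl) (fun s => ?_)
        (U₁ := U1 D u (-ind D Finset.univ)) ?_ (IndT_N D x y u hxy) (IndT_P D x y u hxy)
        (ev1_zero D x y u hu) (ev1_one D x y u hu) hk hfr
        (fun n' h1 h2 => (ind1 D ν x y u hxy hu n' h1 h2).1)
        (fun k' s h1 h2 h3 => (ih2 k' s h1 h2 h3).2)⟩
    · rw [Ev_single, U2_zero D x y u hxy hu, Algebra.smul_def, mul_one]
    · rw [← U2_add D x y u hxy hu, neg_add_cancel, U2_zero D x y u hxy hu]
    · rw [Ev_single, U1_zero D u hu, Algebra.smul_def, mul_one]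
    · rw [← U1_add D u hu, neg_add_cancel, U1_zero D u hu]

include hxy hu in
theorem all_mem (hR : HR D ν) {A : Finset (B D)} (hA : A.Nonempty) (f : P D) :
    mono D x y u (ind D A) f ∈ fixI D x y u ν ∧ mono D x y u (-ind D A) f ∈ fixI D x y u ν := by
  have h0 : typ D A ≠ 0 := fun h => hA.ne_empty (typ_eq_zero D h)
  have key : GP D x y u ν (typ D A) ∧ GN D x y u ν (typ D A) := by
    by_cases h : Sm D ν (typ D A)
    · refine ind2 D ν x y u hxy hu (D.v - typ D A) (typ D A) (tsub_add_cancel_of_le (typ_le D A))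
        h0 (Sm_wt D ν h) fun n₀ m h1 h2 h3 => h0 ?_
      have h4 := hR n₀ (m + typ D A) h1 (Sm_add D ν h2 h)
        (by rw [← add_assoc, h3, tsub_add_cancel_of_le (typ_le D A)])
      funext i
      have h5 := congrFun h4 i
      simp only [Pi.add_apply, Pi.zero_apply] at h5 ⊢
      omega
    · exact ind1 D ν x y u hxy hu _ h0 h
  exact ⟨mono_of_GP D x y u ν hxy key.1 f, mono_of_GN D x y u ν hxy key.2 f⟩

end Vale.Agent.P291.H.N
end
end

section

section

set_option autoImplicit false
set_option linter.unusedSectionVars false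

/-! The cut ideals in terms of cocharacters with two values; surjectivity of `φ_C`. -/

namespace Vale.Agent.P291.H.N

open MvPolynomial Vale.Agent.P291.G Vale.Agent.P291.H.M

variable (D : QData)

/-- the arrow part of the product of the weights which are nonzero on `l` -/
noncomputable def aw (l : B D → ℤ) : S D (ZZ D) :=
  ∏ a, ∏ r, ∏ s, if (l ⟨D.tgt a, s⟩ - l ⟨D.src a, r⟩) ^ 2 = 1 then
      xq D ⟨D.tgt a, s⟩ - xq D ⟨D.src a, r⟩ + tv D a else 1

/-- the framing part -/
noncomputable def fw (l : B D → ℤ) : S D (ZZ D) :=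
  ∏ i, ∏ r, ∏ k, if (-l ⟨i, r⟩) ^ 2 = 1 then zv D i k - xq D ⟨i, r⟩ else 1

lemma two_val {j a b : ℤ} (ha : a = j ∨ a = j + 1) (hb : b = j ∨ b = j + 1) :
    (a - b) ^ 2 = 1 ↔ a ≠ b := by
  rcases ha with rfl | rfl <;> rcases hb with rfl | rfl
  · simp only [sub_self, ne_eq, OfNat.ofNat_ne_zero, not_false_eq_true, zero_pow, zero_ne_one, not_true_eq_false]
  · constructor
    · intro _ h
      omega
    · intro _
      have : a - (a + 1) = -1 := by ring
      rw [this]
      norm_num
  · constructor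
    · intro _ h
      omega
    · intro _
      have : b + 1 - b = 1 := by ring
      rw [this]
      norm_num
  · simp

lemma aw_eq {j : ℤ} (l : B D → ℤ) (hl : ∀ b, l b = j ∨ l b = j + 1) : aw D l =
    ∏ p : B D, ∏ q : B D, if l q = l p then 1 else hq D p q 0 := by
  have h := BM_prod_arrows D (fun a p q => if l q = l p then 1 else
    (xq D q - xq D p + tv D a))
  have h1 : aw D l =
      ∏ a, ∏ r : Fin (D.v (D.src a)), ∏ s : Fin (D.v (D.tgt a)),
        if l ⟨D.tgt a, s⟩ = l ⟨D.src a, r⟩ then 1 else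
          xq D ⟨D.tgt a, s⟩ - xq D ⟨D.src a, r⟩ + tv D a := by
    refine Finset.prod_congr rfl fun a _ => Finset.prod_congr rfl fun r _ =>
      Finset.prod_congr rfl fun s _ => ?_
    by_cases h2 : l ⟨D.tgt a, s⟩ = l ⟨D.src a, r⟩
    · rw [if_pos h2, if_neg fun h3 => (two_val (hl _) (hl _)).1 h3 h2]
    · rw [if_neg h2, if_pos ((two_val (hl _) (hl _)).2 h2)]
  rw [h1, ← h]
  refine Finset.prod_congr rfl fun p _ => Finset.prod_congr rfl fun q _ => ?_
  by_cases hl : l q = l p
  · rw [if_pos hl]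
    exact Finset.prod_eq_one fun a _ => if_pos hl
  · rw [if_neg hl, hq]
    refine Finset.prod_congr rfl fun a _ => ?_
    rw [if_neg hl, add_zero]

lemma aw_ind {j : ℤ} (l : B D → ℤ) (hl : ∀ b, l b = j ∨ l b = j + 1) (N : Finset (B D))
    (hN : ∀ b, b ∈ N ↔ l b = j + 1) : aw D l = e (wX D) N * e (wX D) Nᶜ := by
  have hj : j ≠ j + 1 := by omega
  rw [aw_eq D l hl, e, e, compl_compl, ← Finset.prod_mul_prod_compl N]
  congr 1
  · refine Finset.prod_congr rfl fun p hp => ?_
    rw [← Finset.prod_mul_prod_compl N]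
    rw [Finset.prod_eq_one fun q hq => ?_, one_mul]
    · refine Finset.prod_congr rfl fun q hq => ?_
      rw [Finset.mem_compl] at hq
      rw [if_neg]
      · rfl
      · rw [(hN p).1 hp]
        exact fun h => hq ((hN q).2 h)
    · rw [if_pos]
      rw [(hN p).1 hp, (hN q).1 hq]
  · refine Finset.prod_congr rfl fun p hp => ?_
    rw [Finset.mem_compl] at hp
    have hp' : l p = j := (hl p).resolve_right fun h => hp ((hN p).2 h)
    rw [← Finset.prod_mul_prod_compl N]
    rw [Finset.prod_eq_one (s := Nᶜ) fun q hq => ?_, mul_one]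
    · refine Finset.prod_congr rfl fun q hq => ?_
      rw [if_neg]
      · rfl
      · rw [hp', (hN q).1 hq]
        exact hj.symm
    · rw [if_pos]
      rw [Finset.mem_compl] at hq
      rw [hp', (hl q).resolve_right fun h => hq ((hN q).2 h)]

lemma fw_two (l : B D → ℤ) (hl : ∀ b, l b = 2 ∨ l b = 2 + 1) : fw D l = 1 := by
  refine Finset.prod_eq_one fun i _ => Finset.prod_eq_one fun r _ => Finset.prod_eq_one fun k _ => ?_
  rw [if_neg]
  rcases hl ⟨i, r⟩ with h | h <;> rw [h] <;> norm_num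

lemma fw_zero (l : B D → ℤ) (hl : ∀ b, l b = 0 ∨ l b = 0 + 1) (N : Finset (B D))
    (hN : ∀ b, b ∈ N ↔ l b = 0 + 1) : fw D l = zs (wX D) N := by
  have h := cw_ind D N
  have h1 : ∀ b, ind D N b = l b := by
    intro b
    rw [ind]
    split_ifs with h2
    · rw [(hN b).1 h2, zero_add]
    · exact ((hl b).resolve_right fun h => h2 ((hN b).2 h)).symm
  have h2 : fw D l = ∏ b : B D, if l b = 0 then 1 else zq D b 0 := by
    rw [fw, Fintype.prod_sigma]
    refine Finset.prod_congr rfl fun i _ => Finset.prod_congr rfl fun r _ => ?_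
    by_cases hl' : l ⟨i, r⟩ = 0
    · rw [if_pos hl']
      refine Finset.prod_eq_one fun k _ => if_neg ?_
      rw [hl']
      norm_num
    · rw [if_neg hl', zq]
      refine Finset.prod_congr rfl fun k _ => ?_
      have h3 : l ⟨i, r⟩ = 1 := by
        have := (hl ⟨i, r⟩).resolve_left hl'
        rwa [zero_add] at this
      rw [if_pos (by rw [h3]; norm_num), add_zero]
  rw [h2, zs, ← Finset.prod_mul_prod_compl N]
  rw [Finset.prod_eq_one (s := Nᶜ) fun b hb => ?_, mul_one]
  · refine Finset.prod_congr rfl fun b hb => ?_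
    rw [if_neg]
    · rfl
    · rw [(hN b).1 hb]
      norm_num
  · rw [Finset.mem_compl] at hb
    rw [if_pos]
    exact (hl b).resolve_right fun h => hb ((hN b).2 h)

open Classical in
lemma mem_cutU (l : B D → ℤ) (hl : ∀ b, l b = 2 ∨ l b = 2 + 1) (h1 : ∃ b, l b ≠ 2)
    (h2 : ∃ b, l b = 2) : aw D l * fw D l ∈ cutU (wX D) := by
  have hN : ∀ b, b ∈ (Finset.univ.filter fun b => l b = 2 + 1) ↔ l b = 2 + 1 := by simp only [Int.reduceAdd, Finset.mem_filter, Finset.mem_univ, true_and, implies_true]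
  rw [fw_two D l hl, mul_one, aw_ind D l hl _ hN]
  refine Ideal.subset_span ⟨_, ?_, ?_, rfl⟩
  · obtain ⟨b, hb⟩ := h1
    exact ⟨b, (hN b).2 ((hl b).resolve_left hb)⟩
  · obtain ⟨b, hb⟩ := h2
    intro h
    have h3 : b ∈ (Finset.univ.filter fun b => l b = 2 + 1) := by
      rw [h]
      exact Finset.mem_univ b
    have := (hN b).1 h3
    omega

open Classical in
lemma mem_cutF (l : B D → ℤ) (hl : ∀ b, l b = 0 ∨ l b = 0 + 1) (h1 : ∃ b, l b ≠ 0) :
    aw D l * fw D l ∈ cutI (wX D) := by
  have hN : ∀ b, b ∈ (Finset.univ.filter fun b => l b = 0 + 1) ↔ l b = 0 + 1 := by simp only [zero_add, Finset.mem_filter, Finset.mem_univ, true_and, implies_true]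
  rw [fw_zero D l hl _ hN, aw_ind D l hl _ hN]
  refine Ideal.subset_span ⟨_, ?_, rfl⟩
  obtain ⟨b, hb⟩ := h1
  exact ⟨b, (hN b).2 ((hl b).resolve_left hb)⟩

lemma Sm_list (ν : D.I → ℤ) {m : D.I → ℕ} (h : Sm D ν m) :
    ∃ s : List (D.I → ℕ), s.sum = m ∧ (m ≠ 0 → s ≠ []) ∧
      ∀ n ∈ s, n ≠ 0 ∧ ∑ i, ν i * (n i : ℤ) = 0 ∧ Root D n := by
  induction h with
  | zero => exact ⟨[], rfl, fun h => absurd rfl h, fun n hn => absurd hn (List.not_mem_nil)⟩
  | add n k _ h2 h3 h4 ih =>
    obtain ⟨s, h5, -, h7⟩ := ih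
    refine ⟨k :: s, ?_, fun _ => List.cons_ne_nil _ _, ?_⟩
    · rw [List.sum_cons, h5, add_comm]
    · intro a ha
      rcases List.mem_cons.1 ha with rfl | ha
      · exact ⟨h3, h4, h2⟩
      · exact h7 a ha

section
variable {K L : Type} [Field K] [Algebra ℂ K] [CommRing L] [Algebra K L]
  (x : B D → K) (y : Fin D.rk → K) (u : Module.Basis (B D → ℤ) K L)

variable (hu : ∀ l l', u (l + l') = u l * u l') (ν : D.I → ℤ)

include hu in
/-- surjectivity of `φ_C` -/
theorem surj_of (hν : ∀ l, Min D l → l ≠ 0 → ∀ f,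
      mono D x y u l f ∈ fixI D x y u ν ∧ mono D x y u (-l) f ∈ fixI D x y u ν)
    {a : L} (ha : a ∈ coulomb D x y u) :
    ∃ r ∈ R D x y, a - algebraMap K L r ∈ fixI D x y u ν := by
  induction ha using Subring.closure_induction with
  | mem a ha =>
    rcases ha with ⟨r, hr, rfl⟩ | ⟨l, f, hl, h⟩
    · exact ⟨r, hr, by rw [sub_self]; exact AddSubgroup.zero_mem _⟩
    · by_cases hl0 : l = 0
      · subst hl0
        refine ⟨_, cls_zero_mem D x y f, ?_⟩
        have h1 : a = algebraMap K L (cls D x y 0 f) := by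
          rcases h with rfl | rfl
          · exact mono_zero D x y u hu f
          · rw [neg_zero]; exact mono_zero D x y u hu f
        rw [h1, sub_self]
        exact AddSubgroup.zero_mem _
      · refine ⟨0, R_zero D x y, ?_⟩
        rw [map_zero, sub_zero]
        rcases h with rfl | rfl
        · exact (hν l hl hl0 f).1
        · exact (hν l hl hl0 f).2
  | zero => exact ⟨0, R_zero D x y, by rw [map_zero, sub_zero]; exact AddSubgroup.zero_mem _⟩
  | one => exact ⟨1, R_one D x y, by rw [map_one, sub_self]; exact AddSubgroup.zero_mem _⟩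
  | add a b _ _ ha hb =>
    obtain ⟨r, hr, hr'⟩ := ha
    obtain ⟨s, hs, hs'⟩ := hb
    refine ⟨r + s, R_add D x y hr hs, ?_⟩
    rw [map_add, add_sub_add_comm]
    exact AddSubgroup.add_mem _ hr' hs'
  | neg a _ ha =>
    obtain ⟨r, hr, hr'⟩ := ha
    refine ⟨-r, R_neg D x y hr, ?_⟩
    have := AddSubgroup.neg_mem _ hr'
    rw [map_neg]
    rwa [neg_sub, ← neg_sub_neg] at this
  | mul a b ha' hb' ha hb =>
    obtain ⟨r, hr, hr'⟩ := ha
    obtain ⟨s, hs, hs'⟩ := hb
    refine ⟨r * s, R_mul D x y hr hs, ?_⟩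
    have h1 : a * b - algebraMap K L (r * s) =
        a * (b - algebraMap K L s) + algebraMap K L s * (a - algebraMap K L r) := by
      rw [map_mul]; ring
    rw [h1]
    exact AddSubgroup.add_mem _ (fixI_mul D x y u ν ha' hs')
      (fixI_mul D x y u ν (R_mem_coulomb D x y u hs) hr')

end

end Vale.Agent.P291.H.N
end
end

section

section

set_option autoImplicit false
set_option linter.unusedSectionVars false

/-! All `ν` for which `φ_C` is onto. -/

namespace Vale.Agent.P291.H.M

open MvPolynomial Vale.Agent.P291.G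

variable (D : QData)

section
variable {K L : Type} [Field K] [Algebra ℂ K] [CommRing L] [Algebra K L]
  (x : B D → K) (y : Fin D.rk → K) (u : Module.Basis (B D → ℤ) K L)

lemma wt_add (ν : D.I → ℤ) (l l' : B D → ℤ) : wt D ν (l + l') = wt D ν l + wt D ν l' := by
  rw [wt, wt, wt, ← Finset.sum_add_distrib]
  exact Finset.sum_congr rfl fun b _ => by rw [Pi.add_apply]; ring

/-- decomposition into homogeneous components -/
noncomputable def tau (ν : D.I → ℤ) : L →ₗ[K] AddMonoidAlgebra L ℤ :=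
  u.constr K fun l => AddMonoidAlgebra.single (wt D ν l) (u l)

lemma tau_u (ν : D.I → ℤ) (l : B D → ℤ) :
    tau D u ν (u l) = AddMonoidAlgebra.single (wt D ν l) (u l) := by
  rw [tau, Module.Basis.constr_basis]

/-- homogeneous component -/
noncomputable def cmp (ν : D.I → ℤ) (k : ℤ) (a : L) : L := (tau D u ν a).coeff k

variable (hu : ∀ l l', u (l + l') = u l * u l')

include hu in
lemma tau_mul (ν : D.I → ℤ) (a b : L) : tau D u ν (a * b) = tau D u ν a * tau D u ν b := by
  have h : (LinearMap.mul K L).compr₂ (tau D u ν) =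
      (LinearMap.mul K (AddMonoidAlgebra L ℤ)).compl₁₂ (tau D u ν) (tau D u ν) := by
    refine u.ext fun l => u.ext fun l' => ?_
    rw [LinearMap.compr₂_apply, LinearMap.mul_apply', LinearMap.compl₁₂_apply,
      LinearMap.mul_apply', ← hu, tau_u, tau_u, tau_u, AddMonoidAlgebra.single_mul_single, wt_add,
      hu]
  exact DFunLike.congr_fun (DFunLike.congr_fun h a) b

lemma cmp_add (ν : D.I → ℤ) (k : ℤ) (a b : L) :
    cmp D u ν k (a + b) = cmp D u ν k a + cmp D u ν k b := by
  simp only [cmp, map_add, AddMonoidAlgebra.coeff_add, Finsupp.coe_add, Pi.add_apply]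

lemma cmp_neg (ν : D.I → ℤ) (k : ℤ) (a : L) : cmp D u ν k (-a) = -cmp D u ν k a := by
  simp only [cmp, map_neg, AddMonoidAlgebra.coeff_neg, Finsupp.coe_neg, Pi.neg_apply]

lemma cmp_zero (ν : D.I → ℤ) (k : ℤ) : cmp D u ν k (0 : L) = 0 := by
  simp only [cmp, map_zero, AddMonoidAlgebra.coeff_zero, Finsupp.coe_zero, Pi.zero_apply]

lemma cmp_smul (ν : D.I → ℤ) (k : ℤ) (c : K) (a : L) : cmp D u ν k (c • a) = c • cmp D u ν k a := by
  simp only [cmp, map_smul, AddMonoidAlgebra.coeff_smul, Finsupp.coe_smul, Pi.smul_apply]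

lemma cmp_u (ν : D.I → ℤ) (k : ℤ) (l : B D → ℤ) :
    cmp D u ν k (u l) = if wt D ν l = k then u l else 0 := by
  classical
  rw [cmp, tau_u, AddMonoidAlgebra.coeff_single, Finsupp.single_apply]

include hu in
/-- components of a product -/
lemma cmp_mul (ν : D.I → ℤ) (k : ℤ) (a b : L) :
    ∃ s t : Finset ℤ, cmp D u ν k (a * b) =
      ∑ i ∈ s, ∑ j ∈ t, if i + j = k then cmp D u ν i a * cmp D u ν j b else 0 := by
  classical
  refine ⟨(tau D u ν a).coeff.support, (tau D u ν b).coeff.support, ?_⟩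
  rw [cmp, tau_mul D u hu, AddMonoidAlgebra.coeff_mul, Finsupp.sum]
  rfl

lemma cmp_hom {ν : D.I → ℤ} {m : ℤ} {b : L} (hb : b ∈ Submodule.span K (u '' {l | wt D ν l = m})) :
    cmp D u ν m b = b := by
  induction hb using Submodule.span_induction with
  | mem b hb =>
    obtain ⟨l, hl, rfl⟩ := hb
    have hl' : wt D ν l = m := hl
    rw [cmp_u, if_pos hl']
  | zero => exact cmp_zero D u ν m
  | add a b _ _ ha hb => rw [cmp_add, ha, hb]
  | smul c a _ ha => rw [cmp_smul, ha]

/-- components stay homogeneous for another weight -/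
lemma cmp_span {ν ν' : D.I → ℤ} {m : ℤ} {b : L}
    (hb : b ∈ Submodule.span K (u '' {l | wt D ν' l = m})) (k : ℤ) :
    cmp D u ν k b ∈ Submodule.span K (u '' {l | wt D ν' l = m}) := by
  induction hb using Submodule.span_induction with
  | mem b hb =>
    obtain ⟨l, hl, rfl⟩ := hb
    rw [cmp_u]
    split_ifs with h
    · exact Submodule.subset_span ⟨l, hl, rfl⟩
    · exact Submodule.zero_mem _
  | zero => rw [cmp_zero]; exact Submodule.zero_mem _
  | add a b _ _ ha hb => rw [cmp_add]; exact Submodule.add_mem _ ha hb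
  | smul c a _ ha => rw [cmp_smul]; exact Submodule.smul_mem _ _ ha

include hu in
lemma cmp_algebraMap (ν : D.I → ℤ) (k : ℤ) (r : K) :
    cmp D u ν k (algebraMap K L r) = if 0 = k then algebraMap K L r else 0 := by
  have h1 : algebraMap K L r = r • u 0 := by
    have h0 : u 0 = (1 : L) := by
      have hz := hu 0 0
      rw [add_zero] at hz
      have h2 : (LinearMap.mulLeft K (u 0)) = (LinearMap.id : L →ₗ[K] L) := by
        refine u.ext fun l => ?_
        rw [LinearMap.mulLeft_apply, ← hu, zero_add, LinearMap.id_apply]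
      have h3 := DFunLike.congr_fun h2 (1 : L)
      rwa [LinearMap.mulLeft_apply, mul_one, LinearMap.id_apply] at h3
    rw [h0, Algebra.algebraMap_eq_smul_one]
  rw [h1, cmp_smul, cmp_u]
  have h2 : wt D ν 0 = 0 := by simp only [wt, Pi.zero_apply, mul_zero, Finset.sum_const_zero]
  rw [h2]
  split_ifs
  · rfl
  · exact smul_zero _

include hu in
/-- `A_F` is graded by every `ν` -/
lemma cmp_coulomb (ν : D.I → ℤ) {a : L} (ha : a ∈ coulomb D x y u) :
    ∀ k, cmp D u ν k a ∈ coulomb D x y u := by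
  induction ha using Subring.closure_induction with
  | mem a ha =>
    intro k
    rcases ha with ⟨r, hr, rfl⟩ | ⟨l, f, hl, h⟩
    · rw [cmp_algebraMap D u hu]
      split_ifs
      · exact R_mem_coulomb D x y u hr
      · exact Subring.zero_mem _
    · have key : ∀ l' : B D → ℤ, mono D x y u l' f ∈ coulomb D x y u →
          cmp D u ν k (mono D x y u l' f) ∈ coulomb D x y u := by
        intro l' hl'
        by_cases hk : wt D ν l' = k
        · subst hk
          rw [cmp_hom D u (mono_mem_span D x y u ν l' f)]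
          exact hl'
        · have h0 : cmp D u ν k (mono D x y u l' f) = 0 := by
            have : ∀ b ∈ Submodule.span K (u '' {l | wt D ν l = wt D ν l'}),
                cmp D u ν k b = 0 := by
              intro b hb
              induction hb using Submodule.span_induction with
              | mem b hb =>
                obtain ⟨l, hl, rfl⟩ := hb
                have hl' : wt D ν l = wt D ν l' := hl
                rw [cmp_u, if_neg (by rw [hl']; exact hk)]
              | zero => exact cmp_zero D u ν k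
              | add a b _ _ ha hb => rw [cmp_add, ha, hb, add_zero]
              | smul c a _ ha => rw [cmp_smul, ha, smul_zero]
            exact this _ (mono_mem_span D x y u ν l' f)
          rw [h0]
          exact Subring.zero_mem _
      rcases h with rfl | rfl
      · exact key l (mono_mem_coulomb D x y u hl f)
      · exact key (-l) (mono_neg_mem_coulomb D x y u hl f)
  | zero => intro k; rw [cmp_zero]; exact Subring.zero_mem _
  | one =>
    intro k
    rw [← map_one (algebraMap K L), cmp_algebraMap D u hu]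
    split_ifs
    · rw [map_one]; exact Subring.one_mem _
    · exact Subring.zero_mem _
  | add a b _ _ ha hb => intro k; rw [cmp_add]; exact Subring.add_mem _ (ha k) (hb k)
  | neg a _ ha => intro k; rw [cmp_neg]; exact Subring.neg_mem _ (ha k)
  | mul a b _ _ ha hb =>
    intro k
    obtain ⟨s, t, h⟩ := cmp_mul D u hu ν k a b
    rw [h]
    refine Subring.sum_mem _ fun i _ => Subring.sum_mem _ fun j _ => ?_
    split_ifs
    · exact Subring.mul_mem _ (ha i) (hb j)
    · exact Subring.zero_mem _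

include hu in
/-- the ideal `fixI ν'` is graded by every `ν` -/
lemma cmp_fixI (ν ν' : D.I → ℤ) {c : L} (hc : c ∈ fixI D x y u ν') :
    ∀ k, cmp D u ν k c ∈ fixI D x y u ν' := by
  induction hc using AddSubgroup.closure_induction with
  | mem c hc =>
    intro k
    obtain ⟨a, ha, b, hb, m, hm, hbm, rfl⟩ := hc
    obtain ⟨s, t, h⟩ := cmp_mul D u hu ν k a b
    rw [h]
    refine AddSubgroup.sum_mem _ fun i _ => AddSubgroup.sum_mem _ fun j _ => ?_
    split_ifs
    · exact AddSubgroup.subset_closure ⟨_, cmp_coulomb D x y u hu ν ha i, _,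
        cmp_coulomb D x y u hu ν hb j, m, hm, cmp_span D u hbm j, rfl⟩
    · exact AddSubgroup.zero_mem _
  | zero => intro k; rw [cmp_zero]; exact AddSubgroup.zero_mem _
  | add a b _ _ ha hb => intro k; rw [cmp_add]; exact AddSubgroup.add_mem _ (ha k) (hb k)
  | neg a _ ha => intro k; rw [cmp_neg]; exact AddSubgroup.neg_mem _ (ha k)

include hu in
/-- if `φ_C` is onto for `ν`, then `fixI ν` contains all elements of charge `≠ 0` -/
lemma fixI_le (ν ν' : D.I → ℤ)
    (hs : ∀ a ∈ coulomb D x y u, ∃ r ∈ R D x y, a - algebraMap K L r ∈ fixI D x y u ν) :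
    fixI D x y u ν' ≤ fixI D x y u ν := by
  refine (AddSubgroup.closure_le _).2 ?_
  rintro c ⟨a, ha, b, hb, m, hm, hbm, rfl⟩
  refine fixI_mul D x y u ν ha ?_
  obtain ⟨r, hr, h⟩ := hs b hb
  have h1 := cmp_fixI D x y u hu ν' ν h m
  rw [sub_eq_add_neg, cmp_add, cmp_neg, cmp_hom D u hbm, cmp_algebraMap D u hu,
    if_neg (Ne.symm hm), neg_zero, add_zero] at h1
  exact h1

include hu in
/-- all `ν` with `φ_C` onto have the same fixed locus -/
theorem fixI_eq (ν ν' : D.I → ℤ)
    (hs : ∀ a ∈ coulomb D x y u, ∃ r ∈ R D x y, a - algebraMap K L r ∈ fixI D x y u ν)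
    (hs' : ∀ a ∈ coulomb D x y u, ∃ r ∈ R D x y, a - algebraMap K L r ∈ fixI D x y u ν') :
    fixI D x y u ν = fixI D x y u ν' :=
  le_antisymm (fixI_le D x y u hu ν' ν hs') (fixI_le D x y u hu ν ν' hs)

lemma wt_one_ne (l : B D → ℤ) (hl : Min D l) (h0 : l ≠ 0) : wt D (fun _ => 1) l ≠ 0 := by
  obtain ⟨b, hb⟩ := Function.ne_iff.1 h0
  have h1 : l b = 1 := (hl b).resolve_left hb
  have h2 : 0 < wt D (fun _ => 1) l := by
    rw [wt]
    refine Finset.sum_pos' (fun c _ => ?_) ⟨b, Finset.mem_univ b, ?_⟩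
    · rcases hl c with h | h <;> rw [h] <;> norm_num
    · rw [h1]; norm_num
  exact h2.ne'

include hu in
/-- `ker φ_C` for every `ν` with `φ_C` onto -/
theorem ker_iff_of_surj (hxy : AlgebraicIndependent ℂ (Sum.elim x y)) (ν : D.I → ℤ)
    (hs : ∀ a ∈ coulomb D x y u, ∃ r ∈ R D x y, a - algebraMap K L r ∈ fixI D x y u ν)
    {r : K} (hr : r ∈ R D x y) :
    algebraMap K L r ∈ fixI D x y u ν ↔ r ∈ kerJ D x y := by
  rw [fixI_eq D x y u hu ν (fun _ => 1) hs
    (fun a ha => surj D x y u hu _ (wt_one_ne D) ha)]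
  exact ker_iff D x y u hxy hu _ (wt_one_ne D) hr

end

end Vale.Agent.P291.H.M
end
end

section

section

set_option autoImplicit false
set_option linter.unusedSectionVars false

/-! Unstable cocharacters and cuts. -/

namespace Vale.Agent.P291.K

open MvPolynomial Vale.Agent.P291.G Vale.Agent.P291.H Vale.Agent.P291.H.M

variable (D : QData)

lemma GUnst_iso_gx (b : B D) : iso D (gx D b) = X b := by
  rw [iso, gx]
  exact sumAlgEquiv_X_inl ℂ (B D) (ZZ D) b

lemma GUnst_iso_C (z : ZZ D) : iso D (X (Sum.inr z)) = C (X z) := by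
  rw [iso]
  exact sumAlgEquiv_X_inr ℂ (B D) (ZZ D) z

lemma GUnst_iso_ga (a : D.A) : iso D (ga D a) = C (ta D a) := GUnst_iso_C D _

lemma GUnst_iso_gw (i : D.I) (k : Fin (D.w i)) : iso D (gw D i k) = C (zk D i k) :=
  GUnst_iso_C D _

lemma GUnst_iso_gh : iso D (gh D) = C (hh D) := GUnst_iso_C D _

/-- reorganize a product over arrows and pairs of basis vectors -/
lemma GUnst_pairs {R : Type} [CommMonoid R] (G : D.A → B D → B D → R) :
    ∏ a, ∏ r, ∏ s, G a ⟨D.src a, r⟩ ⟨D.tgt a, s⟩ =
      ∏ p : B D, ∏ q : B D, ∏ a with D.src a = p.1 ∧ D.tgt a = q.1, G a p q := by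
  have h1 : ∀ p q : B D, ∏ a with D.src a = p.1 ∧ D.tgt a = q.1, G a p q =
      ∏ a, if D.src a = p.1 ∧ D.tgt a = q.1 then G a p q else 1 := fun p q =>
    Finset.prod_filter _ _
  have h2 : ∀ p : B D, ∏ q : B D, ∏ a with D.src a = p.1 ∧ D.tgt a = q.1, G a p q =
      ∏ a, ∏ q : B D, if D.src a = p.1 ∧ D.tgt a = q.1 then G a p q else 1 := by
    intro p
    rw [Finset.prod_comm]
    exact Finset.prod_congr rfl fun q _ => h1 p q
  rw [Finset.prod_congr rfl fun p _ => h2 p, Finset.prod_comm]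
  refine Finset.prod_congr rfl fun a _ => ?_
  rw [Fintype.prod_sigma, Finset.prod_eq_single (D.src a)]
  · refine Finset.prod_congr rfl fun r _ => ?_
    rw [Fintype.prod_sigma, Finset.prod_eq_single (D.tgt a)]
    · refine Finset.prod_congr rfl fun s _ => ?_
      rw [if_pos ⟨rfl, rfl⟩]
    · intro j _ hj
      refine Finset.prod_eq_one fun s _ => ?_
      rw [if_neg]
      rintro ⟨-, h⟩
      exact hj h.symm
    · intro h
      exact absurd (Finset.mem_univ _) h
  · intro i _ hi
    refine Finset.prod_eq_one fun r _ => Finset.prod_eq_one fun q _ => ?_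
    rw [if_neg]
    rintro ⟨h, -⟩
    exact hi h.symm
  · intro h
    exact absurd (Finset.mem_univ _) h

/-- factor of the pair `p → q` of the class of the unstable locus -/
noncomputable def GUnst_F (l : B D → ℤ) (p q : B D) : Pmax D :=
  ∏ a with D.src a = p.1 ∧ D.tgt a = q.1, fac D (gx D q - gx D p + ga D a) (l q - l p)

/-- framing factor of the class of the unstable locus -/
noncomputable def GUnst_G (l : B D → ℤ) (b : B D) : Pmax D :=
  ∏ k : Fin (D.w b.1), fac D (gw D b.1 k - gx D b) (-l b)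

lemma GUnst_unst (l : B D → ℤ) :
    unst D l = (∏ p : B D, ∏ q : B D, GUnst_F D l p q) * ∏ b : B D, GUnst_G D l b := by
  rw [unst]
  congr 1
  · exact GUnst_pairs D fun a p q => fac D (gx D q - gx D p + ga D a) (l q - l p)
  · rw [Fintype.prod_sigma]
    rfl

/-- the factors of a cut divide the full product -/
lemma GUnst_cut_dvd {R : Type} [CommMonoid R] (F : B D → B D → R) (N : Finset (B D)) :
    ∏ b ∈ N, ∏ c ∈ Nᶜ, F b c * F c b ∣ ∏ p : B D, ∏ q : B D, F p q := by
  classical
  have h1 : ∏ b ∈ N, ∏ c ∈ Nᶜ, F b c * F c b =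
      (∏ b ∈ N, ∏ c ∈ Nᶜ, F b c) * ∏ b ∈ Nᶜ, ∏ c ∈ N, F b c := by
    rw [Finset.prod_comm (s := Nᶜ), ← Finset.prod_mul_distrib]
    exact Finset.prod_congr rfl fun b _ => Finset.prod_mul_distrib
  rw [h1, ← Finset.prod_mul_prod_compl N fun p : B D => ∏ q : B D, F p q]
  refine mul_dvd_mul ?_ ?_
  · refine Finset.prod_dvd_prod_of_dvd _ _ fun b _ => ?_
    exact Finset.prod_dvd_prod_of_subset _ _ _ (Finset.subset_univ _)
  · refine Finset.prod_dvd_prod_of_dvd _ _ fun b _ => ?_
    exact Finset.prod_dvd_prod_of_subset _ _ _ (Finset.subset_univ _)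

lemma GUnst_Dw (u v : FR D) (b c : B D) :
    Dw (fun b c : B D => Lq D u v b.1 c.1) b c =
      (∏ a with D.src a = b.1 ∧ D.tgt a = c.1, (X b - X c + C (u - ta D a))) *
        ∏ a with D.src a = c.1 ∧ D.tgt a = b.1, (X b - X c + C (ta D a - v)) := by
  rw [Dw, Lq, Multiset.map_add, Multiset.prod_add, Multiset.map_map, Multiset.map_map]
  rfl

lemma GUnst_Zw (u : FR D) (b : B D) :
    Zw (fun b : B D => Zq D u b.1) b = ∏ k : Fin (D.w b.1), (X b - C (zk D b.1 k - u)) := by
  rw [Zw, Zq, Multiset.map_map]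
  rfl

/-- the cut divides -/
lemma GUnst_main (u v : FR D) (l : B D → ℤ) (N : Finset (B D)) (hN : N.Nonempty)
    (h1 : ∀ b ∈ N, ∀ c ∈ Nᶜ, ∀ a : D.A, X b - X c + C (u - ta D a) ∣
      iso D (fac D (gx D c - gx D b + ga D a) (l c - l b)))
    (h2 : ∀ b ∈ N, ∀ c ∈ Nᶜ, ∀ a : D.A, X b - X c + C (ta D a - v) ∣
      iso D (fac D (gx D b - gx D c + ga D a) (l b - l c)))
    (w' : FR D) (h3 : ∀ b ∈ N, ∀ k : Fin (D.w b.1), X b - C (zk D b.1 k - w') ∣
      iso D (fac D (gw D b.1 k - gx D b) (-l b))) :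
    iso D (unst D l) ∈ KI (fun b c : B D => Lq D u v b.1 c.1) fun b => Zq D w' b.1 := by
  classical
  have h4 : cut (fun b c : B D => Lq D u v b.1 c.1) (fun b => Zq D w' b.1) N ∣
      iso D (unst D l) := by
    rw [cut, GUnst_unst, map_mul, mul_comm]
    refine mul_dvd_mul ?_ ?_
    · have h5 : iso D (∏ p : B D, ∏ q : B D, GUnst_F D l p q) =
          ∏ p : B D, ∏ q : B D, iso D (GUnst_F D l p q) := by
        rw [map_prod]
        exact Finset.prod_congr rfl fun p _ => map_prod _ _ _
      rw [h5]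
      refine dvd_trans ?_ (GUnst_cut_dvd D (fun p q => iso D (GUnst_F D l p q)) N)
      refine Finset.prod_dvd_prod_of_dvd _ _ fun b hb' => ?_
      refine Finset.prod_dvd_prod_of_dvd _ _ fun c hc' => ?_
      rw [GUnst_Dw]
      refine mul_dvd_mul ?_ ?_
      · rw [GUnst_F, map_prod]
        exact Finset.prod_dvd_prod_of_dvd _ _ fun a _ => h1 b hb' c hc' a
      · rw [GUnst_F, map_prod]
        exact Finset.prod_dvd_prod_of_dvd _ _ fun a _ => h2 b hb' c hc' a
    · rw [map_prod]
      refine dvd_trans ?_ (Finset.prod_dvd_prod_of_subset _ _ _ (Finset.subset_univ N))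
      refine Finset.prod_dvd_prod_of_dvd _ _ fun b hb' => ?_
      rw [GUnst_Zw, GUnst_G, map_prod]
      exact Finset.prod_dvd_prod_of_dvd _ _ fun k _ => h3 b hb' k
  obtain ⟨r, hr⟩ := h4
  rw [hr]
  exact Ideal.mul_mem_right _ _ (Ideal.subset_span ⟨N, hN, rfl⟩)

/-- let `N` be the set where `l` is minimal (the minimum is negative): the cut of `N` divides the
class of `l` -/
lemma unst_pos {l : B D → ℤ} (hl : ∃ b, l b < 0) :
    iso D (unst D l) ∈ KI (fun b c : B D => Lq D (hh D) 0 b.1 c.1) fun b => Zq D (hh D) b.1 := by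
  classical
  obtain ⟨b₀, hb₀⟩ := hl
  obtain ⟨m, -, hm⟩ := Finset.exists_min_image Finset.univ l ⟨b₀, Finset.mem_univ _⟩
  have hm0 : l m < 0 := lt_of_le_of_lt (hm b₀ (Finset.mem_univ _)) hb₀
  refine GUnst_main D (hh D) 0 l (Finset.univ.filter fun b => l b = l m)
    ⟨m, Finset.mem_filter.2 ⟨Finset.mem_univ _, rfl⟩⟩ ?_ ?_ (hh D) ?_
  · intro b hb' c hc' a
    have h1 : l b = l m := (Finset.mem_filter.1 hb').2
    have h2 : l m < l c := lt_of_le_of_ne (hm c (Finset.mem_univ _)) fun h =>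
      Finset.mem_compl.1 hc' (Finset.mem_filter.2 ⟨Finset.mem_univ _, h.symm⟩)
    rw [fac, if_neg (by omega), if_pos (by omega)]
    simp only [map_sub, GUnst_iso_gh, map_add, GUnst_iso_gx, GUnst_iso_ga]
    refine dvd_of_eq ?_
    ring
  · intro b hb' c hc' a
    have h1 : l b = l m := (Finset.mem_filter.1 hb').2
    have h2 : l m < l c := lt_of_le_of_ne (hm c (Finset.mem_univ _)) fun h =>
      Finset.mem_compl.1 hc' (Finset.mem_filter.2 ⟨Finset.mem_univ _, h.symm⟩)
    rw [fac, if_pos (by omega)]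
    simp only [map_sub, map_zero, map_add, GUnst_iso_gx, GUnst_iso_ga]
    refine dvd_of_eq ?_
    ring
  · intro b hb' k
    have h1 : l b = l m := (Finset.mem_filter.1 hb').2
    rw [fac, if_neg (by omega), if_pos (by omega)]
    simp only [map_sub, GUnst_iso_gh, GUnst_iso_gw, GUnst_iso_gx]
    refine dvd_of_eq ?_
    ring

/-- let `N` be the set where `l` is maximal (the maximum is positive): the cut of `N` divides the
class of `l` -/
lemma unst_neg {l : B D → ℤ} (hl : ∃ b, 0 < l b) :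
    iso D (unst D l) ∈ KI (fun b c : B D => Lq D 0 (hh D) b.1 c.1) fun b => Zq D 0 b.1 := by
  classical
  obtain ⟨b₀, hb₀⟩ := hl
  obtain ⟨m, -, hm⟩ := Finset.exists_max_image Finset.univ l ⟨b₀, Finset.mem_univ _⟩
  have hm0 : 0 < l m := lt_of_lt_of_le hb₀ (hm b₀ (Finset.mem_univ _))
  refine GUnst_main D 0 (hh D) l (Finset.univ.filter fun b => l b = l m)
    ⟨m, Finset.mem_filter.2 ⟨Finset.mem_univ _, rfl⟩⟩ ?_ ?_ 0 ?_
  · intro b hb' c hc' a
    have h1 : l b = l m := (Finset.mem_filter.1 hb').2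
    have h2 : l c < l m := lt_of_le_of_ne (hm c (Finset.mem_univ _)) fun h =>
      Finset.mem_compl.1 hc' (Finset.mem_filter.2 ⟨Finset.mem_univ _, h⟩)
    rw [fac, if_pos (by omega)]
    simp only [map_sub, map_zero, map_add, GUnst_iso_gx, GUnst_iso_ga]
    refine ⟨-1, ?_⟩
    ring
  · intro b hb' c hc' a
    have h1 : l b = l m := (Finset.mem_filter.1 hb').2
    have h2 : l c < l m := lt_of_le_of_ne (hm c (Finset.mem_univ _)) fun h =>
      Finset.mem_compl.1 hc' (Finset.mem_filter.2 ⟨Finset.mem_univ _, h⟩)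
    rw [fac, if_neg (by omega), if_pos (by omega)]
    simp only [map_sub, GUnst_iso_gh, map_add, GUnst_iso_gx, GUnst_iso_ga]
    refine ⟨-1, ?_⟩
    ring
  · intro b hb' k
    have h1 : l b = l m := (Finset.mem_filter.1 hb').2
    rw [fac, if_pos (by omega)]
    simp only [map_sub, map_zero, GUnst_iso_gw, GUnst_iso_gx]
    refine ⟨-1, ?_⟩
    ring

lemma wt_pos {ν : D.I → ℤ} (hν : ∀ i, 0 < ν i) {l : B D → ℤ} (hl : wt D ν l < 0) :
    ∃ b, l b < 0 := by
  by_contra h
  push Not at h
  refine absurd hl (not_lt.2 ?_)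
  exact Finset.sum_nonneg fun b _ => mul_nonneg (hν b.1).le (h b)

lemma wt_neg {ν : D.I → ℤ} (hν : ∀ i, ν i < 0) {l : B D → ℤ} (hl : wt D ν l < 0) :
    ∃ b, 0 < l b := by
  by_contra h
  push Not at h
  refine absurd hl (not_lt.2 ?_)
  exact Finset.sum_nonneg fun b _ => mul_nonneg_of_nonpos_of_nonpos (hν b.1).le (h b)

/-- the cut ideal without `ħ` -/
lemma iso_cut {g : S D (ZZ D)} (hg : iso D g ∈
    KI (fun b c : B D => Lq D 0 0 b.1 c.1) fun b => Zq D 0 b.1) : g ∈ cutI (wX D) := by
  classical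
  have hx : ∀ b : B D, iso D (xq D b) = X b := GUnst_iso_gx D
  have ht : ∀ a : D.A, iso D (tv D a) = C (ta D a) := GUnst_iso_ga D
  have hz : ∀ (i : D.I) (k : Fin (D.w i)), iso D (zv D i k) = C (zk D i k) := GUnst_iso_gw D
  have h1 : KI (fun b c : B D => Lq D 0 0 b.1 c.1) (fun b => Zq D 0 b.1) ≤
      (cutI (wX D)).comap (iso D).symm := by
    refine Ideal.span_le.2 ?_
    rintro _ ⟨N, hN, rfl⟩
    change (iso D).symm _ ∈ cutI (wX D)
    have h2 : iso D (e (wX D) N * e (wX D) Nᶜ * zs (wX D) N) ∣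
        cut (fun b c : B D => Lq D 0 0 b.1 c.1) (fun b => Zq D 0 b.1) N := by
      have h3 : e (wX D) N * e (wX D) Nᶜ = ∏ b ∈ N, ∏ c ∈ Nᶜ, (hq D b c 0 * hq D c b 0) := by
        have h4 : e (wX D) Nᶜ = ∏ b ∈ N, ∏ c ∈ Nᶜ, hq D c b 0 := by
          rw [e, compl_compl, Finset.prod_comm]
          rfl
        rw [h4, e, ← Finset.prod_mul_distrib]
        exact Finset.prod_congr rfl fun b _ => Finset.prod_mul_distrib.symm
      rw [cut, h3, map_mul, mul_comm]
      refine mul_dvd_mul ?_ ?_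
      · rw [zs, map_prod]
        refine Finset.prod_dvd_prod_of_dvd _ _ fun b _ => ?_
        rw [GUnst_Zw]
        change iso D (zq D b 0) ∣ _
        rw [zq, map_prod]
        refine Finset.prod_dvd_prod_of_dvd _ _ fun k _ => ?_
        rw [map_add, map_sub, hx, hz, map_zero, sub_zero]
        refine ⟨-1, ?_⟩
        ring
      · rw [map_prod]
        refine Finset.prod_dvd_prod_of_dvd _ _ fun b _ => ?_
        rw [map_prod]
        refine Finset.prod_dvd_prod_of_dvd _ _ fun c _ => ?_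
        rw [GUnst_Dw, map_mul]
        refine mul_dvd_mul ?_ ?_
        · rw [hq, map_prod]
          refine Finset.prod_dvd_prod_of_dvd _ _ fun a _ => ?_
          rw [map_add, map_add, map_sub, hx, hx, ht, map_zero, map_sub, map_zero]
          refine ⟨-1, ?_⟩
          ring
        · rw [hq, map_prod]
          refine Finset.prod_dvd_prod_of_dvd _ _ fun a _ => ?_
          rw [map_add, map_add, map_sub, hx, hx, ht, map_zero, map_sub, map_zero]
          refine ⟨1, ?_⟩
          ring
    obtain ⟨r, hr⟩ := h2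
    rw [hr, map_mul, AlgEquiv.symm_apply_apply]
    exact Ideal.mul_mem_right _ _ (Ideal.subset_span ⟨N, hN, rfl⟩)
  have h5 := h1 hg
  rw [Ideal.mem_comap] at h5
  have h6 : (iso D).symm (iso D g) = g := AlgEquiv.symm_apply_apply _ _
  rw [← h6]
  exact h5

end Vale.Agent.P291.K
end
end

section

section

set_option autoImplicit false
set_option linter.unusedSectionVars false

/-! The main induction. -/

namespace Vale.Agent.P291.K

open MvPolynomial

section
variable {M A I : Type} [CommRing A] [IsDomain A] [Algebra ℚ A] [DecidableEq M] [Fintype M]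
  [DecidableEq I]

variable {col : M → I} {L : I → I → Multiset A} {Z : I → Multiset A} {h : A} {ε : A →+* ℂ}
  {PP : Ideal (MvPolynomial M A)} {p : M → A} {r : M → ℚ}

/-- the product of two elements outside the prime ideal -/
lemma Step_mul (hP : Pt ε PP p r) {x y : MvPolynomial M A} (hx : x ∉ PP) (hy : y ∉ PP) :
    x * y ∉ PP := fun h1 => (hP.pr.mem_or_mem h1).elim hx hy

/-- the multiple of the Newton remainder is in the triangular ideal -/
lemma Step_span (hL : ∀ i j, L j i = (L i j).map fun l => h - l) (σ : M → ℕ)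
    (hσ : Function.Injective σ) (r : M → ℚ) {k : ℕ} {u : M} (hu : σ u = k) (B : Finset M)
    (hB : ∀ a ∈ B, a ∈ Rs σ k ∧ col a = col u) {w : MvPolynomial M A}
    (hw : w ∈ Ideal.span ((fun a : M => (HH col L Z h (Rs σ k) (col u)).eval (X a + C h)) ''
      (B : Set M))) :
    (∏ a ∈ B, DC col L a u) * w ∈ TC col L Z (rk σ r k) := by
  induction hw using Submodule.span_induction with
  | mem x hx =>
    obtain ⟨a, ha, rfl⟩ := hx
    have ha' : a ∈ B := ha
    obtain ⟨c, hc⟩ := mesh col L Z h hL σ hσ r hu (hB a ha').1 (hB a ha').2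
    have h1 : PC col L Z (rk σ r k) a ∈ TC col L Z (rk σ r k) :=
      Ideal.subset_span ⟨a, rfl⟩
    rw [← Finset.mul_prod_erase B _ ha']
    have h2 : DC col L a u * (∏ x ∈ B.erase a, DC col L x u) *
        (HH col L Z h (Rs σ k) (col u)).eval (X a + C h) =
        (∏ x ∈ B.erase a, DC col L x u) * (DC col L a u *
          (HH col L Z h (Rs σ k) (col u)).eval (X a + C h)) := by ring
    show DC col L a u * (∏ x ∈ B.erase a, DC col L x u) *
        (HH col L Z h (Rs σ k) (col u)).eval (X a + C h) ∈ TC col L Z (rk σ r k)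
    rw [h2, hc]
    exact Ideal.mul_mem_left _ _ (Ideal.mul_mem_right _ _ h1)
  | zero =>
    rw [mul_zero]
    exact Ideal.zero_mem _
  | add x y _ _ hx hy =>
    rw [mul_add]
    exact Ideal.add_mem _ hx hy
  | smul c x _ hx =>
    rw [smul_eq_mul, mul_left_comm]
    exact Ideal.mul_mem_left _ _ hx

/-- the step before the colon step -/
lemma Step_main (hP : Pt ε PP p r) (hl : Lbl L Z h ε) (σ : M → ℕ) (hσ : Function.Injective σ)
    (f : MvPolynomial M A) (k : ℕ) {u : M} (hu : σ u = k)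
    (hk : ∃ s, s ∉ PP ∧ s * (f * (pp col 0 fun a b => σ a < σ b) *
      pp col h fun a b => ¬ (σ b < σ a ∧ σ b < k)) ∈ TC col L Z (rk σ r k)) :
    ∃ s, s ∉ PP ∧ s * (f * (pp col 0 fun a b => σ a < σ b) *
      pp col h fun a b => ¬ (σ b < σ a ∧ σ b < k + 1)) *
      (HH col L Z h (Rs σ k) (col u)).eval (X u) ∈ TC col L Z (rk σ r k) := by
  classical
  obtain ⟨s, hs, hk⟩ := hk
  rw [pp_step col h σ hσ hu] at hk
  obtain ⟨B, hBdef⟩ : ∃ B : Finset M, B = ((Rs σ k).filter (fun a => col a = col u)).filter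
    (fun a => p u = p a + h) := ⟨_, rfl⟩
  obtain ⟨F, hFdef⟩ : ∃ F : Finset M, F = ((Rs σ k).filter (fun a => col a = col u)).filter
    (fun a => ¬ p u = p a + h) := ⟨_, rfl⟩
  have hsplit : (∏ a ∈ (Rs σ k).filter (fun a => col a = col u),
      (X a - X u + C h : MvPolynomial M A)) =
      (∏ a ∈ B, (X a - X u + C h)) * ∏ a ∈ F, (X a - X u + C h) := by
    rw [hBdef, hFdef]
    exact (Finset.prod_filter_mul_prod_filter_not _ _ _).symm
  rw [hsplit] at hk
  have hB : ∀ a ∈ B, a ∈ Rs σ k ∧ col a = col u := by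
    intro a ha
    rw [hBdef, Finset.mem_filter, Finset.mem_filter] at ha
    exact ha.1
  have hBp : ∀ a ∈ B, p u = p a + h := by
    intro a ha
    rw [hBdef, Finset.mem_filter] at ha
    exact ha.2
  have hF : (∏ a ∈ F, (X a - X u + C h : MvPolynomial M A)) ∉ PP := by
    refine prod_notMem hP _ _ fun a ha => ?_
    rw [hFdef, Finset.mem_filter] at ha
    exact hP.not_sub ha.2
  have hD : (∏ a ∈ B, DC col L a u) ∉ PP :=
    prod_notMem hP _ _ fun a ha => hP.dc_h hl (hBp a ha)
  obtain ⟨Q, hQ⟩ := newton (fun a : M => (X a + C h : MvPolynomial M A)) σ hσ (X u) B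
    (HH col L Z h (Rs σ k) (col u))
  obtain ⟨V, hV⟩ := vdm_dvd (A := A) col σ B fun a ha b hb => (hB a ha).2.trans (hB b hb).2.symm
  have hv : (∏ a ∈ B, ∏ b ∈ B.filter (fun b => σ a < σ b),
      ((X a + C h) - (X b + C h) : MvPolynomial M A)) =
      ∏ a ∈ B, ∏ b ∈ B.filter (fun b => σ a < σ b), (X a - X b) := by
    refine Finset.prod_congr rfl fun a _ => Finset.prod_congr rfl fun b _ => ?_
    ring
  have hn : (∏ a ∈ B, (X u - (X a + C h) : MvPolynomial M A)) =
      (-1) ^ B.card * ∏ a ∈ B, (X a - X u + C h) := by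
    rw [← Finset.prod_const, ← Finset.prod_mul_distrib]
    refine Finset.prod_congr rfl fun a _ => ?_
    ring
  rw [hv, hn] at hQ
  have h1 := Step_span (col := col) (L := L) (Z := Z) hl.mesh σ hσ r hu B hB hQ
  refine ⟨s * (∏ a ∈ F, (X a - X u + C h)) * ∏ a ∈ B, DC col L a u,
    Step_mul hP (Step_mul hP hs hF) hD, ?_⟩
  rw [hV] at hk ⊢
  generalize (∏ a ∈ B, ∏ b ∈ B.filter (fun b => σ a < σ b), (X a - X b : MvPolynomial M A)) = v
    at h1 hk ⊢
  generalize (∏ a ∈ B, DC col L a u) = D at h1 ⊢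
  generalize (∏ a ∈ F, (X a - X u + C h : MvPolynomial M A)) = G at hk ⊢
  generalize (∏ a ∈ B, (X a - X u + C h : MvPolynomial M A)) = W at h1 hk ⊢
  generalize (HH col L Z h (Rs σ k) (col u)).eval (X u) = H at h1 ⊢
  generalize (pp col h fun a b => ¬ (σ b < σ a ∧ σ b < k + 1)) = E at hk ⊢
  have h2 : s * G * D * (f * (v * V) * E) * H =
      (s * G * (f * V * E)) * (D * (v * (H - Q * ((-1) ^ B.card * W)))) +
      (D * Q * (-1) ^ B.card) * (s * (f * (v * V) * (E * (W * G)))) := by ring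
  rw [h2]
  exact Ideal.add_mem _ (Ideal.mul_mem_left _ _ h1) (Ideal.mul_mem_left _ _ hk)

/-- one step, see the note: with `B = {a ∈ R : col a = col u, p u = p a + h}`, `H = HH`:
`newton` for the nodes `x a + h`, `a ∈ B`, at `x u`; `vdm_dvd`; `mesh`; `Pt.dc_h`; the factors
`x a - x u + h`, `a ∉ B`, are not in `PP`; `HH_eval_u`; `Pt.zs`; `Pt.dc`; `colon_step`. -/
theorem step (hP : Pt ε PP p r) (hl : Lbl L Z h ε) (σ : M → ℕ) (hσ : Function.Injective σ)
    (f : MvPolynomial M A) (k : ℕ)
    (hk : ∃ s, s ∉ PP ∧ s * (f * (pp col 0 fun a b => σ a < σ b) *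
      pp col h fun a b => ¬ (σ b < σ a ∧ σ b < k)) ∈ TC col L Z (rk σ r k)) :
    ∃ s, s ∉ PP ∧ s * (f * (pp col 0 fun a b => σ a < σ b) *
      pp col h fun a b => ¬ (σ b < σ a ∧ σ b < k + 1)) ∈ TC col L Z (rk σ r (k + 1)) := by
  classical
  by_cases hu : ∃ u, σ u = k
  · obtain ⟨u, hu⟩ := hu
    obtain ⟨s, hs, h1⟩ := Step_main hP hl σ hσ f k hu hk
    rw [HH_eval_u, ← Finset.prod_filter_mul_prod_filter_not (Rs σ k) (fun d => r d < r u)] at h1
    have hd : (∏ d ∈ (Rs σ k).filter (fun d => ¬ r d < r u), DC col L d u) ∉ PP := by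
      refine prod_notMem hP _ _ fun d hd => ?_
      rw [Finset.mem_filter] at hd
      intro h2
      have h3 := hP.dc hl h2
      apply hd.2
      rw [h3]
      exact lt_add_one _
    have hc : (∏ c ∈ (Rs σ k).filter (fun c => ¬ r u < r c), DC col L u c) ∉ PP := by
      refine prod_notMem hP _ _ fun d hd => ?_
      rw [Finset.mem_filter] at hd
      intro h2
      have h3 := hP.dc hl h2
      apply hd.2
      rw [h3]
      exact lt_add_one _
    have hz := hP.zs hl (col := col) u
    have h2 := colon_step (A := A) col L Z σ hσ r hu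
      (y := (s * (∏ d ∈ (Rs σ k).filter (fun d => ¬ r d < r u), DC col L d u) * Zs col Z h u) *
        (f * (pp col 0 fun a b => σ a < σ b) *
        pp col h fun a b => ¬ (σ b < σ a ∧ σ b < k + 1))) (by
        convert h1 using 1
        ring)
    rw [← mul_assoc] at h2
    exact ⟨_, Step_mul hP hc (Step_mul hP (Step_mul hP hs hd) hz), h2⟩
  · have hu' : ∀ u, σ u ≠ k := fun u h1 => hu ⟨u, h1⟩
    obtain ⟨s, hs, h1⟩ := hk
    refine ⟨s, hs, ?_⟩
    rw [pp_none col h σ hu', TC_none col L Z σ hσ r hu']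
    exact h1

end

end Vale.Agent.P291.K
end
end

section

section

set_option autoImplicit false
set_option linter.unusedSectionVars false

/-! The main induction. -/

namespace Vale.Agent.P291.K

open MvPolynomial

section
variable {M A I : Type} [CommRing A] [IsDomain A] [Algebra ℚ A] [DecidableEq M] [Fintype M]
  [DecidableEq I]

variable {col : M → I} {L : I → I → Multiset A} {Z : I → Multiset A} {h : A} {ε : A →+* ℂ}
  {PP : Ideal (MvPolynomial M A)} {p : M → A} {r : M → ℚ}

lemma start_pp_congr (s : A) {q q' : M → M → Prop} (hq : ∀ a b, q a b ↔ q' a b) :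
    pp col s q = pp col s q' := by
  have : q = q' := funext fun a => funext fun b => propext (hq a b)
  rw [this]

lemma start_sw_pp {a b : M} (hc : col a = col b) (s : A) :
    sw a b (pp col s fun _ _ => True) = pp col s fun _ _ => True := by
  refine rename_pp col (Equiv.swap a b) (fun c => ?_) s _ fun _ _ => Iff.rfl
  rcases eq_or_ne c a with rfl | h1
  · rw [Equiv.swap_apply_left, hc]
  rcases eq_or_ne c b with rfl | h2
  · rw [Equiv.swap_apply_right, hc]
  rw [Equiv.swap_apply_of_ne_of_ne h1 h2]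

/-- start: `as_main` for `e b = (col b, p b)` -/
theorem start (hP : Pt ε PP p r) (hl : Lbl L Z h ε) (σ : M → ℕ) (hσ : Function.Injective σ)
    (f : MvPolynomial M A) (hf : ∀ a b, col a = col b → sw a b f = f)
    (h1 : f * (pp col 0 fun _ _ => True) * (pp col h fun _ _ => True) ∈ TC col L Z r) :
    ∃ s, s ∉ PP ∧ s * (f * (pp col 0 fun a b => σ a < σ b) *
      pp col h fun a b => ¬ (σ b < σ a ∧ σ b < 0)) ∈ TC col L Z (rk σ r 0) := by
  have hE : (pp col h fun a b => ¬ (σ b < σ a ∧ σ b < 0)) = pp col h fun _ _ => True :=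
    start_pp_congr h fun a b => by simp
  rw [hE, TC_zero col L Z σ hσ r]
  obtain ⟨e, -, he⟩ := pp_sq (A := A) col σ hσ
  refine ⟨pp col (0 : A) fun a b => (col a, p a) ≠ (col b, p b), ?_,
    as_main col L Z r (fun b => (col b, p b)) ?_ σ hσ ?_ ?_⟩
  · have h0 : (1 : MvPolynomial M A) ∉ PP := fun h =>
      hP.pr.ne_top ((Ideal.eq_top_iff_one _).2 h)
    unfold pp
    refine prod_notMem hP _ _ fun a _ => prod_notMem hP _ _ fun b _ => ?_
    split_ifs with hab
    · refine hP.not_sub fun hpp => hab.2.2 ?_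
      rw [Prod.mk.injEq]
      exact ⟨hab.2.1, by rw [hpp, add_zero]⟩
    · exact h0
  · intro a b hab
    rw [Prod.mk.injEq] at hab
    refine ⟨hab.1, ?_⟩
    have h2 := hP.rr a
    rw [hab.2, hP.rr b] at h2
    exact_mod_cast h2.symm
  · intro a b hne hab
    have hc : col a = col b := (Prod.mk.injEq _ _ _ _ ▸ hab : _ ∧ _).1
    rw [map_mul, map_mul, hf a b hc, sw_vdm col σ hσ hne hc, start_sw_pp hc]
    ring
  · have h2 : (pp col (0 : A) fun a b => σ a < σ b) *
        (f * (pp col 0 fun a b => σ a < σ b) * pp col h fun _ _ => True) =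
        (e : MvPolynomial M A) * (f * (pp col 0 fun _ _ => True) *
          (pp col h fun _ _ => True)) := by
      calc _ = f * ((pp col (0 : A) fun a b => σ a < σ b) * (pp col 0 fun a b => σ a < σ b)) *
            (pp col h fun _ _ => True) := by ring
        _ = _ := by rw [he]; ring
    rw [h2]
    exact Ideal.mul_mem_left _ _ h1

end

end Vale.Agent.P291.K
end
end

section

section

set_option autoImplicit false
set_option linter.unusedSectionVars false

/-! The main induction. -/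

namespace Vale.Agent.P291.K

open MvPolynomial

section
variable {M A I : Type} [CommRing A] [IsDomain A] [Algebra ℚ A] [DecidableEq M] [Fintype M]
  [DecidableEq I]

variable {col : M → I} {L : I → I → Multiset A} {Z : I → Multiset A} {h : A} {ε : A →+* ℂ}
  {PP : Ideal (MvPolynomial M A)} {p : M → A} {r : M → ℚ}

/-- all marks are moved -/
lemma linkT_last (col : M → I) (h : A) (σ : M → ℕ) (hσ : Function.Injective σ) {k : ℕ}
    (hk : ∀ b, σ b < k) :
    (pp col h fun a b => ¬ (σ b < σ a ∧ σ b < k)) = pp col h fun a b => σ a < σ b := by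
  unfold pp
  refine Finset.prod_congr rfl fun a _ => Finset.prod_congr rfl fun b _ => ?_
  by_cases hab : a = b
  · subst hab
    simp
  · have h3 : (¬ (σ b < σ a ∧ σ b < k)) ↔ σ a < σ b := by
      have h1 : σ a ≠ σ b := fun e => hab (hσ e)
      have h2 := hk b
      omega
    by_cases h4 : a ≠ b ∧ col a = col b ∧ σ a < σ b
    · rw [if_pos h4, if_pos ⟨h4.1, h4.2.1, h3.2 h4.2.2⟩]
    · rw [if_neg h4, if_neg fun h5 => h4 ⟨h5.1, h5.2.1, h3.1 h5.2.2⟩]

/-- the iterated step -/
lemma linkT_iter (hP : Pt ε PP p r) (hl : Lbl L Z h ε) (σ : M → ℕ) (hσ : Function.Injective σ)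
    (f : MvPolynomial M A)
    (h0 : ∃ s, s ∉ PP ∧ s * (f * (pp col 0 fun a b => σ a < σ b) *
      pp col h fun a b => ¬ (σ b < σ a ∧ σ b < 0)) ∈ TC col L Z (rk σ r 0)) (k : ℕ) :
    ∃ s, s ∉ PP ∧ s * (f * (pp col 0 fun a b => σ a < σ b) *
      pp col h fun a b => ¬ (σ b < σ a ∧ σ b < k)) ∈ TC col L Z (rk σ r k) := by
  induction k with
  | zero => exact h0
  | succ k ih => exact step hP hl σ hσ f k ih

/-- the main theorem at the level of triangular ideals: if the colon ideal of `y` contains a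
nonzero constant use `rg_const`, otherwise take a prime ideal (`Ideal.exists_le_prime_disjoint`) and
use `exists_pt`, `start`, `step`, `TC_last` -/
theorem link_T (hl : Lbl L Z h ε) (f : MvPolynomial M A)
    (hf : ∀ a b, col a = col b → sw a b f = f)
    (h1 : f * (pp col 0 fun _ _ => True) * (pp col h fun _ _ => True) ∈
      KI (fun b c => L (col b) (col c)) (fun b => Z (col b)))
    (σ : M → ℕ) (hσ : Function.Injective σ) :
    f * (pp col 0 fun a b => σ a < σ b) * (pp col h fun a b => σ a < σ b) ∈ TC col L Z σ := by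
  obtain ⟨y, hy⟩ : ∃ y, y = f * (pp col 0 fun a b => σ a < σ b) *
    (pp col h fun a b => σ a < σ b) := ⟨_, rfl⟩
  rw [← hy]
  have hTC : TC col L Z σ = Ideal.span ((Pr (fun b c => L (col b) (col c))
      (fun b => Z (col b)) (up σ)) '' ((Finset.univ : Finset M) : Set M)) := by
    unfold TC TI
    rw [Finset.coe_univ, Set.image_univ]
  by_cases hcst : ∃ a : A, a ≠ 0 ∧ C a * y ∈ TC col L Z σ
  · obtain ⟨a, ha, hay⟩ := hcst
    have h2 := rg_const σ (Pr (fun b c => L (col b) (col c)) (fun b => Z (col b)) (up σ))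
      (tri_Pr (fun b c => L (col b) (col c)) (fun b => Z (col b)) σ (up σ)
        (fun b c hc => (Finset.mem_filter.1 hc).2)) ha
    rw [← hTC] at h2
    exact h2 y hay
  · exfalso
    let J : Ideal (MvPolynomial M A) :=
      { carrier := {s | s * y ∈ TC col L Z σ}
        add_mem' := fun {a b} ha hb => by
          simp only [Set.mem_ofPred_eq] at ha hb ⊢
          rw [add_mul]
          exact Ideal.add_mem _ ha hb
        zero_mem' := by
          simp only [Set.mem_ofPred_eq, zero_mul]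
          exact Ideal.zero_mem _
        smul_mem' := fun c {a} ha => by
          simp only [Set.mem_ofPred_eq, smul_eq_mul] at ha ⊢
          rw [mul_assoc]
          exact Ideal.mul_mem_left _ c ha }
    have hJ : ∀ s, s ∈ J ↔ s * y ∈ TC col L Z σ := fun s => Iff.rfl
    let S : Submonoid (MvPolynomial M A) :=
      Submonoid.map (C : A →+* MvPolynomial M A) (nonZeroDivisors A)
    have hS : ∀ a : A, a ≠ 0 → C a ∈ S := fun a ha =>
      Submonoid.mem_map_of_mem _ (mem_nonZeroDivisors_iff_ne_zero.2 ha)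
    have hdis : Disjoint (J : Set (MvPolynomial M A)) S := by
      rw [Set.disjoint_left]
      rintro _ hx ⟨a, ha, rfl⟩
      exact hcst ⟨a, nonZeroDivisors.ne_zero ha, hx⟩
    obtain ⟨PP, hPP, hJP, hPS⟩ := Ideal.exists_le_prime_disjoint J S hdis
    have hc : ∀ a : A, C a ∈ PP → a = 0 := by
      intro a ha
      by_contra hne
      exact Set.disjoint_left.1 hPS ha (hS a hne)
    have hT : TC col L Z σ ≤ PP := fun t ht => hJP ((hJ t).2 (Ideal.mul_mem_right _ _ ht))
    obtain ⟨p, r, hP⟩ := exists_pt hl σ hσ hPP hc hT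
    have h2 : f * (pp col 0 fun _ _ => True) * (pp col h fun _ _ => True) ∈ TC col L Z r :=
      KI_le _ _ r h1
    obtain ⟨k, hk⟩ : ∃ k, ∀ b, σ b < k := by
      obtain ⟨B, hB⟩ := (Set.finite_range σ).bddAbove
      exact ⟨B + 1, fun b => Nat.lt_succ_of_le (hB ⟨b, rfl⟩)⟩
    obtain ⟨s, hs, hsy⟩ := linkT_iter hP hl σ hσ f (start hP hl σ hσ f hf h2) k
    rw [linkT_last col h σ hσ hk, TC_last col L Z σ hσ r hk, ← hy] at hsy
    exact hs (hJP ((hJ s).2 hsy))

end

end Vale.Agent.P291.K
end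
end

section

section

set_option autoImplicit false
set_option linter.unusedSectionVars false

/-! The main induction. -/

namespace Vale.Agent.P291.K

open MvPolynomial

section
variable {M A I : Type} [CommRing A] [IsDomain A] [Algebra ℚ A] [DecidableEq M] [Fintype M]
  [DecidableEq I]

variable {col : M → I} {L : I → I → Multiset A} {Z : I → Multiset A} {h : A} {ε : A →+* ℂ}
  {PP : Ideal (MvPolynomial M A)} {p : M → A} {r : M → ℚ}

lemma link_map_Dw {A' : Type} [CommRing A'] (φ : A →+* A') (L : M → M → Multiset A) (b c : M) :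
    MvPolynomial.map φ (Dw L b c) = Dw (fun b c => (L b c).map φ) b c := by
  unfold Dw
  rw [map_multiset_prod, Multiset.map_map, Multiset.map_map]
  congr 1
  refine Multiset.map_congr rfl fun l _ => ?_
  simp

lemma link_map_Zw {A' : Type} [CommRing A'] (φ : A →+* A') (Z : M → Multiset A) (b : M) :
    MvPolynomial.map φ (Zw Z b) = Zw (fun b => (Z b).map φ) b := by
  unfold Zw
  rw [map_multiset_prod, Multiset.map_map, Multiset.map_map]
  congr 1
  refine Multiset.map_congr rfl fun l _ => ?_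
  simp only [Function.comp_apply, map_sub, map_X, map_C]

lemma link_map_Pr {A' : Type} [CommRing A'] (φ : A →+* A') (L : M → M → Multiset A)
    (Z : M → Multiset A) (T : M → Finset M) (b : M) :
    MvPolynomial.map φ (Pr L Z T b) =
      Pr (fun b c => (L b c).map φ) (fun b => (Z b).map φ) T b := by
  unfold Pr
  rw [map_mul, map_prod, link_map_Zw]
  congr 1
  exact Finset.prod_congr rfl fun c _ => link_map_Dw φ L b c

lemma link_map_TI {A' : Type} [CommRing A'] (φ : A →+* A') (L : M → M → Multiset A)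
    (Z : M → Multiset A) (T : M → Finset M) {y : MvPolynomial M A} (hy : y ∈ TI L Z T) :
    MvPolynomial.map φ y ∈ TI (fun b c => (L b c).map φ) (fun b => (Z b).map φ) T := by
  have h1 : Ideal.map (MvPolynomial.map φ) (TI L Z T) ≤
      TI (fun b c => (L b c).map φ) (fun b => (Z b).map φ) T := by
    unfold TI
    rw [Ideal.map_span, Ideal.span_le]
    rintro _ ⟨_, ⟨b, rfl⟩, rfl⟩
    rw [link_map_Pr]
    exact Ideal.subset_span ⟨b, rfl⟩
  exact h1 (Ideal.mem_map_of_mem _ hy)

lemma link_map_pp {A' : Type} [CommRing A'] (φ : A →+* A') (col : M → I) (s : A)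
    (p : M → M → Prop) : MvPolynomial.map φ (pp col s p) = pp col (φ s) p := by
  unfold pp
  rw [map_prod]
  refine Finset.prod_congr rfl fun a _ => ?_
  rw [map_prod]
  refine Finset.prod_congr rfl fun b _ => ?_
  split_ifs
  · simp
  · simp only [map_one]

/-- the specialization `φ` with `φ h = 0` -/
theorem link {A' : Type} [CommRing A'] [IsDomain A'] [Algebra ℚ A'] (φ : A →+* A')
    (hφ : φ h = 0) (hl : Lbl L Z h ε) (f : MvPolynomial M A)
    (hf : ∀ a b, col a = col b → sw a b f = f)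
    (h1 : f * (pp col 0 fun _ _ => True) * (pp col h fun _ _ => True) ∈
      KI (fun b c => L (col b) (col c)) (fun b => Z (col b))) :
    MvPolynomial.map φ f * (pp col 0 fun _ _ => True) ∈
      KI (fun b c => (L (col b) (col c)).map φ) (fun b => (Z (col b)).map φ) := by
  refine inter _ _ fun σ hσ => ?_
  have h2 := link_map_TI φ _ _ _ (link_T hl f hf h1 σ hσ)
  rw [map_mul, map_mul, link_map_pp, link_map_pp, hφ, map_zero, mul_assoc] at h2
  obtain ⟨e, he, hsq⟩ := pp_sq (A := A') col σ hσ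
  rw [hsq] at h2
  have h3 := Ideal.mul_mem_left _ (e : MvPolynomial M A') h2
  have h4 : (e : MvPolynomial M A') * (MvPolynomial.map φ f *
      ((e : MvPolynomial M A') * pp col 0 fun _ _ => True)) =
      MvPolynomial.map φ f * pp col 0 fun _ _ => True := by
    have h5 : (e : MvPolynomial M A') * (e : MvPolynomial M A') = 1 := by
      rw [← Int.cast_mul, he, Int.cast_one]
    calc (e : MvPolynomial M A') * (MvPolynomial.map φ f *
        ((e : MvPolynomial M A') * pp col 0 fun _ _ => True)) =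
        ((e : MvPolynomial M A') * (e : MvPolynomial M A')) *
          (MvPolynomial.map φ f * pp col 0 fun _ _ => True) := by ring
      _ = _ := by rw [h5, one_mul]
  rw [h4] at h3
  exact h3

end

end Vale.Agent.P291.K
end
end

section

section

set_option autoImplicit false
set_option linter.unusedSectionVars false

/-! The kernel in the presentation of Hausel and Proudfoot. -/

namespace Vale.Agent.P291.K

open MvPolynomial Vale.Agent.P291.G Vale.Agent.P291.H Vale.Agent.P291.H.M

variable (D : QData) {K : Type} [Field K] [Algebra ℂ K] (x : B D → K) (y : Fin D.rk → K)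

lemma Final_spc_z0 (f : S D (ZZ D)) : spc D x y (z0 D f) = spc D x y f := by
  have h : (spc D x y).comp (z0 D) = spc D x y := by
    apply MvPolynomial.algHom_ext
    intro b
    rw [AlgHom.comp_apply, z0, aeval_X]
    rcases b with b | (a | (u | j))
    · simp only [spc, xx, Sum.elim_inl, aeval_X]
    · simp
    · simp only [spc, Sum.elim_inr, Sum.elim_inl, map_zero, aeval_X]
    · simp only [Sum.elim_inr]
  exact DFunLike.congr_fun h f

/-- from the membership of `f · disc` for the labels of one sign -/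
lemma Final_aux {L : D.I → D.I → Multiset (FR D)} {Z : D.I → Multiset (FR D)} {h : FR D}
    {ε : FR D →+* ℂ} (hl : Lbl L Z h ε) (hh0 : h0 D h = 0)
    (hL : ∀ i j, (L i j).map (h0 D) = Lq D 0 0 i j) (hZ : ∀ i, (Z i).map (h0 D) = Zq D 0 i)
    {g : S D (ZZ D)} (hg : ∀ σ, act D (ZZ D) σ g = g)
    (hd : ∃ e : ℤ, e * e = 1 ∧ iso D (disc D) = (e : MvPolynomial (B D) (FR D)) *
      ((pp (Sigma.fst : B D → D.I) 0 fun _ _ => True) *
        pp (Sigma.fst : B D → D.I) h fun _ _ => True))
    (hm : iso D (g * disc D) ∈ KI (fun b c : B D => L b.1 c.1) fun b => Z b.1) :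
    z0 D g * ddT D (ZZ D) ∈ cutI (wX D) := by
  classical
  obtain ⟨e, he, hd⟩ := hd
  have h1 : iso D g * (pp (Sigma.fst : B D → D.I) 0 fun _ _ => True) *
      (pp (Sigma.fst : B D → D.I) h fun _ _ => True) ∈
        KI (fun b c : B D => L b.1 c.1) fun b => Z b.1 := by
    have h3 : (e : MvPolynomial (B D) (FR D)) * (e : MvPolynomial (B D) (FR D)) = 1 := by
      rw [← Int.cast_mul, he, Int.cast_one]
    have h2 := Ideal.mul_mem_left _ (e : MvPolynomial (B D) (FR D)) hm
    rw [map_mul, hd] at h2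
    generalize (e : MvPolynomial (B D) (FR D)) = E at h2 h3
    have h4 : ∀ f p q : MvPolynomial (B D) (FR D), E * (f * (E * (p * q))) = f * p * q := by
      intro f p q
      linear_combination f * p * q * h3
    rw [h4] at h2
    exact h2
  have h5 := link (col := (Sigma.fst : B D → D.I)) (h0 D) hh0 hl (iso D g)
    (fun a b hab => iso_act D hg hab) h1
  simp only [hL, hZ] at h5
  apply iso_cut
  rw [map_mul, iso_z0, iso_ddT]
  exact h5

/-- for `ν > 0` or `ν < 0` the Hausel-Proudfoot ideal is contained in the ideal of the invariants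
`g` with `g · Δ` in the cut ideal -/
theorem kerH_le_kerJ (ν : D.I → ℤ) (hν : (∀ i, 0 < ν i) ∨ ∀ i, ν i < 0) :
    kerH D x y ν ⊆ kerJ D x y := by
  rintro z ⟨g, hg, hm, rfl⟩
  have hg' : ∀ σ, act D (ZZ D) σ g = g := hg
  refine ⟨z0 D g, fun σ => ?_, ?_, Final_spc_z0 D x y g⟩
  · rw [← z0_act, hg' σ]
  rcases hν with hν | hν
  · refine Final_aux D (lbl_pos D) (h0_hh D) (h0_Lq_pos D) (h0_Zq_pos D) hg' (iso_disc_pos D) ?_
    refine Submodule.span_induction (p := fun p _ => iso D p ∈
      KI (fun b c : B D => Lq D (hh D) 0 b.1 c.1) fun b => Zq D (hh D) b.1) ?_ ?_ ?_ ?_ hm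
    · rintro _ ⟨l, hl, rfl⟩
      exact unst_pos D (wt_pos D hν hl)
    · rw [map_zero]
      exact Ideal.zero_mem _
    · intro p q _ _ h1 h2
      rw [map_add]
      exact Ideal.add_mem _ h1 h2
    · intro c p _ h1
      rw [smul_eq_mul, map_mul]
      exact Ideal.mul_mem_left _ _ h1
  · have hn : h0 D (-hh D) = 0 := by rw [map_neg, h0_hh, neg_zero]
    refine Final_aux D (lbl_neg D) hn (h0_Lq_neg D) (h0_Zq_neg D) hg' (iso_disc_neg D) ?_
    refine Submodule.span_induction (p := fun p _ => iso D p ∈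
      KI (fun b c : B D => Lq D 0 (hh D) b.1 c.1) fun b => Zq D 0 b.1) ?_ ?_ ?_ ?_ hm
    · rintro _ ⟨l, hl, rfl⟩
      exact unst_neg D (wt_neg D hν hl)
    · rw [map_zero]
      exact Ideal.zero_mem _
    · intro p q _ _ h1 h2
      rw [map_add]
      exact Ideal.add_mem _ h1 h2
    · intro c p _ h1
      rw [smul_eq_mul, map_mul]
      exact Ideal.mul_mem_left _ _ h1

end Vale.Agent.P291.K
end
end

section

section

set_option autoImplicit false
set_option linter.unusedSectionVars false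

/-! Translation of the main theorem to the definitions of `T/QF.lean`. -/

namespace Vale.Agent.P291.Q

open MvPolynomial

/-- the same data -/
@[reducible] def tG (D : QData) : Vale.Agent.P291.T.QData :=
  @Vale.Agent.P291.T.QData.mk D.I D.A D.fI D.dI D.fA D.src D.tgt D.v D.w D.rk D.ta D.tw

variable (D : QData)

section
variable {K L : Type} [Field K] [Algebra ℂ K] [CommRing L] [Algebra K L]
  (x : B D → K) (y : Fin D.rk → K) (u : (B D → ℤ) → L) (ν : D.I → ℤ)

lemma eul_eq {C : Type} [CommRing C] (x : B D → C) (y : Fin D.rk → C) (l : B D → ℤ) :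
    wts D x (fl D y) (fun χ c => χ ^ (-c).toNat) l =
      Vale.Agent.P291.G.eul (tG D) x y l := by
  unfold wts Vale.Agent.P291.G.eul
  simp only [neg_sub, neg_neg]
  rfl

lemma mono_eq (l : B D → ℤ) (f : MvPolynomial (B D ⊕ Fin D.rk) ℂ) :
    mono D x y u l f = Vale.Agent.P291.G.mono (tG D) x y u l f := by
  unfold mono Vale.Agent.P291.G.mono
  refine Finset.sum_congr rfl fun σ _ => ?_
  rw [eul_eq]
  rfl

lemma R_eq : R D x y = Vale.Agent.P291.G.R (tG D) x y := rfl

lemma coulomb_eq : coulomb D x y u = Vale.Agent.P291.G.coulomb (tG D) x y u := by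
  unfold coulomb Vale.Agent.P291.G.coulomb
  simp only [mono_eq]
  rfl

lemma fixI_eq : fixI D x y u ν = Vale.Agent.P291.G.fixI (tG D) x y u ν := by
  unfold fixI Vale.Agent.P291.G.fixI
  rw [coulomb_eq]
  rfl

/-- the polynomial ring with all flavor variables -/
abbrev PT : Type := MvPolynomial (B D ⊕ Z D) ℂ

noncomputable def xT (z : B D ⊕ Z D) : PT D := MvPolynomial.X z
noncomputable def hT : PT D := MvPolynomial.X (.inr (.inr (.inl ())))

lemma disc_eq : disc D (fun b => xT D (.inl b)) (fun α => α * (hT D + α)) =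
      Vale.Agent.P291.G.disc (tG D) := by
  unfold disc rts Vale.Agent.P291.G.disc
  refine Finset.prod_congr rfl fun i _ => Finset.prod_congr rfl fun r _ => ?_
  beta_reduce
  rw [← Finset.mul_prod_erase Finset.univ _ (Finset.mem_univ r), if_pos (sub_self _), one_mul]
  refine Finset.prod_congr rfl fun s hs => ?_
  rw [if_neg]
  · rw [add_comm (hT D)]
    rfl
  · intro h0
    apply Finset.ne_of_mem_erase hs
    apply Fin.ext
    have := sub_eq_zero.1 h0
    exact_mod_cast this.symm

lemma disc0_eq : disc D (fun b => xT D (.inl b)) id =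
      Vale.Agent.P291.H.M.ddT (tG D) (Vale.Agent.P291.H.ZZ (tG D)) := by
  rw [Vale.Agent.P291.H.M.ddT_eq]
  rfl

lemma act_eq (σ : W D) (g : PT D) :
    val (Sum.elim (fun b => (MvPolynomial.X (.inl (pm D σ b)) : PT D))
      fun c => MvPolynomial.X (.inr c)) g =
      rename (Sum.map (Vale.Agent.P291.G.perm (tG D) σ) id) g := by
  have e1 : (Sum.elim (fun b => (MvPolynomial.X (.inl (pm D σ b)) : PT D))
      fun c => MvPolynomial.X (.inr c)) =
      (MvPolynomial.X : (B D ⊕ Z D) → PT D) ∘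
        Sum.map (Vale.Agent.P291.G.perm (tG D) σ) id := by
    funext c
    cases c <;> rfl
  rw [e1]
  have e2 : (aeval ((MvPolynomial.X : (B D ⊕ Z D) → PT D) ∘
      Sum.map (Vale.Agent.P291.G.perm (tG D) σ) id) : PT D →ₐ[ℂ] PT D) =
      rename (Sum.map (Vale.Agent.P291.G.perm (tG D) σ) id) := by
    apply MvPolynomial.algHom_ext
    intro b
    rw [aeval_X, rename_X]
    rfl
  exact DFunLike.congr_fun e2 g

lemma kerH_def : kerH D x y ν = {z | ∃ g : PT D,
    (∀ σ, val (Sum.elim (fun b => (MvPolynomial.X (.inl (pm D σ b)) : PT D))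
      fun c => MvPolynomial.X (.inr c)) g = g) ∧
    g * disc D (fun b => xT D (.inl b)) (fun α => α * (hT D + α)) ∈
      cut D (fun b => xT D (.inl b)) (fun a => xT D (.inr (.inl a)))
        (fun χ c => if c < 0 then χ else if 0 < c then hT D - χ else 1) (fun l => wt D ν l < 0) ∧
    val (Sum.elim x (Sum.elim (fl D y) (Sum.elim 0 y))) g = z} := rfl

lemma kerH_eq : kerH D x y ν = Vale.Agent.P291.G.kerH (tG D) x y ν := by
  rw [kerH_def]
  ext z
  constructor
  · rintro ⟨g, h1, h2, h3⟩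
    refine ⟨g, fun σ => ?_, ?_, ?_⟩
    · have := h1 σ
      rw [act_eq] at this
      exact this
    · rw [disc_eq] at h2
      exact h2
    · exact h3
  · rintro ⟨g, h1, h2, h3⟩
    refine ⟨g, fun σ => ?_, ?_, ?_⟩
    · rw [act_eq]
      exact h1 σ
    · rw [disc_eq]
      exact h2
    · exact h3

end

lemma not_root (h : Empty D 2) : Vale.Agent.P291.H.M.ddT (tG D) (Vale.Agent.P291.H.ZZ (tG D)) ∈
    Vale.Agent.P291.H.N.cutU (Vale.Agent.P291.H.M.wX (tG D)) := by
  have h1 := h (PT D) (fun b => xT D (.inl b)) (fun a => xT D (.inr (.inl a)))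
  rw [disc0_eq] at h1
  refine (Ideal.span_le.2 ?_ : cut D _ _ _ _ ≤ _) h1
  rintro p ⟨l, ⟨h2, h3, h4⟩, rfl⟩
  exact Vale.Agent.P291.H.N.mem_cutU (tG D) l h2 h3 (h4 (by norm_num))

lemma not_fr (h : Empty D 0) : Vale.Agent.P291.H.M.ddT (tG D) (Vale.Agent.P291.H.ZZ (tG D)) ∈
    Vale.Agent.P291.H.M.cutI (Vale.Agent.P291.H.M.wX (tG D)) := by
  have h1 := h (PT D) (fun b => xT D (.inl b)) (fun a => xT D (.inr (.inl a)))
  rw [disc0_eq] at h1
  refine (Ideal.span_le.2 ?_ : cut D _ _ _ _ ≤ _) h1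
  rintro p ⟨l, ⟨h2, h3, h4⟩, rfl⟩
  exact Vale.Agent.P291.H.N.mem_cutF (tG D) l h2 h3

lemma HR_of_Reg {ν : D.I → ℤ} (h : Reg D ν) : Vale.Agent.P291.H.N.HR (tG D) ν := by
  intro n₀ m h1 h2 h3
  obtain ⟨s, h4, h5, h6⟩ := Vale.Agent.P291.H.N.Sm_list (tG D) ν h2
  by_contra hm
  refine h1 (not_fr (sub D n₀) (h n₀ s ?_ (h5 hm) fun n hn => ?_))
  · rw [h4]
    exact h3
  · obtain ⟨h7, h8, h9⟩ := h6 n hn
    exact ⟨h7, h8, fun h => h9 (not_root (sub D n) h)⟩

section
variable {K L : Type} [Field K] [Algebra ℂ K] [CommRing L] [Algebra K L]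
  (x : B D → K) (y : Fin D.rk → K) (u : (B D → ℤ) → L) (ν : D.I → ℤ)

open Classical in
/-- the main theorem in the definitions of `T/QF.lean` -/
theorem main (hxy : AlgebraicIndependent ℂ (Sum.elim x y))
    (hu : ∀ l l', u (l + l') = u l * u l') (hi : LinearIndependent K u)
    (hs : Submodule.span K (Set.range u) = ⊤) (hν : Reg D ν) :
    (∀ a ∈ coulomb D x y u, ∃ r ∈ R D x y, a - algebraMap K L r ∈ fixI D x y u ν) ∧
    ∀ r ∈ R D x y, algebraMap K L r ∈ fixI D x y u ν ↔ r ∈ kerH D x y 1 := by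
  have hb : ∀ l, Module.Basis.mk hi hs.ge l = u l := fun l => Module.Basis.mk_apply hi hs.ge l
  have hb' : (Module.Basis.mk hi hs.ge : (B D → ℤ) → L) = u := funext hb
  have hu' : ∀ l l', Module.Basis.mk hi hs.ge (l + l') =
      Module.Basis.mk hi hs.ge l * Module.Basis.mk hi hs.ge l' :=
    fun l l' => by rw [hb, hb, hb]; exact hu l l'
  have hm := fun {A : Finset (B D)} (hA : A.Nonempty) f =>
    Vale.Agent.P291.H.N.all_mem (tG D) ν x y (Module.Basis.mk hi hs.ge) hxy hu' (HR_of_Reg D hν)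
      (A := A) hA f
  have hsj := fun {a : L} ha => Vale.Agent.P291.H.N.surj_of (tG D) x y (Module.Basis.mk hi hs.ge)
    hu' ν (fun l hl h0 f => by
      have h1 : l = Vale.Agent.P291.H.ind (tG D) (Finset.univ.filter fun b => l b = 1) := by
        funext b
        rw [Vale.Agent.P291.H.ind]
        rcases hl b with h2 | h2
        · rw [if_neg, h2]
          simp only [Finset.mem_filter, Finset.mem_univ, h2, zero_ne_one, and_false, not_false_eq_true]
        · rw [if_pos, h2]
          simp only [Finset.mem_filter, Finset.mem_univ, h2, and_self]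
      rw [h1]
      refine hm ?_ f
      by_contra h3
      rw [Finset.not_nonempty_iff_eq_empty] at h3
      apply h0
      rw [h1, h3]
      rfl) (a := a) ha
  have h2 := fun {r : K} (hr : r ∈ Vale.Agent.P291.G.R (tG D) x y) =>
    Vale.Agent.P291.H.M.ker_iff_of_surj (tG D) x y (Module.Basis.mk hi hs.ge) hu' hxy ν
      (fun a ha => hsj ha) hr
  have h3 := Vale.Agent.P291.H.main (tG D) K L x y hxy (Module.Basis.mk hi hs.ge) hu' (fun _ => 1)
    (Vale.Agent.P291.H.M.wt_one_ne (tG D))
  have h4 := fun {r : K} (hr : r ∈ Vale.Agent.P291.G.R (tG D) x y) =>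
    Vale.Agent.P291.H.M.ker_iff (tG D) x y (Module.Basis.mk hi hs.ge) hxy hu' (fun _ => 1)
      (Vale.Agent.P291.H.M.wt_one_ne (tG D)) hr
  have h5 := Vale.Agent.P291.K.kerH_le_kerJ (tG D) x y (fun _ => 1) (Or.inl fun _ => one_pos)
  have e : ((Module.Basis.mk hi hs.ge : Module.Basis (B D → ℤ) K L) :
      (Vale.Agent.P291.G.B (tG D) → ℤ) → L) = u := hb'
  rw [e] at hsj h2 h3 h4
  rw [coulomb_eq, fixI_eq, R_eq, kerH_eq D x y 1]
  refine ⟨fun a ha => hsj ha, fun r hr => ⟨fun h => ?_, fun h => (h2 hr).2 (h5 h)⟩⟩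
  exact (h3.2.1 r hr ((h4 hr).2 ((h2 hr).1 h))).1

end

end Vale.Agent.P291.Q
end
end

section

section

set_option autoImplicit false
set_option linter.unusedSectionVars false

/-! The version for generic `ν`. -/

namespace Vale.Agent.P291.Q

open MvPolynomial

variable (D : QData)

lemma wt_ne_of_sign {ν : D.I → ℤ} (hν : (∀ i, 0 < ν i) ∨ ∀ i, ν i < 0) (l : B D → ℤ)
    (hl : Min D l) (h0 : l ≠ 0) : wt D ν l ≠ 0 := by
  obtain ⟨b, hb⟩ := Function.ne_iff.1 h0
  have h1 : l b = 1 := (hl b).resolve_left hb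
  rcases hν with hν | hν
  · have h2 : 0 < wt D ν l := by
      rw [wt]
      refine Finset.sum_pos' (fun c _ => ?_) ⟨b, Finset.mem_univ b, ?_⟩
      · rcases hl c with h | h <;> rw [h]
        · rw [mul_zero]
        · rw [mul_one]
          exact (hν c.1).le
      · rw [h1, mul_one]
        exact hν b.1
    exact h2.ne'
  · have h2 : 0 < -wt D ν l := by
      rw [wt, ← Finset.sum_neg_distrib]
      refine Finset.sum_pos' (fun c _ => ?_) ⟨b, Finset.mem_univ b, ?_⟩
      · rcases hl c with h | h <;> rw [h]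
        · rw [mul_zero, neg_zero]
        · rw [mul_one]
          exact (neg_pos.2 (hν c.1)).le
      · rw [h1, mul_one]
        exact neg_pos.2 (hν b.1)
    intro h3
    rw [h3, neg_zero] at h2
    exact lt_irrefl _ h2

variable {K L : Type} [Field K] [Algebra ℂ K] [CommRing L] [Algebra K L]
  (x : B D → K) (y : Fin D.rk → K) (u : (B D → ℤ) → L)

/-- the main theorem for generic `ν` -/
theorem mainGen (hxy : AlgebraicIndependent ℂ (Sum.elim x y))
    (hu : ∀ l l', u (l + l') = u l * u l') (hi : LinearIndependent K u)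
    (hs : Submodule.span K (Set.range u) = ⊤)
    (ν : D.I → ℤ) (hν : ∀ l, Min D l → l ≠ 0 → wt D ν l ≠ 0) :
    (∀ a ∈ coulomb D x y u, ∃ r ∈ R D x y, a - algebraMap K L r ∈ fixI D x y u ν) ∧
    ∀ ν' : D.I → ℤ, ((∀ i, 0 < ν' i) ∨ ∀ i, ν' i < 0) → ∀ r ∈ R D x y,
      algebraMap K L r ∈ fixI D x y u ν ↔ r ∈ kerH D x y ν' := by
  have hb : ∀ l, Module.Basis.mk hi hs.ge l = u l := fun l => Module.Basis.mk_apply hi hs.ge l
  have hb' : (Module.Basis.mk hi hs.ge : (B D → ℤ) → L) = u := funext hb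
  have hu' : ∀ l l', Module.Basis.mk hi hs.ge (l + l') =
      Module.Basis.mk hi hs.ge l * Module.Basis.mk hi hs.ge l' :=
    fun l l' => by rw [hb, hb, hb]; exact hu l l'
  have h1 := fun (ν : D.I → ℤ) hν => Vale.Agent.P291.H.main (tG D) K L x y hxy
    (Module.Basis.mk hi hs.ge) hu' ν hν
  have h2 := fun (ν : D.I → ℤ) hν {r : K} (hr : r ∈ Vale.Agent.P291.G.R (tG D) x y) =>
    Vale.Agent.P291.H.M.ker_iff (tG D) x y (Module.Basis.mk hi hs.ge) hxy hu' ν hν hr
  have e : ((Module.Basis.mk hi hs.ge : Module.Basis (B D → ℤ) K L) :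
      (Vale.Agent.P291.G.B (tG D) → ℤ) → L) = u := hb'
  rw [e] at h1 h2
  rw [coulomb_eq, fixI_eq, R_eq]
  refine ⟨(h1 ν hν).1, fun ν' hν' r hr => ?_⟩
  rw [kerH_eq D x y ν', h2 ν hν hr]
  constructor
  · intro h
    exact ((h1 ν' (wt_ne_of_sign D hν')).2.1 r hr ((h2 ν' (wt_ne_of_sign D hν') hr).2 h)).1
  · intro h
    exact Vale.Agent.P291.K.kerH_le_kerJ (tG D) x y ν' hν' h

end Vale.Agent.P291.Q
end
end
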